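import Vale.Agent.P019.MathlibUsed
import Vale.Agent.P019.Defs

set_option linter.all false

section

/-!
# Rigid elements and valuation rings

`LTData ℓ F Q` packages a logarithm `φ : F → Q` to a `ZMod ℓ`-module together with a
submodule `T` such that elements outside `T` are rigid, and one non-rigid element `g`.
The main result `LTData.exists_valuationSubring` produces a valuation ring.
-/

namespace Vale.Agent.P019

structure LTData (ℓ : ℕ) (F : Type*) [Field F] (Q : Type*) [AddCommGroup Q]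
    [Module (ZMod ℓ) Q] where
  φ : F → Q
  T : Submodule (ZMod ℓ) Q
  zero : φ 0 = 0
  mul : ∀ x y, x ≠ 0 → y ≠ 0 → φ (x * y) = φ x + φ y
  neg1 : φ (-1) = 0
  rig : ∀ x, φ x ∉ T → ∃ c : ZMod ℓ, φ (1 - x) = c • φ x
  g : F
  nr : ∀ i j : ZMod ℓ, i • φ g + j • φ (1 - g) = 0 → i = 0 ∧ j = 0

namespace LTData

set_option linter.unusedSectionVars false

variable {ℓ : ℕ} [Fact ℓ.Prime] {F : Type*} [Field F] {Q : Type*} [AddCommGroup Q]
    [Module (ZMod ℓ) Q] (D : LTData ℓ F Q)

theorem one : D.φ 1 = 0 := by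
  have := D.mul 1 1 one_ne_zero one_ne_zero
  rw [mul_one] at this
  simpa using this

theorem neg (x : F) : D.φ (-x) = D.φ x := by
  by_cases hx : x = 0
  · simp [hx]
  · have h := D.mul (-1) x (by simp) hx
    rw [D.neg1, zero_add] at h
    rw [← h]; congr 1; ring

theorem inv (x : F) : D.φ x⁻¹ = - D.φ x := by
  by_cases hx : x = 0
  · simp [hx, D.zero]
  · have h := D.mul x x⁻¹ hx (inv_ne_zero hx)
    rw [mul_inv_cancel₀ hx, D.one] at h
    exact eq_neg_of_add_eq_zero_right h.symm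

theorem div {x y : F} (hx : x ≠ 0) (hy : y ≠ 0) : D.φ (x / y) = D.φ x - D.φ y := by
  rw [div_eq_mul_inv, D.mul _ _ hx (inv_ne_zero hy), D.inv, sub_eq_add_neg]

theorem ne_zero {x : F} (h : D.φ x ∉ D.T) : x ≠ 0 := by
  rintro rfl
  exact h (by rw [D.zero]; exact D.T.zero_mem)

theorem ne_one {x : F} (h : D.φ x ∉ D.T) : x ≠ 1 := by
  rintro rfl
  exact h (by rw [D.one]; exact D.T.zero_mem)

theorem one_sub_ne_zero {x : F} (h : D.φ x ∉ D.T) : 1 - x ≠ 0 := by
  intro h0
  exact D.ne_one h (sub_eq_zero.1 h0).symm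

theorem one_sub_inv {x : F} (hx : x ≠ 0) (hx1 : 1 - x ≠ 0) :
    D.φ (1 - x⁻¹) = D.φ (1 - x) - D.φ x := by
  have : 1 - x⁻¹ = -((1 - x) / x) := by field_simp; ring
  rw [this, D.neg, D.div hx1 hx]

theorem smul_mem_iff' {c : ZMod ℓ} (hc : c ≠ 0) {v : Q} : c • v ∈ D.T ↔ v ∈ D.T :=
  D.T.smul_mem_iff hc

/-- non-rigid elements. -/
def NR (x : F) : Prop := ∀ i j : ZMod ℓ, i • D.φ x + j • D.φ (1 - x) = 0 → i = 0 ∧ j = 0

theorem NR.phi_ne_zero {D : LTData ℓ F Q} {x : F} (h : D.NR x) : D.φ x ≠ 0 := by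
  intro h0
  have := (h 1 0 (by simp [h0])).1
  exact one_ne_zero this

theorem NR.ne_zero {D : LTData ℓ F Q} {x : F} (h : D.NR x) : x ≠ 0 := by
  rintro rfl
  exact h.phi_ne_zero D.zero

theorem NR.phi_one_sub_ne_zero {D : LTData ℓ F Q} {x : F} (h : D.NR x) : D.φ (1 - x) ≠ 0 := by
  intro h0
  have := (h 0 1 (by simp [h0])).2
  exact one_ne_zero this

theorem NR.one_sub_ne_zero {D : LTData ℓ F Q} {x : F} (h : D.NR x) : 1 - x ≠ 0 := by
  intro h0
  exact h.phi_one_sub_ne_zero (by rw [h0, D.zero])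

theorem NR.mem {D : LTData ℓ F Q} {x : F} (h : D.NR x) : D.φ x ∈ D.T := by
  by_contra hx
  obtain ⟨c, hc⟩ := D.rig x hx
  have := (h c (-1) (by rw [hc]; module)).2
  exact (neg_ne_zero.2 one_ne_zero) this

theorem NR.one_sub {D : LTData ℓ F Q} {x : F} (h : D.NR x) : D.NR (1 - x) := by
  intro i j hij
  rw [sub_sub_cancel] at hij
  exact (h j i (by rw [← hij]; module)).symm

theorem NR.inv {D : LTData ℓ F Q} {x : F} (h : D.NR x) : D.NR x⁻¹ := by
  intro i j hij
  rw [D.inv, D.one_sub_inv h.ne_zero h.one_sub_ne_zero] at hij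
  have := h (-i - j) j (by rw [← hij]; module)
  obtain ⟨h1, h2⟩ := this
  subst h2
  refine ⟨?_, rfl⟩
  simpa using h1

theorem nr_g : D.NR D.g := D.nr

/-- Step 1: elements outside `T` satisfy `φ (1 - z) ∈ {0, φ z}`. -/
theorem dich {z : F} (hz : D.φ z ∉ D.T) : D.φ (1 - z) = 0 ∨ D.φ (1 - z) = D.φ z := by
  obtain ⟨α, hα⟩ := D.rig z hz
  by_cases hα0 : α = 0
  · left; rw [hα, hα0, zero_smul]
  right
  have hg := D.nr_g
  have hg0 := hg.ne_zero
  have hg1 := hg.one_sub_ne_zero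
  have hp := hg.mem
  have hq := hg.one_sub.mem
  have hz0 := D.ne_zero hz
  have hz1 := D.one_sub_ne_zero hz
  have h1z : D.φ (1 - z) ∉ D.T := by rw [hα, D.smul_mem_iff' hα0]; exact hz
  -- first computation
  have hw : D.φ (D.g / (1 - z)) ∉ D.T := by
    rw [D.div hg0 hz1]
    intro h
    exact h1z (by simpa using D.T.sub_mem hp h)
  obtain ⟨c, hc⟩ := D.rig _ hw
  have hw1 := D.one_sub_ne_zero hw
  have e1 : 1 - z - D.g = (1 - z) * (1 - D.g / (1 - z)) := by field_simp
  have e2 : D.φ (1 - z - D.g) = α • D.φ z + c • (D.φ D.g - α • D.φ z) := by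
    rw [e1, D.mul _ _ hz1 hw1, hc, D.div hg0 hz1, hα]
  -- second computation
  have hw' : D.φ (z / (1 - D.g)) ∉ D.T := by
    rw [D.div hz0 hg1]
    intro h
    exact hz (by simpa using D.T.add_mem h hq)
  obtain ⟨d, hd⟩ := D.rig _ hw'
  have hw1' := D.one_sub_ne_zero hw'
  have e3 : 1 - z - D.g = (1 - D.g) * (1 - z / (1 - D.g)) := by field_simp; ring
  have e4 : D.φ (1 - z - D.g) = D.φ (1 - D.g) + d • (D.φ z - D.φ (1 - D.g)) := by
    rw [e3, D.mul _ _ hg1 hw1', hd, D.div hz0 hg1]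
  have e5 := e2.symm.trans e4
  have e6 : (α - c * α - d) • D.φ z = (1 - d) • D.φ (1 - D.g) - c • D.φ D.g := by
    linear_combination (norm := module) e5
  have e7 : α - c * α - d = 0 := by
    by_contra hne
    refine hz ((D.smul_mem_iff' hne).1 ?_)
    rw [e6]
    exact D.T.sub_mem (D.T.smul_mem _ hq) (D.T.smul_mem _ hp)
  rw [e7, zero_smul] at e6
  obtain ⟨h1, h2⟩ := hg c (d - 1) (by linear_combination (norm := module) e6)
  have : α = 1 := by
    have hd1 : d = 1 := sub_eq_zero.1 h2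
    rw [h1, hd1] at e7
    simpa [sub_eq_zero] using e7
  rw [hα, this, one_smul]

/-- the set of elements outside `T` that are small. -/
def S : Set F := {z | D.φ z ∉ D.T ∧ D.φ (1 - z) = 0}

theorem S_ne_zero {z : F} (h : z ∈ D.S) : z ≠ 0 := D.ne_zero h.1

theorem S_one_sub_ne_zero {z : F} (h : z ∈ D.S) : 1 - z ≠ 0 := D.one_sub_ne_zero h.1

theorem phi_inv_notMem {z : F} (h : D.φ z ∉ D.T) : D.φ z⁻¹ ∉ D.T := by
  rw [D.inv]; simpa using h

theorem inv_mem_S {z : F} (hz : D.φ z ∉ D.T) (h : z ∉ D.S) : z⁻¹ ∈ D.S := by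
  refine ⟨D.phi_inv_notMem hz, ?_⟩
  rw [D.one_sub_inv (D.ne_zero hz) (D.one_sub_ne_zero hz)]
  rcases D.dich hz with h1 | h1
  · exact absurd ⟨hz, h1⟩ h
  · rw [h1, sub_self]

theorem not_both {z : F} (h : z ∈ D.S) (h' : z⁻¹ ∈ D.S) : False := by
  have h1 := h'.2
  rw [D.one_sub_inv (D.S_ne_zero h) (D.S_one_sub_ne_zero h), h.2, zero_sub, neg_eq_zero] at h1
  exact h.1 (by rw [h1]; exact D.T.zero_mem)

/-- `φ (1 - x y) ∈ {0, φ x}` for `x, y ∈ S`. -/
theorem one_sub_mul {x y : F} (hx : x ∈ D.S) (hy : y ∈ D.S) :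
    D.φ (1 - x * y) = 0 ∨ D.φ (1 - x * y) = D.φ x := by
  have hx0 := D.S_ne_zero hx
  have hx1 := D.S_one_sub_ne_zero hx
  have hy1 := D.S_one_sub_ne_zero hy
  have e : D.φ (-(x * (1 - y) / (1 - x))) = D.φ x := by
    rw [D.neg, D.div (mul_ne_zero hx0 hy1) hx1, D.mul _ _ hx0 hy1, hx.2, hy.2, add_zero, sub_zero]
  have hw : D.φ (-(x * (1 - y) / (1 - x))) ∉ D.T := by rw [e]; exact hx.1
  have hw1 := D.one_sub_ne_zero hw
  have e1 : 1 - x * y = (1 - x) * (1 - -(x * (1 - y) / (1 - x))) := by field_simp; ring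
  have e2 : D.φ (1 - x * y) = D.φ (1 - -(x * (1 - y) / (1 - x))) := by
    rw [e1, D.mul _ _ hx1 hw1, hx.2, zero_add]
  rw [e2]
  rcases D.dich hw with h | h
  · exact Or.inl h
  · right; rw [h, e]

/-- the key product property. -/
theorem prod {x y : F} (hx : x ∈ D.S) (hy : y ∈ D.S) (h : D.φ (x * y) ≠ 0) :
    D.φ (1 - x * y) = 0 := by
  rcases D.one_sub_mul hx hy with h1 | h1
  · exact h1
  have h2' := D.one_sub_mul hy hx
  rw [mul_comm y x] at h2'
  rcases h2' with h2 | h2
  · exact h2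
  exfalso
  have hxy : D.φ x = D.φ y := h1.symm.trans h2
  have hmul := D.mul x y (D.S_ne_zero hx) (D.S_ne_zero hy)
  by_cases hT : D.φ (x * y) ∈ D.T
  · have e : D.φ (x * y) = (2 : ZMod ℓ) • D.φ x := by rw [hmul, ← hxy]; module
    by_cases h20 : (2 : ZMod ℓ) = 0
    · rw [e, h20, zero_smul] at h; exact h rfl
    · rw [e, D.smul_mem_iff' h20] at hT
      exact hx.1 hT
  · rcases D.dich hT with h3 | h3
    · rw [h1] at h3
      exact hx.1 (by rw [h3]; exact D.T.zero_mem)
    · rw [h1, hmul] at h3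
      have : D.φ y = 0 := by simpa using h3
      exact hy.1 (by rw [this]; exact D.T.zero_mem)

theorem mul_mem_S {x y : F} (hx : x ∈ D.S) (hy : y ∈ D.S) (h : D.φ (x * y) ∉ D.T) :
    x * y ∈ D.S :=
  ⟨h, D.prod hx hy (fun h0 => h (by rw [h0]; exact D.T.zero_mem))⟩

theorem phi_mul_notMem {u s : F} (hu0 : u ≠ 0) (hu : D.φ u ∈ D.T) (hs : D.φ s ∉ D.T) :
    D.φ (u * s) ∉ D.T := by
  rw [D.mul _ _ hu0 (D.ne_zero hs)]
  intro h
  exact hs (by simpa using D.T.sub_mem h hu)

/-- the stabilizer-type set. -/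
def P : Set F := {y | y ≠ 0 ∧ D.φ y ∈ D.T ∧ ∀ s ∈ D.S, y * s ∈ D.S}

theorem mul_P {y y' : F} (h : y ∈ D.P) (h' : y' ∈ D.P) : y * y' ∈ D.P := by
  refine ⟨mul_ne_zero h.1 h'.1, ?_, ?_⟩
  · rw [D.mul _ _ h.1 h'.1]; exact D.T.add_mem h.2.1 h'.2.1
  · intro s hs
    rw [mul_assoc]
    exact h.2.2 _ (h'.2.2 s hs)

theorem NR.mem_P {D : LTData ℓ F Q} {x : F} (h : D.NR x) : x ∈ D.P := by
  refine ⟨h.ne_zero, h.mem, ?_⟩
  intro s hs
  by_contra hns
  have h1 : D.φ (x * s) ∉ D.T := D.phi_mul_notMem h.ne_zero h.mem hs.1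
  have h2 := D.inv_mem_S h1 hns
  have hs0 := D.S_ne_zero hs
  have hx0 := h.ne_zero
  have e : s * (x * s)⁻¹ = x⁻¹ := by field_simp
  have h3 := D.prod hs h2
  rw [e] at h3
  have h4 := h3 (by rw [D.inv]; exact neg_ne_zero.2 h.phi_ne_zero)
  exact h.inv.phi_one_sub_ne_zero h4

theorem inv_g_mem_P : (D.g)⁻¹ ∈ D.P := D.nr_g.inv.mem_P

theorem g_mem_P : D.g ∈ D.P := D.nr_g.mem_P

theorem nr_div {x : F} (hx : x ∈ D.S) : D.NR (D.g / (1 - x)) := by
  have hg := D.nr_g
  have hg0 := hg.ne_zero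
  have hg1 := hg.one_sub_ne_zero
  have hx1 := D.S_one_sub_ne_zero hx
  have hx0 := D.S_ne_zero hx
  have h1 : (1 - D.g)⁻¹ * x ∈ D.S := hg.one_sub.inv.mem_P.2.2 x hx
  have h2 := h1.2
  have h3 := D.S_one_sub_ne_zero h1
  have e : 1 - D.g / (1 - x) = (1 - D.g) * (1 - (1 - D.g)⁻¹ * x) / (1 - x) := by
    field_simp; ring
  have e1 : D.φ (1 - D.g / (1 - x)) = D.φ (1 - D.g) := by
    rw [e, D.div (mul_ne_zero hg1 h3) hx1, D.mul _ _ hg1 h3, h2, hx.2, add_zero, sub_zero]
  have e2 : D.φ (D.g / (1 - x)) = D.φ D.g := by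
    rw [D.div hg0 hx1, hx.2, sub_zero]
  intro i j hij
  rw [e1, e2] at hij
  exact hg i j hij

theorem one_sub_mem_P {x : F} (hx : x ∈ D.S) : 1 - x ∈ D.P := by
  have h1 := (D.nr_div hx).inv.mem_P
  have h2 := D.mul_P D.g_mem_P h1
  have hx1 := D.S_one_sub_ne_zero hx
  have hg0 := D.nr_g.ne_zero
  have : D.g * (D.g / (1 - x))⁻¹ = 1 - x := by field_simp
  rwa [this] at h2

theorem inv_one_sub_mem_P {x : F} (hx : x ∈ D.S) : (1 - x)⁻¹ ∈ D.P := by
  have h1 := (D.nr_div hx).mem_P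
  have h2 := D.mul_P D.inv_g_mem_P h1
  have hx1 := D.S_one_sub_ne_zero hx
  have hg0 := D.nr_g.ne_zero
  have : D.g⁻¹ * (D.g / (1 - x)) = (1 - x)⁻¹ := by field_simp
  rwa [this] at h2

theorem one_mem_P : (1 : F) ∈ D.P :=
  ⟨one_ne_zero, by rw [D.one]; exact D.T.zero_mem, fun s hs => by rwa [one_mul]⟩

theorem neg_mem_S {s : F} (hs : s ∈ D.S) : -s ∈ D.S := by
  by_contra hns
  have h1 : D.φ (-s) ∉ D.T := by rw [D.neg]; exact hs.1
  have h2 := D.inv_mem_S h1 hns
  have hs0 := D.S_ne_zero hs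
  have hg := D.nr_g
  have key : ∀ u, u ∈ D.P → D.φ u ≠ 0 → D.φ (1 + u) = 0 := by
    intro u hu hu0
    have h3 := D.prod (hu.2.2 s hs) h2
    have e : u * s * (-s)⁻¹ = -u := by field_simp
    rw [e, D.neg] at h3
    have := h3 hu0
    rwa [sub_neg_eq_add] at this
  have k1 := key _ D.g_mem_P hg.phi_ne_zero
  have k2 := key _ D.inv_g_mem_P (by rw [D.inv]; exact neg_ne_zero.2 hg.phi_ne_zero)
  have hg0 := hg.ne_zero
  by_cases hg1 : 1 + D.g = 0
  · have : D.g = -1 := by linear_combination hg1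
    exact hg.phi_ne_zero (by rw [this, D.neg1])
  · have e : 1 + (D.g)⁻¹ = (1 + D.g) / D.g := by field_simp; ring
    rw [e, D.div hg1 hg0, k1, zero_sub, neg_eq_zero] at k2
    exact hg.phi_ne_zero k2

theorem neg_one_mem_P : (-1 : F) ∈ D.P :=
  ⟨by simp, by rw [D.neg1]; exact D.T.zero_mem, fun s hs => by
    rw [neg_one_mul]; exact D.neg_mem_S hs⟩

/-- Step 4: comparability. -/
theorem comparable {y : F} (hy0 : y ≠ 0) (hy : D.φ y ∈ D.T) : y ∈ D.P ∨ y⁻¹ ∈ D.P := by
  by_contra hcon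
  push Not at hcon
  obtain ⟨hc1, hc2⟩ := hcon
  have hyi : D.φ y⁻¹ ∈ D.T := by rw [D.inv]; exact D.T.neg_mem hy
  have hs : ∃ s ∈ D.S, y * s ∉ D.S := by
    by_contra hne
    push Not at hne
    exact hc1 ⟨hy0, hy, hne⟩
  have ht : ∃ t ∈ D.S, y⁻¹ * t ∉ D.S := by
    by_contra hne
    push Not at hne
    exact hc2 ⟨inv_ne_zero hy0, hyi, hne⟩
  obtain ⟨s, hs, hys⟩ := hs
  obtain ⟨t, ht, hyt⟩ := ht
  have hs0 := D.S_ne_zero hs
  have ht0 := D.S_ne_zero ht
  have h1 := D.inv_mem_S (D.phi_mul_notMem hy0 hy hs.1) hys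
  have h2 := D.inv_mem_S (D.phi_mul_notMem (inv_ne_zero hy0) hyi ht.1) hyt
  have key : ∀ u, u ∈ D.P → u⁻¹ ∈ D.P → D.φ u = D.φ y := by
    intro u hu hui
    by_contra hne
    have hu0 := hu.1
    have k1 := D.prod (hu.2.2 s hs) h1
    have e1 : u * s * (y * s)⁻¹ = u / y := by field_simp
    rw [e1, D.div hu0 hy0] at k1
    have k1 := k1 (sub_ne_zero.2 hne)
    have k2 := D.prod (hui.2.2 t ht) h2
    have e2 : u⁻¹ * t * (y⁻¹ * t)⁻¹ = (u / y)⁻¹ := by field_simp
    rw [e2, D.inv, D.div hu0 hy0] at k2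
    have k2 := k2 (neg_ne_zero.2 (sub_ne_zero.2 hne))
    by_cases h10 : 1 - u / y = 0
    · have : u / y = 1 := (sub_eq_zero.1 h10).symm
      rw [div_eq_one_iff_eq hy0] at this
      exact hne (by rw [this])
    · rw [D.one_sub_inv (div_ne_zero hu0 hy0) h10, k1, zero_sub, neg_eq_zero,
        D.div hu0 hy0, sub_eq_zero] at k2
      exact hne k2
  have a1 := key 1 D.one_mem_P (by rw [inv_one]; exact D.one_mem_P)
  have a2 := key D.g D.g_mem_P D.inv_g_mem_P
  rw [D.one] at a1
  exact D.nr_g.phi_ne_zero (a2.trans a1.symm)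

/-- the carrier of the valuation ring. -/
def O : Set F := {z | z = 0 ∨ z ∈ D.S ∨ z ∈ D.P}

theorem zero_mem_O : (0 : F) ∈ D.O := Or.inl rfl

theorem S_sub_O {z : F} (h : z ∈ D.S) : z ∈ D.O := Or.inr (Or.inl h)

theorem P_sub_O {z : F} (h : z ∈ D.P) : z ∈ D.O := Or.inr (Or.inr h)

theorem mem_or_inv (z : F) : z ∈ D.O ∨ z⁻¹ ∈ D.O := by
  by_cases hz0 : z = 0
  · left; rw [hz0]; exact D.zero_mem_O
  by_cases hz : D.φ z ∈ D.T
  · rcases D.comparable hz0 hz with h | h
    · exact Or.inl (D.P_sub_O h)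
    · exact Or.inr (D.P_sub_O h)
  · by_cases h : z ∈ D.S
    · exact Or.inl (D.S_sub_O h)
    · exact Or.inr (D.S_sub_O (D.inv_mem_S hz h))

theorem mul_S_S {s t : F} (hs : s ∈ D.S) (ht : t ∈ D.S) : s * t ∈ D.O := by
  by_cases h : D.φ (s * t) ∈ D.T
  · have hs0 := D.S_ne_zero hs
    have ht0 := D.S_ne_zero ht
    rcases D.comparable (mul_ne_zero hs0 ht0) h with h1 | h1
    · exact D.P_sub_O h1
    · exfalso
      have h2 := h1.2.2 s hs
      have e : (s * t)⁻¹ * s = t⁻¹ := by field_simp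
      rw [e] at h2
      exact D.not_both ht h2
  · exact D.S_sub_O (D.mul_mem_S hs ht h)

theorem mul_mem_O {x y : F} (hx : x ∈ D.O) (hy : y ∈ D.O) : x * y ∈ D.O := by
  rcases hx with rfl | hx | hx
  · rw [zero_mul]; exact D.zero_mem_O
  · rcases hy with rfl | hy | hy
    · rw [mul_zero]; exact D.zero_mem_O
    · exact D.mul_S_S hx hy
    · rw [mul_comm]; exact D.S_sub_O (hy.2.2 x hx)
  · rcases hy with rfl | hy | hy
    · rw [mul_zero]; exact D.zero_mem_O
    · exact D.S_sub_O (hx.2.2 y hy)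
    · exact D.P_sub_O (D.mul_P hx hy)

theorem one_sub_mem_O {x : F} (hx : x ∈ D.O) : 1 - x ∈ D.O := by
  rcases hx with rfl | hx | hx
  · rw [sub_zero]; exact D.P_sub_O D.one_mem_P
  · exact D.P_sub_O (D.one_sub_mem_P hx)
  · by_cases h0 : 1 - x = 0
    · rw [h0]; exact D.zero_mem_O
    by_cases hT : D.φ (1 - x) ∈ D.T
    · refine D.P_sub_O ⟨h0, hT, ?_⟩
      intro s hs
      refine ⟨D.phi_mul_notMem h0 hT hs.1, ?_⟩
      have hxs : x * s ∈ D.S := hx.2.2 s hs
      have h1 : (1 - s)⁻¹ * (x * s) ∈ D.S := (D.inv_one_sub_mem_P hs).2.2 _ hxs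
      have h2 := D.neg_mem_S h1
      have hs1 := D.S_one_sub_ne_zero hs
      have h3 := D.S_one_sub_ne_zero h2
      have e : 1 - (1 - x) * s = (1 - s) * (1 - -((1 - s)⁻¹ * (x * s))) := by
        field_simp; ring
      rw [e, D.mul _ _ hs1 h3, hs.2, h2.2, add_zero]
    · by_cases hS : 1 - x ∈ D.S
      · exact D.S_sub_O hS
      · exfalso
        have h1 := D.inv_mem_S hT hS
        have h2 := hx.2.2 _ h1
        have e : 1 - (1 - x)⁻¹ = -(x * (1 - x)⁻¹) := by field_simp; ring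
        have h3 := h1.2
        rw [e, D.neg] at h3
        exact h2.1 (by rw [h3]; exact D.T.zero_mem)

theorem neg_mem_O {x : F} (hx : x ∈ D.O) : -x ∈ D.O := by
  have := D.mul_mem_O (D.P_sub_O D.neg_one_mem_P) hx
  rwa [neg_one_mul] at this

theorem add_mem_O {x y : F} (hx : x ∈ D.O) (hy : y ∈ D.O) : x + y ∈ D.O := by
  by_cases hx0 : x = 0
  · rw [hx0, zero_add]; exact hy
  by_cases hy0 : y = 0
  · rw [hy0, add_zero]; exact hx
  rcases D.mem_or_inv (y / x) with h | h
  · have h1 := D.one_sub_mem_O (D.neg_mem_O h)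
    have h2 := D.mul_mem_O hx h1
    have e : x * (1 - -(y / x)) = x + y := by field_simp; ring
    rwa [e] at h2
  · rw [inv_div] at h
    have h1 := D.one_sub_mem_O (D.neg_mem_O h)
    have h2 := D.mul_mem_O hy h1
    have e : y * (1 - -(x / y)) = x + y := by field_simp; ring
    rwa [e] at h2

/-- the valuation ring. -/
def ring : ValuationSubring F where
  carrier := D.O
  mul_mem' := D.mul_mem_O
  one_mem' := D.P_sub_O D.one_mem_P
  add_mem' := D.add_mem_O
  zero_mem' := D.zero_mem_O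
  neg_mem' := D.neg_mem_O
  mem_or_inv_mem' := D.mem_or_inv

theorem mem_ring {z : F} : z ∈ D.ring ↔ z ∈ D.O := Iff.rfl

theorem unit_mem {z : F} (hz0 : z ≠ 0) (h : z ∈ D.O) (h' : z⁻¹ ∈ D.O) : D.φ z ∈ D.T := by
  by_contra hz
  have h1 : z ∈ D.S := by
    rcases h with h | h | h
    · exact absurd h hz0
    · exact h
    · exact absurd h.2.1 hz
  have hzi := D.phi_inv_notMem hz
  have h2 : z⁻¹ ∈ D.S := by
    rcases h' with h' | h' | h'
    · exact absurd h' (inv_ne_zero hz0)
    · exact h'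
    · exact absurd h'.2.1 hzi
  exact D.not_both h1 h2

theorem one_add_of_lt {z : F} (hz0 : z ≠ 0) (h : z⁻¹ ∉ D.O) : D.φ (1 + z) = 0 := by
  have hz : z ∈ D.O := (D.mem_or_inv z).resolve_right h
  rcases hz with hz | hz | hz
  · exact absurd hz hz0
  · have := (D.neg_mem_S hz).2
    rwa [sub_neg_eq_add] at this
  · -- `z` is a product of two elements of `S`
    have hzi : D.φ z⁻¹ ∈ D.T := by rw [D.inv]; exact D.T.neg_mem hz.2.1
    have hs : ∃ s ∈ D.S, z⁻¹ * s ∉ D.S := by
      by_contra hne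
      push Not at hne
      exact h (D.P_sub_O ⟨inv_ne_zero hz0, hzi, hne⟩)
    obtain ⟨s, hs, hns⟩ := hs
    have hy := D.inv_mem_S (D.phi_mul_notMem (inv_ne_zero hz0) hzi hs.1) hns
    set y := (z⁻¹ * s)⁻¹ with hydef
    have hs0 := D.S_ne_zero hs
    have e : z = s * y := by rw [hydef]; field_simp
    have hms := D.neg_mem_S hs
    have h1 : (1 - -s)⁻¹ ∈ D.P := D.inv_one_sub_mem_P hms
    have h2 : (1 - y) * s ∈ D.S := (D.one_sub_mem_P hy).2.2 s hs
    have h3 : (1 - -s)⁻¹ * ((1 - y) * s) ∈ D.S := h1.2.2 _ h2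
    have h4 := D.S_one_sub_ne_zero h3
    have h5 := D.S_one_sub_ne_zero hms
    have e2 : 1 + z = (1 - -s) * (1 - (1 - -s)⁻¹ * ((1 - y) * s)) := by
      rw [e]; field_simp; ring
    rw [e2, D.mul _ _ h5 h4, hms.2, h3.2, add_zero]

/-- **The rigid element theorem.** -/
theorem exists_valuationSubring :
    ∃ O : ValuationSubring F, (∀ z, O.valuation z = 1 → D.φ z ∈ D.T) ∧
      (∀ z, O.valuation z < 1 → D.φ (1 + z) = 0) := by
  refine ⟨D.ring, ?_, ?_⟩
  · intro z hz
    have hz0 : z ≠ 0 := by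
      rintro rfl
      rw [map_zero] at hz
      exact zero_ne_one hz
    refine D.unit_mem hz0 ?_ ?_
    · rw [← D.mem_ring, ← ValuationSubring.valuation_le_one_iff, hz]
    · rw [← D.mem_ring, ← ValuationSubring.valuation_le_one_iff, map_inv₀, hz, inv_one]
  · intro z hz
    by_cases hz0 : z = 0
    · rw [hz0, add_zero, D.one]
    refine D.one_add_of_lt hz0 ?_
    rw [← D.mem_ring, ← ValuationSubring.valuation_le_one_iff, map_inv₀, not_le]
    exact (one_lt_inv₀ (by
      rw [zero_lt_iff]; exact (Valuation.ne_zero_iff _).2 hz0)).2 hz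

end LTData

end Vale.Agent.P019
end

section

namespace Vale.Agent.P019

open scoped TensorProduct

section cl

variable (ℓ : ℕ) {F : Type*} [Field F]

/-- class map extended by `0` at `0`. -/
noncomputable def cl (z : F) : V ℓ F := by
  classical exact if h : z = 0 then 0 else V.mk ℓ (Units.mk0 z h)

theorem cl_zero : cl ℓ (0 : F) = 0 := by simp [cl]

theorem cl_of_ne {z : F} (h : z ≠ 0) : cl ℓ z = V.mk ℓ (Units.mk0 z h) := by simp [cl, h]

theorem cl_unit (x : Fˣ) : cl ℓ (x : F) = V.mk ℓ x := by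
  rw [cl_of_ne ℓ x.ne_zero]; simp

theorem mk_mul (x y : Fˣ) : V.mk ℓ (x * y) = V.mk ℓ x + V.mk ℓ y := rfl

theorem mk_one : V.mk ℓ (1 : Fˣ) = 0 := rfl

theorem mk_inv (x : Fˣ) : V.mk ℓ x⁻¹ = - V.mk ℓ x := rfl

theorem mk_surj (v : V ℓ F) : ∃ x : Fˣ, V.mk ℓ x = v := by
  obtain ⟨y, rfl⟩ := Additive.ofMul.surjective v
  obtain ⟨z, rfl⟩ := QuotientGroup.mk_surjective y
  exact ⟨z, rfl⟩

theorem mk_eq_zero_iff (x : Fˣ) : V.mk ℓ x = 0 ↔ ∃ y : Fˣ, y ^ ℓ = x := by
  change Additive.ofMul (QuotientGroup.mk x : Fˣ ⧸ (powMonoidHom ℓ : Fˣ →* Fˣ).range) = 0 ↔ _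
  rw [ofMul_eq_zero, QuotientGroup.eq_one_iff]
  rfl

theorem cl_one : cl ℓ (1 : F) = 0 := by
  rw [cl_of_ne ℓ one_ne_zero]; simp [mk_one]

theorem cl_mul {x y : F} (hx : x ≠ 0) (hy : y ≠ 0) : cl ℓ (x * y) = cl ℓ x + cl ℓ y := by
  rw [cl_of_ne ℓ hx, cl_of_ne ℓ hy, cl_of_ne ℓ (mul_ne_zero hx hy), ← mk_mul]
  congr 1
  ext; simp

theorem cl_inv (x : F) : cl ℓ x⁻¹ = - cl ℓ x := by
  by_cases hx : x = 0
  · simp [hx, cl_zero]
  · rw [cl_of_ne ℓ hx, cl_of_ne ℓ (inv_ne_zero hx), ← mk_inv]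
    congr 1
    ext; simp

theorem cl_div {x y : F} (hx : x ≠ 0) (hy : y ≠ 0) : cl ℓ (x / y) = cl ℓ x - cl ℓ y := by
  rw [div_eq_mul_inv, cl_mul ℓ hx (inv_ne_zero hy), cl_inv, sub_eq_add_neg]

theorem cl_pow (x : F) (n : ℕ) : cl ℓ (x ^ n) = n • cl ℓ x := by
  by_cases hx : x = 0
  · subst hx
    rcases Nat.eq_zero_or_pos n with h | h
    · subst h; simp [cl_one]
    · rw [zero_pow h.ne', cl_zero]; simp
  · induction n with
    | zero => simp [cl_one]
    | succ n ih => rw [pow_succ, cl_mul ℓ (pow_ne_zero _ hx) hx, ih, succ_nsmul]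

theorem cl_zpow (x : F) (n : ℤ) : cl ℓ (x ^ n) = n • cl ℓ x := by
  cases n with
  | ofNat n => simpa using cl_pow ℓ x n
  | negSucc n =>
    rw [zpow_negSucc, cl_inv, cl_pow, negSucc_zsmul]

theorem cl_surj (v : V ℓ F) : ∃ z : F, z ≠ 0 ∧ cl ℓ z = v := by
  obtain ⟨x, rfl⟩ := mk_surj ℓ v
  exact ⟨x, x.ne_zero, cl_unit ℓ x⟩

theorem cl_eq_zero_iff {z : F} (hz : z ≠ 0) : cl ℓ z = 0 ↔ ∃ w : F, w ≠ 0 ∧ w ^ ℓ = z := by
  rw [cl_of_ne ℓ hz, mk_eq_zero_iff]
  constructor
  · rintro ⟨y, hy⟩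
    refine ⟨y, y.ne_zero, ?_⟩
    have := congrArg (fun u : Fˣ => (u : F)) hy
    simpa using this
  · rintro ⟨w, hw, h⟩
    refine ⟨Units.mk0 w hw, ?_⟩
    ext; simpa using h

theorem cl_pow_self (x : F) : cl ℓ (x ^ ℓ) = 0 := by
  by_cases hx : x = 0
  · subst hx
    rcases Nat.eq_zero_or_pos ℓ with h | h
    · subst h; simp [cl_one]
    · rw [zero_pow h.ne', cl_zero]
  · rw [cl_eq_zero_iff ℓ (pow_ne_zero _ hx)]
    exact ⟨x, hx, rfl⟩

theorem cl_eq_iff {x y : F} (hx : x ≠ 0) (hy : y ≠ 0) :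
    cl ℓ x = cl ℓ y ↔ ∃ w : F, w ≠ 0 ∧ x = y * w ^ ℓ := by
  rw [← sub_eq_zero, ← cl_div ℓ hx hy, cl_eq_zero_iff ℓ (div_ne_zero hx hy)]
  constructor
  · rintro ⟨w, hw, h⟩
    exact ⟨w, hw, by rw [h]; field_simp⟩
  · rintro ⟨w, hw, h⟩
    exact ⟨w, hw, by rw [h]; field_simp⟩

theorem cl_neg (h : ∃ i : F, i ^ ℓ = -1) (x : F) : cl ℓ (-x) = cl ℓ x := by
  by_cases hx : x = 0
  · simp [hx]
  · obtain ⟨i, hi⟩ := h
    have hi0 : (-1 : F) ≠ 0 := by simp
    have : (-x) = (-1) * x := by ring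
    rw [this, cl_mul ℓ hi0 hx, ← hi, cl_pow_self, zero_add]

end cl

section lift

variable {ℓ : ℕ} {F : Type*} [Field F]

/-- A homomorphism `F^× → ZMod ℓ` induces a linear functional on `V`. -/
noncomputable def V.lift (φ : Fˣ →* Multiplicative (ZMod ℓ)) : V ℓ F →ₗ[ZMod ℓ] ZMod ℓ :=
  AddMonoidHom.toZModLinearMap ℓ
    (MonoidHom.toAdditiveLeft
      (QuotientGroup.lift (powMonoidHom ℓ : Fˣ →* Fˣ).range φ (by
        rintro _ ⟨y, rfl⟩
        rw [MonoidHom.mem_ker, powMonoidHom_apply, map_pow]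
        apply Multiplicative.toAdd.injective
        rw [toAdd_pow, toAdd_one, nsmul_eq_mul]
        simp)))

end lift

section orth

variable {ℓ : ℕ} {K L : Type*} [Field K] [Field L]

/-- `u ⟂ w` : the product of `u` and `w` in `K_2/ℓ` vanishes. -/
def Orth (u w : V ℓ K) : Prop := u ⊗ₜ[ZMod ℓ] w ∈ R ℓ K

theorem Orth.add_left {u u' w : V ℓ K} (h : Orth u w) (h' : Orth u' w) : Orth (u + u') w := by
  unfold Orth at *
  rw [TensorProduct.add_tmul]; exact Submodule.add_mem _ h h'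

theorem Orth.add_right {u w w' : V ℓ K} (h : Orth u w) (h' : Orth u w') : Orth u (w + w') := by
  unfold Orth at *
  rw [TensorProduct.tmul_add]; exact Submodule.add_mem _ h h'

theorem Orth.smul_left {u w : V ℓ K} (c : ZMod ℓ) (h : Orth u w) : Orth (c • u) w := by
  unfold Orth at *
  rw [← TensorProduct.smul_tmul']; exact Submodule.smul_mem _ _ h

theorem Orth.smul_right {u w : V ℓ K} (c : ZMod ℓ) (h : Orth u w) : Orth u (c • w) := by
  unfold Orth at *
  rw [TensorProduct.tmul_smul]; exact Submodule.smul_mem _ _ h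

theorem Orth.neg_left {u w : V ℓ K} (h : Orth u w) : Orth (-u) w := by
  unfold Orth at *
  rw [TensorProduct.neg_tmul]; exact Submodule.neg_mem _ h

theorem Orth.neg_right {u w : V ℓ K} (h : Orth u w) : Orth u (-w) := by
  unfold Orth at *
  rw [TensorProduct.tmul_neg]; exact Submodule.neg_mem _ h

theorem Orth.sub_right {u w w' : V ℓ K} (h : Orth u w) (h' : Orth u w') : Orth u (w - w') := by
  rw [sub_eq_add_neg]; exact h.add_right h'.neg_right

theorem orth_zero_left (w : V ℓ K) : Orth 0 w := by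
  unfold Orth; rw [TensorProduct.zero_tmul]; exact Submodule.zero_mem _

theorem orth_zero_right (w : V ℓ K) : Orth w 0 := by
  unfold Orth; rw [TensorProduct.tmul_zero]; exact Submodule.zero_mem _

/-- Steinberg relation. -/
theorem orth_one_sub (x : K) : Orth (cl ℓ x) (cl ℓ (1 - x)) := by
  by_cases hx : x = 0
  · rw [hx, cl_zero]; exact orth_zero_left _
  by_cases hx1 : 1 - x = 0
  · rw [hx1, cl_zero]; exact orth_zero_right _
  · rw [cl_of_ne ℓ hx, cl_of_ne ℓ hx1]
    exact Submodule.subset_span ⟨_, _, by simp, rfl⟩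

/-- A subspace is isotropic if all its pairs are orthogonal. -/
def Isotropic (U : Submodule (ZMod ℓ) (V ℓ K)) : Prop := ∀ u ∈ U, ∀ w ∈ U, Orth u w

theorem Compatible.symm {Θ : V ℓ K ≃ₗ[ZMod ℓ] V ℓ L} (h : Compatible Θ) :
    Compatible Θ.symm := by
  unfold Compatible at *
  rw [← h, ← Submodule.map_comp, ← TensorProduct.map_comp]
  simp

theorem Compatible.orth {Θ : V ℓ K ≃ₗ[ZMod ℓ] V ℓ L} (h : Compatible Θ) {u w : V ℓ K}
    (huw : Orth u w) : Orth (Θ u) (Θ w) := by
  unfold Compatible Orth at *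
  rw [← h]
  exact ⟨u ⊗ₜ w, huw, by simp⟩

end orth

section cpair

variable {ℓ : ℕ} {K L : Type*} [Field K] [Field L]

/-- `f, g` form a C-pair. -/
def CPair (f g : V ℓ K →ₗ[ZMod ℓ] ZMod ℓ) : Prop :=
  ∀ x : K, f (cl ℓ x) * g (cl ℓ (1 - x)) = f (cl ℓ (1 - x)) * g (cl ℓ x)

/-- the alternating form `f ∧ g`. -/
noncomputable def wedge (f g : V ℓ K →ₗ[ZMod ℓ] ZMod ℓ) :
    V ℓ K ⊗[ZMod ℓ] V ℓ K →ₗ[ZMod ℓ] ZMod ℓ :=
  TensorProduct.lift ((LinearMap.mul (ZMod ℓ) (ZMod ℓ)).compl₁₂ f g) -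
  TensorProduct.lift ((LinearMap.mul (ZMod ℓ) (ZMod ℓ)).compl₁₂ g f)

theorem wedge_tmul (f g : V ℓ K →ₗ[ZMod ℓ] ZMod ℓ) (u w : V ℓ K) :
    wedge f g (u ⊗ₜ w) = f u * g w - g u * f w := by
  simp [wedge]

theorem cpair_iff (f g : V ℓ K →ₗ[ZMod ℓ] ZMod ℓ) :
    CPair f g ↔ ∀ t ∈ R ℓ K, wedge f g t = 0 := by
  constructor
  · intro h t ht
    have : R ℓ K ≤ LinearMap.ker (wedge f g) := by
      unfold R
      rw [Submodule.span_le]
      rintro _ ⟨x, y, hxy, rfl⟩
      have hy : (y : K) = 1 - x := by rw [← hxy]; ring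
      have := h (x : K)
      rw [← hy, cl_unit, cl_unit] at this
      rw [SetLike.mem_coe, LinearMap.mem_ker, wedge_tmul, this]
      ring
    exact this ht
  · intro h x
    have := h _ (orth_one_sub (ℓ := ℓ) x)
    rw [wedge_tmul, sub_eq_zero] at this
    rw [this]; ring

/-- the common kernel of all functionals forming a C-pair with `f`. -/
def H (f : V ℓ K →ₗ[ZMod ℓ] ZMod ℓ) : Submodule (ZMod ℓ) (V ℓ K) where
  carrier := {v | ∀ g : V ℓ K →ₗ[ZMod ℓ] ZMod ℓ, CPair f g → g v = 0}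
  zero_mem' := by intro g _; simp
  add_mem' := by intro a b ha hb g hg; rw [map_add, ha g hg, hb g hg, add_zero]
  smul_mem' := by intro c a ha g hg; rw [map_smul, ha g hg, smul_zero]

theorem CPair.self (f : V ℓ K →ₗ[ZMod ℓ] ZMod ℓ) : CPair f f := by
  intro x; ring

theorem H_le_ker (f : V ℓ K →ₗ[ZMod ℓ] ZMod ℓ) {v : V ℓ K} (hv : v ∈ H f) : f v = 0 :=
  hv f (CPair.self f)

theorem Compatible.cpair {Θ : V ℓ K ≃ₗ[ZMod ℓ] V ℓ L} (h : Compatible Θ)
    {f g : V ℓ L →ₗ[ZMod ℓ] ZMod ℓ} (hfg : CPair f g) :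
    CPair (f ∘ₗ Θ.toLinearMap) (g ∘ₗ Θ.toLinearMap) := by
  intro x
  have h1 := h.orth (orth_one_sub (ℓ := ℓ) x)
  have := (cpair_iff f g).1 hfg _ h1
  rw [wedge_tmul, sub_eq_zero] at this
  simp only [LinearMap.comp_apply, LinearEquiv.coe_coe]
  rw [this]; ring

theorem Compatible.mem_H {Θ : V ℓ K ≃ₗ[ZMod ℓ] V ℓ L} (h : Compatible Θ)
    {f : V ℓ L →ₗ[ZMod ℓ] ZMod ℓ} {v : V ℓ K} :
    Θ v ∈ H f ↔ v ∈ H (f ∘ₗ Θ.toLinearMap) := by
  constructor
  · intro hv g hg
    have h2 := h.symm.cpair hg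
    have h3 : (f ∘ₗ Θ.toLinearMap) ∘ₗ Θ.symm.toLinearMap = f := by
      ext; simp
    rw [h3] at h2
    have := hv _ h2
    simpa using this
  · intro hv g hg
    exact hv _ (h.cpair hg)

end cpair

end Vale.Agent.P019
end

section

namespace Vale.Agent.P019

open scoped TensorProduct

variable {ℓ : ℕ} {K : Type*} [Field K]

section U1

theorem val_one_add {O : ValuationSubring K} {m : K} (hm : O.valuation m < 1) :
    O.valuation (1 + m) = 1 := by
  exact Valuation.map_one_add_of_lt _ hm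

theorem one_add_ne_zero {O : ValuationSubring K} {m : K} (hm : O.valuation m < 1) :
    1 + m ≠ 0 := by
  intro h
  have := val_one_add hm
  rw [h, map_zero] at this
  exact zero_ne_one this

/-- the classes of `1 + m`, `m` in the maximal ideal of `O`. -/
noncomputable def U1 (ℓ : ℕ) (O : ValuationSubring K) : Submodule (ZMod ℓ) (V ℓ K) :=
  AddSubgroup.toZModSubmodule ℓ
  { carrier := {v | ∃ m : K, O.valuation m < 1 ∧ v = cl ℓ (1 + m)}
    zero_mem' := ⟨0, by simp, by simp [cl_one]⟩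
    add_mem' := by
      rintro _ _ ⟨m, hm, rfl⟩ ⟨n, hn, rfl⟩
      refine ⟨m + n + m * n, ?_, ?_⟩
      · refine lt_of_le_of_lt (O.valuation.map_add _ _) (max_lt ?_ ?_)
        · exact lt_of_le_of_lt (O.valuation.map_add _ _) (max_lt hm hn)
        · rw [map_mul]
          exact mul_lt_one_of_nonneg_of_lt_one_left zero_le hm hn.le
      · rw [← cl_mul ℓ (one_add_ne_zero hm) (one_add_ne_zero hn)]
        congr 1; ring
    neg_mem' := by
      rintro _ ⟨m, hm, rfl⟩
      refine ⟨-m / (1 + m), ?_, ?_⟩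
      · rw [map_div₀, val_one_add hm, div_one, Valuation.map_neg]; exact hm
      · rw [← cl_inv]
        congr 1
        have := one_add_ne_zero hm
        field_simp
        ring }

theorem mem_U1 {O : ValuationSubring K} {v : V ℓ K} :
    v ∈ U1 ℓ O ↔ ∃ m : K, O.valuation m < 1 ∧ v = cl ℓ (1 + m) := Iff.rfl

theorem cl_mem_U1 {O : ValuationSubring K} {m : K} (hm : O.valuation m < 1) :
    cl ℓ (1 + m) ∈ U1 ℓ O := ⟨m, hm, rfl⟩

/-- if `x ≡ y` modulo the maximal ideal and `y` is a unit then the classes agree modulo `U1`. -/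
theorem cl_sub_cl_mem_U1 {O : ValuationSubring K} {x y : K} (hy : O.valuation y = 1)
    (hxy : O.valuation (x - y) < 1) : cl ℓ x - cl ℓ y ∈ U1 ℓ O := by
  have hy0 : y ≠ 0 := by
    rintro rfl; rw [map_zero] at hy; exact zero_ne_one hy
  have hx : O.valuation x = 1 := by
    have : x = y + (x - y) := by ring
    rw [this, Valuation.map_add_eq_of_lt_left, hy]
    rwa [hy]
  have hx0 : x ≠ 0 := by
    rintro rfl; rw [map_zero] at hx; exact zero_ne_one hx
  refine ⟨(x - y) / y, ?_, ?_⟩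
  · rw [map_div₀, hy, div_one]; exact hxy
  · rw [← cl_div ℓ hx0 hy0]
    congr 1
    field_simp
    ring

/-- the tame symbol relation on generators. -/
theorem tame_gen (hneg : ∃ i : K, i ^ ℓ = -1) (O : ValuationSubring K)
    (f : V ℓ K →ₗ[ZMod ℓ] ZMod ℓ) (hf : ∀ z : K, O.valuation z = 1 → f (cl ℓ z) = 0)
    (x : K) : f (cl ℓ (1 - x)) • cl ℓ x - f (cl ℓ x) • cl ℓ (1 - x) ∈ U1 ℓ O := by
  by_cases hx0 : x = 0
  · subst hx0; simp [cl_zero, cl_one]
  by_cases hx1 : 1 - x = 0
  · rw [hx1, cl_zero]; simp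
  rcases lt_trichotomy (O.valuation x) 1 with h | h | h
  · have h1 : O.valuation (1 - x) = 1 := by
      have := val_one_add (O := O) (m := -x) (by rwa [Valuation.map_neg])
      rwa [← sub_eq_add_neg] at this
    rw [hf _ h1, zero_smul, zero_sub]
    refine Submodule.neg_mem _ (Submodule.smul_mem _ _ ?_)
    rw [sub_eq_add_neg]
    exact cl_mem_U1 (by rwa [Valuation.map_neg])
  · rw [hf _ h, zero_smul, sub_zero]
    have h1 : O.valuation (1 - x) ≤ 1 := by
      refine le_trans (O.valuation.map_sub _ _) ?_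
      rw [map_one, h]; simp
    rcases h1.lt_or_eq with h2 | h2
    · refine Submodule.smul_mem _ _ ?_
      have : x = 1 + (-(1 - x)) := by ring
      rw [this]
      exact cl_mem_U1 (by rwa [Valuation.map_neg])
    · rw [hf _ h2, zero_smul]; exact Submodule.zero_mem _
  · have hinv : O.valuation x⁻¹ < 1 := by
      rw [map_inv₀]; exact inv_lt_one_of_one_lt₀ h
    have e1 : (1 - x) = (-x) * (1 + -x⁻¹) := by field_simp; ring
    have hm : O.valuation (-x⁻¹) < 1 := by rwa [Valuation.map_neg]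
    have e2 : cl ℓ (1 - x) = cl ℓ x + cl ℓ (1 + -x⁻¹) := by
      rw [e1, cl_mul ℓ (neg_ne_zero.2 hx0) (one_add_ne_zero hm), cl_neg ℓ hneg]
    have e3 : f (cl ℓ (1 + -x⁻¹)) = 0 := hf _ (val_one_add hm)
    rw [e2, map_add, e3, add_zero, smul_add]
    have : f (cl ℓ x) • cl ℓ x - (f (cl ℓ x) • cl ℓ x + f (cl ℓ x) • cl ℓ (1 + -x⁻¹)) =
      -(f (cl ℓ x) • cl ℓ (1 + -x⁻¹)) := by abel
    rw [this]
    exact Submodule.neg_mem _ (Submodule.smul_mem _ _ (cl_mem_U1 hm))

/-- the tame symbol as a linear map. -/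
noncomputable def tame (O : ValuationSubring K) (f : V ℓ K →ₗ[ZMod ℓ] ZMod ℓ) :
    V ℓ K ⊗[ZMod ℓ] V ℓ K →ₗ[ZMod ℓ] (V ℓ K ⧸ U1 ℓ O) :=
  (U1 ℓ O).mkQ ∘ₗ
    (TensorProduct.lift ((LinearMap.lsmul (ZMod ℓ) (V ℓ K)).flip.compl₂ f) -
     TensorProduct.lift ((LinearMap.lsmul (ZMod ℓ) (V ℓ K)) ∘ₗ f))

theorem tame_tmul (O : ValuationSubring K) (f : V ℓ K →ₗ[ZMod ℓ] ZMod ℓ) (u w : V ℓ K) :
    tame O f (u ⊗ₜ w) = (U1 ℓ O).mkQ (f w • u - f u • w) := by
  simp [tame]

theorem tame_orth (hneg : ∃ i : K, i ^ ℓ = -1) (O : ValuationSubring K)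
    (f : V ℓ K →ₗ[ZMod ℓ] ZMod ℓ) (hf : ∀ z : K, O.valuation z = 1 → f (cl ℓ z) = 0)
    {u w : V ℓ K} (h : Orth u w) : f w • u - f u • w ∈ U1 ℓ O := by
  have key : R ℓ K ≤ LinearMap.ker (tame O f) := by
    unfold R
    rw [Submodule.span_le]
    rintro _ ⟨x, y, hxy, rfl⟩
    have hy : (y : K) = 1 - x := by rw [← hxy]; ring
    have := tame_gen hneg O f hf (x : K)
    rw [← hy, cl_unit, cl_unit] at this
    rw [SetLike.mem_coe, LinearMap.mem_ker, tame_tmul, Submodule.mkQ_apply,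
      Submodule.Quotient.mk_eq_zero]
    exact this
  have := key h
  rw [LinearMap.mem_ker, tame_tmul, Submodule.mkQ_apply,
      Submodule.Quotient.mk_eq_zero] at this
  exact this

theorem cpair_of_U1 (hneg : ∃ i : K, i ^ ℓ = -1) (O : ValuationSubring K)
    (f g : V ℓ K →ₗ[ZMod ℓ] ZMod ℓ) (hf : ∀ z : K, O.valuation z = 1 → f (cl ℓ z) = 0)
    (hg : ∀ v ∈ U1 ℓ O, g v = 0) : CPair f g := by
  intro x
  have := hg _ (tame_gen hneg O f hf x)
  rw [map_sub, map_smul, map_smul, smul_eq_mul, smul_eq_mul, sub_eq_zero] at this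
  exact this.symm

theorem H_le_U1 [Fact ℓ.Prime] (hneg : ∃ i : K, i ^ ℓ = -1) (O : ValuationSubring K)
    (f : V ℓ K →ₗ[ZMod ℓ] ZMod ℓ) (hf : ∀ z : K, O.valuation z = 1 → f (cl ℓ z) = 0) :
    H f ≤ U1 ℓ O := by
  intro v hv
  by_contra hvn
  obtain ⟨g, hg1, hg2⟩ := Submodule.exists_le_ker_of_notMem hvn
  exact hg1 (hv g (cpair_of_U1 hneg O f g hf (fun w hw => hg2 hw)))

end U1

section unif

/-- `π` is a uniformizer of the (discrete) valuation subring `O`. -/
structure IsUnif (O : ValuationSubring K) (π : K) : Prop where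
  ne : π ≠ 0
  lt : O.valuation π < 1
  rep : ∀ z : K, z ≠ 0 → ∃ n : ℤ, O.valuation (z * π ^ n) = 1

end unif

end Vale.Agent.P019
end

section

/-!
# Local theory: transferring functionals to valuation rings
-/

namespace Vale.Agent.P019

open scoped TensorProduct

variable {ℓ : ℕ} [Fact ℓ.Prime] {K L : Type*} [Field K] [Field L]

/-- `cl x`, `cl (1-x)` are proportional modulo `H f` as soon as `f (cl x) ≠ 0`. -/
theorem rigid_mod_H (f : V ℓ K →ₗ[ZMod ℓ] ZMod ℓ) {x : K} (hx : f (cl ℓ x) ≠ 0) :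
    cl ℓ (1 - x) - (f (cl ℓ (1 - x)) / f (cl ℓ x)) • cl ℓ x ∈ H f := by
  intro g hg
  have := hg x
  rw [map_sub, map_smul, smul_eq_mul]
  field_simp
  linear_combination this

/-- the induced functional on `V / H f`. -/
noncomputable def fbar (f : V ℓ K →ₗ[ZMod ℓ] ZMod ℓ) : (V ℓ K ⧸ H f) →ₗ[ZMod ℓ] ZMod ℓ :=
  (H f).liftQ f (fun _ hv => H_le_ker f hv)

/-- the data for the rigid element theorem attached to a functional. -/
noncomputable def ltData (hneg : ∃ i : K, i ^ ℓ = -1) (f : V ℓ K →ₗ[ZMod ℓ] ZMod ℓ) (g : K)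
    (hg : ∀ i j : ZMod ℓ, i • cl ℓ g + j • cl ℓ (1 - g) ∈ H f → i = 0 ∧ j = 0) :
    LTData ℓ K (V ℓ K ⧸ H f) where
  φ z := (H f).mkQ (cl ℓ z)
  T := LinearMap.ker (fbar f)
  zero := by rw [cl_zero, map_zero]
  mul x y hx hy := by rw [cl_mul ℓ hx hy, map_add]
  neg1 := by rw [cl_neg ℓ hneg, cl_one, map_zero]
  rig x hx := by
    have hx' : f (cl ℓ x) ≠ 0 := hx
    refine ⟨f (cl ℓ (1 - x)) / f (cl ℓ x), ?_⟩
    rw [← map_smul, ← sub_eq_zero, ← map_sub, Submodule.mkQ_apply, Submodule.Quotient.mk_eq_zero]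
    exact rigid_mod_H f hx'
  g := g
  nr i j hij := by
    refine hg i j ?_
    rw [← map_smul, ← map_smul, ← map_add, Submodule.mkQ_apply,
      Submodule.Quotient.mk_eq_zero] at hij
    exact hij

theorem exists_valuation_of_functional (hneg : ∃ i : K, i ^ ℓ = -1)
    (f : V ℓ K →ₗ[ZMod ℓ] ZMod ℓ) (g : K)
    (hg : ∀ i j : ZMod ℓ, i • cl ℓ g + j • cl ℓ (1 - g) ∈ H f → i = 0 ∧ j = 0) :
    ∃ O : ValuationSubring K, (∀ z, O.valuation z = 1 → f (cl ℓ z) = 0) ∧
      (∀ z, O.valuation z < 1 → cl ℓ (1 + z) ∈ H f) := by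
  obtain ⟨O, h1, h2⟩ := (ltData hneg f g hg).exists_valuationSubring
  refine ⟨O, fun z hz => h1 z hz, fun z hz => ?_⟩
  have := h2 z hz
  change (H f).mkQ (cl ℓ (1 + z)) = 0 at this
  rwa [Submodule.mkQ_apply, Submodule.Quotient.mk_eq_zero] at this

/-- if no element of `L` is non-rigid modulo `H f`, all functionals killing `H f` are C-pairs. -/
theorem cpair_of_no_nr (f : V ℓ K →ₗ[ZMod ℓ] ZMod ℓ)
    (hno : ∀ g : K, ∃ i j : ZMod ℓ, i • cl ℓ g + j • cl ℓ (1 - g) ∈ H f ∧ ¬ (i = 0 ∧ j = 0))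
    (a b : V ℓ K →ₗ[ZMod ℓ] ZMod ℓ) (ha : ∀ v ∈ H f, a v = 0) (hb : ∀ v ∈ H f, b v = 0) :
    CPair a b := by
  intro x
  obtain ⟨i, j, hm, hij⟩ := hno x
  have h1 := ha _ hm
  have h2 := hb _ hm
  rw [map_add, map_smul, map_smul, smul_eq_mul, smul_eq_mul] at h1 h2
  by_cases hi : i = 0
  · have hj : j ≠ 0 := fun hj => hij ⟨hi, hj⟩
    have e : j * (a (cl ℓ x) * b (cl ℓ (1 - x))) = j * (a (cl ℓ (1 - x)) * b (cl ℓ x)) := by
      subst hi
      linear_combination (a (cl ℓ x)) * h2 - (b (cl ℓ x)) * h1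
    exact mul_left_cancel₀ hj e
  · have e : i * (a (cl ℓ x) * b (cl ℓ (1 - x))) = i * (a (cl ℓ (1 - x)) * b (cl ℓ x)) := by
      linear_combination (b (cl ℓ (1 - x))) * h1 - (a (cl ℓ (1 - x))) * h2
    exact mul_left_cancel₀ hi e

/-- two independent classes are separated by functionals. -/
theorem exists_sep (N : Submodule (ZMod ℓ) (V ℓ K)) (u w : V ℓ K)
    (h : ∀ i j : ZMod ℓ, i • u + j • w ∈ N → i = 0 ∧ j = 0) :
    ∃ a : V ℓ K →ₗ[ZMod ℓ] ZMod ℓ, (∀ v ∈ N, a v = 0) ∧ a w = 0 ∧ a u ≠ 0 := by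
  have hn : u ∉ N ⊔ Submodule.span (ZMod ℓ) {w} := by
    intro hu
    rw [Submodule.mem_sup] at hu
    obtain ⟨n, hn, s, hs, hns⟩ := hu
    rw [Submodule.mem_span_singleton] at hs
    obtain ⟨c, rfl⟩ := hs
    have e : (1 : ZMod ℓ) • u + (-c) • w = n := by rw [← hns]; module
    exact one_ne_zero (h 1 (-c) (by rw [e]; exact hn)).1
  obtain ⟨g, hg1, hg2⟩ := Submodule.exists_le_ker_of_notMem hn
  refine ⟨g, fun v hv => hg2 (Submodule.mem_sup_left hv), ?_, hg1⟩
  exact hg2 (Submodule.mem_sup_right (Submodule.mem_span_singleton_self w))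

/-- transfer of the valuation ring through a compatible isomorphism. -/
theorem exists_transfer {Θ : V ℓ K ≃ₗ[ZMod ℓ] V ℓ L} (hΘ : Compatible Θ)
    (hneg : ∃ i : L, i ^ ℓ = -1) (f : V ℓ K →ₗ[ZMod ℓ] ZMod ℓ) (g₀ : K)
    (h₀ : ∀ i j : ZMod ℓ, i • cl ℓ g₀ + j • cl ℓ (1 - g₀) ∈ H f → i = 0 ∧ j = 0) :
    ∃ O : ValuationSubring L, (∀ z, O.valuation z = 1 → f (Θ.symm (cl ℓ z)) = 0) ∧
      (∀ z, O.valuation z < 1 → Θ.symm (cl ℓ (1 + z)) ∈ H f) := by
  set f' : V ℓ L →ₗ[ZMod ℓ] ZMod ℓ := f ∘ₗ Θ.symm.toLinearMap with hf'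
  have hH : ∀ v : V ℓ L, Θ.symm v ∈ H f ↔ v ∈ H f' := fun v => hΘ.symm.mem_H
  have hex : ∃ g : L, ∀ i j : ZMod ℓ, i • cl ℓ g + j • cl ℓ (1 - g) ∈ H f' → i = 0 ∧ j = 0 := by
    by_contra hcon
    push Not at hcon
    have hno : ∀ g : L, ∃ i j : ZMod ℓ, i • cl ℓ g + j • cl ℓ (1 - g) ∈ H f' ∧
        ¬ (i = 0 ∧ j = 0) := by
      intro g
      obtain ⟨i, j, h1, h2⟩ := hcon g
      exact ⟨i, j, h1, fun h => h2 h.1 h.2⟩
    obtain ⟨a, ha1, ha2, ha3⟩ := exists_sep (H f) (cl ℓ g₀) (cl ℓ (1 - g₀)) h₀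
    obtain ⟨b, hb1, hb2, hb3⟩ := exists_sep (H f) (cl ℓ (1 - g₀)) (cl ℓ g₀)
      (fun i j hij => (h₀ j i (by rw [add_comm]; exact hij)).symm)
    have hab := cpair_of_no_nr f' hno (a ∘ₗ Θ.symm.toLinearMap) (b ∘ₗ Θ.symm.toLinearMap)
      (fun v hv => ha1 _ ((hH v).2 hv)) (fun v hv => hb1 _ ((hH v).2 hv))
    have h3 := hΘ.cpair hab g₀
    simp only [LinearMap.comp_apply, LinearEquiv.coe_coe, LinearEquiv.symm_apply_apply] at h3
    rw [ha2, zero_mul] at h3
    exact mul_ne_zero ha3 hb3 h3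
  obtain ⟨g, hg⟩ := hex
  obtain ⟨O, h1, h2⟩ := exists_valuation_of_functional hneg f' g hg
  exact ⟨O, fun z hz => h1 z hz, fun z hz => (hH _).2 (h2 z hz)⟩

end Vale.Agent.P019
end

section

/-!
# Places and the unramified lemma
-/

namespace Vale.Agent.P019

open Polynomial

/-- A place of `F` with values in `C`. -/
structure Pl (F C : Type*) [Field F] [Field C] where
  O : ValuationSubring F
  ψ : O →+* C
  ker : ∀ x : O, ψ x = 0 ↔ O.valuation (x : F) < 1

namespace Pl

variable {F C : Type*} [Field F] [Field C] (P : Pl F C)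

/-- evaluation, extended by zero. -/
noncomputable def ev (x : F) : C := by classical exact if h : x ∈ P.O then P.ψ ⟨x, h⟩ else 0

theorem ev_of_mem {x : F} (h : x ∈ P.O) : P.ev x = P.ψ ⟨x, h⟩ := by simp [ev, h]

/-- units of the place. -/
def U (x : F) : Prop := x ∈ P.O ∧ P.ev x ≠ 0

theorem ev_zero : P.ev 0 = 0 := by
  rw [P.ev_of_mem P.O.zero_mem]; exact map_zero P.ψ

theorem ev_one : P.ev 1 = 1 := by
  rw [P.ev_of_mem P.O.one_mem]; exact map_one P.ψ

theorem ev_mul {x y : F} (hx : x ∈ P.O) (hy : y ∈ P.O) : P.ev (x * y) = P.ev x * P.ev y := by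
  rw [P.ev_of_mem hx, P.ev_of_mem hy, P.ev_of_mem (P.O.mul_mem _ _ hx hy), ← map_mul]
  rfl

theorem ev_add {x y : F} (hx : x ∈ P.O) (hy : y ∈ P.O) : P.ev (x + y) = P.ev x + P.ev y := by
  rw [P.ev_of_mem hx, P.ev_of_mem hy, P.ev_of_mem (P.O.add_mem _ _ hx hy), ← map_add]
  rfl

theorem ev_neg {x : F} (hx : x ∈ P.O) : P.ev (-x) = - P.ev x := by
  rw [P.ev_of_mem hx, P.ev_of_mem (P.O.neg_mem _ hx), ← map_neg]
  rfl

theorem ev_sub {x y : F} (hx : x ∈ P.O) (hy : y ∈ P.O) : P.ev (x - y) = P.ev x - P.ev y := by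
  rw [sub_eq_add_neg, P.ev_add hx (P.O.neg_mem _ hy), P.ev_neg hy, sub_eq_add_neg]

theorem ev_pow {x : F} (hx : x ∈ P.O) (n : ℕ) : P.ev (x ^ n) = P.ev x ^ n := by
  induction n with
  | zero => simp [ev_one]
  | succ n ih =>
    rw [pow_succ, pow_succ, P.ev_mul (pow_mem hx n) hx, ih]

theorem ev_eq_zero_iff {x : F} (hx : x ∈ P.O) : P.ev x = 0 ↔ P.O.valuation x < 1 := by
  rw [P.ev_of_mem hx, P.ker]

theorem mem_of_lt {x : F} (h : P.O.valuation x < 1) : x ∈ P.O :=
  (P.O.valuation_le_one_iff x).1 h.le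

theorem ev_of_lt {x : F} (h : P.O.valuation x < 1) : P.ev x = 0 :=
  (P.ev_eq_zero_iff (P.mem_of_lt h)).2 h

theorem U_iff {x : F} : P.U x ↔ P.O.valuation x = 1 := by
  constructor
  · rintro ⟨h, h'⟩
    rw [Ne, P.ev_eq_zero_iff h, not_lt] at h'
    exact le_antisymm ((P.O.valuation_le_one_iff x).2 h) h'
  · intro h
    have hx := (P.O.valuation_le_one_iff x).1 h.le
    refine ⟨hx, ?_⟩
    rw [Ne, P.ev_eq_zero_iff hx, h]
    exact lt_irrefl 1

theorem U.ne_zero {P : Pl F C} {x : F} (h : P.U x) : x ≠ 0 := by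
  rintro rfl
  exact h.2 P.ev_zero

theorem U.mul {P : Pl F C} {x y : F} (h : P.U x) (h' : P.U y) : P.U (x * y) :=
  ⟨P.O.mul_mem _ _ h.1 h'.1, by rw [P.ev_mul h.1 h'.1]; exact mul_ne_zero h.2 h'.2⟩

theorem U.inv_mem {P : Pl F C} {x : F} (h : P.U x) : x⁻¹ ∈ P.O := by
  rw [← P.O.valuation_le_one_iff, map_inv₀, P.U_iff.1 h, inv_one]

theorem U.ev_inv {P : Pl F C} {x : F} (h : P.U x) : P.ev x⁻¹ = (P.ev x)⁻¹ := by
  have h1 := P.ev_mul h.1 h.inv_mem
  rw [mul_inv_cancel₀ h.ne_zero, P.ev_one] at h1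
  exact eq_inv_of_mul_eq_one_right h1.symm

theorem U.inv {P : Pl F C} {x : F} (h : P.U x) : P.U x⁻¹ :=
  ⟨h.inv_mem, by rw [h.ev_inv]; exact inv_ne_zero h.2⟩

theorem U.pow {P : Pl F C} {x : F} (h : P.U x) (n : ℕ) : P.U (x ^ n) :=
  ⟨pow_mem h.1 n, by rw [P.ev_pow h.1]; exact pow_ne_zero n h.2⟩

theorem U.div {P : Pl F C} {x y : F} (h : P.U x) (h' : P.U y) : P.U (x / y) := by
  rw [div_eq_mul_inv]; exact h.mul h'.inv

theorem ev_div {x y : F} (hx : x ∈ P.O) (h' : P.U y) : P.ev (x / y) = P.ev x / P.ev y := by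
  rw [div_eq_mul_inv, P.ev_mul hx h'.inv_mem, h'.ev_inv, div_eq_mul_inv]

theorem U_one : P.U 1 := ⟨P.O.one_mem, by rw [P.ev_one]; exact one_ne_zero⟩

end Pl

section unr

variable {K Ω : Type*} [Field K] [Field Ω]

/-- `P` is discrete on `F` with uniformizer `π` and residue field inside `κ`. -/
def Gd (P : Pl K Ω) (π : K) (κ : Subfield Ω) (F : Subfield K) : Prop :=
  ∀ z ∈ F, z ≠ 0 → ∃ n : ℤ, P.U (z * π ^ n) ∧ P.ev (z * π ^ n) ∈ κ

variable {P : Pl K Ω} {π : K} {κ : Subfield Ω} {F : Subfield K}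

/-- an element of `F` in the valuation ring is `π ^ n * unit` with `n` natural. -/
theorem Gd.nat (hπ : π ≠ 0) (hπO : π ∈ P.O) (hπ0 : P.ev π = 0) (hF : Gd P π κ F)
    {z : K} (hz : z ∈ F) (hz0 : z ≠ 0) (hzO : z ∈ P.O) :
    ∃ (n : ℕ) (u : K), z = π ^ n * u ∧ P.U u ∧ P.ev u ∈ κ := by
  obtain ⟨n, hn, hn'⟩ := hF z hz hz0
  have hn0 : n ≤ 0 := by
    by_contra hcon
    push Not at hcon
    obtain ⟨m, hm⟩ := Int.eq_ofNat_of_zero_le (a := n) (by omega)
    rw [hm, zpow_natCast] at hn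
    have h3 := hn.2
    rw [P.ev_mul hzO (pow_mem hπO m), P.ev_pow hπO, hπ0, zero_pow (by omega), mul_zero] at h3
    exact h3 rfl
  obtain ⟨m, hm⟩ := Int.eq_ofNat_of_zero_le (a := -n) (by omega)
  refine ⟨m, z * π ^ n, ?_, hn, hn'⟩
  have : n = -(m : ℤ) := by omega
  rw [this, zpow_neg, zpow_natCast]
  field_simp

theorem Gd.ev_mem (hπ : π ≠ 0) (hπO : π ∈ P.O) (hπ0 : P.ev π = 0) (hF : Gd P π κ F)
    {z : K} (hz : z ∈ F) (hzO : z ∈ P.O) : P.ev z ∈ κ := by
  by_cases hz0 : z = 0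
  · rw [hz0, P.ev_zero]; exact κ.zero_mem
  obtain ⟨n, u, rfl, hu, hu'⟩ := hF.nat hπ hπO hπ0 hz hz0 hzO
  rw [P.ev_mul (pow_mem hπO n) hu.1, P.ev_pow hπO, hπ0]
  rcases Nat.eq_zero_or_pos n with h | h
  · rw [h]; simpa using hu'
  · rw [zero_pow h.ne', zero_mul]; exact κ.zero_mem

theorem Gd.div_pi (hπ : π ≠ 0) (hπO : π ∈ P.O) (hπ0 : P.ev π = 0) (hπF : π ∈ F)
    (hF : Gd P π κ F) {z : K} (hz : z ∈ F) (hzO : z ∈ P.O) (hz0 : P.ev z = 0) :
    ∃ w ∈ F, w ∈ P.O ∧ z = π * w := by
  by_cases h0 : z = 0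
  · exact ⟨0, F.zero_mem, P.O.zero_mem, by rw [h0, mul_zero]⟩
  obtain ⟨n, u, he, hu, hu'⟩ := hF.nat hπ hπO hπ0 hz h0 hzO
  have hn : n ≠ 0 := by
    rintro rfl
    rw [he, pow_zero, one_mul] at hz0
    exact hu.2 hz0
  obtain ⟨m, rfl⟩ := Nat.exists_eq_succ_of_ne_zero hn
  refine ⟨π ^ m * u, ?_, P.O.mul_mem _ _ (pow_mem hπO m) hu.1, ?_⟩
  · have : π ^ m * u = z / π := by rw [he, pow_succ]; field_simp
    rw [this]; exact F.div_mem hz hπF
  · rw [he, pow_succ]; ring

variable (P F) in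
/-- the valuation ring of `F`. -/
def RF : Subring F := P.O.toSubring.comap (algebraMap F K)

theorem mem_RF {a : F} : a ∈ RF P F ↔ (a : K) ∈ P.O := Iff.rfl

variable (P F) in
/-- evaluation on the valuation ring of `F`. -/
noncomputable def evF : RF P F →+* Ω :=
  P.ψ.comp (RingHom.codRestrict ((algebraMap F K).comp (RF P F).subtype) P.O.toSubring
    (fun a => a.2))

theorem evF_apply (a : RF P F) : evF P F a = P.ev ((a : F) : K) := by
  rw [P.ev_of_mem (mem_RF.1 a.2)]
  rfl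

variable (P F) in
/-- polynomial evaluation at `θ`. -/
noncomputable def evθ (θ : K) : (RF P F)[X] →+* K :=
  Polynomial.eval₂RingHom ((algebraMap F K).comp (RF P F).subtype) θ

theorem evθ_mem {θ : K} (hθ : θ ∈ P.O) (G : (RF P F)[X]) : evθ P F θ G ∈ P.O := by
  have : evθ P F θ G = G.sum (fun n a => ((a : F) : K) * θ ^ n) := by
    change eval₂ _ θ G = _
    rw [eval₂_eq_sum]
    rfl
  rw [this]
  exact P.O.toSubring.sum_mem (fun n _ => P.O.mul_mem _ _ (mem_RF.1 (G.coeff n).2) (pow_mem hθ n))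

theorem ev_evθ {θ : K} (hθ : θ ∈ P.O) (G : (RF P F)[X]) :
    P.ev (evθ P F θ G) = (G.map (evF P F)).eval (P.ev θ) := by
  induction G using Polynomial.induction_on' with
  | add p q hp hq =>
    rw [map_add, P.ev_add (evθ_mem hθ p) (evθ_mem hθ q), hp, hq, Polynomial.map_add, eval_add]
  | monomial n a =>
    have h1 : evθ P F θ (monomial n a) = ((a : F) : K) * θ ^ n := by
      change eval₂ _ θ (monomial n a) = _
      rw [eval₂_monomial]
      rfl
    rw [h1, P.ev_mul (mem_RF.1 a.2) (pow_mem hθ n), P.ev_pow hθ, map_monomial, eval_monomial,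
      evF_apply]

/-- lifting: all coefficients of `G` reduce to zero implies `G = π * G'`. -/
theorem exists_pi_mul (hπ : π ≠ 0) (hπO : π ∈ P.O) (hπ0 : P.ev π = 0) (hπF : π ∈ F)
    (hF : Gd P π κ F) (G : (RF P F)[X]) (hG : G.map (evF P F) = 0) :
    ∃ G' : (RF P F)[X], G = C ⟨⟨π, hπF⟩, hπO⟩ * G' := by
  have h : ∀ n, ∃ w : RF P F, G.coeff n = ⟨⟨π, hπF⟩, hπO⟩ * w := by
    intro n
    have h1 : evF P F (G.coeff n) = 0 := by
      rw [← coeff_map, hG, coeff_zero]
    rw [evF_apply] at h1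
    obtain ⟨w, hw, hw', e⟩ := hF.div_pi hπ hπO hπ0 hπF (G.coeff n : F).2 (mem_RF.1 (G.coeff n).2) h1
    exact ⟨⟨⟨w, hw⟩, hw'⟩, Subtype.ext (Subtype.ext e)⟩
  exact (C_dvd_iff_dvd_coeff _ _).2 (fun n => ⟨(h n).choose, (h n).choose_spec⟩)

/-- every monic-type minimal choice. -/
theorem exists_min_poly (θ' : Ω) (Φ : (RF P F)[X]) (hmon : Φ.Monic)
    (hΦ : (Φ.map (evF P F)).eval θ' = 0) :
    ∃ g : (RF P F)[X], g.Monic ∧ (g.map (evF P F)).eval θ' = 0 ∧
      ∀ r : (RF P F)[X], r.degree < g.degree → (r.map (evF P F)).eval θ' = 0 →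
        r.map (evF P F) = 0 := by
  classical
  have hex : ∃ d : ℕ, ∃ g : (RF P F)[X], g.Monic ∧ (g.map (evF P F)).eval θ' = 0 ∧
      g.natDegree = d := ⟨_, Φ, hmon, hΦ, rfl⟩
  obtain ⟨g, hg1, hg2, hg3⟩ := Nat.find_spec hex
  refine ⟨g, hg1, hg2, ?_⟩
  intro r hr hr0
  by_contra hne
  -- leading unit coefficient
  set rb := r.map (evF P F) with hrb
  have hlead : rb.leadingCoeff ≠ 0 := leadingCoeff_ne_zero.2 hne
  set d := rb.natDegree with hd
  have hcd : evF P F (r.coeff d) ≠ 0 := by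
    rw [← coeff_map]; exact hlead
  rw [evF_apply] at hcd
  have hU : P.U ((r.coeff d : F) : K) := ⟨mem_RF.1 (r.coeff d).2, hcd⟩
  let c : RF P F := ⟨(r.coeff d : F)⁻¹, by rw [mem_RF]; simpa using hU.inv_mem⟩
  have hc : c * r.coeff d = 1 := by
    apply Subtype.ext; apply Subtype.ext
    change ((r.coeff d : F) : K)⁻¹ * ((r.coeff d : F) : K) = 1
    exact inv_mul_cancel₀ hU.ne_zero
  -- truncated polynomial
  let t : (RF P F)[X] := C c * (∑ i ∈ Finset.range d, monomial i (r.coeff i)) + X ^ d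
  have hdeg : (C c * (∑ i ∈ Finset.range d, monomial i (r.coeff i))).degree < (d : WithBot ℕ) := by
    refine lt_of_le_of_lt (degree_mul_le _ _) ?_
    have h1 : (∑ i ∈ Finset.range d, monomial i (r.coeff i)).degree < (d : WithBot ℕ) := by
      refine lt_of_le_of_lt (degree_sum_le _ _) ?_
      refine (Finset.sup_lt_iff (WithBot.bot_lt_coe d)).2 ?_
      intro i hi
      refine lt_of_le_of_lt (degree_monomial_le _ _) ?_
      exact WithBot.coe_lt_coe.2 (Finset.mem_range.1 hi)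
    refine lt_of_le_of_lt (add_le_add_left degree_C_le _) ?_
    rwa [zero_add]
  have htmon : t.Monic := monic_X_pow_add hdeg |> fun h => by
    rwa [add_comm] at h
  have htdeg : t.natDegree = d := by
    have : t.degree = d := by
      change (_ + X ^ d : (RF P F)[X]).degree = d
      rw [degree_add_eq_right_of_degree_lt]
      · exact degree_X_pow d
      · rw [degree_X_pow]; exact hdeg
    exact natDegree_eq_of_degree_eq_some this
  have hteval : (t.map (evF P F)).eval θ' = 0 := by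
    have h1 : t.map (evF P F) = C (evF P F c) * rb := by
      have h2 : rb = ∑ i ∈ Finset.range (d + 1), monomial i (rb.coeff i) :=
        rb.as_sum_range
      rw [h2, Finset.sum_range_succ]
      change (C c * (∑ i ∈ Finset.range d, monomial i (r.coeff i)) + X ^ d).map (evF P F) = _
      rw [Polynomial.map_add, Polynomial.map_mul, Polynomial.map_C, Polynomial.map_pow,
        Polynomial.map_X, Polynomial.map_sum, mul_add]
      congr 1
      · congr 1
        refine Finset.sum_congr rfl fun i _ => ?_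
        rw [map_monomial, hrb, coeff_map]
      · rw [C_mul_monomial, hrb, coeff_map, ← map_mul, hc, map_one, ← X_pow_eq_monomial]
    rw [h1, eval_mul, hr0, mul_zero]
  have hlt : d < Nat.find hex := by
    rw [← hg3]
    have h1 : d ≤ r.natDegree := natDegree_map_le
    have h2 : r ≠ 0 := by
      rintro rfl
      exact hne (by rw [hrb, Polynomial.map_zero])
    have h3 := natDegree_lt_natDegree h2 hr
    omega
  exact Nat.find_min hex hlt ⟨t, htmon, hteval, htdeg⟩


theorem eval_mem_subfield (κ : Subfield Ω) (G : Polynomial Ω) (hG : ∀ i, G.coeff i ∈ κ) {x : Ω}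
    (hx : x ∈ κ) : G.eval x ∈ κ := by
  rw [eval_eq_sum]
  exact κ.toSubring.sum_mem (fun n _ => κ.mul_mem (hG n) (pow_mem hx n))

/-- elements of a simple algebraic extension are polynomials in the generator. -/
theorem exists_aeval_of_mem_closure {θ : K} (hθ : IsIntegral F θ) {z : K}
    (hz : z ∈ Subfield.closure ((F : Set K) ∪ {θ})) : ∃ Q : F[X], aeval θ Q = z := by
  have h1 : Subfield.closure ((F : Set K) ∪ {θ}) ≤ (IntermediateField.adjoin F {θ}).toSubfield := by
    rw [Subfield.closure_le]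
    rintro x (hx | hx)
    · exact (IntermediateField.adjoin F {θ}).algebraMap_mem ⟨x, hx⟩
    · rw [Set.mem_singleton_iff] at hx
      rw [hx]
      exact IntermediateField.mem_adjoin_simple_self F θ
  have h2 : z ∈ (IntermediateField.adjoin F {θ}).toSubalgebra := h1 hz
  rw [IntermediateField.adjoin_simple_toSubalgebra_of_isAlgebraic hθ.isAlgebraic,
    Algebra.adjoin_singleton_eq_range_aeval] at h2
  obtain ⟨Q, hQ⟩ := h2
  exact ⟨Q, hQ⟩

theorem Gd.clear_one (hπO : π ∈ P.O) (hF : Gd P π κ F) (hπF : π ∈ F) {a : K} (ha : a ∈ F) :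
    ∃ N : ℕ, π ^ N * a ∈ P.O := by
  by_cases ha0 : a = 0
  · exact ⟨0, by rw [ha0, mul_zero]; exact P.O.zero_mem⟩
  obtain ⟨n, hn, -⟩ := hF a ha ha0
  rcases le_total 0 n with h | h
  · obtain ⟨m, rfl⟩ := Int.eq_ofNat_of_zero_le h
    refine ⟨m, ?_⟩
    rw [mul_comm, ← zpow_natCast]
    exact hn.1
  · refine ⟨0, ?_⟩
    by_cases hπ : π = 0
    · by_cases hn0 : n = 0
      · rw [hn0] at hn
        simpa using hn.1
      · rw [hπ, zero_zpow n hn0, mul_zero] at hn
        exact absurd rfl hn.ne_zero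
    · obtain ⟨m, hm⟩ := Int.eq_ofNat_of_zero_le (a := -n) (by omega)
      have e : π ^ 0 * a = (a * π ^ n) * π ^ m := by
        have : n = -(m : ℤ) := by omega
        rw [this, zpow_neg, zpow_natCast]
        field_simp
      rw [e]
      exact P.O.mul_mem _ _ hn.1 (pow_mem hπO m)

theorem evθ_C {θ : K} (a : RF P F) : evθ P F θ (Polynomial.C a) = ((a : F) : K) := by
  change eval₂ _ θ (Polynomial.C a) = _
  rw [eval₂_C]
  rfl

theorem Gd.clear (hπO : π ∈ P.O) (hF : Gd P π κ F) (hπF : π ∈ F) (θ : K) (Q : F[X]) :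
    ∃ (N : ℕ) (G : (RF P F)[X]), evθ P F θ G = π ^ N * aeval θ Q := by
  induction Q using Polynomial.induction_on' with
  | add p q hp hq =>
    obtain ⟨N, G, h⟩ := hp
    obtain ⟨M, H, h'⟩ := hq
    refine ⟨N + M, Polynomial.C ⟨⟨π, hπF⟩, hπO⟩ ^ M * G + Polynomial.C ⟨⟨π, hπF⟩, hπO⟩ ^ N * H, ?_⟩
    rw [map_add, map_mul, map_mul, map_pow, map_pow, evθ_C, h, h', map_add]
    change π ^ M * _ + π ^ N * _ = _
    ring
  | monomial n a =>
    obtain ⟨N, hN⟩ := hF.clear_one hπO hπF a.2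
    refine ⟨N, monomial n ⟨⟨π ^ N * a, F.mul_mem (pow_mem hπF N) a.2⟩, hN⟩, ?_⟩
    have h1 : evθ P F θ (monomial n ⟨⟨π ^ N * a, F.mul_mem (pow_mem hπF N) a.2⟩, hN⟩) =
        (π ^ N * a) * θ ^ n := by
      change eval₂ _ θ (monomial n _) = _
      rw [eval₂_monomial]
      rfl
    rw [h1, aeval_monomial]
    change _ = π ^ N * ((a : K) * θ ^ n)
    ring

/-- **Unramified lemma.** -/
theorem Gd.adjoin (hπ : π ≠ 0) (hπO : π ∈ P.O) (hπ0 : P.ev π = 0) (hπF : π ∈ F)
    (hF : Gd P π κ F) {θ : K} (hθ : θ ∈ P.O) (hθκ : P.ev θ ∈ κ)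
    (Φ : F[X]) (hmon : Φ.Monic) (hcoef : ∀ i, ((Φ.coeff i : F) : K) ∈ P.O)
    (hroot : aeval θ Φ = 0) (hder : P.U (aeval θ (derivative Φ))) :
    Gd P π κ (Subfield.closure (F ∪ {θ})) := by
  classical
  -- lift `Φ` to the valuation ring
  have hlift : Φ ∈ Polynomial.lifts (RF P F).subtype := by
    rw [Polynomial.lifts_iff_coeff_lifts]
    intro n
    exact ⟨⟨Φ.coeff n, hcoef n⟩, rfl⟩
  obtain ⟨Ψ, hΨ, -, hΨmon⟩ := Polynomial.lifts_and_degree_eq_and_monic hlift hmon
  have hev : ∀ G : (RF P F)[X], evθ P F θ G = aeval θ (G.map (RF P F).subtype) := by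
    intro G
    rw [aeval_def, eval₂_map]
    rfl
  have hevΨ : evθ P F θ Ψ = 0 := by rw [hev, hΨ, hroot]
  have hevΨ' : evθ P F θ (derivative Ψ) = aeval θ (derivative Φ) := by
    rw [hev, ← derivative_map, hΨ]
  have hΨ0 : (Ψ.map (evF P F)).eval (P.ev θ) = 0 := by
    rw [← ev_evθ hθ, hevΨ, P.ev_zero]
  obtain ⟨g, hgmon, hg0, hgmin⟩ := exists_min_poly (P.ev θ) Ψ hΨmon hΨ0
  set πR : RF P F := ⟨⟨π, hπF⟩, hπO⟩ with hπR
  have hEπ : evθ P F θ (Polynomial.C πR) = π := evθ_C _
  have hevg : P.ev (evθ P F θ g) = 0 := by rw [ev_evθ hθ, hg0]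
  have hdiv : ∀ G : (RF P F)[X], P.ev (evθ P F θ G) = 0 →
      ∃ s s' : (RF P F)[X], G = g * s + Polynomial.C πR * s' := by
    intro G hG
    have h1 := modByMonic_add_div G g
    have h2 : ((G %ₘ g).map (evF P F)).eval (P.ev θ) = 0 := by
      have h3 : G %ₘ g = G - g * (G /ₘ g) := by rw [eq_sub_iff_add_eq]; exact h1
      rw [h3, Polynomial.map_sub, Polynomial.map_mul, eval_sub, eval_mul, hg0, zero_mul, sub_zero,
        ← ev_evθ hθ, hG]
    have h4 := hgmin _ (degree_modByMonic_lt G hgmon) h2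
    obtain ⟨s', hs'⟩ := exists_pi_mul hπ hπO hπ0 hπF hF _ h4
    exact ⟨G /ₘ g, s', by rw [← hs', add_comm]; exact h1.symm⟩
  obtain ⟨h, e, hhe⟩ := hdiv Ψ (by rw [hevΨ, P.ev_zero])
  have hhO := evθ_mem (P := P) (F := F) hθ h
  have hh : P.ev (evθ P F θ h) ≠ 0 := by
    intro hh0
    apply hder.2
    have h1 : derivative Ψ = derivative g * h + g * derivative h +
        Polynomial.C πR * derivative e := by
      rw [hhe]
      simp only [derivative_add, derivative_mul, derivative_C, zero_mul, zero_add]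
    rw [← hevΨ', h1, map_add, map_add, map_mul, map_mul, map_mul, hEπ,
      P.ev_add (P.O.add_mem _ _ (P.O.mul_mem _ _ (evθ_mem hθ _) hhO)
        (P.O.mul_mem _ _ (evθ_mem hθ _) (evθ_mem hθ _))) (P.O.mul_mem _ _ hπO (evθ_mem hθ _)),
      P.ev_add (P.O.mul_mem _ _ (evθ_mem hθ _) hhO) (P.O.mul_mem _ _ (evθ_mem hθ _) (evθ_mem hθ _)),
      P.ev_mul (evθ_mem hθ _) hhO, P.ev_mul (evθ_mem hθ _) (evθ_mem hθ _),
      P.ev_mul hπO (evθ_mem hθ _), hh0, hevg, hπ0]
    simp
  have hhU : P.U (evθ P F θ h) := ⟨hhO, hh⟩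
  have hgh : evθ P F θ g * evθ P F θ h = - (π * evθ P F θ e) := by
    have h1 := hevΨ
    rw [hhe, map_add, map_mul, map_mul, hEπ] at h1
    linear_combination h1
  -- Step A
  have stepA : ∀ G : (RF P F)[X], P.ev (evθ P F θ G) = 0 →
      ∃ G₁ : (RF P F)[X], evθ P F θ G * evθ P F θ h = π * evθ P F θ G₁ := by
    intro G hG
    obtain ⟨s, s', rfl⟩ := hdiv G hG
    refine ⟨s' * h - e * s, ?_⟩
    rw [map_add, map_mul, map_mul, map_sub, map_mul, map_mul, hEπ]
    linear_combination (evθ P F θ s) * hgh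
  -- `θ` is integral
  have hint : IsIntegral F θ := ⟨Φ, hmon, hroot⟩
  -- Step B
  have stepB : ∀ G : (RF P F)[X], evθ P F θ G ≠ 0 →
      ∃ (n : ℕ) (G' : (RF P F)[X]), P.ev (evθ P F θ G') ≠ 0 ∧
        evθ P F θ G * evθ P F θ h ^ n = π ^ n * evθ P F θ G' := by
    intro G hG
    by_contra hcon
    push Not at hcon
    have hall : ∀ n : ℕ, ∃ G' : (RF P F)[X],
        evθ P F θ G * evθ P F θ h ^ n = π ^ n * evθ P F θ G' := by
      intro n
      induction n with
      | zero => exact ⟨G, by simp⟩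
      | succ n ih =>
        obtain ⟨G', hG'⟩ := ih
        have h0 : P.ev (evθ P F θ G') = 0 := by
          by_contra hne
          exact hcon n G' hne hG'
        obtain ⟨G₁, hG₁⟩ := stepA G' h0
        refine ⟨G₁, ?_⟩
        rw [pow_succ, pow_succ]
        linear_combination (evθ P F θ h) * hG' + π ^ n * hG₁
    -- inverse of `y`
    have hmem : (evθ P F θ G)⁻¹ ∈ Subfield.closure ((F : Set K) ∪ {θ}) := by
      apply Subfield.inv_mem
      rw [hev, aeval_eq_sum_range]
      refine Subfield.sum_mem _ (fun i _ => ?_)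
      rw [Algebra.smul_def]
      refine Subfield.mul_mem _ ?_ (pow_mem ?_ i)
      · exact Subfield.subset_closure (Or.inl (SetLike.coe_mem _))
      · exact Subfield.subset_closure (Or.inr rfl)
    obtain ⟨Q, hQ⟩ := exists_aeval_of_mem_closure hint hmem
    obtain ⟨N, G', hG'⟩ := hF.clear hπO hπF θ Q
    rw [hQ] at hG'
    obtain ⟨G'', hG''⟩ := hall (N + 1)
    have key : evθ P F θ h ^ (N + 1) = π * (evθ P F θ G'' * evθ P F θ G') := by
      have hπN : π ^ N ≠ 0 := pow_ne_zero N hπ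
      have e1 : evθ P F θ G * evθ P F θ G' = π ^ N := by
        rw [hG']; field_simp
      have e2 : π ^ N * evθ P F θ h ^ (N + 1) = π ^ N * (π * (evθ P F θ G'' * evθ P F θ G')) := by
        rw [← e1]
        linear_combination (evθ P F θ G') * hG'' - (π * evθ P F θ G'' * evθ P F θ G') * e1
      exact mul_left_cancel₀ hπN e2
    have h1 := (hhU.pow (N + 1)).2
    rw [key, P.ev_mul hπO (P.O.mul_mem _ _ (evθ_mem hθ _) (evθ_mem hθ _)), hπ0, zero_mul] at h1
    exact h1 rfl
  -- residues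
  have hκ : ∀ G : (RF P F)[X], P.ev (evθ P F θ G) ∈ κ := by
    intro G
    rw [ev_evθ hθ]
    refine eval_mem_subfield κ _ (fun i => ?_) hθκ
    rw [coeff_map, evF_apply]
    exact hF.ev_mem hπ hπO hπ0 (G.coeff i : F).2 (mem_RF.1 (G.coeff i).2)
  intro z hz hz0
  obtain ⟨Q, rfl⟩ := exists_aeval_of_mem_closure hint hz
  obtain ⟨N, G, hG⟩ := hF.clear hπO hπF θ Q
  have hG0 : evθ P F θ G ≠ 0 := by
    rw [hG]; exact mul_ne_zero (pow_ne_zero N hπ) hz0
  obtain ⟨n, G', hG'0, hG'⟩ := stepB G hG0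
  have hU : P.U (evθ P F θ G') := ⟨evθ_mem hθ _, hG'0⟩
  have e1 : aeval θ Q * π ^ ((N : ℤ) - n) = evθ P F θ G' / evθ P F θ h ^ n := by
    have hn : π ^ n ≠ 0 := pow_ne_zero n hπ
    have hhn : evθ P F θ h ^ n ≠ 0 := (hhU.pow n).ne_zero
    rw [zpow_sub₀ hπ, zpow_natCast, zpow_natCast]
    rw [hG] at hG'
    field_simp
    linear_combination hG'
  refine ⟨(N : ℤ) - n, ?_, ?_⟩
  · rw [e1]; exact hU.div (hhU.pow n)
  · rw [e1, P.ev_div hU.1 (hhU.pow n), P.ev_pow hhO]
    exact κ.div_mem (hκ _) (pow_mem (hκ _) n)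

end unr

end Vale.Agent.P019
end

section

/-!
# Kummer descent
-/

namespace Vale.Agent.P019

set_option linter.style.haveILetI false

open Polynomial IntermediateField

section span

variable {Ω : Type*} [Field Ω]

/-- compositum with an algebraic subfield is spanned by it. -/
theorem mem_span_of_mem_sup (K B : Subfield Ω) (hB : ∀ b ∈ B, IsAlgebraic K b) {r : Ω}
    (hr : r ∈ K ⊔ B) : r ∈ Submodule.span K (B : Set Ω) := by
  have h1 : K ⊔ B ≤ (adjoin K (B : Set Ω)).toSubfield := by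
    rw [sup_le_iff]
    constructor
    · intro x hx
      exact (adjoin K (B : Set Ω)).algebraMap_mem ⟨x, hx⟩
    · intro x hx
      exact subset_adjoin K _ hx
  have h2 : r ∈ (adjoin K (B : Set Ω)).toSubalgebra := h1 hr
  rw [adjoin_toSubalgebra_of_isAlgebraic (fun x hx => hB x hx)] at h2
  have h3 : r ∈ Subalgebra.toSubmodule (Algebra.adjoin K (B : Set Ω)) := h2
  rw [Algebra.adjoin_eq_span_of_subset] at h3
  · exact h3
  · have : (Submonoid.closure (B : Set Ω) : Set Ω) ⊆ (B : Set Ω) := by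
      intro x hx
      have h4 : Submonoid.closure (B : Set Ω) ≤ B.toSubmonoid :=
        Submonoid.closure_le.2 (fun y hy => hy)
      exact h4 hx
    exact this.trans Submodule.subset_span

/-- a finite Galois extension inside an algebraically closed field containing finitely many
algebraic elements. -/
theorem exists_galois [IsAlgClosed Ω] (K : Subfield Ω) [CharZero K] (t : Finset Ω)
    (ht : ∀ b ∈ t, IsAlgebraic K b) :
    ∃ M : IntermediateField K Ω, (∀ b ∈ t, b ∈ M) ∧ FiniteDimensional K M ∧ IsGalois K M := by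
  classical
  let p : K[X] := ∏ b ∈ t, minpoly K b
  have hp : p ≠ 0 := Finset.prod_ne_zero_iff.2 (fun b hb => minpoly.ne_zero (ht b hb).isIntegral)
  haveI hsf : p.IsSplittingField K (adjoin K (p.rootSet Ω)) :=
    adjoin_rootSet_isSplittingField (IsAlgClosed.splits _)
  refine ⟨adjoin K (p.rootSet Ω), ?_, Polynomial.IsSplittingField.finiteDimensional _ p, ?_⟩
  · intro b hb
    apply subset_adjoin
    rw [mem_rootSet]
    refine ⟨hp, ?_⟩
    rw [map_prod]
    exact Finset.prod_eq_zero hb (minpoly.aeval K b)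
  · haveI : Normal K (adjoin K (p.rootSet Ω)) := Normal.of_isSplittingField p
    haveI : FiniteDimensional K (adjoin K (p.rootSet Ω)) :=
      Polynomial.IsSplittingField.finiteDimensional _ p
    exact ⟨⟩

end span

section kummer

variable {Ω : Type*} [Field Ω]

/-- algebraicity over a smaller subfield is preserved by automorphisms over a bigger one. -/
theorem isAlgebraic_aut {E K : Subfield Ω} (hEK : E ≤ K) {M : IntermediateField K Ω}
    (σ : M ≃ₐ[K] M) {e : M} (he : IsAlgebraic E (e : Ω)) : IsAlgebraic E ((σ e : M) : Ω) := by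
  obtain ⟨Q, hQ0, hQ⟩ := he
  refine ⟨Q, hQ0, ?_⟩
  let Q' : K[X] := Q.map (Subfield.inclusion hEK)
  have key : ∀ y : M, aeval (y : Ω) Q = ((aeval y Q' : M) : Ω) := by
    intro y
    have h1 : ((aeval y Q' : M) : Ω) = aeval (y : Ω) Q' := by
      change M.val (aeval y Q') = aeval (M.val y) Q'
      rw [aeval_algHom_apply]
    rw [h1, aeval_def, aeval_def, eval₂_map]
    rfl
  rw [key] at hQ ⊢
  have h2 : aeval (σ e) Q' = σ (aeval e Q') := by
    rw [← AlgEquiv.coe_toAlgHom, aeval_algHom_apply]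
  have h3 : aeval e Q' = 0 := Subtype.ext hQ
  rw [h2, h3, map_zero]
  rfl

/-- **Kummer descent.** -/
theorem kummer_descent [IsAlgClosed Ω] [CharZero Ω] (ℓ : ℕ) [Fact ℓ.Prime]
    (E K B : Subfield Ω) (hEK : E ≤ K) (hac : ∀ z ∈ K, IsAlgebraic E z → z ∈ E)
    (hB : ∀ b ∈ B, IsAlgebraic E b) (ζ : Ω) (hζE : ζ ∈ E) (hζ : IsPrimitiveRoot ζ ℓ)
    {h r : Ω} (hh : h ∈ K) (h0 : h ≠ 0) (hr : r ∈ K ⊔ B) (hrl : r ^ ℓ = h) :
    ∃ e ∈ E, ∃ w ∈ K, h = e * w ^ ℓ := by
  classical
  haveI : NeZero ℓ := ⟨(Fact.out : ℓ.Prime).ne_zero⟩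
  have hBK : ∀ b ∈ B, IsAlgebraic K b := by
    intro b hb
    obtain ⟨Q, hQ0, hQ⟩ := hB b hb
    refine ⟨Q.map (Subfield.inclusion hEK), ?_, ?_⟩
    · rw [Ne, Polynomial.map_eq_zero_iff (RingHom.injective _)]; exact hQ0
    · rw [aeval_def, eval₂_map]; exact hQ
  obtain ⟨t, htB, htr⟩ := Submodule.mem_span_finite_of_mem_span (mem_span_of_mem_sup K B hBK hr)
  obtain ⟨M, htM, hfd, hgal⟩ := exists_galois K t (fun b hb => hBK b (htB hb))
  have hr0 : r ≠ 0 := by
    rintro rfl
    rw [zero_pow (NeZero.ne ℓ)] at hrl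
    exact h0 hrl.symm
  -- `r` in `M`
  have hrM : r ∈ M := by
    have : Submodule.span K (t : Set Ω) ≤ Subalgebra.toSubmodule M.toSubalgebra := by
      rw [Submodule.span_le]
      intro b hb
      exact htM b hb
    exact this htr
  set rM : M := ⟨r, hrM⟩ with hrMdef
  have hrM0 : rM ≠ 0 := fun h' => hr0 (congrArg Subtype.val h')
  -- the character
  have hchar : ∀ σ : M ≃ₐ[K] M, ∃ c : E, c ≠ 0 ∧ σ rM = (algebraMap K M (Subfield.inclusion hEK c)) * rM := by
    intro σ
    have h1 : (σ rM / rM) ^ ℓ = 1 := by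
      have h2 : rM ^ ℓ = algebraMap K M ⟨h, hh⟩ := Subtype.ext hrl
      rw [div_pow, ← map_pow, h2, AlgEquiv.commutes]
      refine div_self ?_
      rw [← h2]; exact pow_ne_zero _ hrM0
    have h2 : (((σ rM / rM : M)) : Ω) ^ ℓ = 1 := by
      have := congrArg (fun x : M => (x : Ω)) h1
      simpa using this
    obtain ⟨i, -, hi⟩ := hζ.eq_pow_of_pow_eq_one h2
    refine ⟨⟨ζ ^ i, pow_mem hζE i⟩, ?_, ?_⟩
    · intro h3
      have : ζ ^ i = 0 := congrArg Subtype.val h3
      rw [this] at hi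
      rw [← hi, zero_pow (NeZero.ne ℓ)] at h2
      exact zero_ne_one h2
    · apply Subtype.ext
      have h3 : ((σ rM : M) : Ω) = ζ ^ i * r := by
        rw [hi]
        have : (((σ rM / rM : M)) : Ω) = ((σ rM : M) : Ω) / r := rfl
        rw [this]
        field_simp
      rw [h3]
      rfl
  choose c hc0 hc using hchar
  -- multiplicativity
  have hcmul : ∀ σ τ : M ≃ₐ[K] M, c (τ * σ) = c τ * c σ := by
    intro σ τ
    have h1 := hc (τ * σ)
    rw [AlgEquiv.mul_apply, hc σ, map_mul, AlgEquiv.commutes, hc τ] at h1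
    have h2 : algebraMap K M (Subfield.inclusion hEK (c (τ * σ))) =
        algebraMap K M (Subfield.inclusion hEK (c τ * c σ)) := by
      apply mul_right_cancel₀ hrM0
      rw [← h1, map_mul, map_mul]
      ring
    have h3 := (algebraMap K M).injective h2
    exact (Subfield.inclusion hEK).injective h3
  -- the projection
  let p : M →ₗ[K] M := ∑ σ : M ≃ₐ[K] M, (Subfield.inclusion hEK (c σ))⁻¹ • σ.toLinearMap
  have hp : ∀ y, p y = ∑ σ : M ≃ₐ[K] M, (Subfield.inclusion hEK (c σ))⁻¹ • σ y := by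
    intro y
    simp [p, LinearMap.sum_apply]
  have hpr : p rM ≠ 0 := by
    have h1 : p rM = ∑ σ : M ≃ₐ[K] M, rM := by
      rw [hp]
      refine Finset.sum_congr rfl (fun σ _ => ?_)
      rw [hc σ, Algebra.smul_def, ← mul_assoc, ← map_mul, inv_mul_cancel₀, map_one, one_mul]
      intro h2
      exact hc0 σ ((map_eq_zero _).1 h2)
    rw [h1, Finset.sum_const, nsmul_eq_mul]
    refine mul_ne_zero ?_ hrM0
    haveI : CharZero M := charZero_of_injective_algebraMap (algebraMap K M).injective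
    rw [Nat.cast_ne_zero]
    exact Finset.card_ne_zero_of_mem (Finset.mem_univ (1 : M ≃ₐ[K] M))
  -- find `e`
  have hex : ∃ (b : Ω) (hb : b ∈ t), p ⟨b, htM b hb⟩ ≠ 0 := by
    by_contra hcon
    push Not at hcon
    apply hpr
    -- `r` is in the span
    have : ∀ (x : Ω) (hx : x ∈ Submodule.span K (t : Set Ω)),
        ∃ hxM : x ∈ M, p ⟨x, hxM⟩ = 0 := by
      intro x hx
      induction hx using Submodule.span_induction with
      | mem x hx => exact ⟨htM x hx, hcon x hx⟩
      | zero => exact ⟨M.zero_mem, map_zero p⟩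
      | add x y _ _ hx hy =>
        obtain ⟨hxM, hx⟩ := hx
        obtain ⟨hyM, hy⟩ := hy
        refine ⟨M.add_mem hxM hyM, ?_⟩
        have := map_add p ⟨x, hxM⟩ ⟨y, hyM⟩
        rw [hx, hy, add_zero] at this
        exact this
      | smul a x _ hx =>
        obtain ⟨hxM, hx⟩ := hx
        refine ⟨M.smul_mem hxM, ?_⟩
        have := map_smul p a ⟨x, hxM⟩
        rw [hx, smul_zero] at this
        exact this
    exact (this r htr).2
  obtain ⟨b, hbt, hb⟩ := hex
  set e₀ : M := ⟨b, htM b hbt⟩ with he₀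
  set T : M := p e₀ with hT
  have hTtr : ∀ τ : M ≃ₐ[K] M, τ T = algebraMap K M (Subfield.inclusion hEK (c τ)) * T := by
    intro τ
    rw [hT, hp, map_sum, Finset.mul_sum]
    refine Fintype.sum_bijective (fun σ => τ * σ) (Group.mulLeft_bijective τ) _ _ (fun σ => ?_)
    rw [hcmul, Algebra.smul_def, Algebra.smul_def, map_mul, AlgEquiv.commutes,
      AlgEquiv.mul_apply, map_mul, mul_inv, map_mul, ← mul_assoc, ← mul_assoc, ← map_mul,
      mul_inv_cancel₀, map_one, one_mul]
    intro h2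
    exact hc0 τ ((map_eq_zero _).1 h2)
  -- `r / T` is in `K`
  have hw : ∃ w : K, algebraMap K M w = rM / T := by
    have : rM / T ∈ (⊥ : IntermediateField K M) := by
      rw [IsGalois.mem_bot_iff_fixed]
      intro τ
      rw [map_div₀, hTtr, hc, mul_div_mul_left]
      intro h2
      exact hc0 τ ((map_eq_zero _).1 ((map_eq_zero _).1 h2))
    exact IntermediateField.mem_bot.1 this
  have hTl : ∃ w : K, algebraMap K M w = T ^ ℓ := by
    have : T ^ ℓ ∈ (⊥ : IntermediateField K M) := by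
      rw [IsGalois.mem_bot_iff_fixed]
      intro τ
      have h1 : (algebraMap K M (Subfield.inclusion hEK (c τ))) ^ ℓ = 1 := by
        have h2 : rM ^ ℓ = algebraMap K M ⟨h, hh⟩ := Subtype.ext hrl
        have h3 : τ (rM ^ ℓ) = rM ^ ℓ := by rw [h2, AlgEquiv.commutes]
        rw [map_pow, hc, mul_pow] at h3
        exact mul_right_cancel₀ (pow_ne_zero ℓ hrM0) (h3.trans (one_mul _).symm)
      rw [map_pow, hTtr, mul_pow, h1, one_mul]
    exact IntermediateField.mem_bot.1 this
  obtain ⟨w, hw⟩ := hw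
  obtain ⟨e, he⟩ := hTl
  -- `T` algebraic over `E`
  have hTalg : IsAlgebraic E ((T : M) : Ω) := by
    have h1 : ((T : M) : Ω) = ∑ σ : M ≃ₐ[K] M, (((c σ : E) : Ω))⁻¹ * ((σ e₀ : M) : Ω) := by
      rw [hT, hp, ← IntermediateField.coe_val, map_sum]
      refine Finset.sum_congr rfl (fun σ _ => ?_)
      rfl
    rw [h1]
    have h2 : ∀ σ ∈ (Finset.univ : Finset (M ≃ₐ[K] M)),
        (((c σ : E) : Ω))⁻¹ * ((σ e₀ : M) : Ω) ∈ integralClosure E Ω := by
      intro σ _
      refine Subalgebra.mul_mem _ ?_ ?_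
      · have : (((c σ : E) : Ω))⁻¹ = algebraMap E Ω (c σ)⁻¹ := by simp; rfl
        rw [this]
        exact Subalgebra.algebraMap_mem _ _
      · exact (isAlgebraic_aut hEK σ (hB b (htB hbt))).isIntegral
    have h3 : (∑ σ : M ≃ₐ[K] M, (((c σ : E) : Ω))⁻¹ * ((σ e₀ : M) : Ω)) ∈ integralClosure E Ω :=
      Subalgebra.sum_mem _ h2
    exact IsIntegral.isAlgebraic h3
  refine ⟨(e : Ω), ?_, (w : Ω), w.2, ?_⟩
  · apply hac _ e.2
    have h1 : (e : Ω) = ((T : M) : Ω) ^ ℓ := congrArg (fun x : M => (x : Ω)) he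
    rw [h1]
    exact hTalg.pow ℓ
  · have h1 : (e : Ω) = ((T : M) : Ω) ^ ℓ := congrArg (fun x : M => (x : Ω)) he
    have h2 : (w : Ω) = r / ((T : M) : Ω) := congrArg (fun x : M => (x : Ω)) hw
    have hT0 : ((T : M) : Ω) ≠ 0 := fun h3 => hb (Subtype.ext h3)
    rw [h1, h2, div_pow, hrl]
    field_simp

end kummer

end Vale.Agent.P019
end

section

/-!
# Finiteness of the kernel of `V_F → V_L` for finitely generated extensions
-/

namespace Vale.Agent.P019

set_option linter.style.haveILetI false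

open IntermediateField

section

variable {F L : Type*} [Field F] [Field L] [Algebra F L]

/-- linear independence over `F` of algebraic elements persists over `F(x)`, `x` algebraically
independent. -/
theorem linearIndependent_adjoin {ι : Type*} {x : ι → L} (hx : AlgebraicIndependent F x) {n : ℕ}
    {w : Fin n → L} (hw : ∀ i, IsAlgebraic F (w i)) (hli : LinearIndependent F w) :
    LinearIndependent (adjoin F (Set.range x)) w := by
  classical
  open IntermediateField.algebraAdjoinAdjoin in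
  refine (LinearIndependent.iff_fractionRing (Algebra.adjoin F (Set.range x))
    (adjoin F (Set.range x))).1 ?_
  rw [Fintype.linearIndependent_iff]
  intro a ha
  have hxE : AlgebraicIndependent (algebraicClosure F L) x := hx.algebraicClosure
  have hp : ∀ i, ∃ p : MvPolynomial ι F, MvPolynomial.aeval x p = (a i : L) := by
    intro i
    have h0 : ∀ y : L, y ∈ Algebra.adjoin F (Set.range x) → ∃ p : MvPolynomial ι F,
        MvPolynomial.aeval x p = y := by
      intro y hy
      rw [Algebra.adjoin_range_eq_range_aeval] at hy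
      exact hy
    exact h0 _ (a i).2
  choose p hp using hp
  let wE : Fin n → algebraicClosure F L := fun i => ⟨w i, mem_algebraicClosure_iff.2 (hw i)⟩
  let q : MvPolynomial ι (algebraicClosure F L) :=
    ∑ i, MvPolynomial.C (wE i) * MvPolynomial.map (algebraMap F (algebraicClosure F L)) (p i)
  have hq : MvPolynomial.aeval x q = 0 := by
    rw [map_sum, ← ha]
    refine Finset.sum_congr rfl (fun i _ => ?_)
    rw [map_mul, MvPolynomial.aeval_C, MvPolynomial.aeval_map_algebraMap, hp, Algebra.smul_def,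
      mul_comm]
    rfl
  have hq0 : q = 0 := (algebraicIndependent_iff.1 hxE) q hq
  intro i
  have hpi : p i = 0 := by
    ext m
    have h1 : ∑ j, (algebraMap F (algebraicClosure F L) ((p j).coeff m)) * wE j = 0 := by
      have h2 := congrArg (MvPolynomial.coeff m) hq0
      rw [MvPolynomial.coeff_sum, MvPolynomial.coeff_zero] at h2
      rw [← h2]
      refine Finset.sum_congr rfl (fun j _ => ?_)
      rw [MvPolynomial.coeff_C_mul, MvPolynomial.coeff_map, mul_comm]
    have h3 : ∑ j, ((p j).coeff m) • w j = 0 := by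
      have h4 := congrArg (fun z : algebraicClosure F L => (z : L)) h1
      simp only [AddSubmonoidClass.coe_finsetSum, MulMemClass.coe_mul, ZeroMemClass.coe_zero] at h4
      rw [← h4]
      refine Finset.sum_congr rfl (fun j _ => ?_)
      rw [Algebra.smul_def]
      rfl
    rw [Fintype.linearIndependent_iff] at hli
    rw [hli _ h3 i, MvPolynomial.coeff_zero]
  have h5 := hp i
  rw [hpi, map_zero] at h5
  exact Subtype.ext h5.symm

/-- `ℓ`-th roots of pairwise inequivalent elements are linearly independent. -/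
theorem linearIndependent_roots [CharZero F] (ℓ : ℕ) [Fact ℓ.Prime] (ζ : F)
    (hζ : IsPrimitiveRoot ζ ℓ) {n : ℕ} {w : Fin n → L} (hw0 : ∀ i, w i ≠ 0)
    (hw : ∀ i, ∃ a : F, w i ^ ℓ = algebraMap F L a)
    (hne : ∀ i j, i ≠ j → ¬ ∃ y : F, w i = w j * algebraMap F L y) :
    LinearIndependent F w := by
  classical
  haveI : NeZero ℓ := ⟨(Fact.out : ℓ.Prime).ne_zero⟩
  have halg : ∀ i, IsAlgebraic F (w i) := by
    intro i
    obtain ⟨a, ha⟩ := hw i
    refine (IsAlgebraic.of_pow (Fact.out : ℓ.Prime).pos ?_)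
    rw [ha]
    exact isAlgebraic_algebraMap a
  let E := algebraicClosure F L
  let Ω := AlgebraicClosure F
  haveI : Algebra.IsAlgebraic F E := algebraicClosure.isAlgebraic F L
  let j : E →ₐ[F] Ω := IsAlgClosed.lift
  haveI : CharZero Ω := charZero_of_injective_algebraMap (algebraMap F Ω).injective
  haveI : IsGalois F Ω := ⟨⟩
  let wE : Fin n → E := fun i => ⟨w i, mem_algebraicClosure_iff.2 (halg i)⟩
  let v : Fin n → Ω := fun i => j (wE i)
  have hv0 : ∀ i, v i ≠ 0 := by
    intro i h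
    have : wE i = 0 := (map_eq_zero j).1 h
    exact hw0 i (congrArg Subtype.val this)
  have hvl : ∀ i, ∃ a : F, v i ^ ℓ = algebraMap F Ω a := by
    intro i
    obtain ⟨a, ha⟩ := hw i
    refine ⟨a, ?_⟩
    have h1 : wE i ^ ℓ = algebraMap F E a := Subtype.ext ha
    change j (wE i) ^ ℓ = _
    rw [← map_pow, h1, AlgHom.commutes]
  have hchar : ∀ (i : Fin n) (σ : Ω ≃ₐ[F] Ω), ∃ c : F, σ (v i) = algebraMap F Ω c * v i := by
    intro i σ
    obtain ⟨a, ha⟩ := hvl i
    have h1 : (σ (v i) / v i) ^ ℓ = 1 := by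
      rw [div_pow, ← map_pow, ha, AlgEquiv.commutes]
      refine div_self ?_
      rw [← ha]; exact pow_ne_zero _ (hv0 i)
    have hζ' : IsPrimitiveRoot (algebraMap F Ω ζ) ℓ :=
      hζ.map_of_injective (algebraMap F Ω).injective
    obtain ⟨m, -, hm⟩ := hζ'.eq_pow_of_pow_eq_one h1
    refine ⟨ζ ^ m, ?_⟩
    rw [map_pow, hm, div_mul_cancel₀ _ (hv0 i)]
  let χ : Fin n → ((Ω ≃ₐ[F] Ω) →* Ω) := fun i =>
    { toFun := fun σ => σ (v i) / v i
      map_one' := by rw [AlgEquiv.one_apply, div_self (hv0 i)]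
      map_mul' := by
        intro σ τ
        obtain ⟨c, hc⟩ := hchar i τ
        rw [AlgEquiv.mul_apply, hc, map_mul, AlgEquiv.commutes, mul_div_assoc, mul_comm,
          mul_div_assoc, div_self (hv0 i), mul_one] }
  have hχ : Function.Injective χ := by
    intro i i' h
    by_contra hii
    have h1 : ∀ σ : Ω ≃ₐ[F] Ω, σ (v i / v i') = v i / v i' := by
      intro σ
      have h2 : σ (v i) / v i = σ (v i') / v i' := DFunLike.congr_fun h σ
      have h3 := hv0 i
      have h4 := hv0 i'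
      have h5 : σ (v i') ≠ 0 := (map_ne_zero σ).2 h4
      rw [map_div₀, div_eq_div_iff h5 h4]
      rw [div_eq_div_iff h3 h4] at h2
      rw [h2]; ring
    obtain ⟨y, hy⟩ := (InfiniteGalois.mem_range_algebraMap_iff_fixed _).2 h1
    apply hne i i' hii
    refine ⟨y, ?_⟩
    have h6 : j (wE i) = j (wE i' * algebraMap F E y) := by
      rw [map_mul, AlgHom.commutes, hy]
      have h4 := hv0 i'
      change v i = v i' * (v i / v i')
      rw [mul_div_cancel₀ _ h4]
    have h7 := j.injective h6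
    exact congrArg Subtype.val h7
  have hli := (linearIndependent_monoidHom (Ω ≃ₐ[F] Ω) Ω).comp χ hχ
  rw [Fintype.linearIndependent_iff] at hli ⊢
  intro c hc i
  have h1 : ∑ i, (algebraMap F Ω (c i) * v i) • (fun f : (Ω ≃ₐ[F] Ω) →* Ω => (f : (Ω ≃ₐ[F] Ω) → Ω))
      (χ i) = 0 := by
    funext σ
    rw [Finset.sum_apply, Pi.zero_apply]
    have h2 : ∑ i, c i • w i = 0 := hc
    have h3 : ∑ i, algebraMap F Ω (c i) * v i = 0 := by
      have h4 : ∑ i, c i • wE i = 0 := by
        apply Subtype.ext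
        rw [AddSubmonoidClass.coe_finsetSum]
        exact h2
      have h5 := congrArg j h4
      rw [map_sum, map_zero] at h5
      rw [← h5]
      refine Finset.sum_congr rfl (fun i _ => ?_)
      rw [Algebra.smul_def, map_mul, AlgHom.commutes]
    have h6 := congrArg σ h3
    rw [map_sum, map_zero] at h6
    rw [← h6]
    refine Finset.sum_congr rfl (fun i _ => ?_)
    rw [map_mul, AlgEquiv.commutes]
    change (algebraMap F Ω (c i) * v i) * (σ (v i) / v i) = _
    rw [mul_assoc, mul_div_cancel₀ _ (hv0 i)]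
  have h7 := hli (fun i => algebraMap F Ω (c i) * v i) h1 i
  have h8 : algebraMap F Ω (c i) = 0 := (mul_eq_zero.1 h7).resolve_right (hv0 i)
  exact (map_eq_zero _).1 h8

/-- **Finite kernel.** -/
theorem finite_kernel [CharZero F] [Algebra.EssFiniteType F L] (ℓ : ℕ) [Fact ℓ.Prime] (ζ : F)
    (hζ : IsPrimitiveRoot ζ ℓ) :
    ∃ N : ℕ, ∀ x : Fin (N + 1) → F, (∀ i, x i ≠ 0 ∧ ∃ w : L, w ^ ℓ = algebraMap F L (x i)) →
      ∃ i j, i ≠ j ∧ ∃ y : F, y ≠ 0 ∧ x i = x j * y ^ ℓ := by
  classical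
  obtain ⟨S, hS⟩ := exists_isTranscendenceBasis F L
  haveI : Algebra.IsAlgebraic (adjoin F (Set.range ((↑) : S → L))) L := hS.isAlgebraic_field
  haveI : Algebra.EssFiniteType (adjoin F (Set.range ((↑) : S → L))) L :=
    Algebra.EssFiniteType.of_comp F _ L
  haveI : Module.Finite (adjoin F (Set.range ((↑) : S → L))) L :=
    Algebra.finite_of_essFiniteType_of_isAlgebraic
  refine ⟨Module.finrank (adjoin F (Set.range ((↑) : S → L))) L, ?_⟩
  intro x hx
  by_contra hcon
  push Not at hcon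
  choose hx0 w hw using hx
  have hℓ : ℓ ≠ 0 := (Fact.out : ℓ.Prime).ne_zero
  have hw0 : ∀ i, w i ≠ 0 := by
    intro i h
    have := hw i
    rw [h, zero_pow hℓ] at this
    exact hx0 i ((map_eq_zero _).1 this.symm)
  have h1 : LinearIndependent F w := by
    refine linearIndependent_roots ℓ ζ hζ hw0 (fun i => ⟨x i, hw i⟩) ?_
    rintro i j hij ⟨y, hy⟩
    have hy0 : y ≠ 0 := by
      rintro rfl
      rw [map_zero, mul_zero] at hy
      exact hw0 i hy
    refine hcon i j hij y hy0 ?_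
    apply (algebraMap F L).injective
    rw [← hw i, hy, mul_pow, hw j, map_mul, map_pow]
  have h2 := linearIndependent_adjoin hS.1 (fun i => by
    refine (IsAlgebraic.of_pow (Fact.out : ℓ.Prime).pos ?_)
    rw [hw i]
    exact isAlgebraic_algebraMap (x i)) h1
  have h3 := h2.fintype_card_le_finrank
  rw [Fintype.card_fin] at h3
  omega

end

end Vale.Agent.P019
end

section

/-!
# Subfields, relative algebraic closures, constants, models
-/

namespace Vale.Agent.P019

set_option linter.style.haveILetI false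

open Polynomial

section rac

variable {K : Type*} [Field K]

/-- relative algebraic closure of a subfield in the ambient field. -/
def rac (E : Subfield K) : Subfield K := (algebraicClosure E K).toSubfield

theorem mem_rac {E : Subfield K} {z : K} : z ∈ rac E ↔ IsAlgebraic E z := by
  change z ∈ algebraicClosure E K ↔ _
  exact mem_algebraicClosure_iff

/-- the subfield `E(t)`. -/
def adj (E : Subfield K) (t : K) : Subfield K := E ⊔ Subfield.closure {t}

theorem le_adj (E : Subfield K) (t : K) : E ≤ adj E t := le_sup_left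

theorem mem_adj (E : Subfield K) (t : K) : t ∈ adj E t :=
  (le_sup_right : Subfield.closure {t} ≤ adj E t) (Subfield.subset_closure rfl)

theorem adj_le {E F : Subfield K} {t : K} (h : E ≤ F) (ht : t ∈ F) : adj E t ≤ F :=
  sup_le h (Subfield.closure_le.2 (by rintro _ rfl; exact ht))

theorem adj_mono {E F : Subfield K} (h : E ≤ F) (t : K) : adj E t ≤ adj F t :=
  adj_le (h.trans (le_adj F t)) (mem_adj F t)

theorem isAlgebraic_mono {E F : Subfield K} (h : E ≤ F) {z : K} (hz : IsAlgebraic E z) :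
    IsAlgebraic F z := by
  obtain ⟨Q, hQ0, hQ⟩ := hz
  refine ⟨Q.map (Subfield.inclusion h), ?_, ?_⟩
  · rw [Ne, Polynomial.map_eq_zero_iff (RingHom.injective _)]; exact hQ0
  · rw [aeval_def, eval₂_map]; exact hQ

theorem rac_mono {E F : Subfield K} (h : E ≤ F) : rac E ≤ rac F := fun _ hz =>
  mem_rac.2 (isAlgebraic_mono h (mem_rac.1 hz))

theorem isAlgebraic_of_mem {E : Subfield K} {z : K} (hz : z ∈ E) : IsAlgebraic E z :=
  isAlgebraic_algebraMap (⟨z, hz⟩ : E)

theorem le_rac (E : Subfield K) : E ≤ rac E := fun _ hz => mem_rac.2 (isAlgebraic_of_mem hz)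

/-- `E` is relatively algebraically closed in the ambient field. -/
def RAC (E : Subfield K) : Prop := ∀ z, IsAlgebraic E z → z ∈ E

theorem RAC.le {E F : Subfield K} (hF : RAC F) (h : E ≤ F) : rac E ≤ F := fun _ hz =>
  hF _ (isAlgebraic_mono h (mem_rac.1 hz))

/-- transitivity of algebraicity. -/
theorem isAlgebraic_trans {E F : Subfield K} (h : E ≤ F) (hF : ∀ z ∈ F, IsAlgebraic E z) {z : K}
    (hz : IsAlgebraic F z) : IsAlgebraic E z := by
  letI : Algebra E F := (Subfield.inclusion h).toAlgebra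
  haveI : IsScalarTower E F K := IsScalarTower.of_algebraMap_eq (fun _ => rfl)
  haveI : Algebra.IsAlgebraic E F := ⟨fun x => by
    have h1 := hF x.1 x.2
    rw [← isAlgebraic_algebraMap_iff (R := E) (A := K) (algebraMap F K).injective]
    exact h1⟩
  exact hz.restrictScalars E

theorem isAlgebraic_rac {E : Subfield K} {z : K} (hz : IsAlgebraic (rac E) z) :
    IsAlgebraic E z :=
  isAlgebraic_trans (le_rac E) (fun _ h => mem_rac.1 h) hz

theorem RAC_rac (E : Subfield K) : RAC (rac E) := fun _ hz => mem_rac.2 (isAlgebraic_rac hz)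

/-- algebraically closed fields are relatively algebraically closed. -/
theorem RAC_of_isAlgClosed (E : Subfield K) (hE : IsAlgClosed E) : RAC E := by
  intro z hz
  have h1 : IsIntegral E z := hz.isIntegral
  obtain ⟨c, hc⟩ := IsAlgClosed.exists_root (minpoly E z)
    (fun h => (minpoly.degree_pos h1).ne' h)
  have h2 : minpoly E z = X - C c := by
    have h3 := minpoly.irreducible h1
    have h4 : (X - C c) ∣ minpoly E z := dvd_iff_isRoot.2 hc
    exact eq_of_monic_of_dvd_of_natDegree_le (monic_X_sub_C c) (minpoly.monic h1) h4 (by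
      rw [natDegree_X_sub_C]
      have h6 := degree_eq_one_of_irreducible_of_root h3 hc
      exact (natDegree_eq_of_degree_eq_some h6).le)
  have h3 := minpoly.aeval E z
  rw [h2, map_sub, aeval_X, aeval_C, sub_eq_zero] at h3
  rw [h3]
  exact c.2

/-- a relatively algebraically closed subfield of an algebraically closed subfield. -/
theorem isAlgClosed_of_RAC {E k : Subfield K} (hk : IsAlgClosed k) (hE : RAC E) (h : E ≤ k) :
    IsAlgClosed E := by
  apply IsAlgClosed.of_exists_root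
  intro p hp hirr
  obtain ⟨c, hc⟩ := IsAlgClosed.exists_root (p.map (Subfield.inclusion h)) (by
    rw [degree_map]
    exact (degree_pos_of_irreducible hirr).ne')
  have h1 : aeval (c : K) p = 0 := by
    have h2 := congrArg (algebraMap k K) (hc : eval c _ = 0)
    rw [eval_map, map_zero] at h2
    rw [← h2, aeval_def, hom_eval₂]
    rfl
  have h2 : (c : K) ∈ E := hE _ ⟨p, hirr.ne_zero, h1⟩
  refine ⟨⟨c, h2⟩, ?_⟩
  apply (algebraMap E K).injective
  rw [map_zero, ← h1]
  change _ = aeval (algebraMap E K ⟨c, h2⟩) p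
  rw [aeval_algebraMap_apply, coe_aeval_eq_eval]

end rac

section VS

variable (ℓ : ℕ) {K : Type*} [Field K]

/-- the subspace of `V` given by the classes of the elements of a subfield. -/
noncomputable def VS (E : Subfield K) : Submodule (ZMod ℓ) (V ℓ K) :=
  AddSubgroup.toZModSubmodule ℓ
  { carrier := {v | ∃ x ∈ E, x ≠ 0 ∧ v = cl ℓ x}
    zero_mem' := ⟨1, E.one_mem, one_ne_zero, (cl_one ℓ).symm⟩
    add_mem' := by
      rintro _ _ ⟨x, hx, hx0, rfl⟩ ⟨y, hy, hy0, rfl⟩
      exact ⟨x * y, E.mul_mem hx hy, mul_ne_zero hx0 hy0, (cl_mul ℓ hx0 hy0).symm⟩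
    neg_mem' := by
      rintro _ ⟨x, hx, hx0, rfl⟩
      exact ⟨x⁻¹, E.inv_mem hx, inv_ne_zero hx0, (cl_inv ℓ x).symm⟩ }

variable {ℓ}

theorem mem_VS {E : Subfield K} {v : V ℓ K} :
    v ∈ VS ℓ E ↔ ∃ x ∈ E, x ≠ 0 ∧ v = cl ℓ x := Iff.rfl

theorem cl_mem_VS {E : Subfield K} {x : K} (hx : x ∈ E) : cl ℓ x ∈ VS ℓ E := by
  by_cases h : x = 0
  · rw [h, cl_zero]; exact Submodule.zero_mem _
  · exact ⟨x, hx, h, rfl⟩

theorem VS_mono {E F : Subfield K} (h : E ≤ F) : VS ℓ E ≤ VS ℓ F := by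
  rintro _ ⟨x, hx, _, rfl⟩
  exact cl_mem_VS (h hx)

theorem cl_ne_zero_mem_VS {E : Subfield K} {x : K} (hx : x ≠ 0) :
    cl ℓ x ∈ VS ℓ E ↔ ∃ e ∈ E, e ≠ 0 ∧ ∃ w : K, w ≠ 0 ∧ x = e * w ^ ℓ := by
  constructor
  · rintro ⟨e, he, he0, h⟩
    obtain ⟨w, hw, h'⟩ := (cl_eq_iff ℓ hx he0).1 h
    exact ⟨e, he, he0, w, hw, h'⟩
  · rintro ⟨e, he, he0, w, hw, h'⟩
    exact ⟨e, he, he0, (cl_eq_iff ℓ hx he0).2 ⟨w, hw, h'⟩⟩

end VS

section FG

variable {K : Type*} [Field K]

/-- `Λ` is a finitely generated field extension of `E`. -/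
def FG (E Λ : Subfield K) : Prop := ∃ S : Finset K, Λ = E ⊔ Subfield.closure (S : Set K)

/-- `t` is a non-constant with `k(t)` relatively algebraically closed. -/
def Good (k : Subfield K) (t : K) : Prop := t ∉ k ∧ RAC (adj k t)

end FG

/-- A model of a function field of transcendence degree at least two over an algebraically closed
field of constants. -/
structure Mdl (K : Type*) [Field K] where
  k : Subfield K
  k0 : Subfield K
  K0 : Subfield K
  le_k : k0 ≤ k
  le_K0 : k0 ≤ K0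
  ack : IsAlgClosed k
  ack0 : IsAlgClosed k0
  sup : K0 ⊔ k = ⊤
  ctb : (K0 : Set K).Countable
  fg : FG k0 K0
  free : ∀ N : Subfield K, RAC N → k0 ≤ N → N ≤ k →
    ∀ a ∈ k, IsAlgebraic (K0 ⊔ N : Subfield K) a → a ∈ N
  x : K
  y : K
  hx : x ∈ K0
  hy : y ∈ K0
  hxk : x ∉ k
  hyx : ¬ IsAlgebraic (adj k x) y

namespace Mdl

variable {K : Type*} [Field K] (M : Mdl K)

/-- the function field over smaller constants. -/
def F (N : Subfield K) : Subfield K := M.K0 ⊔ N

/-- algebraically closed subfields of the constants. -/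
structure Sub (N : Subfield K) : Prop where
  rac : RAC N
  ge : M.k0 ≤ N
  le : N ≤ M.k

variable {M}

theorem Sub.le_F (N : Subfield K) : N ≤ M.F N := le_sup_right

theorem K0_le (N : Subfield K) : M.K0 ≤ M.F N := le_sup_left

theorem F_mono {N N' : Subfield K} (h : N ≤ N') : M.F N ≤ M.F N' := sup_le_sup_left h _

theorem RAC_k (M : Mdl K) : RAC M.k := RAC_of_isAlgClosed _ M.ack

theorem sub_rac {N : Subfield K} (h0 : M.k0 ≤ N) (h : N ≤ M.k) : M.Sub (rac N) :=
  ⟨RAC_rac N, h0.trans (le_rac N), M.RAC_k.le h⟩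

end Mdl

end Vale.Agent.P019
end

section

namespace Vale.Agent.P019

open Polynomial IntermediateField

section Unr

variable {F L : Type*} [Field F] [Field L] [Algebra F L]

/-- all coefficients are integral at `W`. -/
def IntCoeff (W : ValuationSubring L) (G : F[X]) : Prop := ∀ i, algebraMap F L (G.coeff i) ∈ W

theorem IntCoeff.add {W : ValuationSubring L} {G H : F[X]} (hG : IntCoeff W G)
    (hH : IntCoeff W H) : IntCoeff W (G + H) := by
  intro i
  rw [coeff_add, map_add]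
  exact add_mem (hG _) (hH _)

theorem IntCoeff.one {W : ValuationSubring L} : IntCoeff W (1 : F[X]) := by
  intro i
  rw [coeff_one]
  split_ifs
  · rw [map_one]; exact one_mem _
  · rw [map_zero]; exact zero_mem _

/-- an element integral over the valuation ring is in the valuation ring -/
theorem mem_of_root {W : ValuationSubring L} {θ : L} {Φ : F[X]} (hmon : Φ.Monic)
    (hint : IntCoeff W Φ) (hroot : aeval θ Φ = 0) : θ ∈ W := by
  by_contra hθ
  have h1 : 1 < W.valuation θ := by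
    rw [← not_le]; intro h; exact hθ ((W.valuation_le_one_iff θ).1 h)
  have hθ0 : W.valuation θ ≠ 0 := fun h => by rw [h] at h1; exact absurd h1 (by simp)
  set n := Φ.natDegree with hn
  have hn0 : 0 < n := by
    rcases Nat.eq_zero_or_pos n with h | h
    · have : Φ = 1 := (Polynomial.Monic.natDegree_eq_zero hmon).1 (hn ▸ h)
      rw [this] at hroot; simp at hroot
    · exact h
  have key : θ ^ n = - ∑ i ∈ Finset.range n, algebraMap F L (Φ.coeff i) * θ ^ i := by
    have := hroot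
    rw [aeval_eq_sum_range, Finset.sum_range_succ, ← hn] at this
    have hc : Φ.coeff n = 1 := hmon
    rw [hc, one_smul] at this
    rw [eq_neg_iff_add_eq_zero, add_comm]
    simpa [Algebra.smul_def] using this
  have hlt : W.valuation (∑ i ∈ Finset.range n, algebraMap F L (Φ.coeff i) * θ ^ i)
      < W.valuation θ ^ n := by
    refine Valuation.map_sum_lt _ (pow_ne_zero _ hθ0) fun i hi => ?_
    rw [map_mul, map_pow]
    calc _ ≤ 1 * W.valuation θ ^ i := by
            gcongr; exact (W.valuation_le_one_iff _).2 (hint i)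
      _ = W.valuation θ ^ i := one_mul _
      _ < _ := pow_lt_pow_right₀ h1 (Finset.mem_range.1 hi)
  have h3 := congrArg W.valuation key
  rw [map_pow, Valuation.map_neg] at h3
  rw [← h3] at hlt
  exact lt_irrefl _ hlt

theorem aeval_mem {W : ValuationSubring L} {θ : L} (hθ : θ ∈ W) {G : F[X]}
    (hG : IntCoeff W G) : aeval θ G ∈ W := by
  rw [aeval_eq_sum_range]
  refine sum_mem fun i _ => ?_
  rw [Algebra.smul_def]
  exact mul_mem (hG i) (pow_mem hθ i)

theorem small_dvd {R : Type*} [CommRing R] (i : R →+* L) (W : ValuationSubring L)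
    (hi : ∀ a, i a ∈ W) (hu : ∀ a, W.valuation (i a) = 1 → IsUnit a) (π : R)
    (hπ : ∀ a, W.valuation (i a) < 1 → π ∣ a) (θ : L) (hθ : θ ∈ W) (n : ℕ)
    (hn : ∀ g : R[X], g.Monic → g.natDegree < n → ¬ W.valuation (eval₂ i θ g) < 1) :
    ∀ m : ℕ, ∀ r : R[X], r.natDegree ≤ m → r.natDegree < n → W.valuation (eval₂ i θ r) < 1 →
      C π ∣ r := by
  have hθ1 : W.valuation θ ≤ 1 := (W.valuation_le_one_iff _).2 hθ
  intro m
  induction m with
  | zero =>
    intro r hr _ hv
    have : r = C (r.coeff 0) := eq_C_of_natDegree_le_zero hr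
    rw [this, eval₂_C] at hv
    rw [this]
    obtain ⟨c, hc⟩ := hπ _ hv
    exact ⟨C c, by rw [hc, C_mul]⟩
  | succ m ih =>
    intro r hr hrn hv
    by_cases hr0 : r = 0
    · rw [hr0]; exact dvd_zero _
    have hlc : W.valuation (i r.leadingCoeff) < 1 := by
      by_contra hcon
      have h1 : W.valuation (i r.leadingCoeff) = 1 :=
        le_antisymm ((W.valuation_le_one_iff _).2 (hi _)) (not_lt.1 hcon)
      obtain ⟨u, hu'⟩ := hu _ h1
      have hmon : (C (↑u⁻¹ : R) * r).Monic := by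
        rw [Monic, leadingCoeff_mul']
        · rw [leadingCoeff_C, ← hu', Units.inv_mul]
        · rw [leadingCoeff_C, ← hu', Units.inv_mul]
          intro h10
          apply hr0
          have : (1 : R[X]) = 0 := by rw [← C_1, h10, C_0]
          rw [← one_mul r, this, zero_mul]
      have hdeg : (C (↑u⁻¹ : R) * r).natDegree ≤ r.natDegree := natDegree_C_mul_le _ _
      refine hn _ hmon (lt_of_le_of_lt hdeg hrn) ?_
      rw [eval₂_mul, map_mul]
      exact lt_of_le_of_lt (mul_le_of_le_one_left' (by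
        rw [eval₂_C]; exact (W.valuation_le_one_iff _).2 (hi _))) hv
    have hlead : W.valuation (eval₂ i θ (C r.leadingCoeff * X ^ r.natDegree)) < 1 := by
      rw [eval₂_mul, eval₂_C, eval₂_X_pow, map_mul, map_pow]
      exact lt_of_le_of_lt (mul_le_of_le_one_right' (pow_le_one₀ zero_le hθ1)) hlc
    have herase : W.valuation (eval₂ i θ r.eraseLead) < 1 := by
      have : r.eraseLead = r - C r.leadingCoeff * X ^ r.natDegree := by
        rw [eq_sub_iff_add_eq, eraseLead_add_C_mul_X_pow]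
      rw [this, eval₂_sub]
      exact Valuation.map_sub_lt _ hv hlead
    have hd : C π ∣ r.eraseLead := by
      by_cases he : r.natDegree = 0
      · have : r.eraseLead = 0 := by
          rw [eq_C_of_natDegree_eq_zero he]; simp
        rw [this]; exact dvd_zero _
      · have h1 : r.eraseLead.natDegree ≤ r.natDegree - 1 := eraseLead_natDegree_le r
        exact ih _ (by omega) (by omega) herase
    obtain ⟨c, hc⟩ := hπ _ hlc
    rw [← eraseLead_add_C_mul_X_pow r]
    refine dvd_add hd ?_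
    rw [hc, C_mul, mul_assoc]
    exact dvd_mul_right _ _

theorem stepA {R : Type*} [CommRing R] (i : R →+* L) (W : ValuationSubring L)
    (hi : ∀ a, i a ∈ W) (hu : ∀ a, W.valuation (i a) = 1 → IsUnit a) (π : R)
    (hπ1 : W.valuation (i π) < 1)
    (hπ : ∀ a, W.valuation (i a) < 1 → π ∣ a) (θ : L) (hθ : θ ∈ W) (Φ : R[X]) (hmon : Φ.Monic)
    (hroot : eval₂ i θ Φ = 0) (hder : W.valuation (eval₂ i θ (derivative Φ)) = 1) (G : R[X])
    (hG : W.valuation (eval₂ i θ G) < 1) :
    ∃ G₂ h : R[X], W.valuation (eval₂ i θ h) = 1 ∧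
      eval₂ i θ G * eval₂ i θ h = i π * eval₂ i θ G₂ := by
  classical
  have hev : ∀ P : R[X], W.valuation (eval₂ i θ P) ≤ 1 := by
    intro P
    rw [W.valuation_le_one_iff, eval₂_eq_sum_range]
    exact sum_mem fun j _ => mul_mem (hi _) (pow_mem hθ _)
  have hex : ∃ n : ℕ, ∃ g : R[X], g.Monic ∧ g.natDegree = n ∧ W.valuation (eval₂ i θ g) < 1 :=
    ⟨_, Φ, hmon, rfl, by rw [hroot, map_zero]; exact zero_lt_one⟩
  obtain ⟨g, hg, hgn, hgv⟩ := Nat.find_spec hex
  have hmin : ∀ g' : R[X], g'.Monic → g'.natDegree < Nat.find hex →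
      ¬ W.valuation (eval₂ i θ g') < 1 := fun g' h1 h2 h3 => Nat.find_min hex h2 ⟨g', h1, rfl, h3⟩
  rcases subsingleton_or_nontrivial R with hR | hR
  · exfalso
    have : (i 1 : L) = i 0 := by rw [Subsingleton.elim (1 : R) 0]
    rw [map_one, map_zero] at this
    exact one_ne_zero this
  have hg1 : g ≠ 1 := by
    rintro rfl
    rw [eval₂_one, map_one] at hgv
    exact lt_irrefl _ hgv
  have key : ∀ P : R[X], W.valuation (eval₂ i θ P) < 1 →
      ∃ s' : R[X], P = g * (P /ₘ g) + C π * s' := by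
    intro P hP
    have h1 := modByMonic_add_div P g
    have h2 : W.valuation (eval₂ i θ (P %ₘ g)) < 1 := by
      have : P %ₘ g = P - g * (P /ₘ g) := by rw [eq_sub_iff_add_eq, h1]
      rw [this, eval₂_sub, eval₂_mul]
      refine Valuation.map_sub_lt _ hP ?_
      rw [map_mul]
      exact lt_of_le_of_lt (mul_le_of_le_one_right' (hev _)) hgv
    have h3 : (P %ₘ g).natDegree < Nat.find hex := by
      rw [← hgn]; exact natDegree_modByMonic_lt P hg hg1
    obtain ⟨s', hs'⟩ := small_dvd i W hi hu π hπ θ hθ _ hmin _ _ le_rfl h3 h2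
    exact ⟨s', by rw [← hs', add_comm, h1]⟩
  obtain ⟨e, he⟩ := key Φ (by rw [hroot, map_zero]; exact zero_lt_one)
  obtain ⟨s', hs'⟩ := key G hG
  set h := Φ /ₘ g with hh
  refine ⟨s' * h - e * (G /ₘ g), h, ?_, ?_⟩
  · have hd : eval₂ i θ (derivative Φ) = eval₂ i θ (derivative g) * eval₂ i θ h +
        (eval₂ i θ g * eval₂ i θ (derivative h) + i π * eval₂ i θ (derivative e)) := by
      conv_lhs => rw [he]
      simp only [derivative_add, derivative_mul, derivative_C, eval₂_add, eval₂_mul, eval₂_C,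
        zero_mul, zero_add]
      ring
    have hsm : W.valuation (eval₂ i θ g * eval₂ i θ (derivative h) +
        i π * eval₂ i θ (derivative e)) < 1 := by
      refine Valuation.map_add_lt _ ?_ ?_
      · rw [map_mul]
        exact lt_of_le_of_lt (mul_le_of_le_one_right' (hev _)) hgv
      · rw [map_mul]
        exact lt_of_le_of_lt (mul_le_of_le_one_right' (hev _)) hπ1
    by_contra hne
    have hlt : W.valuation (eval₂ i θ h) < 1 := lt_of_le_of_ne (hev _) hne
    have : W.valuation (eval₂ i θ (derivative Φ)) < 1 := by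
      rw [hd]
      refine Valuation.map_add_lt _ ?_ hsm
      rw [map_mul]
      exact lt_of_le_of_lt (mul_le_of_le_one_left' (hev _)) hlt
    rw [hder] at this
    exact lt_irrefl _ this
  · have h1 : eval₂ i θ G = eval₂ i θ g * eval₂ i θ (G /ₘ g) + i π * eval₂ i θ s' := by
      conv_lhs => rw [hs']
      simp only [eval₂_add, eval₂_mul, eval₂_C]
    have h2 : eval₂ i θ g * eval₂ i θ h = - (i π * eval₂ i θ e) := by
      have : eval₂ i θ Φ = eval₂ i θ g * eval₂ i θ h + i π * eval₂ i θ e := by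
        conv_lhs => rw [he]
        simp only [eval₂_add, eval₂_mul, eval₂_C]
      rw [hroot] at this
      rw [eq_neg_iff_add_eq_zero, ← this]
    simp only [eval₂_sub, eval₂_mul]
    rw [h1]
    linear_combination (eval₂ i θ (G /ₘ g)) * h2

theorem exists_clear (W : ValuationSubring L) (π : F)
    (hπ : W.valuation (algebraMap F L π) < 1)
    (hF : ∀ z : F, z ≠ 0 → ∃ n : ℤ, W.valuation (algebraMap F L (z * π ^ n)) = 1) (P : F[X]) :
    ∃ M : ℕ, ∀ j, M ≤ j → IntCoeff W (C (π ^ j) * P) := by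
  have hone : ∀ a : F, ∃ M : ℕ, ∀ j, M ≤ j → algebraMap F L (π ^ j * a) ∈ W := by
    intro a
    by_cases ha : a = 0
    · exact ⟨0, fun j _ => by rw [ha, mul_zero, map_zero]; exact zero_mem _⟩
    obtain ⟨n, hn⟩ := hF a ha
    refine ⟨n.toNat, fun j hj => ?_⟩
    by_cases hπ0 : π = 0
    · by_cases hj0 : j = 0
      · subst hj0
        have hn0 : n ≤ 0 := by
          have : n.toNat = 0 := by omega
          omega
        rcases hn0.lt_or_eq with h | h
        · rw [hπ0, zero_zpow _ h.ne, mul_zero, map_zero, map_zero] at hn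
          exact absurd hn zero_ne_one
        · rw [h, zpow_zero, mul_one] at hn
          rw [pow_zero, one_mul, ← W.valuation_le_one_iff, hn]
      · rw [hπ0, zero_pow hj0, zero_mul, map_zero]; exact zero_mem _
    · have h1 : π ^ j * a = (a * π ^ n) * π ^ (j - n.toNat) * π ^ (n.toNat - n).toNat := by
        have h2 : π ^ j * a = a * (π ^ n * π ^ ((j : ℤ) - n)) := by
          rw [← zpow_add₀ hπ0]
          have : n + ((j : ℤ) - n) = j := by ring
          rw [this, zpow_natCast, mul_comm]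
        rw [h2, ← mul_assoc, mul_assoc (a * π ^ n)]
        congr 1
        rw [← pow_add, ← zpow_natCast]
        congr 1
        push_cast
        omega
      rw [h1, map_mul, map_mul, map_pow, map_pow, ← W.valuation_le_one_iff, map_mul, map_mul, hn,
        map_pow, map_pow, one_mul]
      exact mul_le_one' (pow_le_one₀ zero_le hπ.le) (pow_le_one₀ zero_le hπ.le)
  induction P using Polynomial.induction_on' with
  | add P Q hP hQ =>
    obtain ⟨M, hM⟩ := hP
    obtain ⟨N, hN⟩ := hQ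
    refine ⟨max M N, fun j hj => ?_⟩
    rw [mul_add]
    exact (hM j (le_trans (le_max_left _ _) hj)).add (hN j (le_trans (le_max_right _ _) hj))
  | monomial m a =>
    obtain ⟨M, hM⟩ := hone a
    refine ⟨M, fun j hj i => ?_⟩
    rw [C_mul_monomial, coeff_monomial]
    split_ifs
    · exact hM j hj
    · rw [map_zero]; exact zero_mem _

/-- the unramified lemma, including the description of the residues: if `θ` is integral over
`F ∩ W` and `Φ'(θ)` is a unit at `W`, every `z ≠ 0` in `F(θ)` is a power of `π` times a unit, and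
the unit is a quotient of polynomials in `θ` with integral coefficients which are units. -/
theorem unr_core (W : ValuationSubring L) (π : F)
    (hπ0 : π ≠ 0) (hπ : W.valuation (algebraMap F L π) < 1)
    (hF : ∀ z : F, z ≠ 0 → ∃ n : ℤ, W.valuation (algebraMap F L (z * π ^ n)) = 1)
    (θ : L) (Φ : F[X]) (hmon : Φ.Monic) (hint : IntCoeff W Φ)
    (hroot : aeval θ Φ = 0) (hder : W.valuation (aeval θ (derivative Φ)) = 1)
    (z : L) (hz : z ∈ F⟮θ⟯) (hz0 : z ≠ 0) :
    ∃ (n : ℤ) (G H : F[X]), IntCoeff W G ∧ IntCoeff W H ∧ W.valuation (aeval θ H) = 1 ∧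
      W.valuation (aeval θ G) = 1 ∧ z * algebraMap F L π ^ n * aeval θ H = aeval θ G := by
  classical
  have hθ : θ ∈ W := mem_of_root hmon hint hroot
  have hπL0 : algebraMap F L π ≠ 0 := by
    rw [Ne, map_eq_zero]; exact hπ0
  have hWπ0 : W.valuation (algebraMap F L π) ≠ 0 := (Valuation.ne_zero_iff _).2 hπL0
  have hWπpos : 0 < W.valuation (algebraMap F L π) := zero_lt_iff.2 hWπ0
  set R := W.comap (algebraMap F L) with hR
  let i : R →+* L := (algebraMap F L).comp R.subtype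
  have hi : ∀ a : R, i a ∈ W := fun a => a.2
  have hiπ : algebraMap F L π ∈ W := (W.valuation_le_one_iff _).1 hπ.le
  let π' : R := ⟨π, hiπ⟩
  have hu : ∀ a : R, W.valuation (i a) = 1 → IsUnit a := by
    intro a ha
    have ha0 : (a : F) ≠ 0 := by
      intro h
      have : i a = 0 := by change algebraMap F L (a : F) = 0; rw [h, map_zero]
      rw [this, map_zero] at ha; exact zero_ne_one ha
    have hinv : algebraMap F L (a : F)⁻¹ ∈ W := by
      rw [map_inv₀, ← W.valuation_le_one_iff, map_inv₀]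
      have : W.valuation (algebraMap F L (a : F)) = 1 := ha
      rw [this, inv_one]
    refine IsUnit.of_mul_eq_one (⟨(a : F)⁻¹, hinv⟩ : R) ?_
    ext
    exact mul_inv_cancel₀ ha0
  have hdvd : ∀ a : R, W.valuation (i a) < 1 → π' ∣ a := by
    intro a ha
    by_cases ha0 : (a : F) = 0
    · have : a = 0 := by ext; exact ha0
      rw [this]; exact dvd_zero _
    obtain ⟨n, hn⟩ := hF _ ha0
    have hn0 : n < 0 := by
      by_contra hcon
      obtain ⟨m, rfl⟩ := Int.eq_ofNat_of_zero_le (not_lt.1 hcon)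
      rw [zpow_natCast, map_mul, map_mul, map_pow, map_pow] at hn
      have h1 : W.valuation (algebraMap F L (a : F)) * W.valuation (algebraMap F L π) ^ m < 1 :=
        lt_of_le_of_lt (mul_le_of_le_one_right' (pow_le_one₀ zero_le hπ.le)) ha
      rw [hn] at h1; exact lt_irrefl _ h1
    obtain ⟨m, hm⟩ := Int.eq_ofNat_of_zero_le (show 0 ≤ -n - 1 by omega)
    have hn' : n = -((m : ℤ) + 1) := by
      have : -n - 1 = (m : ℤ) := hm
      omega
    have hq : algebraMap F L ((a : F) * π⁻¹) ∈ W := by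
      have h2 : (a : F) * π⁻¹ = (a : F) * π ^ n * π ^ m := by
        rw [mul_assoc, hn', ← zpow_natCast π m, ← zpow_add₀ hπ0]
        congr 1
        rw [show (-((m : ℤ) + 1) + (m : ℤ)) = -1 by ring, zpow_neg_one]
      rw [h2, map_mul, map_pow, ← W.valuation_le_one_iff, map_mul, map_pow, hn, one_mul]
      exact pow_le_one₀ zero_le hπ.le
    refine ⟨⟨(a : F) * π⁻¹, hq⟩, ?_⟩
    ext
    change (a : F) = π * ((a : F) * π⁻¹)
    field_simp
  -- lifting of polynomials
  have hlift : ∀ P : F[X], IntCoeff W P → ∃ P' : R[X], P'.map R.subtype = P := by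
    intro P hP
    refine ⟨P.toSubring R.toSubring ?_, ?_⟩
    · intro a ha
      obtain ⟨j, -, rfl⟩ := Polynomial.mem_coeffs_iff.1 ha
      exact hP j
    · exact Polynomial.map_toSubring P R.toSubring _
  have hunlift : ∀ P' : R[X], IntCoeff W (P'.map R.subtype) := by
    intro P' j
    rw [coeff_map]
    exact (P'.coeff j).2
  have hev : ∀ P' : R[X], eval₂ i θ P' = aeval θ (P'.map R.subtype) := by
    intro P'
    rw [aeval_def, eval₂_map]
  obtain ⟨Φ', hΦ'⟩ := hlift Φ hint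
  have hmon' : Φ'.Monic := by
    apply Polynomial.monic_of_injective (f := R.subtype) R.subtype_injective
    rw [hΦ']; exact hmon
  have hroot' : eval₂ i θ Φ' = 0 := by rw [hev, hΦ', hroot]
  have hder' : W.valuation (eval₂ i θ (derivative Φ')) = 1 := by
    rw [hev, ← derivative_map, hΦ', hder]
  have hstep := stepA i W hi hu π' (show W.valuation (i π') < 1 from hπ) hdvd θ hθ Φ' hmon' hroot'
    hder'
  have hevle : ∀ P : R[X], W.valuation (eval₂ i θ P) ≤ 1 := by
    intro P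
    rw [W.valuation_le_one_iff, eval₂_eq_sum_range]
    exact sum_mem fun j _ => mul_mem (hi _) (pow_mem hθ _)
  -- iteration
  have hiter : ∀ N : ℕ, ∀ y : L, (∃ G H : R[X], W.valuation (eval₂ i θ H) = 1 ∧
      y * eval₂ i θ H = eval₂ i θ G) → W.valuation (algebraMap F L π) ^ N < W.valuation y →
      ∃ (n : ℕ) (G H : R[X]), W.valuation (eval₂ i θ H) = 1 ∧ W.valuation (eval₂ i θ G) = 1 ∧
        y * eval₂ i θ H = algebraMap F L π ^ n * eval₂ i θ G := by
    intro N
    induction N with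
    | zero =>
      rintro y ⟨G, H, hH, hy⟩ hlt
      exfalso
      have h1 := congrArg W.valuation hy
      rw [map_mul, hH, mul_one] at h1
      rw [pow_zero, h1] at hlt
      exact absurd hlt (not_lt.2 (hevle G))
    | succ N ih =>
      rintro y ⟨G, H, hH, hy⟩ hlt
      have h1 := congrArg W.valuation hy
      rw [map_mul, hH, mul_one] at h1
      by_cases hG : W.valuation (eval₂ i θ G) = 1
      · exact ⟨0, G, H, hH, hG, by rw [pow_zero, one_mul, hy]⟩
      have hG' : W.valuation (eval₂ i θ G) < 1 := lt_of_le_of_ne (hevle G) hG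
      obtain ⟨G₂, h, hh, hGh⟩ := hstep G hG'
      have hy2 : (y / algebraMap F L π) * eval₂ i θ (H * h) = eval₂ i θ G₂ := by
        rw [eval₂_mul, div_mul_eq_mul_div, div_eq_iff hπL0]
        calc y * (eval₂ i θ H * eval₂ i θ h) = (y * eval₂ i θ H) * eval₂ i θ h := by ring
          _ = eval₂ i θ G * eval₂ i θ h := by rw [hy]
          _ = i π' * eval₂ i θ G₂ := hGh
          _ = eval₂ i θ G₂ * algebraMap F L π := mul_comm _ _
      have hlt2 : W.valuation (algebraMap F L π) ^ N <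
          W.valuation (y / algebraMap F L π) := by
        rw [map_div₀, lt_div_iff₀ hWπpos, ← pow_succ]
        exact hlt
      obtain ⟨n, G₃, H₃, hH₃, hG₃, hy3⟩ := ih (y / algebraMap F L π) ⟨G₂, H * h, by
        rw [eval₂_mul, map_mul, hH, hh, one_mul], hy2⟩ hlt2
      refine ⟨n + 1, G₃, H₃, hH₃, hG₃, ?_⟩
      rw [div_mul_eq_mul_div, div_eq_iff hπL0] at hy3
      rw [hy3, pow_succ]; ring
  -- representation of z
  have hθint : IsIntegral F θ := ⟨Φ, hmon, by rw [← aeval_def]; exact hroot⟩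
  have hzA : z ∈ Algebra.adjoin F {θ} := by
    rw [← IntermediateField.adjoin_simple_toSubalgebra_of_isAlgebraic hθint.isAlgebraic]
    exact hz
  rw [Algebra.adjoin_singleton_eq_range_aeval] at hzA
  obtain ⟨P, hP⟩ := hzA
  obtain ⟨M, hM⟩ := exists_clear W π hπ hF P
  obtain ⟨P', hP'⟩ := hlift _ (hM M le_rfl)
  set y := algebraMap F L π ^ M * z with hydef
  have hy0 : y ≠ 0 := mul_ne_zero (pow_ne_zero _ hπL0) hz0
  have hyP : y = eval₂ i θ P' := by
    rw [hev, hP', map_mul, aeval_C, map_pow]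
    change _ = _ * (aeval θ) P
    rw [show (aeval θ) P = z from hP]
  have hyW : y ∈ W := by rw [hyP, ← W.valuation_le_one_iff]; exact hevle _
  -- lower bound
  have hyalg : IsAlgebraic F y := by
    have hyF : y ∈ F⟮θ⟯ := by
      rw [hydef, ← map_pow]
      exact mul_mem (IntermediateField.algebraMap_mem _ _) hz
    have : FiniteDimensional F F⟮θ⟯ := IntermediateField.adjoin.finiteDimensional hθint
    have := Algebra.IsAlgebraic.isAlgebraic (R := F) (⟨y, hyF⟩ : F⟮θ⟯)
    exact (isAlgebraic_algebraMap_iff (algebraMap F⟮θ⟯ L).injective).2 this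
  have hlow : ∃ N : ℕ, W.valuation (algebraMap F L π) ^ N < W.valuation y := by
    set p := minpoly F y with hp
    have hp0 : p.coeff 0 ≠ 0 := minpoly.coeff_zero_ne_zero hyalg.isIntegral hy0
    obtain ⟨M₂, hM₂⟩ := exists_clear W π hπ hF p
    have hq := hM₂ M₂ le_rfl
    set q := C (π ^ M₂) * p with hqdef
    have hq0 : q.coeff 0 ≠ 0 := by
      rw [hqdef, coeff_C_mul]; exact mul_ne_zero (pow_ne_zero _ hπ0) hp0
    have hqy : aeval y q = 0 := by rw [hqdef, map_mul, hp, minpoly.aeval, mul_zero]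
    have h1 : algebraMap F L (q.coeff 0) = - (y * aeval y q.divX) := by
      have h2 : aeval y (q.divX * X + C (q.coeff 0)) = 0 := by rw [divX_mul_X_add, hqy]
      rw [map_add, map_mul, aeval_X, aeval_C] at h2
      rw [eq_neg_iff_add_eq_zero, ← h2]; ring
    have h3 : W.valuation (algebraMap F L (q.coeff 0)) ≤ W.valuation y := by
      rw [h1, Valuation.map_neg, map_mul]
      refine mul_le_of_le_one_right' ?_
      rw [W.valuation_le_one_iff]
      refine aeval_mem hyW ?_
      intro j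
      rw [coeff_divX]; exact hq _
    obtain ⟨n, hn⟩ := hF _ hq0
    refine ⟨(-n).toNat + 1, lt_of_lt_of_le ?_ h3⟩
    rw [map_mul, map_mul, map_zpow₀, map_zpow₀] at hn
    have h4 : W.valuation (algebraMap F L (q.coeff 0)) =
        (W.valuation (algebraMap F L π) ^ n)⁻¹ := eq_inv_of_mul_eq_one_left hn
    rw [h4, ← zpow_neg, ← zpow_natCast]
    refine zpow_lt_zpow_right_of_lt_one₀ hWπpos hπ ?_
    push_cast
    omega
  obtain ⟨N, hN⟩ := hlow
  obtain ⟨n, G, H, hH, hG, hyGH⟩ := hiter N y ⟨P', 1, by rw [eval₂_one, map_one], by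
    rw [eval₂_one, mul_one, hyP]⟩ hN
  refine ⟨(M : ℤ) - n, G.map R.subtype, H.map R.subtype, hunlift _, hunlift _, ?_, ?_, ?_⟩
  · rw [← hev]; exact hH
  · rw [← hev]; exact hG
  · rw [← hev, ← hev, zpow_sub₀ hπL0, zpow_natCast, zpow_natCast]
    have hpn : algebraMap F L π ^ n ≠ 0 := pow_ne_zero _ hπL0
    field_simp
    rw [hydef] at hyGH
    linear_combination hyGH

theorem unr (W : ValuationSubring L) (π : F)
    (hπ0 : π ≠ 0) (hπ : W.valuation (algebraMap F L π) < 1)
    (hF : ∀ z : F, z ≠ 0 → ∃ n : ℤ, W.valuation (algebraMap F L (z * π ^ n)) = 1)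
    (θ : L) (Φ : F[X]) (hmon : Φ.Monic) (hint : IntCoeff W Φ)
    (hroot : aeval θ Φ = 0) (hder : W.valuation (aeval θ (derivative Φ)) = 1) :
    ∀ z ∈ F⟮θ⟯, z ≠ 0 → ∃ n : ℤ, W.valuation (z * algebraMap F L π ^ n) = 1 := by
  intro z hz hz0
  obtain ⟨n, G, H, -, -, hH, hG, h⟩ := unr_core W π hπ0 hπ hF θ Φ hmon hint hroot hder z hz hz0
  refine ⟨n, ?_⟩
  have := congrArg W.valuation h
  rwa [map_mul, hH, hG, mul_one] at this

end Unr

end Vale.Agent.P019
end

section

namespace Vale.Agent.P019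

open Polynomial

variable {K : Type*} [Field K]

/-- the valuation subring `W` is trivial on the subfield `F`. -/
def TrivOn (W : ValuationSubring K) (F : Subfield K) : Prop := ∀ c ∈ F, c ∈ W

theorem TrivOn.mono {W : ValuationSubring K} {F F' : Subfield K} (h : TrivOn W F)
    (hF : F' ≤ F) : TrivOn W F' := fun c hc => h c (hF hc)

theorem TrivOn.le_one {W : ValuationSubring K} {F : Subfield K} (h : TrivOn W F) {c : K}
    (hc : c ∈ F) : W.valuation c ≤ 1 := (W.valuation_le_one_iff _).2 (h c hc)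

theorem TrivOn.eq_one {W : ValuationSubring K} {F : Subfield K} (h : TrivOn W F) {c : K}
    (hc : c ∈ F) (hc0 : c ≠ 0) : W.valuation c = 1 := by
  refine le_antisymm (h.le_one hc) ?_
  have h1 := h.le_one (F.inv_mem hc)
  rw [map_inv₀] at h1
  have h0 : 0 < W.valuation c := zero_lt_iff.2 ((Valuation.ne_zero_iff _).2 hc0)
  exact (inv_le_one₀ h0).1 h1

theorem TrivOn.eq_zero {W : ValuationSubring K} {F : Subfield K} (h : TrivOn W F) {c : K}
    (hc : c ∈ F) (hlt : W.valuation c < 1) : c = 0 := by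
  by_contra h0
  rw [h.eq_one hc h0] at hlt
  exact lt_irrefl _ hlt

/-- elements algebraic over a trivially valued subfield are integral. -/
theorem TrivOn.mem_of_isAlgebraic {W : ValuationSubring K} {F : Subfield K} (h : TrivOn W F)
    {z : K} (hz : IsAlgebraic F z) : z ∈ W := by
  have hint := hz.isIntegral
  refine mem_of_root (F := F) (θ := z) (Φ := minpoly F z) (minpoly.monic hint) ?_
    (minpoly.aeval F z)
  intro i
  exact h _ ((minpoly F z).coeff i).2

theorem TrivOn.eq_one_of_isAlgebraic {W : ValuationSubring K} {F : Subfield K}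
    (h : TrivOn W F) {z : K} (hz : IsAlgebraic F z) (h0 : z ≠ 0) : W.valuation z = 1 := by
  refine le_antisymm ((W.valuation_le_one_iff _).2 (h.mem_of_isAlgebraic hz)) ?_
  have h1 := (W.valuation_le_one_iff _).2 (h.mem_of_isAlgebraic hz.inv)
  rw [map_inv₀] at h1
  have h0 : 0 < W.valuation z := zero_lt_iff.2 ((Valuation.ne_zero_iff _).2 h0)
  exact (inv_le_one₀ h0).1 h1

/-- existence of valuation rings centred at a proper ideal. -/
theorem exists_val_of_proper (A : Subring K) (I : Ideal A) (hI : I ≠ ⊤) :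
    ∃ W : ValuationSubring K, (∀ a ∈ A, a ∈ W) ∧
      ∀ a : A, a ∈ I → W.valuation (a : K) < 1 := by
  obtain ⟨B, hB1, hB2⟩ := Ideal.image_subset_nonunits_valuationSubring I hI
  refine ⟨B, fun a ha => hB1 ha, fun a ha => ?_⟩
  have := hB2 ⟨a, ha, rfl⟩
  exact (ValuationSubring.mem_nonunits_iff B).1 this

theorem exists_triv (F : Subfield K) (X : K) (hX : Transcendental F X) :
    ∃ W : ValuationSubring K, TrivOn W F ∧ W.valuation X < 1 := by
  let A : Subring K := (Algebra.adjoin F {X}).toSubring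
  have hXA : X ∈ A := Algebra.self_mem_adjoin_singleton F X
  have hprop : (Ideal.span {(⟨X, hXA⟩ : A)}) ≠ ⊤ := by
    intro h
    rw [Ideal.eq_top_iff_one, Ideal.mem_span_singleton'] at h
    obtain ⟨⟨a, ha⟩, h⟩ := h
    have h1 : a * X = 1 := congrArg Subtype.val h
    have ha' : a ∈ Algebra.adjoin F {X} := ha
    rw [Algebra.adjoin_singleton_eq_range_aeval] at ha'
    obtain ⟨P, hP⟩ := ha'
    have hP' : aeval X P = a := hP
    have h2 : aeval X (P * Polynomial.X - 1 : F[X]) = 0 := by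
      rw [map_sub, map_mul, aeval_X, map_one, hP', h1, sub_self]
    have h3 : (P * Polynomial.X - 1 : F[X]) = 0 := by
      by_contra hne
      exact hX ⟨_, hne, h2⟩
    have h4 := congrArg (fun q => Polynomial.coeff q 0) h3
    simp at h4
  obtain ⟨W, hW1, hW2⟩ := exists_val_of_proper A _ hprop
  refine ⟨W, fun c hc => hW1 c ?_, hW2 ⟨X, hXA⟩ (Ideal.mem_span_singleton_self _)⟩
  exact Subalgebra.algebraMap_mem _ (⟨c, hc⟩ : F)

section gauss

variable {F : Subfield K} {X : K} {W : ValuationSubring K}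

theorem val_of_sub {W : ValuationSubring K} {z c : K} (hc : W.valuation c = 1)
    (h : W.valuation (z - c) < 1) : W.valuation z = 1 := by
  have : z = c + (z - c) := by ring
  rw [this, Valuation.map_add_eq_of_lt_left, hc]
  rwa [hc]

theorem aeval_sub_coeff (hWF : TrivOn W F) (hWX : W.valuation X < 1) (P : F[X]) :
    W.valuation (aeval X P - (P.coeff 0 : K)) < 1 := by
  have h1 : aeval X P - (P.coeff 0 : K) = X * aeval X P.divX := by
    have h2 := congrArg (aeval X) (divX_mul_X_add P)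
    rw [map_add, map_mul, aeval_X, aeval_C] at h2
    rw [← h2]
    change _ + (P.coeff 0 : K) - (P.coeff 0 : K) = _
    ring
  rw [h1, map_mul]
  refine lt_of_le_of_lt (mul_le_of_le_one_right' ?_) hWX
  rw [W.valuation_le_one_iff]
  exact aeval_mem ((W.valuation_le_one_iff _).1 hWX.le) (fun i => hWF _ (P.divX.coeff i).2)

/-- nonzero elements of `F(X)` are `X^n` times a unit with residue in `F`. -/
theorem exists_residue (hWF : TrivOn W F) (hWX : W.valuation X < 1) (hX0 : X ≠ 0) {z : K}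
    (hz : z ∈ IntermediateField.adjoin F {X}) (hz0 : z ≠ 0) :
    ∃ (n : ℤ) (c : K), c ∈ F ∧ c ≠ 0 ∧ W.valuation (z * X ^ n - c) < 1 := by
  have hpoly : ∀ P : F[X], aeval X P ≠ 0 → ∃ (n : ℕ) (c u : K), c ∈ F ∧ c ≠ 0 ∧
      aeval X P = X ^ n * u ∧ W.valuation (u - c) < 1 := by
    intro P hP
    have hP0 : P ≠ 0 := by rintro rfl; exact hP (map_zero _)
    obtain ⟨Q, hQ, hQ2⟩ := exists_eq_pow_rootMultiplicity_mul_and_not_dvd P hP0 0
    rw [C_0, sub_zero] at hQ hQ2
    refine ⟨P.rootMultiplicity 0, Q.coeff 0, aeval X Q, (Q.coeff 0).2, ?_, ?_,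
      aeval_sub_coeff hWF hWX Q⟩
    · intro h
      apply hQ2
      rw [X_dvd_iff]
      exact Subtype.ext h
    · conv_lhs => rw [hQ]
      rw [map_mul, map_pow, aeval_X]
  rw [IntermediateField.mem_adjoin_simple_iff] at hz
  obtain ⟨P, Q, rfl⟩ := hz
  have hP : aeval X P ≠ 0 := fun h => hz0 (by rw [h, zero_div])
  have hQ : aeval X Q ≠ 0 := fun h => hz0 (by rw [h, div_zero])
  obtain ⟨n, c, u, hc, hc0, h1, h2⟩ := hpoly P hP
  obtain ⟨m, d, v, hd, hd0, h3, h4⟩ := hpoly Q hQ
  have hu : W.valuation u = 1 := val_of_sub (hWF.eq_one hc hc0) h2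
  have hv : W.valuation v = 1 := val_of_sub (hWF.eq_one hd hd0) h4
  have hv0 : v ≠ 0 := by rintro rfl; rw [map_zero] at hv; exact zero_ne_one hv
  refine ⟨(m : ℤ) - n, c / d, F.div_mem hc hd, div_ne_zero hc0 hd0, ?_⟩
  have e1 : aeval X P / aeval X Q * X ^ ((m : ℤ) - n) = u / v := by
    rw [h1, h3, zpow_sub₀ hX0, zpow_natCast, zpow_natCast]
    have : X ^ n ≠ 0 := pow_ne_zero _ hX0
    have : X ^ m ≠ 0 := pow_ne_zero _ hX0
    field_simp
  rw [e1]
  have e2 : u / v - c / d = ((u - c) * d - c * (v - d)) / (v * d) := by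
    field_simp; ring
  rw [e2, map_div₀, map_mul, hv, hWF.eq_one hd hd0, mul_one, div_one]
  refine Valuation.map_sub_lt _ ?_ ?_
  · rw [map_mul, hWF.eq_one hd hd0, mul_one]; exact h2
  · rw [map_mul, hWF.eq_one hc hc0, one_mul]; exact h4

theorem isAlgebraic_aeval {F : Subfield K} {θ : K} (hθ : IsAlgebraic F θ) (P : F[X]) :
    IsAlgebraic F (aeval θ P) := by
  have h : aeval θ P ∈ algebraicClosure F K := by
    rw [aeval_eq_sum_range]
    refine sum_mem fun i _ => ?_
    rw [Algebra.smul_def]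
    exact mul_mem (IntermediateField.algebraMap_mem _ _)
      (pow_mem ((mem_algebraicClosure_iff).2 hθ) i)
  exact mem_algebraicClosure_iff.1 h

/-- integral elements of `F(X)` are congruent to elements of `F`. -/
theorem exists_residue_of_le (hWF : TrivOn W F) (hWX : W.valuation X < 1) (hX0 : X ≠ 0) {z : K}
    (hz : z ∈ IntermediateField.adjoin F {X}) (hz1 : W.valuation z ≤ 1) :
    ∃ c : F, W.valuation (z - c) < 1 := by
  by_cases hz0 : z = 0
  · exact ⟨0, by simp [hz0]⟩
  rcases hz1.lt_or_eq with hlt | heq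
  · exact ⟨0, by simpa using hlt⟩
  obtain ⟨n, c, hc, hc0, h⟩ := exists_residue hWF hWX hX0 hz hz0
  have h1 := val_of_sub (hWF.eq_one hc hc0) h
  rw [map_mul, heq, one_mul, map_zpow₀] at h1
  have hn : n = 0 := by
    by_contra hn
    have hpos : 0 < W.valuation X := zero_lt_iff.2 ((Valuation.ne_zero_iff _).2 hX0)
    rcases lt_or_gt_of_ne hn with hn | hn
    · have := zpow_lt_zpow_right_of_lt_one₀ hpos hWX hn
      rw [h1, zpow_zero] at this; exact lt_irrefl _ this
    · have := zpow_lt_zpow_right_of_lt_one₀ hpos hWX hn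
      rw [h1, zpow_zero] at this; exact lt_irrefl _ this
  rw [hn, zpow_zero, mul_one] at h
  exact ⟨⟨c, hc⟩, h⟩

end gauss

end Vale.Agent.P019
end

section

/-!
# Valuations over the generic fibres of a rational function field
-/

namespace Vale.Agent.P019

open Polynomial Filter

variable {N : Type*} [Field N]

/-- `W` is trivial on `G` and `σ` specializes to `b`. -/
structure Over (W : ValuationSubring N) (G : Subfield N) (σ b : N) : Prop where
  triv : TrivOn W G
  lt : W.valuation (σ - b) < 1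

theorem Over.mem {W : ValuationSubring N} {G : Subfield N} {σ b : N} (h : Over W G σ b)
    (hb : b ∈ G) : σ ∈ W := by
  have : σ = (σ - b) + b := by ring
  rw [this]
  exact add_mem ((W.valuation_le_one_iff _).1 h.lt.le) (h.triv _ hb)

theorem aeval_sub_eval {W : ValuationSubring N} {G : Subfield N} {σ : N} {b : G}
    (h : Over W G σ b) (P : G[X]) : W.valuation (aeval σ P - (P.eval b : G)) < 1 := by
  obtain ⟨R, hR⟩ := X_sub_C_dvd_sub_C_eval (a := b) (p := P)
  have h1 := congrArg (aeval σ) hR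
  rw [map_sub, aeval_C, map_mul, map_sub, aeval_X, aeval_C] at h1
  change aeval σ P - ((P.eval b : G) : N) = (σ - (b : N)) * aeval σ R at h1
  rw [h1, map_mul]
  refine lt_of_le_of_lt (mul_le_of_le_one_right' ?_) h.lt
  rw [W.valuation_le_one_iff]
  exact aeval_mem (h.mem b.2) (fun i => h.triv _ (R.coeff i).2)

theorem eval_ne_zero_ae {G : Subfield N} {P : G[X]} (hP : P ≠ 0) :
    ∀ᶠ b : G in cofinite, P.eval b ≠ 0 := by
  rw [eventually_cofinite]
  refine (P.rootSet_finite G).subset ?_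
  intro b hb
  rw [Set.mem_ofPred_eq, not_not] at hb
  rw [mem_rootSet]
  exact ⟨hP, by simpa using hb⟩

theorem unit_ae_of_mem {G : Subfield N} {σ h : N}
    (hh : h ∈ IntermediateField.adjoin G {σ}) (h0 : h ≠ 0) :
    ∀ᶠ b : G in cofinite, ∀ W : ValuationSubring N, Over W G σ b → W.valuation h = 1 := by
  rw [IntermediateField.mem_adjoin_simple_iff] at hh
  obtain ⟨P, Q, rfl⟩ := hh
  have hP : P ≠ 0 := by rintro rfl; simp at h0
  have hQ : Q ≠ 0 := by rintro rfl; simp at h0
  filter_upwards [eval_ne_zero_ae hP, eval_ne_zero_ae hQ] with b hbP hbQ W hW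
  have key : ∀ R : G[X], R.eval b ≠ 0 → W.valuation (aeval σ R) = 1 := by
    intro R hR
    refine val_of_sub (hW.triv.eq_one (R.eval b : G).2 ?_) (aeval_sub_eval hW R)
    intro h; exact hR (Subtype.ext h)
  rw [map_div₀, key P hbP, key Q hbQ, div_one]

theorem int_ae {G : Subfield N} {σ h : N}
    (_hh : IsAlgebraic (IntermediateField.adjoin G {σ}) h) :
    ∀ᶠ b : G in cofinite, ∀ W : ValuationSubring N, Over W G σ b →
      IntCoeff W (minpoly (IntermediateField.adjoin G {σ}) h) := by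
  set p := minpoly (IntermediateField.adjoin G {σ}) h with hp
  have h1 : ∀ᶠ b : G in cofinite, ∀ i ∈ p.support, ∀ W : ValuationSubring N, Over W G σ b →
      W.valuation (p.coeff i : N) = 1 := by
    rw [Filter.eventually_all_finset]
    intro i hi
    refine unit_ae_of_mem (p.coeff i).2 ?_
    intro h; exact (mem_support_iff.1 hi) (Subtype.ext h)
  filter_upwards [h1] with b hb W hW i
  by_cases hi : i ∈ p.support
  · change (p.coeff i : N) ∈ W
    rw [← W.valuation_le_one_iff]; exact (hb i hi W hW).le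
  · rw [notMem_support_iff.1 hi, map_zero]; exact zero_mem _

theorem mem_ae {G : Subfield N} {σ h : N}
    (hh : IsAlgebraic (IntermediateField.adjoin G {σ}) h) :
    ∀ᶠ b : G in cofinite, ∀ W : ValuationSubring N, Over W G σ b → h ∈ W := by
  filter_upwards [int_ae hh] with b hb W hW
  exact mem_of_root (minpoly.monic hh.isIntegral) (hb W hW) (minpoly.aeval _ _)

theorem unit_ae {G : Subfield N} {σ h : N}
    (hh : IsAlgebraic (IntermediateField.adjoin G {σ}) h) (h0 : h ≠ 0) :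
    ∀ᶠ b : G in cofinite, ∀ W : ValuationSubring N, Over W G σ b → W.valuation h = 1 := by
  filter_upwards [mem_ae hh, mem_ae hh.inv] with b hb hb' W hW
  refine le_antisymm ((W.valuation_le_one_iff _).2 (hb W hW)) ?_
  have h1 := (W.valuation_le_one_iff _).2 (hb' W hW)
  rw [map_inv₀] at h1
  have h2 : 0 < W.valuation h := zero_lt_iff.2 ((Valuation.ne_zero_iff _).2 h0)
  exact (inv_le_one₀ h2).1 h1

theorem adjoin_sub (G : Subfield N) (σ : N) (b : G) :
    IntermediateField.adjoin G {σ - (b : N)} = IntermediateField.adjoin G {σ} := by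
  apply le_antisymm
  · rw [IntermediateField.adjoin_simple_le_iff]
    exact sub_mem (IntermediateField.mem_adjoin_simple_self G σ)
      (IntermediateField.algebraMap_mem _ b)
  · rw [IntermediateField.adjoin_simple_le_iff]
    have : σ = (σ - (b : N)) + algebraMap G N b := by
      change σ = (σ - (b : N)) + (b : N)
      ring
    rw [this]
    exact add_mem (by
      have e : σ - (b : N) + algebraMap G N b - (b : N) = σ - (b : N) := by
        change σ - (b : N) + (b : N) - (b : N) = σ - (b : N)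
        ring
      rw [e]
      exact IntermediateField.mem_adjoin_simple_self G _) (IntermediateField.algebraMap_mem _ b)

end Vale.Agent.P019
end

section

namespace Vale.Agent.P019

open scoped TensorProduct

section UFD

variable {A : Type*} (K : Type*) [CommRing A] [IsDomain A] [UniqueFactorizationMonoid A]
  [Field K] [Algebra A K] [IsFractionRing A K]

variable {K}

end UFD

section fn

variable {K : Type*} [Field K]

end fn

section UFD2

variable {A K : Type*} [CommRing A] [IsDomain A] [UniqueFactorizationMonoid A]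
  [Field K] [Algebra A K] [IsFractionRing A K]

end UFD2

section UFD3

variable {A K : Type*} [CommRing A] [IsDomain A] [UniqueFactorizationMonoid A]
  [Field K] [Algebra A K] [IsFractionRing A K]

end UFD3

end Vale.Agent.P019
end

section

namespace Vale.Agent.P019

open scoped TensorProduct

variable {ℓ : ℕ} [Fact ℓ.Prime] {K L : Type*} [Field K] [Field L]

end Vale.Agent.P019
end

section

/-!
# Definitions for the reconstruction of the field
-/

namespace Vale.Agent.P019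

open Polynomial Filter

section ae

variable {K : Type*} [Field K]

/-- the filter of cofinite subsets of a subfield. -/
def ae (k : Subfield K) : Filter K := cofinite ⊓ 𝓟 (k : Set K)

theorem ae_iff {k : Subfield K} {P : K → Prop} :
    (∀ᶠ a in ae k, P a) ↔ {a : K | a ∈ k ∧ ¬ P a}.Finite := by
  unfold ae
  rw [eventually_inf_principal, eventually_cofinite]
  have : {x : K | ¬ (x ∈ (k : Set K) → P x)} = {a : K | a ∈ k ∧ ¬ P a} := by
    ext x
    simp
  rw [this]

theorem ae_mem (k : Subfield K) : ∀ᶠ a in ae k, a ∈ k := by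
  rw [ae_iff]
  convert Set.finite_empty
  ext x
  simp

theorem ae_mono {k F : Subfield K} (h : k ≤ F) : ae k ≤ ae F :=
  inf_le_inf_left _ (principal_mono.2 h)

end ae

section crv

variable {K : Type*} [Field K]

/-- relatively algebraically closed subfields of transcendence degree one. -/
structure Crv (k E : Subfield K) : Prop where
  le : k ≤ E
  rac : RAC E
  ex : ∃ y ∈ E, y ∉ k ∧ ∀ z ∈ E, IsAlgebraic (adj k y) z

/-- `G` is a field of transcendence degree two below the whole field, with transcendence basis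
`t, s` of the whole field over `G`. -/
structure Frame (k G : Subfield K) (t s : K) : Prop where
  le : k ≤ G
  fg : FG k G
  tt : ¬ IsAlgebraic (adj G s) t
  ss : ¬ IsAlgebraic G s
  alg : ∀ z : K, IsAlgebraic (adj (adj G s) t) z

/-- a discrete valuation, trivial on `F`, with residue field finite over `F`, generated by `θ`. -/
structure Nice (W : ValuationSubring K) (F : Subfield K) (π θ : K) : Prop where
  unif : IsUnif W π
  triv : TrivOn W F
  mem : θ ∈ W
  res : ∀ z : K, W.valuation z ≤ 1 → ∃ P Q : F[X], W.valuation (aeval θ Q) = 1 ∧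
    W.valuation (z * aeval θ Q - aeval θ P) < 1
  alg : ∃ P : F[X], P.Monic ∧ W.valuation (aeval θ P) < 1

end crv

section rk

variable {ℓ : ℕ} {K L : Type*} [Field K] [Field L]

/-- `A` has rank at least two modulo `U`. -/
def Rk2 (A U : Submodule (ZMod ℓ) (V ℓ K)) : Prop :=
  ∃ u ∈ A, ∃ v ∈ A, ∀ i j : ZMod ℓ, i • u + j • v ∈ U → i = 0 ∧ j = 0

end rk

section div

variable {ℓ : ℕ} {K L : Type*} [Field K] [Field L]

variable (ℓ) in
open Classical in
/-- the order functional at `s = b` on the classes of `k(s)`. -/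
noncomputable def del (k : Subfield K) (s b : K) : V ℓ K →ₗ[ZMod ℓ] ZMod ℓ :=
  if h : ∃ f : V ℓ K →ₗ[ZMod ℓ] ZMod ℓ, f (cl ℓ (s - b)) = 1 ∧
      ∀ c ∈ k, c ≠ b → f (cl ℓ (s - c)) = 0 then h.choose else 0

/-- `Θ` maps the classes of `k(s)` onto those of `l(s')`. -/
structure Rt (k : Subfield K) (l : Subfield L) (Θ : V ℓ K ≃ₗ[ZMod ℓ] V ℓ L) (s : K) (s' : L) :
    Prop where
  good : Good k s
  good' : Good l s'
  map : ∀ v, Θ v ∈ VS ℓ (adj l s') ↔ v ∈ VS ℓ (adj k s)

/-- the points `s = b` and `s' = β` correspond. -/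
def Cor (k : Subfield K) (l : Subfield L) (Θ : V ℓ K ≃ₗ[ZMod ℓ] V ℓ L) (s : K) (s' : L)
    (e : ZMod ℓ) (b : K) (β : L) : Prop :=
  ∀ v ∈ VS ℓ (adj k s), del ℓ k s b v = e * del ℓ l s' β (Θ v)

end div

end Vale.Agent.P019
end

section

/-!
# Residue fields of valuation subrings and images of trivially valued subfields
-/

namespace Vale.Agent.P019

open Polynomial Filter

variable {K : Type*} [Field K]

open Classical in
/-- residue of an element (zero for non-integral elements). -/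
noncomputable def rs (W : ValuationSubring K) (z : K) : IsLocalRing.ResidueField W :=
  if h : z ∈ W then IsLocalRing.residue W ⟨z, h⟩ else 0

section

variable {W : ValuationSubring K}

theorem rs_of_mem {z : K} (h : z ∈ W) : rs W z = IsLocalRing.residue W ⟨z, h⟩ := by
  simp [rs, h]

theorem rs_add {x y : K} (hx : x ∈ W) (hy : y ∈ W) : rs W (x + y) = rs W x + rs W y := by
  rw [rs_of_mem hx, rs_of_mem hy, rs_of_mem (add_mem hx hy), ← map_add]
  rfl

theorem rs_mul {x y : K} (hx : x ∈ W) (hy : y ∈ W) : rs W (x * y) = rs W x * rs W y := by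
  rw [rs_of_mem hx, rs_of_mem hy, rs_of_mem (mul_mem hx hy), ← map_mul]
  rfl

theorem rs_neg {x : K} (hx : x ∈ W) : rs W (-x) = -rs W x := by
  rw [rs_of_mem hx, rs_of_mem (neg_mem hx), ← map_neg]
  rfl

theorem rs_sub {x y : K} (hx : x ∈ W) (hy : y ∈ W) : rs W (x - y) = rs W x - rs W y := by
  rw [rs_of_mem hx, rs_of_mem hy, rs_of_mem (sub_mem hx hy), ← map_sub]
  rfl

theorem rs_one : rs W (1 : K) = 1 := by
  rw [rs_of_mem (one_mem W)]
  exact map_one _

theorem rs_zero : rs W (0 : K) = 0 := by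
  rw [rs_of_mem (zero_mem W)]
  exact map_zero _

theorem rs_pow {x : K} (hx : x ∈ W) (n : ℕ) : rs W (x ^ n) = rs W x ^ n := by
  induction n with
  | zero => rw [pow_zero, pow_zero, rs_one]
  | succ n ih => rw [pow_succ, pow_succ, rs_mul (pow_mem hx n) hx, ih]

theorem rs_eq_zero {x : K} (hx : x ∈ W) : rs W x = 0 ↔ W.valuation x < 1 := by
  rw [rs_of_mem hx, IsLocalRing.residue_eq_zero_iff, ValuationSubring.valuation_lt_one_iff]

theorem rs_eq {x y : K} (hx : x ∈ W) (hy : y ∈ W) :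
    rs W x = rs W y ↔ W.valuation (x - y) < 1 := by
  rw [← sub_eq_zero, ← rs_sub hx hy, rs_eq_zero (sub_mem hx hy)]

theorem rs_ne_zero {x : K} (hx : x ∈ W) : rs W x ≠ 0 ↔ W.valuation x = 1 := by
  rw [Ne, rs_eq_zero hx]
  have h := (W.valuation_le_one_iff x).2 hx
  constructor
  · intro h'; exact le_antisymm h (not_lt.1 h')
  · intro h' h''; rw [h'] at h''; exact lt_irrefl _ h''

theorem rs_surj (c : IsLocalRing.ResidueField W) : ∃ z ∈ W, rs W z = c := by
  obtain ⟨z, hz⟩ := IsLocalRing.residue_surjective c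
  refine ⟨z, z.2, ?_⟩
  rw [rs_of_mem z.2, ← hz]

theorem mem_of_val {z : K} (h : W.valuation z = 1) : z ∈ W :=
  (W.valuation_le_one_iff z).1 h.le

theorem rs_inv {z : K} (h : W.valuation z = 1) : rs W z⁻¹ = (rs W z)⁻¹ := by
  have h' : W.valuation z⁻¹ = 1 := by rw [map_inv₀, h, inv_one]
  have hz0 : z ≠ 0 := by rintro rfl; rw [map_zero] at h; exact zero_ne_one h
  apply eq_inv_of_mul_eq_one_left
  rw [← rs_mul (mem_of_val h') (mem_of_val h), inv_mul_cancel₀ hz0, rs_one]

end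

section bar

variable {W : ValuationSubring K} {E : Subfield K}

/-- the residue map on a trivially valued subfield. -/
noncomputable def barHom (h : TrivOn W E) : E →+* IsLocalRing.ResidueField W where
  toFun e := rs W e
  map_one' := rs_one
  map_zero' := rs_zero
  map_add' x y := rs_add (h _ x.2) (h _ y.2)
  map_mul' x y := rs_mul (h _ x.2) (h _ y.2)

/-- the image of a trivially valued subfield in the residue field. -/
noncomputable def bar (h : TrivOn W E) : Subfield (IsLocalRing.ResidueField W) :=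
  (barHom h).fieldRange

theorem mem_bar (h : TrivOn W E) {c : IsLocalRing.ResidueField W} :
    c ∈ bar h ↔ ∃ e ∈ E, rs W e = c := by
  constructor
  · rintro ⟨e, rfl⟩; exact ⟨e, e.2, rfl⟩
  · rintro ⟨e, he, rfl⟩; exact ⟨⟨e, he⟩, rfl⟩

theorem rs_mem_bar (h : TrivOn W E) {e : K} (he : e ∈ E) : rs W e ∈ bar h :=
  (mem_bar h).2 ⟨e, he, rfl⟩

theorem rs_injOn (h : TrivOn W E) {e e' : K} (he : e ∈ E) (he' : e' ∈ E)
    (heq : rs W e = rs W e') : e = e' := by
  rw [rs_eq (h _ he) (h _ he')] at heq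
  exact sub_eq_zero.1 (h.eq_zero (E.sub_mem he he') heq)

/-- the residue map on a trivially valued subfield as an isomorphism onto its image. -/
noncomputable def barEquiv (h : TrivOn W E) : E ≃+* bar h :=
  RingEquiv.ofBijective (barHom h).rangeRestrictField
    ⟨(barHom h).rangeRestrictField.injective, by
      rintro ⟨c, e, he⟩
      exact ⟨e, Subtype.ext he⟩⟩

theorem bar_mono {E' : Subfield K} (h : TrivOn W E) (h' : TrivOn W E') (hE : E ≤ E') :
    bar h ≤ bar h' := by
  intro c hc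
  obtain ⟨e, he, rfl⟩ := (mem_bar h).1 hc
  exact rs_mem_bar h' (hE he)

theorem bar_isAlgClosed (h : TrivOn W E) (hE : IsAlgClosed E) : IsAlgClosed (bar h) :=
  IsAlgClosed.of_ringEquiv _ _ (barEquiv h)

theorem bar_adj (h : TrivOn W E) {x : K} (hx : TrivOn W (adj E x)) :
    bar hx = adj (bar h) (rs W x) := by
  apply le_antisymm
  · have key : ∀ e ∈ adj E x, rs W e ∈ adj (bar h) (rs W x) := by
      intro e he
      have h1 : adj E x ≤ ((adj (bar h) (rs W x)).comap (barHom hx)).map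
          (adj E x).subtype := by
        refine adj_le ?_ ?_
        · intro c hc
          exact ⟨⟨c, le_adj E x hc⟩, le_adj _ _ (rs_mem_bar h hc), rfl⟩
        · exact ⟨⟨x, mem_adj E x⟩, mem_adj _ _, rfl⟩
      obtain ⟨⟨c, hc⟩, hc', rfl⟩ := h1 he
      exact hc'
    intro c hc
    obtain ⟨e, he, rfl⟩ := (mem_bar hx).1 hc
    exact key e he
  · refine adj_le (bar_mono h hx (le_adj E x)) (rs_mem_bar hx (mem_adj E x))

/-- reduction of a polynomial with coefficients in a trivially valued subfield. -/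
theorem rs_aeval (h : TrivOn W E) {z : K} (hz : z ∈ W) (P : E[X]) :
    rs W (aeval z P) = aeval (rs W z) (P.map (barEquiv h).toRingHom) := by
  have hz' : ∀ Q : E[X], aeval z Q ∈ W := fun Q => aeval_mem hz (fun i => h _ (Q.coeff i).2)
  induction P using Polynomial.induction_on' with
  | add p q hp hq =>
    rw [map_add, rs_add (hz' p) (hz' q), hp, hq, Polynomial.map_add, map_add]
  | monomial n a =>
    rw [← C_mul_X_pow_eq_monomial, map_mul, aeval_C, map_pow, aeval_X, Polynomial.map_mul,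
      map_C, Polynomial.map_pow, map_X, map_mul, aeval_C, map_pow, aeval_X]
    change rs W ((a : K) * z ^ n) = _
    rw [rs_mul (h _ a.2) (pow_mem hz n), rs_pow hz]
    rfl

theorem isAlgebraic_bar (h : TrivOn W E) {z : K} (hz : z ∈ W) (halg : IsAlgebraic E z) :
    IsAlgebraic (bar h) (rs W z) := by
  refine ⟨(minpoly E z).map (barEquiv h).toRingHom, ?_, ?_⟩
  · exact (Monic.map _ (minpoly.monic halg.isIntegral)).ne_zero
  · rw [← rs_aeval h hz, minpoly.aeval, rs_zero]

theorem isAlgebraic_of_bar (h : TrivOn W E) {z : K} (hz : TrivOn W (adj E z))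
    (halg : IsAlgebraic (bar h) (rs W z)) : IsAlgebraic E z := by
  obtain ⟨P, hP0, hP⟩ := halg
  refine ⟨P.map (barEquiv h).symm.toRingHom, ?_, ?_⟩
  · rw [Ne, Polynomial.map_eq_zero_iff (RingEquiv.injective _)]
    exact hP0
  · have hzW : z ∈ W := hz _ (mem_adj E z)
    set Q := P.map (barEquiv h).symm.toRingHom with hQ
    have h1 : rs W (aeval z Q) = 0 := by
      rw [rs_aeval h hzW, hQ, Polynomial.map_map]
      have : (barEquiv h).toRingHom.comp (barEquiv h).symm.toRingHom = RingHom.id _ := by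
        ext x; simp
      rw [this, Polynomial.map_id]
      exact hP
    have h2 : aeval z Q ∈ adj E z := by
      rw [aeval_eq_sum_range]
      refine sum_mem fun i _ => ?_
      rw [Algebra.smul_def]
      exact mul_mem (le_adj E z (Q.coeff i).2) (pow_mem (mem_adj E z) i)
    refine hz.eq_zero h2 ?_
    exact (rs_eq_zero (hz _ h2)).1 h1

theorem rs_charZero [CharZero K] (h : TrivOn W E) : CharZero (IsLocalRing.ResidueField W) := by
  have : CharZero E := inferInstance
  exact charZero_of_injective_ringHom (barHom h).injective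

end bar

end Vale.Agent.P019
end

section

/-!
# Extension of homomorphisms to places with values in an algebraically closed field
-/

namespace Vale.Agent.P019

set_option linter.style.haveILetI false

/-- A finite type algebra over a field has a point in any algebraically closed extension. -/
theorem exists_algHom_of_finiteType (Q T C : Type*) [Field Q] [CommRing T] [Nontrivial T]
    [Algebra Q T] [Algebra.FiniteType Q T] [Field C] [Algebra Q C] [IsAlgClosed C] :
    Nonempty (T →ₐ[Q] C) := by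
  obtain ⟨M, hM⟩ := Ideal.exists_maximal T
  letI : Field (T ⧸ M) := Ideal.Quotient.field M
  haveI : Algebra.FiniteType Q (T ⧸ M) :=
    Algebra.FiniteType.of_surjective (Ideal.Quotient.mkₐ Q M) (Ideal.Quotient.mkₐ_surjective Q M)
  haveI : Module.Finite Q (T ⧸ M) := finite_of_finite_type_of_isJacobsonRing Q (T ⧸ M)
  haveI : Algebra.IsAlgebraic Q (T ⧸ M) := Algebra.IsAlgebraic.of_finite Q (T ⧸ M)
  exact ⟨(IsAlgClosed.lift : (T ⧸ M) →ₐ[Q] C).comp (Ideal.Quotient.mkₐ Q M)⟩

section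

variable {F C : Type*} [Field F] [Field C]

/-- graphs of partially defined homomorphisms. -/
def IsGr (G : Subring (F × C)) : Prop := ∀ c : C, ((0 : F), c) ∈ G → c = 0

theorem IsGr.unique {G : Subring (F × C)} (hG : IsGr G) {x : F} {c d : C}
    (hc : (x, c) ∈ G) (hd : (x, d) ∈ G) : c = d := by
  have h := G.sub_mem hc hd
  rw [Prod.mk_sub_mk, sub_self] at h
  exact sub_eq_zero.1 (hG _ h)

/-- localization step. -/
theorem isGr_inv {G : Subring (F × C)} (hG : Maximal (fun G : Subring (F × C) => IsGr G) G)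
    {y : F} {c : C} (hy : (y, c) ∈ G) (hc : c ≠ 0) : (y⁻¹, c⁻¹) ∈ G := by
  have hy0 : y ≠ 0 := by
    rintro rfl
    exact hc (hG.1 _ hy)
  have hpow : ∀ n : ℕ, (y ^ n, c ^ n) ∈ G := fun n => by
    have := G.pow_mem hy n
    rwa [Prod.pow_mk] at this
  let G' : Subring (F × C) :=
    { carrier := {p | ∃ (n : ℕ) (a : F) (d : C), (a, d) ∈ G ∧ p = (a / y ^ n, d / c ^ n)}
      mul_mem' := by
        rintro _ _ ⟨n, a, d, h, rfl⟩ ⟨m, b, e, h', rfl⟩
        refine ⟨n + m, a * b, d * e, by simpa using G.mul_mem h h', ?_⟩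
        rw [Prod.mk_mul_mk, pow_add, pow_add, div_mul_div_comm, div_mul_div_comm]
      one_mem' := ⟨0, 1, 1, G.one_mem, by simp; rfl⟩
      add_mem' := by
        rintro _ _ ⟨n, a, d, h, rfl⟩ ⟨m, b, e, h', rfl⟩
        refine ⟨n + m, a * y ^ m + y ^ n * b, d * c ^ m + c ^ n * e, ?_, ?_⟩
        · simpa using G.add_mem (G.mul_mem h (hpow m)) (G.mul_mem (hpow n) h')
        · rw [Prod.mk_add_mk, pow_add, pow_add, div_add_div _ _ (pow_ne_zero n hy0)
            (pow_ne_zero m hy0), div_add_div _ _ (pow_ne_zero n hc) (pow_ne_zero m hc)]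
      zero_mem' := ⟨0, 0, 0, G.zero_mem, by simp; rfl⟩
      neg_mem' := by
        rintro _ ⟨n, a, d, h, rfl⟩
        exact ⟨n, -a, -d, by simpa using G.neg_mem h, by simp [neg_div]⟩ }
  have hle : G ≤ G' := by
    rintro ⟨a, d⟩ h
    exact ⟨0, a, d, h, by simp⟩
  have hG' : IsGr G' := by
    rintro e ⟨n, a, d, h, he⟩
    rw [Prod.mk.injEq] at he
    have ha : a = 0 := by
      have := he.1.symm
      rw [div_eq_zero_iff] at this
      exact this.resolve_right (pow_ne_zero n hy0)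
    subst ha
    rw [he.2, hG.1 _ h, zero_div]
  have := hG.2 hG' hle
  exact this ⟨1, 1, 1, G.one_mem, by simp⟩

/-- **Extension theorem for places.** -/
theorem exists_place [IsAlgClosed C] (A : Subring F) (φ : A →+* C) :
    ∃ (O : ValuationSubring F) (ψ : O →+* C),
      (∀ (a : F) (h : a ∈ A), ∃ h' : a ∈ O, ψ ⟨a, h'⟩ = φ ⟨a, h⟩) ∧
      (∀ x : O, ψ x = 0 ↔ O.valuation (x : F) < 1) := by
  classical
  -- the initial graph
  let G₀ : Subring (F × C) := (RingHom.prod A.subtype φ).range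
  have hG₀ : IsGr G₀ := by
    rintro c ⟨a, ha⟩
    rw [RingHom.prod_apply, Prod.mk.injEq] at ha
    have : a = 0 := Subtype.ext ha.1
    rw [← ha.2, this, map_zero]
  obtain ⟨G, hle, hG⟩ : ∃ G, G₀ ≤ G ∧ Maximal (fun G : Subring (F × C) => IsGr G) G := by
    refine zorn_le_nonempty₀ {G : Subring (F × C) | IsGr G} ?_ G₀ hG₀
    intro c hc hch y hy
    refine ⟨sSup c, ?_, fun z hz => le_sSup hz⟩
    intro d hd
    rw [Subring.mem_sSup_of_directedOn ⟨y, hy⟩ hch.directedOn] at hd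
    obtain ⟨s, hs, hd⟩ := hd
    exact hc hs _ hd
  -- the domain
  let p : G →+* F := (RingHom.fst F C).comp G.subtype
  have hp : Function.Injective p := by
    intro ⟨⟨x, c⟩, hx⟩ ⟨⟨y, d⟩, hy⟩ hxy
    have hxy' : x = y := hxy
    subst hxy'
    exact Subtype.ext (Prod.ext rfl (hG.1.unique hx hy))
  let R : Subring F := p.range
  let e : G ≃+* R := RingEquiv.ofBijective p.rangeRestrict
    ⟨fun a b h => hp (congrArg Subtype.val h), p.rangeRestrict_surjective⟩
  let ψ : R →+* C := ((RingHom.snd F C).comp G.subtype).comp e.symm.toRingHom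
  have hψ : ∀ (x : F) (hx : x ∈ R), (x, ψ ⟨x, hx⟩) ∈ G := by
    intro x hx
    have h1 : p (e.symm ⟨x, hx⟩) = x := by
      have := congrArg Subtype.val (e.apply_symm_apply ⟨x, hx⟩)
      exact this
    have h2 : ((e.symm ⟨x, hx⟩ : G) : F × C) = (x, ψ ⟨x, hx⟩) := Prod.ext h1 rfl
    rw [← h2]
    exact (e.symm ⟨x, hx⟩).2
  have hψ' : ∀ (x : F) (c : C) (h : (x, c) ∈ G), ∃ hx : x ∈ R, ψ ⟨x, hx⟩ = c := by
    intro x c h
    have hx : x ∈ R := ⟨⟨(x, c), h⟩, rfl⟩
    exact ⟨hx, hG.1.unique (hψ x hx) h⟩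
  -- inverses
  have hinv : ∀ (x : F) (hx : x ∈ R), ψ ⟨x, hx⟩ ≠ 0 → x⁻¹ ∈ R := by
    intro x hx h
    obtain ⟨h', -⟩ := hψ' _ _ (isGr_inv hG (hψ x hx) h)
    exact h'
  -- a dominating valuation ring
  have hI : RingHom.ker ψ ≠ ⊤ := RingHom.ker_ne_top ψ
  obtain ⟨B, hRB, hIB⟩ := Ideal.image_subset_nonunits_valuationSubring (RingHom.ker ψ) hI
  let j : R →+* IsLocalRing.ResidueField B :=
    (IsLocalRing.residue B).comp (Subring.inclusion hRB)
  have hj : ∀ x : R, j x = 0 ↔ ψ x = 0 := by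
    intro x
    change IsLocalRing.residue B (Subring.inclusion hRB x) = 0 ↔ _
    rw [IsLocalRing.residue_eq_zero_iff]
    constructor
    · intro h
      by_contra hne
      have hx0 : (x : F) ≠ 0 := by
        intro h0
        have : x = 0 := Subtype.ext h0
        rw [this, map_zero] at hne
        exact hne rfl
      have h1 := hinv x x.2 hne
      rw [IsLocalRing.mem_maximalIdeal, mem_nonunits_iff] at h
      apply h
      refine IsUnit.of_mul_eq_one (⟨(x : F)⁻¹, hRB h1⟩ : B) ?_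
      exact Subtype.ext (mul_inv_cancel₀ hx0)
    · intro h
      have h1 : (x : F) ∈ B.nonunits := hIB ⟨x, h, rfl⟩
      have h2 := ValuationSubring.mem_nonunits_iff_exists_mem_maximalIdeal.1 h1
      obtain ⟨h3, h4⟩ := h2
      exact h4
  let Q := R ⧸ RingHom.ker ψ
  haveI hmax : (RingHom.ker ψ).IsMaximal := by
    rw [Ideal.isMaximal_iff]
    refine ⟨?_, ?_⟩
    · rw [RingHom.mem_ker, map_one]; exact one_ne_zero
    · intro J x hJ hx hxJ
      rw [RingHom.mem_ker] at hx
      have hx0 : (x : F) ≠ 0 := by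
        intro h0
        have : x = 0 := Subtype.ext h0
        rw [this, map_zero] at hx
        exact hx rfl
      have h1 := hinv x x.2 hx
      have : (1 : R) = (⟨(x : F)⁻¹, h1⟩ : R) * x := Subtype.ext (inv_mul_cancel₀ hx0).symm
      rw [this]
      exact J.mul_mem_left _ hxJ
  letI : Field Q := Ideal.Quotient.field _
  let iC : Q →+* C := Ideal.Quotient.lift _ ψ (fun a ha => ha)
  let iB : Q →+* IsLocalRing.ResidueField B :=
    Ideal.Quotient.lift _ j (fun a ha => (hj a).2 ha)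
  letI : Algebra Q C := iC.toAlgebra
  letI : Algebra Q (IsLocalRing.ResidueField B) := iB.toAlgebra
  -- show `B ≤ R`
  have hBR : B.toSubring ≤ R := by
    intro x hx
    let T : Subalgebra Q (IsLocalRing.ResidueField B) :=
      Algebra.adjoin Q {IsLocalRing.residue B ⟨x, hx⟩}
    haveI : Algebra.FiniteType Q T :=
      (Subalgebra.fg_iff_finiteType T).1
        ⟨{IsLocalRing.residue B ⟨x, hx⟩}, by rw [Finset.coe_singleton]⟩
    obtain ⟨τ⟩ := exists_algHom_of_finiteType Q T C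
    let U : Subring B := T.toSubring.comap (IsLocalRing.residue B)
    let r : U →+* T :=
      RingHom.codRestrict ((IsLocalRing.residue B).comp U.subtype) T.toSubring (fun u => u.2)
    let q : U →+* F × C := RingHom.prod (B.subtype.comp U.subtype) (τ.toRingHom.comp r)
    have hq : IsGr q.range := by
      rintro c ⟨u, hu⟩
      rw [RingHom.prod_apply, Prod.mk.injEq] at hu
      have : u = 0 := Subtype.ext (Subtype.ext hu.1)
      rw [← hu.2, this, map_zero]
    have hGq : G ≤ q.range := by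
      rintro ⟨a, c⟩ hac
      obtain ⟨haR, hc⟩ := hψ' a c hac
      have haU : (⟨a, hRB haR⟩ : B) ∈ U := by
        change IsLocalRing.residue B ⟨a, hRB haR⟩ ∈ T
        have : IsLocalRing.residue B ⟨a, hRB haR⟩ = algebraMap Q _ (Ideal.Quotient.mk _ ⟨a, haR⟩) :=
          rfl
        rw [this]
        exact T.algebraMap_mem _
      refine ⟨⟨⟨a, hRB haR⟩, haU⟩, ?_⟩
      rw [RingHom.prod_apply]
      refine Prod.ext rfl ?_
      have h1 : r ⟨⟨a, hRB haR⟩, haU⟩ = algebraMap Q T (Ideal.Quotient.mk _ ⟨a, haR⟩) :=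
        Subtype.ext rfl
      change τ (r ⟨⟨a, hRB haR⟩, haU⟩) = c
      rw [h1, AlgHom.commutes]
      exact hc
    have hle' := hG.2 hq hGq
    have hxU : (⟨x, hx⟩ : B) ∈ U := by
      change IsLocalRing.residue B ⟨x, hx⟩ ∈ T
      exact Algebra.subset_adjoin (Set.mem_singleton _)
    have hmem : q ⟨⟨x, hx⟩, hxU⟩ ∈ G := hle' ⟨_, rfl⟩
    obtain ⟨h1, -⟩ := hψ' x _ hmem
    exact h1
  refine ⟨B, ψ.comp (Subring.inclusion hBR), ?_, ?_⟩
  · intro a ha
    have hmem : (a, φ ⟨a, ha⟩) ∈ G := hle ⟨⟨a, ha⟩, rfl⟩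
    obtain ⟨haR, hval⟩ := hψ' _ _ hmem
    exact ⟨hRB haR, hval⟩
  · intro x
    have h1 : j (Subring.inclusion hBR x) = IsLocalRing.residue B x := rfl
    change ψ (Subring.inclusion hBR x) = 0 ↔ _
    rw [← hj, h1, IsLocalRing.residue_eq_zero_iff, ValuationSubring.valuation_lt_one_iff]

end

end Vale.Agent.P019
end

section

/-!
# Places: basic facts
-/

namespace Vale.Agent.P019

set_option linter.style.haveILetI false

open Polynomial

section places

variable {K Ω : Type*} [Field K] [Field Ω]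

/-- S01 residues of algebraic elements are algebraic. -/
theorem Pl.isAlgebraic_ev (P : Pl K Ω) (F : Subfield K) (κ : Subfield Ω)
    (hκ : ∀ x ∈ F, x ∈ P.O → P.ev x ∈ κ) {z : K} (hz : IsAlgebraic F z) (hzO : z ∈ P.O) :
    IsAlgebraic κ (P.ev z) := by
  classical
  obtain ⟨Q, hQ0, hQ⟩ := hz
  obtain ⟨j, hj, hjmax⟩ := Q.support.exists_max_image
    (fun i => P.O.valuation ((Q.coeff i : F) : K)) (Polynomial.nonempty_support_iff.2 hQ0)
  have hj0 : Q.coeff j ≠ 0 := mem_support_iff.1 hj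
  have hj0' : ((Q.coeff j : F) : K) ≠ 0 := fun h => hj0 (Subtype.ext h)
  have hvj : P.O.valuation ((Q.coeff j : F) : K) ≠ 0 := (Valuation.ne_zero_iff _).2 hj0'
  set c : F := (Q.coeff j)⁻¹ with hc
  have hcoef : ∀ i, (((C c * Q).coeff i : F) : K) ∈ P.O := by
    intro i
    rw [coeff_C_mul]
    by_cases hi : Q.coeff i = 0
    · rw [hi, mul_zero]; exact P.O.zero_mem
    · have h1 := hjmax i (mem_support_iff.2 hi)
      rw [← P.O.valuation_le_one_iff]
      change P.O.valuation (((Q.coeff j : F) : K)⁻¹ * ((Q.coeff i : F) : K)) ≤ 1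
      rw [map_mul, map_inv₀, mul_comm, ← div_eq_mul_inv]
      exact div_le_one_of_le₀ h1 zero_le
  have hlift : C c * Q ∈ Polynomial.lifts (RF P F).subtype := by
    rw [Polynomial.lifts_iff_coeff_lifts]
    intro n
    exact ⟨⟨(C c * Q).coeff n, hcoef n⟩, rfl⟩
  obtain ⟨G, hG⟩ := (Polynomial.mem_lifts _).1 hlift
  have hGeval : evθ P F z G = 0 := by
    have h1 : evθ P F z G = aeval z (G.map (RF P F).subtype) := by
      rw [aeval_def, eval₂_map]
      rfl
    rw [h1, hG, map_mul, hQ, mul_zero]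
  have hev := ev_evθ (P := P) (F := F) hzO G
  rw [hGeval, P.ev_zero] at hev
  -- restrict the codomain
  let f : RF P F →+* κ := (evF P F).codRestrict κ.toSubring (fun a => by
    rw [evF_apply]; exact hκ _ (a : F).2 (mem_RF.1 a.2))
  have hf : ∀ a, ((f a : κ) : Ω) = evF P F a := fun a => rfl
  refine ⟨G.map f, ?_, ?_⟩
  · intro h0
    have h1 := congrArg (fun p => ((p.coeff j : κ) : Ω)) h0
    simp only [coeff_map, coeff_zero, hf] at h1
    rw [evF_apply] at h1
    have h2 : ((G.coeff j : F) : K) = 1 := by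
      have h3 := congrArg (fun p => ((p.coeff j : F) : K)) hG
      simp only [coeff_map] at h3
      change ((G.coeff j : F) : K) = _ at h3
      rw [h3, coeff_C_mul, hc, inv_mul_cancel₀ hj0]
      rfl
    rw [h2, P.ev_one] at h1
    exact one_ne_zero h1
  · rw [aeval_def, eval₂_map]
    rw [eval_map] at hev
    rw [hev]
    rfl

/-- S02 valuation rings are integrally closed. -/
theorem Pl.mem_of_isAlgebraic (P : Pl K Ω) (E : Subfield K) (hE : ∀ x ∈ E, x ∈ P.O) {z : K}
    (hz : IsAlgebraic E z) : z ∈ P.O :=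
  TrivOn.mem_of_isAlgebraic (W := P.O) (F := E) hE hz

/-- nonzero elements algebraic over a field inside the valuation ring are units. -/
theorem Pl.U_of_isAlgebraic (P : Pl K Ω) (E : Subfield K) (hE : ∀ x ∈ E, x ∈ P.O) {z : K}
    (hz : IsAlgebraic E z) (hz0 : z ≠ 0) : P.U z :=
  P.U_iff.2 (TrivOn.eq_one_of_isAlgebraic (W := P.O) (F := E) hE hz hz0)

theorem Pl.ev_sum (P : Pl K Ω) {ι : Type*} (s : Finset ι) (f : ι → K) (hf : ∀ i ∈ s, f i ∈ P.O) :
    P.ev (∑ i ∈ s, f i) = ∑ i ∈ s, P.ev (f i) := by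
  classical
  induction s using Finset.induction_on with
  | empty => rw [Finset.sum_empty, Finset.sum_empty, P.ev_zero]
  | insert a s ha ih =>
    rw [Finset.sum_insert ha, Finset.sum_insert ha,
      P.ev_add (hf a (Finset.mem_insert_self a s))
        (P.O.toSubring.sum_mem fun i hi => hf i (Finset.mem_insert_of_mem hi)),
      ih fun i hi => hf i (Finset.mem_insert_of_mem hi)]

theorem exists_polys_of_mem_adj {l : Subfield K} {y x : K} (hx : x ∈ adj l y) (hx0 : x ≠ 0) :
    ∃ r s : l[X], IsCoprime r s ∧ aeval y s ≠ 0 ∧ x * aeval y s = aeval y r := by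
  classical
  have h1 : adj l y ≤ (IntermediateField.adjoin l {y}).toSubfield := by
    refine adj_le ?_ ?_
    · intro c hc
      exact (IntermediateField.adjoin l {y}).algebraMap_mem ⟨c, hc⟩
    · exact IntermediateField.mem_adjoin_simple_self l y
  have h2 : x ∈ IntermediateField.adjoin l {y} := h1 hx
  rw [IntermediateField.mem_adjoin_simple_iff] at h2
  obtain ⟨r, s, hrs⟩ := h2
  have hs0 : aeval y s ≠ 0 := by
    intro h
    rw [h, div_zero] at hrs
    exact hx0 hrs
  have hsne : s ≠ 0 := by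
    rintro rfl
    exact hs0 (map_zero _)
  letI := EuclideanDomain.gcdMonoid l[X]
  have hg : GCDMonoid.gcd r s ≠ 0 := gcd_ne_zero_of_right hsne
  set g := GCDMonoid.gcd r s with hgdef
  have hr : g * (r / g) = r := EuclideanDomain.mul_div_cancel' hg (gcd_dvd_left r s)
  have hs : g * (s / g) = s := EuclideanDomain.mul_div_cancel' hg (gcd_dvd_right r s)
  have hgy : aeval y g ≠ 0 := by
    intro h
    rw [← hs, map_mul, h, zero_mul] at hs0
    exact hs0 rfl
  refine ⟨r / g, s / g, isCoprime_div_gcd_div_gcd hsne, ?_, ?_⟩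
  · intro h
    rw [← hs, map_mul, h, mul_zero] at hs0
    exact hs0 rfl
  · have h3 : x * aeval y s = aeval y r := by
      rw [hrs]; field_simp
    rw [← hs, ← hr, map_mul, map_mul] at h3
    apply mul_left_cancel₀ hgy
    linear_combination h3

/-- S03 one variable places. -/
theorem exists_one [Algebra K Ω] [IsAlgClosed Ω] {l A : Subfield K} (hl : IsAlgClosed l)
    (hlA : l ≤ A) {y : K} (hy : ¬ IsAlgebraic A y) {c : K} (hc : c ∈ l) :
    ∃ P : Pl K Ω, (∀ a ∈ A, a ∈ P.O ∧ P.ev a = algebraMap K Ω a) ∧ y ∈ P.O ∧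
      P.ev y = algebraMap K Ω c ∧
      (∀ b ∈ P.O, IsAlgebraic (adj l y) b → ∃ d ∈ l, P.ev b = algebraMap K Ω d) := by
  classical
  have hy' : Transcendental A y := hy
  let e := algEquivOfTranscendental A y hy'
  let φ0 : A[X] →+* Ω := eval₂RingHom ((algebraMap K Ω).comp A.subtype) (algebraMap K Ω c)
  let φ : (Algebra.adjoin A {y}).toSubring →+* Ω := φ0.comp (e.symm : Algebra.adjoin A {y} →+* A[X])
  obtain ⟨O, ψ, h1, h2⟩ := exists_place (F := K) (C := Ω) (Algebra.adjoin A {y}).toSubring φ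
  let P : Pl K Ω := ⟨O, ψ, h2⟩
  have hA : ∀ a ∈ A, a ∈ P.O ∧ P.ev a = algebraMap K Ω a := by
    intro a ha
    have hmem : a ∈ (Algebra.adjoin A {y}).toSubring :=
      (Algebra.adjoin A {y}).algebraMap_mem ⟨a, ha⟩
    obtain ⟨h', h3⟩ := h1 a hmem
    refine ⟨h', ?_⟩
    rw [P.ev_of_mem h']
    change ψ ⟨a, h'⟩ = _
    rw [h3]
    change φ0 (e.symm ⟨a, hmem⟩) = _
    have h4 : (⟨a, hmem⟩ : Algebra.adjoin A {y}) = e (C ⟨a, ha⟩) := by
      apply Subtype.ext
      simp only [e, algEquivOfTranscendental_apply, aeval_C]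
      rfl
    rw [h4, AlgEquiv.symm_apply_apply]
    simp [φ0]
  have hyO : y ∈ P.O ∧ P.ev y = algebraMap K Ω c := by
    have hmem : y ∈ (Algebra.adjoin A {y}).toSubring := Algebra.self_mem_adjoin_singleton A y
    obtain ⟨h', h3⟩ := h1 y hmem
    refine ⟨h', ?_⟩
    rw [P.ev_of_mem h']
    change ψ ⟨y, h'⟩ = _
    rw [h3]
    change φ0 (e.symm ⟨y, hmem⟩) = _
    have h4 : (⟨y, hmem⟩ : Algebra.adjoin A {y}) = e X := by
      apply Subtype.ext
      simp [e]
    rw [h4, AlgEquiv.symm_apply_apply]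
    simp [φ0]
  refine ⟨P, hA, hyO.1, hyO.2, ?_⟩
  -- the image of l
  set κ : Subfield Ω := l.map (algebraMap K Ω) with hκ
  have hpolyO : ∀ q : l[X], aeval y q ∈ P.O ∧ P.ev (aeval y q) =
      algebraMap K Ω (aeval c q) := by
    intro q
    induction q using Polynomial.induction_on' with
    | add p q hp hq =>
      refine ⟨?_, ?_⟩
      · rw [map_add]; exact P.O.add_mem _ _ hp.1 hq.1
      · rw [map_add, P.ev_add hp.1 hq.1, hp.2, hq.2, map_add, map_add]
    | monomial n a =>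
      have ha := hA (a : K) (hlA a.2)
      have h5 : aeval y (monomial n a) = (a : K) * y ^ n := by
        rw [aeval_monomial]; rfl
      have h6 : aeval c (monomial n a) = (a : K) * c ^ n := by
        rw [aeval_monomial]; rfl
      rw [h5, h6]
      refine ⟨P.O.mul_mem _ _ ha.1 (pow_mem hyO.1 n), ?_⟩
      rw [P.ev_mul ha.1 (pow_mem hyO.1 n), P.ev_pow hyO.1, ha.2, hyO.2, map_mul, map_pow]
  have hlc : ∀ q : l[X], aeval c q ∈ l := by
    intro q
    have : aeval c q = ((q.eval ⟨c, hc⟩ : l) : K) := by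
      change aeval (algebraMap l K ⟨c, hc⟩) q = _
      rw [aeval_algebraMap_apply, coe_aeval_eq_eval]
      rfl
    rw [this]
    exact Subtype.mem _
  have hadj : ∀ x ∈ adj l y, x ∈ P.O → P.ev x ∈ κ := by
    intro x hx hxO
    by_cases hx0 : x = 0
    · rw [hx0, P.ev_zero]; exact κ.zero_mem
    obtain ⟨r, s, hco, hs0, hxs⟩ := exists_polys_of_mem_adj hx hx0
    have h8 := congrArg P.ev hxs
    rw [P.ev_mul hxO (hpolyO s).1, (hpolyO s).2, (hpolyO r).2] at h8
    have h9 : aeval c s ≠ 0 := by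
      intro h
      rw [h, map_zero, mul_zero] at h8
      have hr0 : aeval c r = 0 := by
        have := h8.symm
        rwa [map_eq_zero] at this
      obtain ⟨u, v, huv⟩ := hco
      have h10 := congrArg (aeval c) huv
      rw [map_add, map_mul, map_mul, h, hr0, mul_zero, mul_zero, add_zero, map_one] at h10
      exact zero_ne_one h10
    have h11 : P.ev x = algebraMap K Ω (aeval c r / aeval c s) := by
      rw [map_div₀, eq_div_iff (by rwa [Ne, map_eq_zero])]
      exact h8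
    rw [h11]
    exact ⟨_, l.div_mem (hlc r) (hlc s), rfl⟩
  have hκac : IsAlgClosed κ := by
    have hinj : Function.Injective ((algebraMap K Ω).comp l.subtype) := RingHom.injective _
    apply IsAlgClosed.of_exists_root
    intro p hp hirr
    have hsurj : ∀ x : κ, ∃ d : l, algebraMap K Ω d = (x : Ω) := by
      rintro ⟨x, d, hd, rfl⟩
      exact ⟨⟨d, hd⟩, rfl⟩
    -- pull back the polynomial
    let g : l →+* κ := ((algebraMap K Ω).comp l.subtype).codRestrict κ.toSubring
      (fun a => ⟨a, a.2, rfl⟩)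
    have hg : Function.Surjective g := by
      intro x
      obtain ⟨d, hd⟩ := hsurj x
      exact ⟨d, Subtype.ext hd⟩
    obtain ⟨q, hq⟩ := Polynomial.map_surjective g hg p
    have hdeg : q.degree ≠ 0 := by
      rw [← degree_map_eq_of_injective g.injective q, hq]
      exact (degree_pos_of_irreducible hirr).ne'
    obtain ⟨a, ha⟩ := IsAlgClosed.exists_root q hdeg
    refine ⟨g a, ?_⟩
    rw [← hq, eval_map, eval₂_hom, ha, map_zero]
  intro b hb hbalg
  have h12 := P.isAlgebraic_ev (adj l y) κ hadj hbalg hb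
  obtain ⟨d, hd, h13⟩ := RAC_of_isAlgClosed κ hκac _ h12
  exact ⟨d, hd, h13.symm⟩

/-- existence of good residues for finite sums. -/
theorem Pl.gauss_sum (P : Pl K Ω) {l A B : Subfield K} (hlA : l ≤ A) (hlB : l ≤ B)
    (hA : ∀ a ∈ A, a ∈ P.O) (hB : ∀ b ∈ B, b ∈ P.O → ∃ d ∈ l, P.ev b = P.ev d)
    {ι : Type*} (n : ℕ) : ∀ (s : Finset ι) (a b : ι → K), s.card = n → (∀ i ∈ s, a i ∈ A) →
      (∀ i ∈ s, b i ∈ B) → ∑ i ∈ s, a i * b i ≠ 0 →
    ∃ β ∈ B, β ≠ 0 ∧ P.U (β * ∑ i ∈ s, a i * b i) ∧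
      ∃ α ∈ A, P.ev (β * ∑ i ∈ s, a i * b i) = P.ev α := by
  classical
  have hUA : ∀ a ∈ A, a ≠ 0 → P.U a := fun a ha h0 =>
    P.U_of_isAlgebraic A hA (isAlgebraic_of_mem ha) h0
  induction n with
  | zero =>
    intro s a b hs ha hb hne
    rw [Finset.card_eq_zero.1 hs, Finset.sum_empty] at hne
    exact absurd rfl hne
  | succ n ih =>
    intro s a b hs ha hb hne
    have hsne : s.Nonempty := by
      rw [← Finset.card_pos, hs]; exact Nat.succ_pos n
    obtain ⟨j, hj, hjmax⟩ := s.exists_max_image (fun i => P.O.valuation (b i)) hsne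
    have hbj : b j ≠ 0 := by
      intro h
      apply hne
      refine Finset.sum_eq_zero fun i hi => ?_
      have h1 := hjmax i hi
      rw [h, map_zero, le_zero_iff, Valuation.zero_iff] at h1
      rw [h1, mul_zero]
    have hvj : P.O.valuation (b j) ≠ 0 := (Valuation.ne_zero_iff _).2 hbj
    set b' : ι → K := fun i => (b j)⁻¹ * b i with hb'
    have hb'B : ∀ i ∈ s, b' i ∈ B := fun i hi => B.mul_mem (B.inv_mem (hb j hj)) (hb i hi)
    have hb'O : ∀ i ∈ s, b' i ∈ P.O := by
      intro i hi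
      rw [← P.O.valuation_le_one_iff, hb']
      simp only
      rw [map_mul, map_inv₀, mul_comm, ← div_eq_mul_inv]
      exact div_le_one_of_le₀ (hjmax i hi) zero_le
    have hb'j : b' j = 1 := inv_mul_cancel₀ hbj
    have hdex : ∀ i, ∃ d, i ∈ s → (d ∈ l ∧ P.ev (b' i) = P.ev d) := by
      intro i
      by_cases hi : i ∈ s
      · obtain ⟨d, hd, h⟩ := hB _ (hb'B i hi) (hb'O i hi)
        exact ⟨d, fun _ => ⟨hd, h⟩⟩
      · exact ⟨0, fun h => absurd h hi⟩
    choose d0 hd0 using hdex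
    set d : ι → K := fun i => if i = j then 1 else d0 i with hd
    have hdl : ∀ i ∈ s, d i ∈ l := by
      intro i hi
      rw [hd]
      simp only
      split_ifs with h
      · exact l.one_mem
      · exact (hd0 i hi).1
    have hdev : ∀ i ∈ s, P.ev (b' i) = P.ev (d i) := by
      intro i hi
      rw [hd]
      simp only
      split_ifs with h
      · rw [h, hb'j]
      · exact (hd0 i hi).2
    have hdj : d j = 1 := by rw [hd]; simp
    have hdO : ∀ i ∈ s, d i ∈ P.O := fun i hi => hA _ (hlA (hdl i hi))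
    have hx' : (b j)⁻¹ * ∑ i ∈ s, a i * b i = ∑ i ∈ s, a i * b' i := by
      rw [Finset.mul_sum]
      refine Finset.sum_congr rfl fun i _ => ?_
      rw [hb']; ring
    have hx'0 : ∑ i ∈ s, a i * b' i ≠ 0 := by
      rw [← hx']; exact mul_ne_zero (inv_ne_zero hbj) hne
    set s0 : K := ∑ i ∈ s, a i * d i with hs0
    have hs0A : s0 ∈ A := A.sum_mem fun i hi => A.mul_mem (ha i hi) (hlA (hdl i hi))
    by_cases hs00 : s0 = 0
    · -- reduce
      have hj' : a j = - ∑ i ∈ s.erase j, a i * d i := by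
        have h1 := Finset.add_sum_erase s (fun i => a i * d i) hj
        simp only [hdj, mul_one] at h1
        rw [← hs0, hs00] at h1
        exact eq_neg_of_add_eq_zero_left h1
      have hx'' : ∑ i ∈ s, a i * b' i = ∑ i ∈ s.erase j, a i * (b' i - d i) := by
        rw [← Finset.add_sum_erase s (fun i => a i * b' i) hj]
        simp only [hb'j, mul_one]
        rw [hj', neg_add_eq_sub, ← Finset.sum_sub_distrib]
        exact Finset.sum_congr rfl fun i _ => by ring
      obtain ⟨β, hβ, hβ0, hU, α, hα, hev⟩ := ih (s.erase j) a (fun i => b' i - d i)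
        (by rw [Finset.card_erase_of_mem hj, hs]; rfl)
        (fun i hi => ha i (Finset.mem_of_mem_erase hi))
        (fun i hi => B.sub_mem (hb'B i (Finset.mem_of_mem_erase hi))
          (hlB (hdl i (Finset.mem_of_mem_erase hi))))
        (by rw [← hx'']; exact hx'0)
      refine ⟨β * (b j)⁻¹, B.mul_mem hβ (B.inv_mem (hb j hj)),
        mul_ne_zero hβ0 (inv_ne_zero hbj), ?_, α, hα, ?_⟩
      · rw [mul_assoc, hx', hx'']; exact hU
      · rw [mul_assoc, hx', hx'']; exact hev
    · have hev : P.ev (∑ i ∈ s, a i * b' i) = P.ev s0 := by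
        rw [P.ev_sum s _ fun i hi => P.O.mul_mem _ _ (hA _ (ha i hi)) (hb'O i hi), hs0,
          P.ev_sum s _ fun i hi => P.O.mul_mem _ _ (hA _ (ha i hi)) (hdO i hi)]
        refine Finset.sum_congr rfl fun i hi => ?_
        rw [P.ev_mul (hA _ (ha i hi)) (hb'O i hi), P.ev_mul (hA _ (ha i hi)) (hdO i hi),
          hdev i hi]
      have hUs : P.U s0 := hUA s0 hs0A hs00
      refine ⟨(b j)⁻¹, B.inv_mem (hb j hj), inv_ne_zero hbj, ?_, s0, hs0A, ?_⟩
      · rw [hx']
        refine ⟨P.O.toSubring.sum_mem fun i hi =>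
          P.O.mul_mem _ _ (hA _ (ha i hi)) (hb'O i hi), ?_⟩
        rw [hev]; exact hUs.2
      · rw [hx']; exact hev

/-- elements of a compositum are quotients of finite sums. -/
theorem exists_sum_of_mem_sup {A B : Subfield K} {z : K}
    (hz : z ∈ Subring.closure ((A : Set K) ∪ B)) :
    ∃ (n : ℕ) (a b : Fin n → K), (∀ i, a i ∈ A) ∧ (∀ i, b i ∈ B) ∧ z = ∑ i, a i * b i := by
  rw [Subring.mem_closure_iff] at hz
  have hmul : ∀ w ∈ Submonoid.closure ((A : Set K) ∪ B), ∃ a ∈ A, ∃ b ∈ B, w = a * b := by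
    intro w hw
    induction hw using Submonoid.closure_induction with
    | mem x hx =>
      rcases hx with hx | hx
      · exact ⟨x, hx, 1, B.one_mem, (mul_one x).symm⟩
      · exact ⟨1, A.one_mem, x, hx, (one_mul x).symm⟩
    | one => exact ⟨1, A.one_mem, 1, B.one_mem, (one_mul 1).symm⟩
    | mul x y hx hy ihx ihy =>
      obtain ⟨a, ha, b, hb, rfl⟩ := ihx
      obtain ⟨a', ha', b', hb', rfl⟩ := ihy
      exact ⟨a * a', A.mul_mem ha ha', b * b', B.mul_mem hb hb', by ring⟩
  induction hz using AddSubgroup.closure_induction with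
  | mem x hx =>
    obtain ⟨a, ha, b, hb, rfl⟩ := hmul x hx
    exact ⟨1, fun _ => a, fun _ => b, fun _ => ha, fun _ => hb, by simp⟩
  | zero => exact ⟨0, Fin.elim0, Fin.elim0, fun i => i.elim0, fun i => i.elim0, by simp⟩
  | add x y hx hy ihx ihy =>
    obtain ⟨n, a, b, ha, hb, rfl⟩ := ihx
    obtain ⟨m, a', b', ha', hb', rfl⟩ := ihy
    refine ⟨n + m, Fin.append a a', Fin.append b b', ?_, ?_, ?_⟩
    · intro i
      refine Fin.addCases (fun i => ?_) (fun i => ?_) i
      · rw [Fin.append_left]; exact ha i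
      · rw [Fin.append_right]; exact ha' i
    · intro i
      refine Fin.addCases (fun i => ?_) (fun i => ?_) i
      · rw [Fin.append_left]; exact hb i
      · rw [Fin.append_right]; exact hb' i
    · rw [Fin.sum_univ_add]
      simp only [Fin.append_left, Fin.append_right]
  | neg x hx ih =>
    obtain ⟨n, a, b, ha, hb, rfl⟩ := ih
    refine ⟨n, fun i => - a i, b, fun i => A.neg_mem (ha i), hb, ?_⟩
    rw [← Finset.sum_neg_distrib]
    exact Finset.sum_congr rfl fun i _ => by ring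

/-- S04 Gauss lemma. -/
theorem Pl.gauss (P : Pl K Ω) {l A B : Subfield K} (hlA : l ≤ A) (hlB : l ≤ B)
    (hA : ∀ a ∈ A, a ∈ P.O) (hB : ∀ b ∈ B, b ∈ P.O → ∃ d ∈ l, P.ev b = P.ev d)
    {z : K} (hz : z ∈ A ⊔ B) (hz0 : z ≠ 0) :
    ∃ b ∈ B, b ≠ 0 ∧ P.U (b * z) ∧ ∃ a ∈ A, P.ev (b * z) = P.ev a := by
  have h1 : A ⊔ B = Subfield.closure ((A : Set K) ∪ B) := by
    rw [Subfield.closure_union, Subfield.closure_eq, Subfield.closure_eq]
  rw [h1, Subfield.mem_closure_iff] at hz
  obtain ⟨y, hy, w, hw, rfl⟩ := hz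
  have hy0 : y ≠ 0 := by rintro rfl; exact hz0 (zero_div _)
  have hw0 : w ≠ 0 := by rintro rfl; exact hz0 (div_zero _)
  obtain ⟨n, a, b, ha, hb, rfl⟩ := exists_sum_of_mem_sup hy
  obtain ⟨m, a', b', ha', hb', rfl⟩ := exists_sum_of_mem_sup hw
  obtain ⟨β, hβ, hβ0, hU, α, hα, hev⟩ := P.gauss_sum hlA hlB hA hB _ Finset.univ a b rfl
    (fun i _ => ha i) (fun i _ => hb i) hy0
  obtain ⟨β', hβ', hβ'0, hU', α', hα', hev'⟩ := P.gauss_sum hlA hlB hA hB _ Finset.univ a' b' rfl
    (fun i _ => ha' i) (fun i _ => hb' i) hw0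
  set y := ∑ i, a i * b i
  set w := ∑ i, a' i * b' i
  have he : β / β' * (y / w) = (β * y) / (β' * w) := by field_simp
  refine ⟨β / β', B.div_mem hβ hβ', div_ne_zero hβ0 hβ'0, ?_, α / α', A.div_mem hα hα', ?_⟩
  · rw [he]; exact hU.div hU'
  · have hα'U : P.U α' := ⟨hA _ hα', by rw [← hev']; exact hU'.2⟩
    rw [he, P.ev_div hU.1 hU', P.ev_div (hA _ hα) hα'U, hev, hev']

theorem adj_eq (E : Subfield K) (b : K) :
    adj E b = (IntermediateField.adjoin E {b}).toSubfield := by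
  apply le_antisymm
  · refine adj_le ?_ ?_
    · intro c hc
      exact (IntermediateField.adjoin E {b}).algebraMap_mem ⟨c, hc⟩
    · exact IntermediateField.mem_adjoin_simple_self E b
  · intro x hx
    let M : IntermediateField E K := (adj E b).toIntermediateField (fun c => le_adj E b c.2)
    have h1 : IntermediateField.adjoin E {b} ≤ M := by
      rw [IntermediateField.adjoin_le_iff, Set.singleton_subset_iff]
      exact mem_adj E b
    exact h1 hx

/-- S07 exchange property of algebraic dependence. -/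
theorem exchange {E : Subfield K} {a b : K} (ha : ¬ IsAlgebraic E a)
    (h : IsAlgebraic (adj E b) a) : IsAlgebraic (adj E a) b := by
  by_cases hb : IsAlgebraic E b
  · exact isAlgebraic_mono (le_adj E a) hb
  · rw [adj_eq] at h ⊢
    have h1 : IsAlgebraic (IntermediateField.adjoin E {b}) a := h
    rw [IntermediateField.isAlgebraic_adjoin_iff] at h1
    have h2 := IsAlgebraic.adjoin_singleton (R := E) (A := K) (B := K) (x := b) (y := a) hb ha h1
    have h3 : IsAlgebraic (Algebra.adjoin E {a}) b := h2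
    rw [← IntermediateField.isAlgebraic_adjoin_iff] at h3
    exact h3

end places

end Vale.Agent.P019
end

section

/-!
# Bertini
-/

namespace Vale.Agent.P019

set_option linter.style.haveILetI false

open Polynomial

/-- `K` is essentially of finite type over any subfield containing `k`. -/
theorem bert_ess {K : Type*} [Field K] {k F : Subfield K} (hkF : k ≤ F)
    (hfg : FG k (⊤ : Subfield K)) : Algebra.EssFiniteType F K := by
  obtain ⟨S, hS⟩ := hfg
  have h1 : (IntermediateField.adjoin F (S : Set K)) = ⊤ := by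
    rw [← top_le_iff]
    intro z _
    have hz : z ∈ (k ⊔ Subfield.closure (S : Set K) : Subfield K) := by rw [← hS]; trivial
    have h2 : (k ⊔ Subfield.closure (S : Set K) : Subfield K) ≤
        (IntermediateField.adjoin F (S : Set K)).toSubfield := by
      refine sup_le ?_ (Subfield.closure_le.2 (IntermediateField.subset_adjoin _ _))
      intro a ha
      exact (IntermediateField.adjoin F (S : Set K)).algebraMap_mem ⟨a, hkF ha⟩
    exact h2 hz
  rw [← IntermediateField.fg_top_iff]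
  exact ⟨S, h1⟩

end Vale.Agent.P019
end

section

/-!
# Rational function subfields
-/

namespace Vale.Agent.P019

set_option linter.style.haveILetI false

open Polynomial

section line

variable {K : Type*} [Field K] [CharZero K] {ℓ : ℕ} [Fact ℓ.Prime]

theorem line_transc {K : Type*} [Field K] {k : Subfield K} (hk : IsAlgClosed k) {x : K}
    (hx : x ∉ k) : Function.Injective (aeval x : k[X] →ₐ[k] K) := by
  have h1 : Transcendental k x := fun h => hx (RAC_of_isAlgClosed k hk x h)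
  exact transcendental_iff_injective.1 h1

theorem line_aeval_ne {K : Type*} [Field K] {k : Subfield K} (hk : IsAlgClosed k) {x : K}
    (hx : x ∉ k) {p : k[X]} (hp : p ≠ 0) : aeval x p ≠ 0 := by
  intro h
  exact hp (line_transc hk hx (by rw [h, map_zero]))

theorem line_mem {K : Type*} [Field K] {k : Subfield K} {x z : K}
    (hz : z ∈ adj k x) : ∃ p q : k[X], z = aeval x p / aeval x q := by
  have h1 : adj k x ≤ (IntermediateField.adjoin k {x}).toSubfield := by
    refine adj_le ?_ ?_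
    · intro a ha
      exact (IntermediateField.adjoin k {x}).algebraMap_mem ⟨a, ha⟩
    · exact IntermediateField.mem_adjoin_simple_self k x
  have h2 : z ∈ IntermediateField.adjoin k {x} := h1 hz
  rw [IntermediateField.mem_adjoin_simple_iff] at h2
  exact h2

theorem line_cl_const {K : Type*} [Field K] {ℓ : ℕ} [Fact ℓ.Prime] {k : Subfield K}
    (hk : IsAlgClosed k) {c : K} (hc : c ∈ k) : cl ℓ c = 0 := by
  by_cases h0 : c = 0
  · rw [h0, cl_zero]
  · obtain ⟨w, hw⟩ := IsAlgClosed.exists_pow_nat_eq (⟨c, hc⟩ : k) (Fact.out : ℓ.Prime).pos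
    rw [cl_eq_zero_iff ℓ h0]
    refine ⟨(w : K), ?_, ?_⟩
    · intro h
      apply h0
      have h2 := congrArg (Subtype.val : k → K) hw
      have h3 : (w : K) ^ ℓ = c := h2
      rw [h, zero_pow (Fact.out : ℓ.Prime).ne_zero] at h3
      exact h3.symm
    · have h2 := congrArg (Subtype.val : k → K) hw
      simpa using h2

theorem line_cl_aeval {K : Type*} [Field K] {ℓ : ℕ} [Fact ℓ.Prime] {k : Subfield K}
    (hk : IsAlgClosed k) {x : K} (hx : x ∉ k) {p : k[X]} (hp : p ≠ 0) :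
    cl ℓ (aeval x p) ∈ Submodule.span (ZMod ℓ) (Set.range fun c : k => cl ℓ (x - (c : K))) := by
  have hsub : ∀ c : k, x - (c : K) ≠ 0 := by
    intro c h
    apply hx
    rw [sub_eq_zero] at h
    rw [h]
    exact c.2
  have key : ∀ m : Multiset k, cl ℓ (aeval x (m.map fun a => X - C a).prod) ∈
      Submodule.span (ZMod ℓ) (Set.range fun c : k => cl ℓ (x - (c : K))) ∧
      aeval x (m.map fun a => X - C a).prod ≠ 0 := by
    intro m
    induction m using Multiset.induction_on with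
    | empty =>
      refine ⟨?_, ?_⟩
      · simp [cl_one]
      · simp
    | cons a m ih =>
      have e : aeval x (((a ::ₘ m).map fun a => X - C a).prod : k[X]) =
          (x - (a : K)) * aeval x ((m.map fun a => X - C a).prod : k[X]) := by
        rw [Multiset.map_cons, Multiset.prod_cons, map_mul, map_sub, aeval_X, aeval_C]
        rfl
      rw [e]
      refine ⟨?_, mul_ne_zero (hsub a) ih.2⟩
      rw [cl_mul ℓ (hsub a) ih.2]
      exact Submodule.add_mem _ (Submodule.subset_span ⟨a, rfl⟩) ih.1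
  have h1 : p = C p.leadingCoeff * (p.roots.map fun a => X - C a).prod :=
    (IsAlgClosed.splits p).eq_prod_roots
  have h2 : aeval x p = ((p.leadingCoeff : k) : K) *
      aeval x ((p.roots.map fun a => X - C a).prod : k[X]) := by
    conv_lhs => rw [h1]
    rw [map_mul, aeval_C]
    rfl
  have h3 : ((p.leadingCoeff : k) : K) ≠ 0 := by
    intro h
    exact hp (leadingCoeff_eq_zero.1 (Subtype.ext h))
  rw [h2, cl_mul ℓ h3 (key p.roots).2, line_cl_const hk (p.leadingCoeff).2, zero_add]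
  exact (key p.roots).1

theorem line_VS_le {K : Type*} [Field K] {ℓ : ℕ} [Fact ℓ.Prime] {k : Subfield K}
    (hk : IsAlgClosed k) {x : K} (hx : x ∉ k) : VS ℓ (adj k x) ≤
      Submodule.span (ZMod ℓ) (Set.range fun c : k => cl ℓ (x - (c : K))) := by
  intro v hv
  obtain ⟨z, hz, hz0, rfl⟩ := mem_VS.1 hv
  obtain ⟨p, q, rfl⟩ := line_mem hz
  have hp : p ≠ 0 := by
    rintro rfl
    simp at hz0
  have hq : q ≠ 0 := by
    rintro rfl
    simp at hz0
  rw [cl_div ℓ (line_aeval_ne hk hx hp) (line_aeval_ne hk hx hq)]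
  exact Submodule.sub_mem _ (line_cl_aeval hk hx hp) (line_cl_aeval hk hx hq)

end line

end Vale.Agent.P019
end

section

/-!
# Valuations that are nontrivial on curves
-/

namespace Vale.Agent.P019

open Polynomial Filter

variable {K : Type*} [Field K]

theorem Crv.alg {k E : Subfield K} (hk : RAC k) (h : Crv k E) {y : K} (hy : y ∈ E)
    (hyk : y ∉ k) : ∀ z ∈ E, IsAlgebraic (adj k y) z := by
  obtain ⟨y0, hy0, -, hall⟩ := h.ex
  intro z hz
  have h1 : ¬ IsAlgebraic k y := fun h' => hyk (hk y h')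
  have h2 : IsAlgebraic (adj k y) y0 := exchange h1 (hall y hy)
  have h3 : adj k y0 ≤ Vale.Agent.P019.rac (adj k y) :=
    adj_le ((le_adj k y).trans (le_rac _)) (mem_rac.2 h2)
  exact isAlgebraic_rac (isAlgebraic_mono h3 (hall z hz))

theorem exists_const {k E : Subfield K} (hk : IsAlgClosed k) (hE : Crv k E)
    {O : ValuationSubring K} (hOk : TrivOn O k) (hOE : ¬ TrivOn O E) {w : K} (hw : w ∈ E)
    (hw1 : O.valuation w = 1) : ∃ c ∈ k, O.valuation (w - c) < 1 := by
  by_contra hcon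
  push Not at hcon
  have hone : ∀ c ∈ k, O.valuation (w - c) = 1 := by
    intro c hc
    refine le_antisymm ?_ (hcon c hc)
    refine (O.valuation.map_sub _ _).trans (max_le hw1.le (hOk.le_one hc))
  have hwk : w ∉ k := by
    intro h
    have h1 := hone w h
    rw [sub_self, map_zero] at h1
    exact zero_ne_one h1
  have hms : ∀ m : Multiset k,
      O.valuation (aeval w (m.map fun a => X - C a).prod) = 1 := by
    intro m
    induction m using Multiset.induction_on with
    | empty => simp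
    | cons a m ih =>
      have e : aeval w (((a ::ₘ m).map fun a => X - C a).prod : k[X]) =
          (w - (a : K)) * aeval w ((m.map fun a => X - C a).prod : k[X]) := by
        rw [Multiset.map_cons, Multiset.prod_cons, map_mul, map_sub, aeval_X, aeval_C]
        rfl
      rw [e, map_mul, ih, mul_one]
      exact hone a a.2
  have hpoly : ∀ P : k[X], P ≠ 0 → O.valuation (aeval w P) = 1 := by
    intro P hP
    have h1 := (IsAlgClosed.splits P).eq_prod_roots
    rw [h1, map_mul, aeval_C, map_mul, hms, mul_one]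
    exact hOk.eq_one (P.leadingCoeff).2 (fun h => hP (leadingCoeff_eq_zero.1 (Subtype.ext h)))
  have htriv : TrivOn O (adj k w) := by
    intro z hz
    obtain ⟨p, q, rfl⟩ := line_mem hz
    rw [← O.valuation_le_one_iff, map_div₀]
    by_cases hq : q = 0
    · rw [hq, map_zero, map_zero, div_zero]; exact zero_le_one
    · rw [hpoly q hq, div_one]
      by_cases hp : p = 0
      · rw [hp, map_zero, map_zero]; exact zero_le_one
      · exact (hpoly p hp).le
  apply hOE
  intro z hz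
  exact htriv.mem_of_isAlgebraic (hE.alg (RAC_of_isAlgClosed k hk) hw hwk z hz)

/-- a vanishing sum has two terms of equal nonzero valuation. -/
theorem exists_pair_of_sum_zero {ι : Type*} [DecidableEq ι] (O : ValuationSubring K)
    (s : Finset ι) (f : ι → K) (hs : s.Nonempty) (hf : ∀ i ∈ s, f i ≠ 0)
    (h0 : ∑ i ∈ s, f i = 0) :
    ∃ i ∈ s, ∃ j ∈ s, i ≠ j ∧ O.valuation (f i) = O.valuation (f j) := by
  obtain ⟨j, hj, hmax⟩ := s.exists_max_image (fun i => O.valuation (f i)) hs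
  by_contra hcon
  push Not at hcon
  have hlt : ∀ i ∈ s.erase j, O.valuation (f i) < O.valuation (f j) := by
    intro i hi
    exact lt_of_le_of_ne (hmax i (Finset.mem_of_mem_erase hi))
      (hcon i (Finset.mem_of_mem_erase hi) j hj (Finset.ne_of_mem_erase hi))
  have hvj : O.valuation (f j) ≠ 0 := (Valuation.ne_zero_iff _).2 (hf j hj)
  have h1 : O.valuation (∑ i ∈ s.erase j, f i) < O.valuation (f j) :=
    Valuation.map_sum_lt _ hvj hlt
  have h2 := Finset.add_sum_erase s f hj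
  rw [h0] at h2
  have h3 : f j = - ∑ i ∈ s.erase j, f i := eq_neg_of_add_eq_zero_left h2
  rw [← Valuation.map_neg, ← h3] at h1
  exact lt_irrefl _ h1

theorem triv_of_rk2 {ℓ : ℕ} [Fact ℓ.Prime] {k E : Subfield K} (hk : IsAlgClosed k)
    (hE : Crv k E) {O : ValuationSubring K} (hOk : TrivOn O k)
    (h : Rk2 (VS ℓ E) (U1 ℓ O)) : TrivOn O E := by
  by_contra hOE
  have hex : ∃ c ∈ E, c ∉ O := by
    unfold TrivOn at hOE
    push Not at hOE
    exact hOE
  obtain ⟨c, hc, hcO⟩ := hex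
  have hc1 : 1 < O.valuation c := by
    rw [← not_le, O.valuation_le_one_iff]; exact hcO
  have hc0 : c ≠ 0 := by rintro rfl; exact hcO O.zero_mem
  set y : K := c⁻¹ with hy
  have hyE : y ∈ E := E.inv_mem hc
  have hy0 : y ≠ 0 := inv_ne_zero hc0
  have hy1 : O.valuation y < 1 := by
    rw [hy, map_inv₀]; exact inv_lt_one_of_one_lt₀ hc1
  have hyk : y ∉ k := by
    intro h'
    exact hy0 (hOk.eq_zero h' hy1)
  have hRk := RAC_of_isAlgClosed k hk
  -- elements of k(y)
  have hky : ∀ a ∈ adj k y, a ≠ 0 → ∃ n : ℤ, O.valuation a * O.valuation y ^ n = 1 := by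
    intro a ha ha0
    have ha' : a ∈ IntermediateField.adjoin k {y} := by
      have : a ∈ (IntermediateField.adjoin k {y}).toSubfield := by rw [← adj_eq]; exact ha
      exact this
    obtain ⟨n, d, hd, hd0, hlt⟩ := exists_residue hOk hy1 hy0 ha' ha0
    have h1 := val_of_sub (hOk.eq_one hd hd0) hlt
    refine ⟨n, ?_⟩
    rwa [map_mul, map_zpow₀] at h1
  have hvy : O.valuation y ≠ 0 := (Valuation.ne_zero_iff _).2 hy0
  -- the claim for one element
  have hclaim : ∀ u ∈ E, u ≠ 0 → ∃ n m : ℤ, n ≠ 0 ∧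
      O.valuation u ^ n * O.valuation y ^ m = 1 := by
    intro u hu hu0
    obtain ⟨P, hP0, hP⟩ := hE.alg hRk hyE hyk u hu
    have hvu : O.valuation u ≠ 0 := (Valuation.ne_zero_iff _).2 hu0
    rw [aeval_eq_sum_range] at hP
    have hsum : ∑ i ∈ P.support, ((P.coeff i : adj k y) : K) * u ^ i = 0 := by
      rw [← hP, ← Polynomial.aeval_eq_sum_range, aeval_eq_sum_range' (n := P.natDegree + 1)
        (Nat.lt_succ_self _)]
      rw [← Finset.sum_subset (Polynomial.supp_subset_range (Nat.lt_succ_self _))]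
      · refine Finset.sum_congr rfl fun i _ => ?_
        rw [Algebra.smul_def]
        rfl
      · intro i _ hi
        rw [notMem_support_iff.1 hi, zero_smul]
    obtain ⟨i, hi, j, hj, hij, hval⟩ := exists_pair_of_sum_zero O P.support
      (fun i => ((P.coeff i : adj k y) : K) * u ^ i) (Polynomial.nonempty_support_iff.2 hP0)
      (fun i hi => mul_ne_zero (fun h0 => mem_support_iff.1 hi (Subtype.ext h0))
        (pow_ne_zero _ hu0)) hsum
    simp only [map_mul, map_pow] at hval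
    obtain ⟨n, hn⟩ := hky _ (P.coeff i).2 (fun h0 => mem_support_iff.1 hi (Subtype.ext h0))
    obtain ⟨m, hm⟩ := hky _ (P.coeff j).2 (fun h0 => mem_support_iff.1 hj (Subtype.ext h0))
    refine ⟨(i : ℤ) - j, m - n, sub_ne_zero.2 (by exact_mod_cast hij), ?_⟩
    have hn' : O.valuation ((P.coeff i : adj k y) : K) = (O.valuation y ^ n)⁻¹ :=
      eq_inv_of_mul_eq_one_left hn
    have hm' : O.valuation ((P.coeff j : adj k y) : K) = (O.valuation y ^ m)⁻¹ :=
      eq_inv_of_mul_eq_one_left hm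
    rw [hn', hm'] at hval
    rw [zpow_sub₀ hvu, zpow_sub₀ hvy, zpow_natCast, zpow_natCast]
    have e1 : O.valuation y ^ n ≠ 0 := zpow_ne_zero _ hvy
    have e2 : O.valuation y ^ m ≠ 0 := zpow_ne_zero _ hvy
    have e3 : O.valuation u ^ i ≠ 0 := pow_ne_zero _ hvu
    have e4 : O.valuation u ^ j ≠ 0 := pow_ne_zero _ hvu
    have h5 : O.valuation u ^ i * O.valuation y ^ m = O.valuation u ^ j * O.valuation y ^ n := by
      field_simp at hval
      rw [hval, mul_comm]
    rw [div_mul_div_comm, h5]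
    exact div_self (mul_ne_zero e4 e1)
  obtain ⟨u0, hu0, v0, hv0, hind⟩ := h
  obtain ⟨u, hu, hu0', rfl⟩ := hu0
  obtain ⟨v, hv, hv0', rfl⟩ := hv0
  have hvu : O.valuation u ≠ 0 := (Valuation.ne_zero_iff _).2 hu0'
  have hvv : O.valuation v ≠ 0 := (Valuation.ne_zero_iff _).2 hv0'
  obtain ⟨n, m, hn0, hnm⟩ := hclaim u hu hu0'
  obtain ⟨n', m', hn0', hnm'⟩ := hclaim v hv hv0'
  -- a relation between u and v
  have hrel : ∃ p q : ℤ, (p ≠ 0 ∨ q ≠ 0) ∧ O.valuation u ^ p * O.valuation v ^ q = 1 := by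
    by_cases hm : m = 0
    · refine ⟨n, 0, Or.inl hn0, ?_⟩
      rw [hm, zpow_zero, mul_one] at hnm
      rw [hnm, zpow_zero, mul_one]
    · refine ⟨n * m', -(n' * m), Or.inr (neg_ne_zero.2 (mul_ne_zero hn0' hm)), ?_⟩
      have h1 : O.valuation u ^ (n * m') * O.valuation y ^ (m * m') = 1 := by
        rw [zpow_mul, zpow_mul, ← mul_zpow, hnm, one_zpow]
      have h2 : O.valuation v ^ (n' * m) * O.valuation y ^ (m' * m) = 1 := by
        rw [zpow_mul, zpow_mul, ← mul_zpow, hnm', one_zpow]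
      rw [mul_comm m' m] at h2
      rw [zpow_neg, eq_inv_of_mul_eq_one_left h1, eq_inv_of_mul_eq_one_left h2, inv_inv]
      exact inv_mul_cancel₀ (zpow_ne_zero _ hvy)
  obtain ⟨p, q, hpq, hrel⟩ := hrel
  -- divide by the gcd
  have hg : 0 < Int.gcd p q := Int.gcd_pos_iff.2 hpq
  obtain ⟨p', q', hcop, hp', hq'⟩ := Int.exists_gcd_one hg
  have hrel' : O.valuation u ^ p' * O.valuation v ^ q' = 1 := by
    have h1 : (O.valuation u ^ p' * O.valuation v ^ q') ^ (Int.gcd p q) = 1 := by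
      rw [mul_pow, ← zpow_natCast, ← zpow_natCast, ← zpow_mul, ← zpow_mul, ← hp', ← hq']
      exact hrel
    exact (pow_eq_one_iff_of_nonneg zero_le hg.ne').1 h1
  have hwE : u ^ p' * v ^ q' ∈ E := E.mul_mem (zpow_mem hu _) (zpow_mem hv _)
  have hw1 : O.valuation (u ^ p' * v ^ q') = 1 := by
    rw [map_mul, map_zpow₀, map_zpow₀]; exact hrel'
  obtain ⟨d, hd, hlt⟩ := exists_const hk hE hOk hOE hwE hw1
  have hd0 : d ≠ 0 := by
    rintro rfl
    rw [sub_zero, hw1] at hlt
    exact lt_irrefl _ hlt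
  have h1 := cl_sub_cl_mem_U1 (ℓ := ℓ) (hOk.eq_one hd hd0) hlt
  rw [line_cl_const hk hd, sub_zero, cl_mul ℓ (zpow_ne_zero _ hu0') (zpow_ne_zero _ hv0'),
    cl_zpow, cl_zpow, ← Int.cast_smul_eq_zsmul (ZMod ℓ), ← Int.cast_smul_eq_zsmul (ZMod ℓ)] at h1
  obtain ⟨h2, h3⟩ := hind _ _ h1
  rw [ZMod.intCast_zmod_eq_zero_iff_dvd] at h2 h3
  have h4 : (ℓ : ℤ) ∣ (Int.gcd p' q' : ℤ) := Int.dvd_coe_gcd h2 h3
  rw [hcop] at h4
  have h5 : (ℓ : ℤ) ∣ 1 := by exact_mod_cast h4
  have h6 : ℓ ∣ 1 := by exact_mod_cast h5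
  exact (Fact.out : ℓ.Prime).one_lt.ne' (Nat.dvd_one.1 h6)

end Vale.Agent.P019
end

section

/-!
# Finiteness of intersections
-/

namespace Vale.Agent.P019

set_option linter.style.haveILetI false

open Polynomial

section aux

variable {Ω : Type*} [Field Ω]

/-- `F ⊔ closure S` as an intermediate field. -/
theorem finK_sup_eq (F : Subfield Ω) (S : Set Ω) :
    (IntermediateField.adjoin F S).toSubfield = F ⊔ Subfield.closure S := by
  rw [IntermediateField.adjoin_toSubfield]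
  apply le_antisymm
  · rw [Subfield.closure_le]
    rintro z (⟨w, rfl⟩ | hz)
    · exact (le_sup_left : F ≤ F ⊔ Subfield.closure S) w.2
    · exact (le_sup_right : Subfield.closure S ≤ F ⊔ Subfield.closure S)
        (Subfield.subset_closure hz)
  · refine sup_le ?_ (Subfield.closure_mono Set.subset_union_right)
    intro z hz
    exact Subfield.subset_closure (Or.inl ⟨⟨z, hz⟩, rfl⟩)

theorem finK_mem_adj {E : Subfield Ω} {t z : Ω} :
    z ∈ adj E t ↔ ∃ p q : E[X], z = aeval t p / aeval t q := by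
  rw [← IntermediateField.mem_adjoin_simple_iff, adj, ← finK_sup_eq]
  rfl

/-- a primitive root of unity in an algebraically closed subfield. -/
theorem finK_prim [CharZero Ω] {l : Subfield Ω} (hl : IsAlgClosed l) (ℓ : ℕ) [Fact ℓ.Prime] :
    ∃ ζ ∈ l, IsPrimitiveRoot ζ ℓ := by
  haveI : NeZero ℓ := ⟨(Fact.out : ℓ.Prime).ne_zero⟩
  haveI : NeZero (ℓ : l) := ⟨by
    have : ((ℓ : ℕ) : l) ≠ 0 := Nat.cast_ne_zero.2 (NeZero.ne ℓ)
    exact this⟩
  obtain ⟨ζ, hζ⟩ := HasEnoughRootsOfUnity.exists_primitiveRoot l ℓ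
  exact ⟨ζ, ζ.2, hζ.map_of_injective (f := algebraMap l Ω) (algebraMap l Ω).injective⟩

theorem FG.mono {E F Λ : Subfield Ω} (h : FG E Λ) (hEF : E ≤ F) (hF : F ≤ Λ) : FG F Λ := by
  obtain ⟨S, hS⟩ := h
  refine ⟨S, le_antisymm ?_ ?_⟩
  · rw [hS]
    exact sup_le_sup_right hEF _
  · refine sup_le hF ?_
    rw [hS]
    exact le_sup_right

/-- pigeonhole for setoids -/
theorem finK_finite {α : Type*} (s : Setoid α) (N : ℕ)
    (h : ∀ x : Fin (N + 1) → α, ∃ i j, i ≠ j ∧ s.r (x i) (x j)) : Finite (Quotient s) := by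
  by_contra hinf
  rw [not_finite_iff_infinite] at hinf
  let e := Infinite.natEmbedding (Quotient s)
  obtain ⟨i, j, hij, hr⟩ := h (fun i => (e i.1).out)
  apply hij
  have h1 : (e i.1) = (e j.1) := by
    rw [← Quotient.out_eq (e i.1), ← Quotient.out_eq (e j.1)]
    exact Quotient.sound hr
  exact Fin.ext (e.injective h1)

end aux

section finite

variable {Ω : Type*} [Field Ω] [CharZero Ω] (ℓ : ℕ) [Fact ℓ.Prime]

/-- S11 finite kernel, ambient version. -/
theorem fk {F Λ : Subfield Ω} (h : FG F Λ) {ζ : Ω} (hζF : ζ ∈ F) (hζ : IsPrimitiveRoot ζ ℓ) :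
    ∃ N : ℕ, ∀ x : Fin (N + 1) → Ω, (∀ i, x i ∈ F ∧ x i ≠ 0 ∧ ∃ w ∈ Λ, w ^ ℓ = x i) →
      ∃ i j, i ≠ j ∧ ∃ y ∈ F, y ≠ 0 ∧ x i = x j * y ^ ℓ := by
  obtain ⟨S, hS⟩ := h
  haveI : CharZero F := inferInstance
  haveI : Algebra.EssFiniteType F (IntermediateField.adjoin F (S : Set Ω)) :=
    IntermediateField.essFiniteType_iff.2 ⟨S, rfl⟩
  have hζ' : IsPrimitiveRoot (⟨ζ, hζF⟩ : F) ℓ :=
    IsPrimitiveRoot.of_map_of_injective (f := algebraMap F Ω) hζ (algebraMap F Ω).injective
  obtain ⟨N, hN⟩ := finite_kernel (F := F) (L := IntermediateField.adjoin F (S : Set Ω)) ℓ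
    ⟨ζ, hζF⟩ hζ'
  refine ⟨N, fun x hx => ?_⟩
  obtain ⟨i, j, hij, y, hy0, hy⟩ := hN (fun i => ⟨x i, (hx i).1⟩) (by
    intro i
    obtain ⟨h1, h2, w, hw, hwx⟩ := hx i
    refine ⟨fun h => h2 (congrArg Subtype.val h), ?_⟩
    have hw' : w ∈ IntermediateField.adjoin F (S : Set Ω) := by
      have h3 : w ∈ (IntermediateField.adjoin F (S : Set Ω)).toSubfield := by
        rw [finK_sup_eq, ← hS]; exact hw
      exact h3
    refine ⟨⟨w, hw'⟩, Subtype.ext ?_⟩
    exact hwx)
  refine ⟨i, j, hij, y, y.2, fun h => hy0 (Subtype.ext h), ?_⟩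
  exact congrArg Subtype.val hy

end finite

section finiteK

variable {K : Type*} [Field K] [CharZero K] (ℓ : ℕ) [Fact ℓ.Prime]

end finiteK

end Vale.Agent.P019
end

section

/-!
# Generic places
-/

namespace Vale.Agent.P019

set_option linter.style.haveILetI false

open Polynomial

namespace Gn

variable {K : Type*} [Field K]

theorem isAlgebraic_of_coeff {E : Subfield K} {a : K} (Q : K[X]) (hQ : Q ≠ 0)
    (hcoef : ∀ i, Q.coeff i ∈ E) (h : Q.eval a = 0) : IsAlgebraic E a := by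
  have hl : Q ∈ Polynomial.lifts E.subtype := by
    rw [Polynomial.lifts_iff_coeff_lifts]
    intro n
    exact ⟨⟨Q.coeff n, hcoef n⟩, rfl⟩
  obtain ⟨Q', hQ'⟩ := hl
  refine ⟨Q', ?_, ?_⟩
  · rintro rfl
    apply hQ
    rw [← hQ']
    exact Polynomial.map_zero _
  · rw [← h, ← hQ']
    change _ = eval a (Q'.map E.subtype)
    rw [eval_map]
    rfl

theorem exists_finset_le {S : Set (Subfield K)} (Sne : S.Nonempty) (hS : DirectedOn (· ≤ ·) S)
    (s : Finset K) (hs : ∀ x ∈ s, x ∈ sSup S) : ∃ E ∈ S, ∀ x ∈ s, x ∈ E := by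
  classical
  induction s using Finset.induction_on with
  | empty =>
    obtain ⟨E, hE⟩ := Sne
    exact ⟨E, hE, by simp⟩
  | insert b s hb ih =>
    obtain ⟨E, hE, hE'⟩ := ih (fun x hx => hs x (Finset.mem_insert_of_mem hx))
    obtain ⟨E₂, hE₂, hb'⟩ := (Subfield.mem_sSup_of_directedOn Sne hS).1
      (hs b (Finset.mem_insert_self _ _))
    obtain ⟨E₃, hE₃, h1, h2⟩ := hS E hE E₂ hE₂
    refine ⟨E₃, hE₃, fun x hx => ?_⟩
    rcases Finset.mem_insert.1 hx with rfl | hx
    · exact h2 hb'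
    · exact h1 (hE' x hx)

theorem isAlgebraic_sSup {S : Set (Subfield K)} (Sne : S.Nonempty) (hS : DirectedOn (· ≤ ·) S)
    {a : K} (h : IsAlgebraic (sSup S : Subfield K) a) : ∃ E ∈ S, IsAlgebraic E a := by
  classical
  obtain ⟨Q, hQ0, hQ⟩ := h
  set R : K[X] := Q.map (sSup S : Subfield K).subtype with hR
  have hR0 : R ≠ 0 := by
    rw [hR, Ne, Polynomial.map_eq_zero_iff (RingHom.injective _)]; exact hQ0
  have hRa : R.eval a = 0 := by
    rw [hR, eval_map]; exact hQ
  have hmem : ∀ i, R.coeff i ∈ sSup S := by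
    intro i
    rw [hR, coeff_map]
    exact (Q.coeff i).2
  obtain ⟨E, hE, hE'⟩ := exists_finset_le Sne hS (R.support.image R.coeff) (by
    intro x hx
    obtain ⟨i, -, rfl⟩ := Finset.mem_image.1 hx
    exact hmem i)
  refine ⟨E, hE, isAlgebraic_of_coeff R hR0 (fun i => ?_) hRa⟩
  by_cases hi : R.coeff i = 0
  · rw [hi]; exact E.zero_mem
  · exact hE' _ (Finset.mem_image_of_mem _ (mem_support_iff.2 hi))

theorem isAlgebraic_of_map {Ω : Type*} [Field Ω] [Algebra K Ω] {E : Subfield K} {z : K}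
    (h : IsAlgebraic (E.map (algebraMap K Ω)) (algebraMap K Ω z)) : IsAlgebraic E z := by
  obtain ⟨Q, hQ0, hQ⟩ := h
  have hl : Q.map (E.map (algebraMap K Ω)).subtype ∈ Polynomial.lifts ((algebraMap K Ω).comp E.subtype) := by
    rw [Polynomial.lifts_iff_coeff_lifts]
    intro n
    rw [coeff_map]
    obtain ⟨x, hx, hx'⟩ := (Q.coeff n).2
    exact ⟨⟨x, hx⟩, hx'⟩
  obtain ⟨Q', hQ'⟩ := hl
  have hQ'' : Q'.map ((algebraMap K Ω).comp E.subtype) = Q.map (E.map (algebraMap K Ω)).subtype := hQ'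
  refine ⟨Q', ?_, ?_⟩
  · rintro rfl
    rw [Polynomial.map_zero] at hQ''
    exact hQ0 ((Polynomial.map_eq_zero_iff (RingHom.injective _)).1 hQ''.symm)
  · apply (algebraMap K Ω).injective
    rw [map_zero, aeval_def, hom_eval₂]
    have h1 : eval (algebraMap K Ω z) (Q.map (E.map (algebraMap K Ω)).subtype) = 0 := by
      rw [eval_map]
      exact hQ
    rw [← hQ'', eval_map] at h1
    exact h1

theorem mem_adj_frac {E : Subfield K} {a z : K} (hz : z ∈ adj E a) :
    ∃ r s : E[X], z = aeval a r / aeval a s := by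
  have h1 : adj E a ≤ (IntermediateField.adjoin E {a}).toSubfield := by
    refine adj_le ?_ ?_
    · intro x hx
      exact (IntermediateField.adjoin E {a}).algebraMap_mem ⟨x, hx⟩
    · exact IntermediateField.mem_adjoin_simple_self E a
  exact (IntermediateField.mem_adjoin_simple_iff E z).1 (h1 hz)

theorem aeval_mem_adj {E : Subfield K} (a : K) (r : E[X]) : aeval a r ∈ adj E a := by
  rw [aeval_eq_sum_range]
  refine Subfield.sum_mem _ (fun i _ => ?_)
  rw [Algebra.smul_def]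
  exact Subfield.mul_mem _ (le_adj E a (SetLike.coe_mem _)) (pow_mem (mem_adj E a) i)

/-- complement of `a` in `k` over `N`. -/
theorem exists_compl {N k : Subfield K} (hk : RAC k) (hNk : N ≤ k) (hN : RAC N) {a : K}
    (haN : a ∉ N) :
    ∃ k₁ : Subfield K, N ≤ k₁ ∧ k₁ ≤ k ∧ RAC k₁ ∧ a ∉ k₁ ∧
      ∀ b ∈ k, IsAlgebraic (adj k₁ a) b := by
  let S : Set (Subfield K) := {E | N ≤ E ∧ E ≤ k ∧ ¬ IsAlgebraic E a}
  have hNS : N ∈ S := ⟨le_rfl, hNk, fun h => haN (hN _ h)⟩
  obtain ⟨E, hNE, hE⟩ := zorn_le_nonempty₀ S (by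
    intro c hcS hc y hy
    have hd : DirectedOn (· ≤ ·) c := hc.directedOn
    refine ⟨sSup c, ⟨?_, ?_, ?_⟩, fun z hz => le_sSup hz⟩
    · exact (hcS hy).1.trans (le_sSup hy)
    · exact sSup_le (fun z hz => (hcS hz).2.1)
    · intro h
      obtain ⟨E, hE, hE'⟩ := isAlgebraic_sSup ⟨y, hy⟩ hd h
      exact (hcS hE).2.2 hE') N hNS
  obtain ⟨⟨-, hEk, hEa⟩, hmax⟩ := hE
  have hrac : RAC E := by
    have h1 : rac E ∈ S := ⟨hNE.trans (le_rac E), hk.le hEk, fun h => hEa (isAlgebraic_rac h)⟩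
    have h2 : rac E ≤ E := hmax h1 (le_rac E)
    intro z hz
    exact h2 (mem_rac.2 hz)
  refine ⟨E, hNE, hEk, hrac, fun h => hEa (isAlgebraic_of_mem h), ?_⟩
  intro b hb
  by_contra hcon
  have h1 : ¬ IsAlgebraic (adj E b) a := fun h => hcon (exchange hEa h)
  have h2 : adj E b ∈ S := ⟨hNE.trans (le_adj E b), adj_le hEk hb, h1⟩
  have h3 : adj E b ≤ E := hmax h2 (le_adj E b)
  exact hcon (isAlgebraic_of_mem (le_adj E a (h3 (mem_adj E b))))

variable {Ω : Type*} [Field Ω]

/-- place sending `a` to `t`, identity on `A`. -/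
theorem exists_pl [Algebra K Ω] [IsAlgClosed Ω] {A : Subfield K} {a : K}
    (ha : ¬ IsAlgebraic A a) (t : K) :
    ∃ P : Pl K Ω, (∀ x ∈ A, x ∈ P.O ∧ P.ev x = algebraMap K Ω x) ∧ a ∈ P.O ∧
      P.ev a = algebraMap K Ω t := by
  have hta : Transcendental A a := ha
  let e := Polynomial.algEquivOfTranscendental A a hta
  let φ : (Algebra.adjoin A {a}).toSubring →+* Ω :=
    ((eval₂RingHom ((algebraMap K Ω).comp A.subtype) (algebraMap K Ω t)).comp
      (e.symm : Algebra.adjoin A {a} →+* A[X]))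
  obtain ⟨O, ψ, h1, h2⟩ := exists_place (Algebra.adjoin A {a}).toSubring φ
  let P : Pl K Ω := ⟨O, ψ, h2⟩
  have hA : ∀ x (hx : x ∈ A), ∃ h : x ∈ (Algebra.adjoin A {a}).toSubring,
      φ ⟨x, h⟩ = algebraMap K Ω x := by
    intro x hx
    have h3 : x ∈ Algebra.adjoin A {a} := (Algebra.adjoin A {a}).algebraMap_mem ⟨x, hx⟩
    refine ⟨h3, ?_⟩
    have h4 : e.symm ⟨x, h3⟩ = C ⟨x, hx⟩ := by
      rw [AlgEquiv.symm_apply_eq]
      apply Subtype.ext
      simp [e]
      rfl
    change eval₂RingHom _ _ (e.symm ⟨x, h3⟩) = _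
    rw [h4]
    simp
  have ha' : ∃ h : a ∈ (Algebra.adjoin A {a}).toSubring, φ ⟨a, h⟩ = algebraMap K Ω t := by
    have h3 : a ∈ Algebra.adjoin A {a} := Algebra.self_mem_adjoin_singleton A a
    refine ⟨h3, ?_⟩
    have h4 : e.symm ⟨a, h3⟩ = X := by
      rw [AlgEquiv.symm_apply_eq]
      apply Subtype.ext
      simp [e]
    change eval₂RingHom _ _ (e.symm ⟨a, h3⟩) = _
    rw [h4]
    simp
  refine ⟨P, ?_, ?_, ?_⟩
  · intro x hx
    obtain ⟨h, h'⟩ := hA x hx
    obtain ⟨hxO, hx'⟩ := h1 x h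
    refine ⟨hxO, ?_⟩
    rw [P.ev_of_mem (show x ∈ P.O from hxO)]
    exact hx'.trans h'
  · obtain ⟨h, h'⟩ := ha'
    exact (h1 a h).1
  · obtain ⟨h, h'⟩ := ha'
    obtain ⟨hxO, hx'⟩ := h1 a h
    rw [P.ev_of_mem (show a ∈ P.O from hxO)]
    exact hx'.trans h'

section

variable {P : Pl K Ω}

/-- evaluation of polynomials. -/
theorem ev_aeval [Algebra K Ω] {A : Subfield K} {a t : K}
    (hA : ∀ x ∈ A, x ∈ P.O ∧ P.ev x = algebraMap K Ω x) (ha : a ∈ P.O)
    (hat : P.ev a = algebraMap K Ω t) (Q : A[X]) :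
    aeval a Q ∈ P.O ∧ P.ev (aeval a Q) = algebraMap K Ω (aeval t Q) := by
  induction Q using Polynomial.induction_on' with
  | add p q hp hq =>
    rw [map_add, map_add, map_add, ← hp.2, ← hq.2]
    exact ⟨P.O.add_mem _ _ hp.1 hq.1, P.ev_add hp.1 hq.1⟩
  | monomial n c =>
    rw [aeval_monomial, aeval_monomial, map_mul, map_pow]
    have h1 := hA c c.2
    refine ⟨P.O.mul_mem _ _ h1.1 (pow_mem ha n), ?_⟩
    change P.ev ((c : K) * a ^ n) = _
    rw [P.ev_mul h1.1 (pow_mem ha n), P.ev_pow ha, hat, h1.2]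
    rfl

/-- triviality on `E(a)` if `t` is transcendental over `E`. -/
theorem mem_and_ev [Algebra K Ω] {E : Subfield K} {a t : K}
    (hA : ∀ x ∈ E, x ∈ P.O ∧ P.ev x = algebraMap K Ω x) (ha : a ∈ P.O)
    (hat : P.ev a = algebraMap K Ω t) (ht : ¬ IsAlgebraic E t) {z : K} (hz : z ∈ adj E a) :
    z ∈ P.O ∧ P.ev z ∈ (adj E t).map (algebraMap K Ω) := by
  obtain ⟨r, s, rfl⟩ := mem_adj_frac hz
  by_cases hs : s = 0
  · rw [hs, map_zero, div_zero, P.ev_zero]
    exact ⟨P.O.zero_mem, Subfield.zero_mem _⟩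
  have hst : aeval t s ≠ 0 := fun h => ht ⟨s, hs, h⟩
  have hr := ev_aeval hA ha hat r
  have hs' := ev_aeval hA ha hat s
  have hU : P.U (aeval a s) := ⟨hs'.1, by
    rw [hs'.2, Ne, map_eq_zero]; exact hst⟩
  refine ⟨?_, ?_⟩
  · rw [div_eq_mul_inv]
    exact P.O.mul_mem _ _ hr.1 hU.inv_mem
  · rw [P.ev_div hr.1 hU, hr.2, hs'.2, ← map_div₀]
    exact ⟨_, Subfield.div_mem _ (aeval_mem_adj t r) (aeval_mem_adj t s), rfl⟩

/-- discreteness on `A(a)`. -/
theorem gd_adj [Algebra K Ω] {A : Subfield K} {a t : K}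
    (hA : ∀ x ∈ A, x ∈ P.O ∧ P.ev x = algebraMap K Ω x) (ha : a ∈ P.O)
    (hat : P.ev a = algebraMap K Ω t) (htA : t ∈ A) (hta : t - a ≠ 0) (κ : Subfield Ω)
    (hκ : ∀ x ∈ A, algebraMap K Ω x ∈ κ) : Gd P (t - a) κ (adj A a) := by
  have key : ∀ Q : A[X], Q ≠ 0 → ∃ (n : ℕ) (u : K), P.U u ∧ P.ev u ∈ κ ∧
      aeval a Q = (t - a) ^ n * u := by
    intro Q hQ
    obtain ⟨h, hh, hh'⟩ := exists_eq_pow_rootMultiplicity_mul_and_not_dvd Q hQ (⟨t, htA⟩ : A)
    set n := rootMultiplicity (⟨t, htA⟩ : A) Q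
    have h1 := ev_aeval hA ha hat h
    have h2 : aeval t h ≠ 0 := by
      intro h3
      apply hh'
      rw [dvd_iff_isRoot, IsRoot.def]
      apply Subtype.ext
      have h4 : aeval ((algebraMap A K) ⟨t, htA⟩) h = algebraMap A K (eval ⟨t, htA⟩ h) := by
        rw [aeval_algebraMap_apply, coe_aeval_eq_eval]
      exact h4.symm.trans h3
    have h3 : aeval t h ∈ A := by
      have h4 : aeval ((algebraMap A K) ⟨t, htA⟩) h = algebraMap A K (eval ⟨t, htA⟩ h) := by
        rw [aeval_algebraMap_apply, coe_aeval_eq_eval]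
      have h5 : aeval t h = algebraMap A K (eval ⟨t, htA⟩ h) := h4
      rw [h5]
      exact SetLike.coe_mem _
    have hm1 : (-1 : K) ∈ A := A.neg_mem A.one_mem
    have hm : (-1 : K) ^ n * aeval a h ∈ P.O ∧
        P.ev ((-1 : K) ^ n * aeval a h) = algebraMap K Ω ((-1) ^ n * aeval t h) := by
      have h5 := hA _ (pow_mem hm1 n)
      refine ⟨P.O.mul_mem _ _ h5.1 h1.1, ?_⟩
      rw [P.ev_mul h5.1 h1.1, h5.2, h1.2, map_mul]
    refine ⟨n, (-1) ^ n * aeval a h, ⟨hm.1, ?_⟩, ?_, ?_⟩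
    · rw [hm.2, Ne, map_eq_zero]
      exact mul_ne_zero (pow_ne_zero _ (neg_ne_zero.2 one_ne_zero)) h2
    · rw [hm.2]
      exact hκ _ (A.mul_mem (pow_mem hm1 n) h3)
    · rw [hh, map_mul, map_pow, map_sub, aeval_X, aeval_C]
      change (a - t) ^ n * _ = _
      rw [← neg_sub t a, neg_pow]
      ring
  intro z hz hz0
  obtain ⟨r, s, rfl⟩ := mem_adj_frac hz
  have hr0 : r ≠ 0 := by
    rintro rfl
    rw [map_zero, zero_div] at hz0
    exact hz0 rfl
  have hs0 : s ≠ 0 := by
    rintro rfl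
    rw [map_zero, div_zero] at hz0
    exact hz0 rfl
  obtain ⟨n, u, hu, hu', e1⟩ := key r hr0
  obtain ⟨m, v, hv, hv', e2⟩ := key s hs0
  refine ⟨(m : ℤ) - n, ?_⟩
  have e3 : aeval a r / aeval a s * (t - a) ^ ((m : ℤ) - n) = u / v := by
    have := hv.ne_zero
    rw [e1, e2, zpow_sub₀ hta, zpow_natCast, zpow_natCast]
    field_simp
  rw [e3]
  exact ⟨hu.div hv, by rw [P.ev_div hu.1 hv]; exact κ.div_mem hu' hv'⟩

theorem Gd_mono {π : K} {κ : Subfield Ω} {F F' : Subfield K} (h : F' ≤ F) (hF : Gd P π κ F) :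
    Gd P π κ F' := fun z hz hz0 => hF z (h hz) hz0

/-- nonzero elements of a field inside the valuation ring are units. -/
theorem U_of_field {k : Subfield K} (hk : ∀ x ∈ k, x ∈ P.O) {c : K} (hc : c ∈ k) (hc0 : c ≠ 0) :
    P.U c := by
  refine ⟨hk c hc, fun h => ?_⟩
  have h1 := P.ev_mul (hk c hc) (hk _ (k.inv_mem hc))
  rw [mul_inv_cancel₀ hc0, P.ev_one, h, zero_mul] at h1
  exact one_ne_zero h1

/-- adjoining finitely many constants. -/
theorem gd_finset [CharZero K] {π : K} {κ : Subfield Ω} {F E k : Subfield K}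
    (hπ : π ≠ 0) (hπO : π ∈ P.O) (hπ0 : P.ev π = 0) (hπF : π ∈ F) (hF : Gd P π κ F)
    (hEF : E ≤ F) (hEk : E ≤ k) (hk : ∀ x ∈ k, x ∈ P.O) (hκ : ∀ x ∈ k, P.ev x ∈ κ)
    (halg : ∀ x ∈ k, IsAlgebraic E x) (T : Finset K) (hT : (T : Set K) ⊆ k) :
    Gd P π κ (F ⊔ Subfield.closure (T : Set K)) := by
  classical
  induction T using Finset.induction_on with
  | empty => simpa using hF
  | insert c T hc ih =>
    have hck : c ∈ k := hT (by simp)
    have ih' := ih (fun x hx => hT (by simp only [Finset.coe_insert]; exact Set.mem_insert_of_mem _ hx))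
    set F' : Subfield K := F ⊔ Subfield.closure (T : Set K) with hF'
    have hEF' : E ≤ F' := hEF.trans le_sup_left
    have hint : IsIntegral E c := (halg c hck).isIntegral
    have hae : ∀ Q : E[X], aeval c (Q.map (Subfield.inclusion hEF')) = aeval c Q := by
      intro Q
      rw [aeval_def, eval₂_map]
      rfl
    have h1 : Gd P π κ (Subfield.closure (F' ∪ {c})) := by
      refine ih'.adjoin hπ hπO hπ0 ?_ (hk c hck) (hκ c hck)
        ((minpoly E c).map (Subfield.inclusion hEF')) ((minpoly.monic hint).map _) ?_ ?_ ?_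
      · exact (le_sup_left : F ≤ F') hπF
      · intro i
        rw [coeff_map]
        exact hk _ (hEk (SetLike.coe_mem _))
      · rw [hae, minpoly.aeval]
      · rw [derivative_map, hae]
        refine U_of_field hk ?_ ?_
        · exact adj_le hEk hck (aeval_mem_adj c _)
        · have hsep : (minpoly E c).Separable :=
            (minpoly.irreducible hint).separable
          exact hsep.aeval_derivative_ne_zero (minpoly.aeval E c)
    refine Gd_mono ?_ h1
    rw [sup_le_iff, Subfield.closure_le]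
    refine ⟨?_, ?_⟩
    · intro x hx
      exact Subfield.subset_closure (Or.inl ((le_sup_left : F ≤ F') hx))
    · intro x hx
      simp only [Finset.coe_insert] at hx
      rcases hx with rfl | hx
      · exact Subfield.subset_closure (Or.inr rfl)
      · exact Subfield.subset_closure (Or.inl ((le_sup_right : _ ≤ F')
          (Subfield.subset_closure hx)))

theorem exists_finset_sup {F k : Subfield K} {z : K} (hz : z ∈ F ⊔ k) :
    ∃ T : Finset K, (T : Set K) ⊆ k ∧ z ∈ F ⊔ Subfield.closure (T : Set K) := by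
  classical
  have hz' : z ∈ Subfield.closure ((F : Set K) ∪ k) := by
    have : F ⊔ k ≤ Subfield.closure ((F : Set K) ∪ k) := by
      rw [sup_le_iff]
      exact ⟨fun x hx => Subfield.subset_closure (Or.inl hx),
        fun x hx => Subfield.subset_closure (Or.inr hx)⟩
    exact this hz
  have hmono : ∀ S T : Finset K, S ⊆ T → F ⊔ Subfield.closure (S : Set K) ≤
      F ⊔ Subfield.closure (T : Set K) := fun S T h =>
    sup_le_sup_left (Subfield.closure_mono (by exact_mod_cast h)) _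
  clear hz
  induction hz' using Subfield.closure_induction with
  | mem x hx =>
    rcases hx with hx | hx
    · exact ⟨∅, by simp, (le_sup_left : F ≤ _) hx⟩
    · refine ⟨{x}, by simpa using hx, ?_⟩
      exact (le_sup_right : Subfield.closure _ ≤ _) (Subfield.subset_closure (by simp))
  | one => exact ⟨∅, by simp, Subfield.one_mem _⟩
  | add x y _ _ hx hy =>
    obtain ⟨S, hS, hS'⟩ := hx
    obtain ⟨T, hT, hT'⟩ := hy
    exact ⟨S ∪ T, by simpa using ⟨hS, hT⟩, Subfield.add_mem _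
      (hmono _ _ Finset.subset_union_left hS') (hmono _ _ Finset.subset_union_right hT')⟩
  | neg x _ hx =>
    obtain ⟨S, hS, hS'⟩ := hx
    exact ⟨S, hS, Subfield.neg_mem _ hS'⟩
  | inv x _ hx =>
    obtain ⟨S, hS, hS'⟩ := hx
    exact ⟨S, hS, Subfield.inv_mem _ hS'⟩
  | mul x y _ _ hx hy =>
    obtain ⟨S, hS, hS'⟩ := hx
    obtain ⟨T, hT, hT'⟩ := hy
    exact ⟨S ∪ T, by simpa using ⟨hS, hT⟩, Subfield.mul_mem _
      (hmono _ _ Finset.subset_union_left hS') (hmono _ _ Finset.subset_union_right hT')⟩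

end

end Gn

namespace Mdl

variable {K : Type*} [Field K] [CharZero K] (M : Mdl K) (ℓ : ℕ) [Fact ℓ.Prime]

end Mdl

end Vale.Agent.P019
end

section

/-!
# Lueroth's theorem for subfields
-/

namespace Vale.Agent.P019

open Polynomial

set_option linter.unusedVariables false in
theorem luroth_sub {N : Type*} [Field N] {k E : Subfield N} {σ : N} (hσ : ¬ IsAlgebraic k σ)
    (hkE : k ≤ E) (hE : E ≤ adj k σ) (hne : ¬ E ≤ k) : ∃ u ∈ E, E = adj k u := by
  have hinj : Function.Injective (aeval σ : k[X] →ₐ[k] N) := by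
    rw [injective_iff_map_eq_zero]
    intro p hp
    by_contra h
    exact hσ ⟨p, h, hp⟩
  let φ : RatFunc k →ₐ[k] N := RatFunc.liftAlgHom (aeval σ : k[X] →ₐ[k] N)
    (nonZeroDivisors_le_comap_nonZeroDivisors_of_injective _ hinj)
  let E1 : IntermediateField k N :=
    { E with algebraMap_mem' := fun x => hkE x.2 }
  let A : N → IntermediateField k N := fun u =>
    { adj k u with algebraMap_mem' := fun x => le_adj k u x.2 }
  let E' : IntermediateField k (RatFunc k) := E1.comap φ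
  have hmemE' : ∀ z, z ∈ E' ↔ φ z ∈ E := fun z => Iff.rfl
  refine ⟨φ (RatFunc.Luroth.generator E'), (hmemE' _).1 RatFunc.Luroth.generator_mem, ?_⟩
  apply le_antisymm
  · intro z hz
    obtain ⟨r, s, hrs⟩ := Gn.mem_adj_frac (hE hz)
    have h1 : φ (algebraMap k[X] (RatFunc k) r / algebraMap k[X] (RatFunc k) s) = z := by
      rw [hrs]
      exact RatFunc.liftAlgHom_apply_div _ _ _ _
    have h2 : algebraMap k[X] (RatFunc k) r / algebraMap k[X] (RatFunc k) s ∈ E' := by
      rw [hmemE', h1]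
      exact hz
    rw [RatFunc.Luroth.eq_adjoin_generator (E := E')] at h2
    have h3 : IntermediateField.adjoin k {RatFunc.Luroth.generator E'} ≤
        (A (φ (RatFunc.Luroth.generator E'))).comap φ := by
      rw [IntermediateField.adjoin_le_iff]
      rintro _ rfl
      exact mem_adj k _
    have h4 : φ (algebraMap k[X] (RatFunc k) r / algebraMap k[X] (RatFunc k) s) ∈
        adj k (φ (RatFunc.Luroth.generator E')) := h3 h2
    rw [h1] at h4
    exact h4
  · exact adj_le hkE ((hmemE' _).1 RatFunc.Luroth.generator_mem)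

end Vale.Agent.P019
end

section

/-!
# Images of subfields under places
-/

namespace Vale.Agent.P019

set_option linter.style.haveILetI false

open Polynomial

section im

variable {K Ω : Type*} [Field K] [Field Ω] (P : Pl K Ω)

/-- the residue homomorphism on a subfield of the valuation ring. -/
noncomputable def Pl.resHom (A : Subfield K) (hA : ∀ x ∈ A, x ∈ P.O) : A →+* Ω :=
  P.ψ.comp (RingHom.codRestrict A.subtype P.O.toSubring (fun x => hA x x.2))

theorem Pl.resHom_apply (A : Subfield K) (hA : ∀ x ∈ A, x ∈ P.O) (x : A) :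
    P.resHom A hA x = P.ev (x : K) := by
  rw [P.ev_of_mem (hA x x.2)]
  rfl

/-- the image of a subfield of the valuation ring. -/
noncomputable def Pl.im (A : Subfield K) (hA : ∀ x ∈ A, x ∈ P.O) : Subfield Ω :=
  (P.resHom A hA).fieldRange

theorem Pl.mem_im {A : Subfield K} {hA : ∀ x ∈ A, x ∈ P.O} {y : Ω} :
    y ∈ P.im A hA ↔ ∃ x ∈ A, P.ev x = y := by
  unfold Pl.im
  rw [RingHom.mem_fieldRange]
  constructor
  · rintro ⟨x, rfl⟩
    exact ⟨x, x.2, (P.resHom_apply A hA x).symm⟩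
  · rintro ⟨x, hx, rfl⟩
    exact ⟨⟨x, hx⟩, P.resHom_apply A hA _⟩

theorem Pl.ev_mem_im {A : Subfield K} (hA : ∀ x ∈ A, x ∈ P.O) {x : K} (hx : x ∈ A) :
    P.ev x ∈ P.im A hA := P.mem_im.2 ⟨x, hx, rfl⟩

theorem Pl.ev_inj {A : Subfield K} (hA : ∀ x ∈ A, x ∈ P.O) {x y : K} (hx : x ∈ A) (hy : y ∈ A)
    (h : P.ev x = P.ev y) : x = y := by
  have h1 : P.resHom A hA ⟨x, hx⟩ = P.resHom A hA ⟨y, hy⟩ := by
    rw [P.resHom_apply, P.resHom_apply]; exact h
  exact congrArg Subtype.val ((P.resHom A hA).injective h1)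

/-- the place attached to a valuation ring. -/
noncomputable def plOf (O : ValuationSubring K) :
    Pl K (AlgebraicClosure (IsLocalRing.ResidueField O)) where
  O := O
  ψ := (algebraMap (IsLocalRing.ResidueField O) _).comp (IsLocalRing.residue O)
  ker := by
    intro x
    rw [RingHom.comp_apply, map_eq_zero, IsLocalRing.residue_eq_zero_iff,
      ValuationSubring.valuation_lt_one_iff]

/-- the isomorphism of a subfield of the valuation ring with its image. -/
noncomputable def Pl.imEquiv (A : Subfield K) (hA : ∀ x ∈ A, x ∈ P.O) : A ≃+* P.im A hA :=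
  RingEquiv.ofBijective (P.resHom A hA).rangeRestrictField
    ⟨(P.resHom A hA).rangeRestrictField.injective, by
      rintro ⟨y, ⟨x, rfl⟩⟩
      exact ⟨x, rfl⟩⟩

theorem Pl.coe_imEquiv (A : Subfield K) (hA : ∀ x ∈ A, x ∈ P.O) (x : A) :
    ((P.imEquiv A hA x : P.im A hA) : Ω) = P.resHom A hA x := rfl

theorem Pl.resHom_imEquiv_symm (A : Subfield K) (hA : ∀ x ∈ A, x ∈ P.O) (y : P.im A hA) :
    P.resHom A hA ((P.imEquiv A hA).symm y) = (y : Ω) := by
  rw [← P.coe_imEquiv, RingEquiv.apply_symm_apply]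

/-- evaluation of polynomials with coefficients in a subfield of the valuation ring. -/
theorem Pl.ev_aeval_im {A : Subfield K} (hA : ∀ x ∈ A, x ∈ P.O) {z : K} (hz : z ∈ P.O)
    (Q : A[X]) :
    aeval z Q ∈ P.O ∧ P.ev (aeval z Q) = eval₂ (P.resHom A hA) (P.ev z) Q := by
  induction Q using Polynomial.induction_on' with
  | add p q hp hq =>
    rw [map_add, eval₂_add, ← hp.2, ← hq.2]
    exact ⟨P.O.add_mem _ _ hp.1 hq.1, P.ev_add hp.1 hq.1⟩
  | monomial n c =>
    rw [aeval_monomial, eval₂_monomial, P.resHom_apply]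
    have h1 := hA c c.2
    refine ⟨P.O.mul_mem _ _ h1 (pow_mem hz n), ?_⟩
    change P.ev ((c : K) * z ^ n) = _
    rw [P.ev_mul h1 (pow_mem hz n), P.ev_pow hz]

/-- polynomials over the image. -/
theorem Pl.eval₂_eq_aeval {A : Subfield K} (hA : ∀ x ∈ A, x ∈ P.O) (w : Ω) (Q : A[X]) :
    eval₂ (P.resHom A hA) w Q = aeval w (Q.map (P.imEquiv A hA : A →+* P.im A hA)) := by
  rw [aeval_def, eval₂_map]
  rfl

theorem Pl.eval₂_eq_aeval_symm {A : Subfield K} (hA : ∀ x ∈ A, x ∈ P.O) (w : Ω)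
    (Q : (P.im A hA)[X]) :
    eval₂ (P.resHom A hA) w (Q.map ((P.imEquiv A hA).symm : P.im A hA →+* A)) = aeval w Q := by
  rw [aeval_def, eval₂_map]
  congr 1
  ext y
  exact P.resHom_imEquiv_symm A hA y

theorem Pl.map_symm_ne_zero {A : Subfield K} (hA : ∀ x ∈ A, x ∈ P.O) {Q : (P.im A hA)[X]}
    (hQ : Q ≠ 0) : Q.map ((P.imEquiv A hA).symm : P.im A hA →+* A) ≠ 0 := by
  rw [Ne, Polynomial.map_eq_zero_iff (RingHom.injective _)]
  exact hQ

theorem Pl.map_ne_zero' {A : Subfield K} (hA : ∀ x ∈ A, x ∈ P.O) {Q : A[X]}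
    (hQ : Q ≠ 0) : Q.map (P.imEquiv A hA : A →+* P.im A hA) ≠ 0 := by
  rw [Ne, Polynomial.map_eq_zero_iff (RingHom.injective _)]
  exact hQ

theorem Pl.map_map_symm {A : Subfield K} (hA : ∀ x ∈ A, x ∈ P.O) (Q : A[X]) :
    (Q.map (P.imEquiv A hA : A →+* P.im A hA)).map
      ((P.imEquiv A hA).symm : P.im A hA →+* A) = Q := by
  rw [Polynomial.map_map]
  have h1 : ((P.imEquiv A hA).symm : P.im A hA →+* A).comp
      (P.imEquiv A hA : A →+* P.im A hA) = RingHom.id A := by
    ext x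
    exact congrArg Subtype.val ((P.imEquiv A hA).symm_apply_apply x)
  rw [h1, Polynomial.map_id]

/-- R2. -/
theorem Pl.mem_adj_of_transcendental (E : Subfield K) (hE : ∀ x ∈ E, x ∈ P.O) {b : K}
    (hb : b ∈ P.O) (hbt : ¬ IsAlgebraic (P.im E hE) (P.ev b)) : ∀ x ∈ adj E b, x ∈ P.O := by
  intro x hx
  obtain ⟨r, s, rfl⟩ := Gn.mem_adj_frac hx
  by_cases hs : s = 0
  · rw [hs, map_zero, div_zero]; exact P.O.zero_mem
  have hs' := P.ev_aeval_im hE hb s
  have hU : P.U (aeval b s) := by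
    refine ⟨hs'.1, fun h => hbt ⟨s.map (P.imEquiv E hE : E →+* P.im E hE), P.map_ne_zero' hE hs, ?_⟩⟩
    rw [← P.eval₂_eq_aeval, ← hs'.2, h]
  rw [div_eq_mul_inv]
  exact P.O.mul_mem _ _ (P.ev_aeval_im hE hb r).1 hU.inv_mem

/-- R3. -/
theorem Gd.sup [CharZero K] {P : Pl K Ω} {π : K} {κ : Subfield Ω} {F E B : Subfield K}
    (hπ : π ≠ 0) (hπO : π ∈ P.O) (hπ0 : P.ev π = 0) (hπF : π ∈ F) (hF : Gd P π κ F)
    (hEF : E ≤ F) (hEB : E ≤ B) (hB : ∀ x ∈ B, x ∈ P.O) (hκ : ∀ x ∈ B, P.ev x ∈ κ)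
    (halg : ∀ x ∈ B, IsAlgebraic E x) : Gd P π κ (F ⊔ B) := by
  intro z hz hz0
  obtain ⟨T, hT, hzT⟩ := Gn.exists_finset_sup hz
  exact Gn.gd_finset hπ hπO hπ0 hπF hF hEF hEB hB hκ halg T hT z hzT hz0

/-- R4. -/
theorem exists_gd_adj (A : Subfield K) (hA : ∀ x ∈ A, x ∈ P.O) {z : K} (hz : z ∈ P.O)
    (hzA : ¬ IsAlgebraic A z) (he : IsAlgebraic (P.im A hA) (P.ev z)) :
    ∃ π ∈ adj A z, π ≠ 0 ∧ π ∈ P.O ∧ P.ev π = 0 ∧ ∀ κ : Subfield Ω, P.im A hA ≤ κ →
      P.ev z ∈ κ → Gd P π κ (adj A z) := by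
  classical
  set m := minpoly (P.im A hA) (P.ev z) with hm
  have hint : IsIntegral (P.im A hA) (P.ev z) := he.isIntegral
  have hmon : m.Monic := minpoly.monic hint
  set m' : A[X] := m.map ((P.imEquiv A hA).symm : P.im A hA →+* A) with hm'
  have hmon' : m'.Monic := hmon.map _
  have hpi := P.ev_aeval_im hA hz m'
  have hpi0 : aeval z m' ≠ 0 := fun h => hzA ⟨m', hmon'.ne_zero, h⟩
  have hev0 : P.ev (aeval z m') = 0 := by
    rw [hpi.2, hm', P.eval₂_eq_aeval_symm, hm, minpoly.aeval]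
  refine ⟨aeval z m', Gn.aeval_mem_adj z m', hpi0, hpi.1, hev0, ?_⟩
  intro κ hκ hzκ
  have hκ' : ∀ Q : A[X], eval₂ (P.resHom A hA) (P.ev z) Q ∈ κ := by
    intro Q
    rw [eval₂_eq_sum_range]
    refine κ.sum_mem (fun i _ => κ.mul_mem (hκ ⟨Q.coeff i, rfl⟩) (pow_mem hzκ i))
  have hdeg : 0 < m'.degree := by
    rw [hm', degree_map]
    exact minpoly.degree_pos hint
  have key : ∀ Q : A[X], Q ≠ 0 → ∃ (n : ℕ) (u : K), P.U u ∧ P.ev u ∈ κ ∧
      aeval z Q = (aeval z m') ^ n * u := by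
    intro Q hQ
    have hfin : FiniteMultiplicity m' Q :=
      Polynomial.finiteMultiplicity_of_degree_pos_of_monic hdeg hmon' hQ
    obtain ⟨h, hh, hh'⟩ := hfin.exists_eq_pow_mul_and_not_dvd
    have h1 := P.ev_aeval_im hA hz h
    refine ⟨multiplicity m' Q, aeval z h, ⟨h1.1, ?_⟩, ?_, ?_⟩
    · intro h2
      apply hh'
      rw [h1.2, P.eval₂_eq_aeval] at h2
      have h3 := minpoly.dvd (P.im A hA) (P.ev z) h2
      have h4 := Polynomial.map_dvd ((P.imEquiv A hA).symm : P.im A hA →+* A) h3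
      rw [P.map_map_symm] at h4
      exact h4
    · rw [h1.2]; exact hκ' h
    · conv_lhs => rw [hh, map_mul, map_pow]
  intro y hy hy0
  obtain ⟨r, s, rfl⟩ := Gn.mem_adj_frac hy
  have hr0 : r ≠ 0 := by
    rintro rfl
    rw [map_zero, zero_div] at hy0
    exact hy0 rfl
  have hs0 : s ≠ 0 := by
    rintro rfl
    rw [map_zero, div_zero] at hy0
    exact hy0 rfl
  obtain ⟨n, u, hu, hu', e1⟩ := key r hr0
  obtain ⟨k, v, hv, hv', e2⟩ := key s hs0
  refine ⟨(k : ℤ) - n, ?_⟩
  have e3 : aeval z r / aeval z s * (aeval z m') ^ ((k : ℤ) - n) = u / v := by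
    have := hv.ne_zero
    rw [e1, e2, zpow_sub₀ hpi0, zpow_natCast, zpow_natCast]
    field_simp
  rw [e3]
  exact ⟨hu.div hv, by rw [P.ev_div hu.1 hv]; exact κ.div_mem hu' hv'⟩

/-- R7. -/
theorem Pl.isAlgebraic_of_im {A E : Subfield K} (hA : ∀ x ∈ A, x ∈ P.O) (hEA : E ≤ A) {x : K}
    (hx : x ∈ A) (h : IsAlgebraic (P.im E (fun x hx => hA x (hEA hx))) (P.ev x)) :
    IsAlgebraic E x := by
  obtain ⟨Q, hQ0, hQ⟩ := h
  have hE : ∀ x ∈ E, x ∈ P.O := fun x hx => hA x (hEA hx)
  refine ⟨Q.map ((P.imEquiv E hE).symm : P.im E hE →+* E), P.map_symm_ne_zero hE hQ0, ?_⟩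
  have h1 := P.ev_aeval_im hE (hA x hx) (Q.map ((P.imEquiv E hE).symm : P.im E hE →+* E))
  rw [P.eval₂_eq_aeval_symm, hQ] at h1
  refine P.ev_inj hA ?_ A.zero_mem (h1.2.trans P.ev_zero.symm)
  exact adj_le hEA hx (Gn.aeval_mem_adj x _)

/-- R7b. -/
theorem Pl.im_adj {A E : Subfield K} (hA : ∀ x ∈ A, x ∈ P.O) (hEA : E ≤ A) {y : K}
    (hy : y ∈ A) :
    P.im (adj E y) (fun x hx => hA x (adj_le hEA hy hx)) =
      adj (P.im E (fun x hx => hA x (hEA hx))) (P.ev y) := by
  have hE : ∀ x ∈ E, x ∈ P.O := fun x hx => hA x (hEA hx)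
  apply le_antisymm
  · intro w hw
    obtain ⟨x, hx, rfl⟩ := P.mem_im.1 hw
    obtain ⟨r, s, rfl⟩ := Gn.mem_adj_frac hx
    have hr := P.ev_aeval_im hE (hA y hy) r
    have hs := P.ev_aeval_im hE (hA y hy) s
    by_cases hs0 : aeval y s = 0
    · rw [hs0, div_zero, P.ev_zero]; exact Subfield.zero_mem _
    have hU : P.U (aeval y s) := by
      refine ⟨hs.1, fun h => hs0 ?_⟩
      exact P.ev_inj hA (adj_le hEA hy (Gn.aeval_mem_adj y s)) A.zero_mem (h.trans P.ev_zero.symm)
    rw [P.ev_div hr.1 hU, hr.2, hs.2, P.eval₂_eq_aeval, P.eval₂_eq_aeval]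
    exact Subfield.div_mem _ (Gn.aeval_mem_adj _ _) (Gn.aeval_mem_adj _ _)
  · refine adj_le ?_ (P.ev_mem_im _ (mem_adj E y))
    intro w hw
    obtain ⟨x, hx, rfl⟩ := P.mem_im.1 hw
    exact P.ev_mem_im _ (le_adj E y hx)

/-- R8. -/
theorem Pl.isAlgClosed_im {A : Subfield K} (hA : ∀ x ∈ A, x ∈ P.O) (h : IsAlgClosed A) :
    IsAlgClosed (P.im A hA) := by
  apply IsAlgClosed.of_exists_root
  intro p hp hirr
  obtain ⟨c, hc⟩ := IsAlgClosed.exists_root
    (p.map ((P.imEquiv A hA).symm : P.im A hA →+* A)) (by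
      rw [degree_map]
      exact (degree_pos_of_irreducible hirr).ne')
  refine ⟨P.imEquiv A hA c, ?_⟩
  have h1 : (P.imEquiv A hA).symm (p.eval (P.imEquiv A hA c)) = 0 := by
    rw [IsRoot.def, eval_map] at hc
    rw [← hc]
    have h2 := hom_eval₂ p (RingHom.id _) ((P.imEquiv A hA).symm : P.im A hA →+* A)
      (P.imEquiv A hA c)
    rw [RingHom.comp_id] at h2
    change (P.imEquiv A hA).symm (eval₂ (RingHom.id _) (P.imEquiv A hA c) p) = _
    refine h2.trans ?_
    congr 1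
    exact (P.imEquiv A hA).symm_apply_apply c
  exact (P.imEquiv A hA).symm.injective (h1.trans (map_zero _).symm)

theorem Pl.im_mono {A E : Subfield K} (hA : ∀ x ∈ A, x ∈ P.O) (hEA : E ≤ A) :
    P.im E (fun x hx => hA x (hEA hx)) ≤ P.im A hA := by
  intro w hw
  obtain ⟨x, hx, rfl⟩ := P.mem_im.1 hw
  exact P.ev_mem_im _ (hEA hx)

/-- R6. -/
theorem Pl.im_eq_rac {l B : Subfield K} (hB : ∀ x ∈ B, x ∈ P.O) (hBac : IsAlgClosed B)
    (hlB : l ≤ B) {z : K} (hz : z ∈ B) (halg : ∀ b ∈ B, IsAlgebraic (adj l z) b) :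
    P.im B hB = rac (adj (P.im l (fun x hx => hB x (hlB hx))) (P.ev z)) := by
  have hadj := P.im_adj hB hlB hz
  apply le_antisymm
  · intro w hw
    obtain ⟨x, hx, rfl⟩ := P.mem_im.1 hw
    rw [mem_rac]
    refine P.isAlgebraic_ev (adj l z) _ ?_ (halg x hx) (hB x hx)
    intro x hx _
    rw [← hadj]
    exact P.ev_mem_im _ hx
  · refine (RAC_of_isAlgClosed _ (P.isAlgClosed_im hB hBac)).le ?_
    rw [← hadj]
    exact P.im_mono hB (adj_le hlB hz)

/-- R8b. -/
theorem Pl.fg_im {A E : Subfield K} (hA : ∀ x ∈ A, x ∈ P.O) (hEA : E ≤ A) (h : FG E A) :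
    FG (P.im E (fun x hx => hA x (hEA hx))) (P.im A hA) := by
  classical
  obtain ⟨S, hS⟩ := h
  refine ⟨S.image P.ev, ?_⟩
  set R : Subfield Ω := P.im E (fun x hx => hA x (hEA hx)) ⊔
    Subfield.closure ((S.image P.ev : Finset Ω) : Set Ω) with hR
  have hSA : ∀ x ∈ S, x ∈ A := by
    intro x hx
    rw [hS]
    exact (le_sup_right : Subfield.closure (S : Set K) ≤ _) (Subfield.subset_closure hx)
  apply le_antisymm
  · let D : Subfield K := (R.comap (P.resHom A hA)).map A.subtype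
    have hD : A ≤ D := by
      have h1 : E ⊔ Subfield.closure (S : Set K) ≤ D := by
        refine sup_le ?_ (Subfield.closure_le.2 ?_)
        · intro x hx
          refine ⟨⟨x, hEA hx⟩, ?_, rfl⟩
          change P.resHom A hA ⟨x, hEA hx⟩ ∈ R
          rw [P.resHom_apply]
          exact (le_sup_left : _ ≤ R) (P.ev_mem_im _ hx)
        · intro x hx
          refine ⟨⟨x, hSA x hx⟩, ?_, rfl⟩
          change P.resHom A hA ⟨x, hSA x hx⟩ ∈ R
          rw [P.resHom_apply]
          refine (le_sup_right : _ ≤ R) (Subfield.subset_closure ?_)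
          rw [Finset.coe_image]
          exact ⟨x, hx, rfl⟩
      intro x hx
      apply h1
      rw [← hS]
      exact hx
    intro w hw
    obtain ⟨x, hx, rfl⟩ := P.mem_im.1 hw
    obtain ⟨a, ha, hax⟩ := hD hx
    change P.resHom A hA a ∈ R at ha
    rw [P.resHom_apply] at ha
    have hax' : (a : K) = x := hax
    rw [hax'] at ha
    exact ha
  · refine sup_le (P.im_mono hA hEA) (Subfield.closure_le.2 ?_)
    intro w hw
    rw [Finset.coe_image] at hw
    obtain ⟨x, hx, rfl⟩ := hw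
    exact P.ev_mem_im hA (hSA x hx)

end im

end Vale.Agent.P019
end

section

/-!
# Existence of models
-/

namespace Vale.Agent.P019

set_option linter.style.haveILetI false

open Polynomial

section aux

variable {K : Type*} [Field K]

/-- algebraicity through polynomials over the ambient field. -/
theorem isAlgebraic_iff_coeff {E : Subfield K} {z : K} :
    IsAlgebraic E z ↔ ∃ q : K[X], q ≠ 0 ∧ (∀ i, q.coeff i ∈ E) ∧ q.eval z = 0 := by
  constructor
  · rintro ⟨Q, hQ0, hQ⟩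
    refine ⟨Q.map (algebraMap E K), ?_, ?_, ?_⟩
    · rwa [Ne, Polynomial.map_eq_zero_iff (algebraMap E K).injective]
    · intro i
      rw [coeff_map]
      exact (Q.coeff i).2
    · rw [eval_map_algebraMap]
      exact hQ
  · rintro ⟨q, hq0, hq, hz⟩
    have h1 : q ∈ lifts (algebraMap E K) := by
      rw [lifts_iff_coeff_lifts]
      intro n
      exact ⟨⟨q.coeff n, hq n⟩, rfl⟩
    obtain ⟨Q, hQ⟩ := (mem_lifts _).1 h1
    refine ⟨Q, ?_, ?_⟩
    · rintro rfl
      apply hq0
      rw [← hQ, Polynomial.map_zero]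
    · rw [← eval_map_algebraMap, hQ]
      exact hz

/-- elements of `k(L)` need finitely many constants only. -/
theorem mem_sup_finite {k : Subfield K} {L : Set K} {z : K} (hz : z ∈ k ⊔ Subfield.closure L) :
    ∃ C : Finset K, (C : Set K) ⊆ (k : Set K) ∧ ∀ N : Subfield K, (C : Set K) ⊆ (N : Set K) →
      z ∈ N ⊔ Subfield.closure L := by
  classical
  have h0 : k ⊔ Subfield.closure L = Subfield.closure ((k : Set K) ∪ L) := by
    rw [Subfield.closure_union, Subfield.closure_eq]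
  rw [h0] at hz
  induction hz using Subfield.closure_induction with
  | mem z hz =>
    rcases hz with hz | hz
    · refine ⟨{z}, by simpa using hz, fun N hN => ?_⟩
      exact (le_sup_left : N ≤ _) (hN (by simp))
    · refine ⟨∅, by simp, fun N _ => ?_⟩
      exact (le_sup_right : _ ≤ N ⊔ Subfield.closure L) (Subfield.subset_closure hz)
  | one => exact ⟨∅, by simp, fun N _ => Subfield.one_mem _⟩
  | add a b _ _ ha hb =>
    obtain ⟨C, hC, h⟩ := ha
    obtain ⟨C', hC', h'⟩ := hb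
    refine ⟨C ∪ C', by push_cast; exact Set.union_subset hC hC', fun N hN => ?_⟩
    push_cast at hN
    exact Subfield.add_mem _ (h N (Set.subset_union_left.trans hN))
      (h' N (Set.subset_union_right.trans hN))
  | neg a _ ha =>
    obtain ⟨C, hC, h⟩ := ha
    exact ⟨C, hC, fun N hN => Subfield.neg_mem _ (h N hN)⟩
  | inv a _ ha =>
    obtain ⟨C, hC, h⟩ := ha
    exact ⟨C, hC, fun N hN => Subfield.inv_mem _ (h N hN)⟩
  | mul a b _ _ ha hb =>
    obtain ⟨C, hC, h⟩ := ha
    obtain ⟨C', hC', h'⟩ := hb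
    refine ⟨C ∪ C', by push_cast; exact Set.union_subset hC hC', fun N hN => ?_⟩
    push_cast at hN
    exact Subfield.mul_mem _ (h N (Set.subset_union_left.trans hN))
      (h' N (Set.subset_union_right.trans hN))

/-- algebraic elements over `k(L)` need finitely many constants only. -/
theorem isAlgebraic_sup_finite {k : Subfield K} {L : Set K} {z : K}
    (hz : IsAlgebraic (k ⊔ Subfield.closure L : Subfield K) z) :
    ∃ C : Finset K, (C : Set K) ⊆ (k : Set K) ∧ ∀ N : Subfield K, (C : Set K) ⊆ (N : Set K) →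
      IsAlgebraic (N ⊔ Subfield.closure L : Subfield K) z := by
  classical
  obtain ⟨q, hq0, hq, hqz⟩ := isAlgebraic_iff_coeff.1 hz
  choose C hC hCN using fun i => mem_sup_finite (hq i)
  refine ⟨(Finset.range (q.natDegree + 1)).biUnion C, ?_, fun N hN => ?_⟩
  · intro c hc
    simp only [Finset.coe_biUnion, Set.mem_iUnion] at hc
    obtain ⟨i, _, hi⟩ := hc
    exact hC i hi
  · refine isAlgebraic_iff_coeff.2 ⟨q, hq0, fun i => ?_, hqz⟩
    by_cases hi : i < q.natDegree + 1
    · refine hCN i N (subset_trans ?_ hN)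
      intro c hc
      simp only [Finset.coe_biUnion, Set.mem_iUnion]
      exact ⟨i, by simpa using hi, hc⟩
    · rw [coeff_eq_zero_of_natDegree_lt (by omega)]
      exact Subfield.zero_mem _

theorem sup_closure_insert (N : Subfield K) (s : K) (L : Set K) :
    N ⊔ Subfield.closure (insert s L) = adj (N ⊔ Subfield.closure L) s := by
  unfold adj
  rw [Set.insert_eq, Subfield.closure_union, sup_assoc]
  congr 1
  exact sup_comm _ _

/-- constants algebraic over `N(L)` are algebraic over `N` as soon as `N` contains finitely many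
fixed constants. -/
theorem exists_finite_free (k : Subfield K) (L : Finset K) :
    ∃ C : Finset K, (C : Set K) ⊆ (k : Set K) ∧ ∀ N : Subfield K, (C : Set K) ⊆ (N : Set K) →
      N ≤ k → ∀ a ∈ k, IsAlgebraic (N ⊔ Subfield.closure (L : Set K) : Subfield K) a →
        IsAlgebraic N a := by
  classical
  induction L using Finset.induction_on with
  | empty =>
    refine ⟨∅, by simp, fun N _ _ a _ ha => ?_⟩
    exact isAlgebraic_mono (sup_le le_rfl (Subfield.closure_le.2 (by simp))) ha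
  | insert s L _ ih =>
    obtain ⟨C, hC, h⟩ := ih
    by_cases hs : IsAlgebraic (k ⊔ Subfield.closure (L : Set K) : Subfield K) s
    · obtain ⟨C', hC', h'⟩ := isAlgebraic_sup_finite hs
      refine ⟨C ∪ C', by push_cast; exact Set.union_subset hC hC', fun N hN hNk a hak ha => ?_⟩
      push_cast at hN
      apply h N (Set.subset_union_left.trans hN) hNk a hak
      have h1 := h' N (Set.subset_union_right.trans hN)
      rw [Finset.coe_insert, sup_closure_insert] at ha
      refine isAlgebraic_trans (le_adj _ s) ?_ ha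
      intro z hz
      have h2 : adj (N ⊔ Subfield.closure (L : Set K)) s ≤ rac (N ⊔ Subfield.closure (L : Set K)) :=
        adj_le (le_rac _) (mem_rac.2 h1)
      exact mem_rac.1 (h2 hz)
    · refine ⟨C, hC, fun N hN hNk a hak ha => ?_⟩
      apply h N hN hNk a hak
      by_contra hna
      rw [Finset.coe_insert, sup_closure_insert] at ha
      have h1 := exchange hna ha
      apply hs
      refine isAlgebraic_mono ?_ h1
      refine adj_le (sup_le_sup_right hNk _) ?_
      exact (le_sup_left : k ≤ _) hak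

theorem countable_closure {S : Set K} (hS : S.Countable) :
    ((Subfield.closure S : Subfield K) : Set K).Countable := by
  have h1 := Subfield.cardinalMk_closure_le_max S
  rw [← Cardinal.le_aleph0_iff_set_countable]
  refine le_trans h1 (max_le ?_ le_rfl)
  rwa [Cardinal.le_aleph0_iff_set_countable]

theorem countable_rac {E : Subfield K} (hE : (E : Set K).Countable) :
    ((rac E : Subfield K) : Set K).Countable := by
  have h1 := Algebra.IsAlgebraic.cardinalMk_le_max E (algebraicClosure E K)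
  have h2 : Cardinal.mk (rac E : Set K) ≤ Cardinal.aleph0 := by
    refine le_trans h1 (max_le ?_ le_rfl)
    exact Cardinal.le_aleph0_iff_set_countable.2 hE
  exact Cardinal.le_aleph0_iff_set_countable.1 h2

end aux

end Vale.Agent.P019
end

section

/-!
# Functoriality of `V` and orthogonality
-/

namespace Vale.Agent.P019

open scoped TensorProduct

variable {K L : Type*} [Field K] [Field L]

/-- the linear map on classes induced by a homomorphism of fields. -/
noncomputable def Vmap (ℓ : ℕ) (φ : K →+* L) : V ℓ K →ₗ[ZMod ℓ] V ℓ L :=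
  AddMonoidHom.toZModLinearMap ℓ
    (MonoidHom.toAdditive
      (QuotientGroup.map (powMonoidHom ℓ : Kˣ →* Kˣ).range (powMonoidHom ℓ : Lˣ →* Lˣ).range
        (Units.map (φ : K →* L)) (by
          rintro _ ⟨y, rfl⟩
          exact ⟨Units.map (φ : K →* L) y, by simp⟩)))

theorem Vmap_mk (ℓ : ℕ) (φ : K →+* L) (x : Kˣ) :
    Vmap ℓ φ (V.mk ℓ x) = V.mk ℓ (Units.map (φ : K →* L) x) := rfl

theorem Vmap_cl (ℓ : ℕ) (φ : K →+* L) (x : K) : Vmap ℓ φ (cl ℓ x) = cl ℓ (φ x) := by
  by_cases hx : x = 0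
  · rw [hx, map_zero, cl_zero, cl_zero, map_zero]
  · rw [cl_of_ne ℓ hx, cl_of_ne ℓ ((map_ne_zero φ).2 hx), Vmap_mk]
    congr 1
    ext; simp

theorem Vmap_R (ℓ : ℕ) (φ : K →+* L) :
    R ℓ K ≤ (R ℓ L).comap (TensorProduct.map (Vmap ℓ φ) (Vmap ℓ φ)) := by
  conv_lhs => unfold R
  rw [Submodule.span_le]
  rintro _ ⟨x, y, hxy, rfl⟩
  rw [SetLike.mem_coe, Submodule.mem_comap, TensorProduct.map_tmul, Vmap_mk, Vmap_mk]
  refine Submodule.subset_span ⟨_, _, ?_, rfl⟩
  simp only [Units.coe_map, MonoidHom.coe_coe]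
  rw [← map_add, hxy, map_one]

theorem Orth.map {ℓ : ℕ} (φ : K →+* L) {u w : V ℓ K} (h : Orth u w) :
    Orth (Vmap ℓ φ u) (Vmap ℓ φ w) := by
  have := Vmap_R ℓ φ h
  rwa [Submodule.mem_comap, TensorProduct.map_tmul] at this

theorem Orth.map_cl {ℓ : ℕ} (φ : K →+* L) {x y : K} (h : Orth (cl ℓ x) (cl ℓ y)) :
    Orth (cl ℓ (φ x)) (cl ℓ (φ y)) := by
  have := h.map φ
  rwa [Vmap_cl, Vmap_cl] at this

end Vale.Agent.P019
end

section

/-!
# Finite families of constants, closures, independence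
-/

namespace Vale.Agent.P019

set_option linter.style.haveILetI false

open Polynomial

section indep

variable {L : Type*} [Field L]

/-- closure of a subfield together with a family. -/
def clx {ι : Type*} (N : Subfield L) (y : ι → L) : Subfield L :=
  rac (N ⊔ Subfield.closure (Set.range y))

theorem adjoin_toSubfield' (N : Subfield L) (S : Set L) :
    (IntermediateField.adjoin N S).toSubfield = N ⊔ Subfield.closure S := by
  apply le_antisymm
  · change Subfield.closure (Set.range (algebraMap N L) ∪ S) ≤ _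
    rw [Subfield.closure_le]
    rintro z (⟨a, rfl⟩ | hz)
    · exact (le_sup_left : N ≤ N ⊔ Subfield.closure S) a.2
    · exact (le_sup_right : Subfield.closure S ≤ N ⊔ Subfield.closure S)
        (Subfield.subset_closure hz)
  · refine sup_le ?_ ?_
    · intro z hz
      exact (IntermediateField.adjoin N S).algebraMap_mem ⟨z, hz⟩
    · rw [Subfield.closure_le]
      exact IntermediateField.subset_adjoin N S

/-- S91 -/
theorem isAlgebraic_adjoin_iff' (N : Subfield L) (S : Set L) (z : L) :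
    IsAlgebraic (Algebra.adjoin N S) z ↔ IsAlgebraic (N ⊔ Subfield.closure S : Subfield L) z := by
  rw [← IntermediateField.isAlgebraic_adjoin_iff, ← adjoin_toSubfield' N S]
  exact Iff.rfl

theorem clx_le {ι : Type*} {N E : Subfield L} {y : ι → L} (hE : RAC E) (h : N ≤ E)
    (hy : ∀ i, y i ∈ E) : clx N y ≤ E := by
  refine hE.le (sup_le h ?_)
  rw [Subfield.closure_le]
  rintro _ ⟨i, rfl⟩
  exact hy i

theorem le_clx {ι : Type*} (N : Subfield L) (y : ι → L) : N ≤ clx N y :=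
  le_sup_left.trans (le_rac _)

theorem mem_clx {ι : Type*} (N : Subfield L) (y : ι → L) (i : ι) : y i ∈ clx N y :=
  le_rac _ ((le_sup_right : _ ≤ N ⊔ Subfield.closure (Set.range y))
    (Subfield.subset_closure ⟨i, rfl⟩))

/-- S92 -/
theorem exists_dep {r : ℕ} {N : Subfield L} (y : Fin (r + 1) → L)
    (h : ¬ AlgebraicIndependent N y) : ∃ i : Fin (r + 1), clx N y = clx N (y ∘ i.succAbove) := by
  by_contra hcon
  apply h
  refine algebraicIndependent_of_finite_type' (algebraMap N L).injective ?_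
  intro t _ _ i hi halg
  apply hcon
  refine ⟨i, le_antisymm ?_ ?_⟩
  · refine clx_le (RAC_rac _) (le_clx _ _) ?_
    intro j
    by_cases hj : j = i
    · subst hj
      have h1 := (isAlgebraic_adjoin_iff' N (y '' t) (y j)).1 halg
      refine mem_rac.2 (isAlgebraic_mono (sup_le_sup_left (Subfield.closure_mono ?_) N) h1)
      rintro _ ⟨k, hk, rfl⟩
      have hkj : k ≠ j := fun h => hi (h ▸ hk)
      obtain ⟨m, hm⟩ := Fin.exists_succAbove_eq hkj
      exact ⟨m, by simp [hm]⟩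
    · obtain ⟨m, hm⟩ := Fin.exists_succAbove_eq hj
      rw [← hm]
      exact mem_clx N (y ∘ i.succAbove) m
  · exact clx_le (RAC_rac _) (le_clx _ _) (fun m => mem_clx N y (i.succAbove m))

/-- S93 -/
theorem indep_swap {ι κ : Type*} {N N' : Subfield L} (h : N ≤ N') {y : ι → L} {y' : κ → L}
    (hy : ∀ i, y i ∈ N') (hyi : AlgebraicIndependent N y) (hyi' : AlgebraicIndependent N' y') :
    AlgebraicIndependent (clx N y') y := by
  letI : Algebra N N' := (Subfield.inclusion h).toAlgebra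
  haveI : IsScalarTower N N' L := IsScalarTower.of_algebraMap_eq (fun _ => rfl)
  have h1 : AlgebraicIndependent N (Sum.elim y' y) := by
    refine hyi.sumElim_of_tower (S := N') ?_ hyi'
    rintro _ ⟨i, rfl⟩
    exact ⟨⟨y i, hy i⟩, rfl⟩
  have h2 : AlgebraicIndependent N (Sum.elim y y') := by
    rw [← algebraicIndependent_equiv' (Equiv.sumComm κ ι) (f := Sum.elim y y')
      (g := Sum.elim y' y) (by ext (_ | _) <;> rfl)]
    exact h1
  have h3 := (AlgebraicIndependent.sumElim_iff.1 h2).2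
  have h4 : AlgebraicIndependent (IntermediateField.adjoin N (Set.range y')) y :=
    IntermediateField.algebraicIndependent_adjoin_iff.2 h3
  have h5 : AlgebraicIndependent (N ⊔ Subfield.closure (Set.range y') : Subfield L) y := by
    rw [← adjoin_toSubfield']
    exact h4
  exact h5.algebraicClosure

/-- S94 -/
theorem indep_snoc {r : ℕ} {N : Subfield L} {y : Fin r → L} (hy : AlgebraicIndependent N y) {z : L}
    (hz : z ∉ clx N y) : AlgebraicIndependent N (Fin.snoc y z : Fin (r + 1) → L) := by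
  have h1 : AlgebraicIndependent N (fun o : Option (Fin r) => o.elim z y) := by
    rw [AlgebraicIndependent.option_iff]
    refine ⟨hy, fun h => hz (mem_rac.2 ?_)⟩
    exact (isAlgebraic_adjoin_iff' N (Set.range y) z).1 h
  rw [algebraicIndependent_equiv' finSuccEquivLast
    (f := fun o : Option (Fin r) => o.elim z y)
    (g := (Fin.snoc y z : Fin (r + 1) → L)) ?_]
  · exact h1
  · funext i
    refine Fin.lastCases ?_ (fun j => ?_) i
    · simp
    · simp

/-- S95 -/
theorem clx_snoc {r : ℕ} (N : Subfield L) (y : Fin r → L) (z : L) :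
    clx N (Fin.snoc y z : Fin (r + 1) → L) = rac (adj (clx N y) z) := by
  apply le_antisymm
  · refine clx_le (RAC_rac _) ?_ ?_
    · exact (le_clx N y).trans ((le_adj _ z).trans (le_rac _))
    · intro i
      refine Fin.lastCases ?_ (fun j => ?_) i
      · rw [Fin.snoc_last]
        exact le_rac _ (mem_adj _ z)
      · rw [Fin.snoc_castSucc]
        exact le_rac _ (le_adj _ z (mem_clx N y j))
  · refine (RAC_rac _).le (adj_le ?_ ?_)
    · refine clx_le (RAC_rac _) (le_clx _ _) ?_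
      intro j
      have h1 := mem_clx N (Fin.snoc y z : Fin (r + 1) → L) j.castSucc
      rwa [Fin.snoc_castSucc] at h1
    · have h1 := mem_clx N (Fin.snoc y z : Fin (r + 1) → L) (Fin.last r)
      rwa [Fin.snoc_last] at h1

theorem exists_finset_mem (A k : Subfield L) {g : L} (hg : g ∈ A ⊔ k) :
    ∃ T : Finset L, (T : Set L) ⊆ k ∧ g ∈ A ⊔ Subfield.closure (T : Set L) := by
  classical
  have h0 : A ⊔ k = Subfield.closure ((A : Set L) ∪ (k : Set L)) := by
    rw [Subfield.closure_union, Subfield.closure_eq, Subfield.closure_eq]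
  rw [h0] at hg
  have hmono : ∀ {T T' : Finset L}, T ⊆ T' →
      A ⊔ Subfield.closure (T : Set L) ≤ A ⊔ Subfield.closure (T' : Set L) := by
    intro T T' h
    exact sup_le_sup_left (Subfield.closure_mono (by exact_mod_cast h)) A
  induction hg using Subfield.closure_induction with
  | mem x hx =>
    rcases hx with hx | hx
    · exact ⟨∅, by simp, (le_sup_left : A ≤ _) hx⟩
    · exact ⟨{x}, by simpa using hx, (le_sup_right : _ ≤ A ⊔ _)
        (Subfield.subset_closure (by simp))⟩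
  | one => exact ⟨∅, by simp, Subfield.one_mem _⟩
  | add x y _ _ hx hy =>
    obtain ⟨T, hT, h1⟩ := hx
    obtain ⟨T', hT', h2⟩ := hy
    refine ⟨T ∪ T', by rw [Finset.coe_union]; exact Set.union_subset hT hT', ?_⟩
    exact Subfield.add_mem _ (hmono Finset.subset_union_left h1)
      (hmono Finset.subset_union_right h2)
  | neg x _ hx =>
    obtain ⟨T, hT, h1⟩ := hx
    exact ⟨T, hT, Subfield.neg_mem _ h1⟩
  | inv x _ hx =>
    obtain ⟨T, hT, h1⟩ := hx
    exact ⟨T, hT, Subfield.inv_mem _ h1⟩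
  | mul x y _ _ hx hy =>
    obtain ⟨T, hT, h1⟩ := hx
    obtain ⟨T', hT', h2⟩ := hy
    refine ⟨T ∪ T', by rw [Finset.coe_union]; exact Set.union_subset hT hT', ?_⟩
    exact Subfield.mul_mem _ (hmono Finset.subset_union_left h1)
      (hmono Finset.subset_union_right h2)

theorem isAlgebraic_map {E E' : Subfield L} (σ : L ≃+* L) (h : ∀ z ∈ E, σ z ∈ E') {z : L}
    (hz : IsAlgebraic E z) : IsAlgebraic E' (σ z) := by
  obtain ⟨Q, hQ0, hQ⟩ := hz
  let j : E →+* E' := ((σ : L →+* L).comp E.subtype).codRestrict E' (fun c => h c.1 c.2)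
  refine ⟨Q.map j, ?_, ?_⟩
  · rw [Ne, Polynomial.map_eq_zero_iff j.injective]; exact hQ0
  · rw [aeval_def, eval₂_map]
    have h1 : (algebraMap E' L).comp j = (σ : L →+* L).comp (algebraMap E L) :=
      RingHom.ext fun _ => rfl
    rw [h1]
    change eval₂ ((σ : L →+* L).comp (algebraMap E L)) ((σ : L →+* L) z) Q = 0
    rw [← hom_eval₂, ← aeval_def, hQ, map_zero]

end indep

end Vale.Agent.P019
end

section

/-!
# The tame symbol on a subfield
-/

namespace Vale.Agent.P019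

set_option linter.style.haveILetI false

end Vale.Agent.P019
end

section

/-!
# Galois stability
-/

namespace Vale.Agent.P019

set_option linter.style.haveILetI false

open Polynomial

section galaux

variable {Ω : Type*} [Field Ω]

/-- images of algebraic elements under a ring homomorphism defined on a subfield. -/
theorem isAlgebraic_image {A E E' : Subfield Ω} (τ : A →+* Ω) (hEA : E ≤ A)
    (hE' : ∀ c (hc : c ∈ E), τ ⟨c, hEA hc⟩ ∈ E') {z : Ω} (hzA : z ∈ A) (hz : IsAlgebraic E z) :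
    IsAlgebraic E' (τ ⟨z, hzA⟩) := by
  obtain ⟨Q, hQ0, hQ⟩ := hz
  let j : E →+* E' := RingHom.codRestrict (τ.comp (Subfield.inclusion hEA)) E'
    (fun c => hE' c.1 c.2)
  refine ⟨Q.map j, ?_, ?_⟩
  · rw [Ne, Polynomial.map_eq_zero_iff j.injective]; exact hQ0
  · rw [aeval_def, eval₂_map]
    have h1 : (algebraMap E' Ω).comp j = τ.comp (Subfield.inclusion hEA) :=
      RingHom.ext fun _ => rfl
    rw [h1, ← hom_eval₂]
    have h2 : eval₂ (Subfield.inclusion hEA) (⟨z, hzA⟩ : A) Q = 0 := by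
      apply Subtype.ext
      have h3 := hom_eval₂ Q (Subfield.inclusion hEA) A.subtype (⟨z, hzA⟩ : A)
      change A.subtype (eval₂ (Subfield.inclusion hEA) (⟨z, hzA⟩ : A) Q) = 0
      rw [h3, ← hQ, aeval_def]
      rfl
    rw [h2, map_zero]

/-- images of a compositum. -/
theorem image_sup {A L B B' : Subfield Ω} (τ : A →+* Ω) (hLA : L ≤ A) (hBA : B ≤ A)
    (hL : ∀ c (hc : c ∈ L), τ ⟨c, hLA hc⟩ = c) (hB : ∀ c (hc : c ∈ B), τ ⟨c, hBA hc⟩ ∈ B')
    {r : Ω} (hr : r ∈ L ⊔ B) (hrA : r ∈ A) : τ ⟨r, hrA⟩ ∈ L ⊔ B' := by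
  have h1 : L ⊔ B ≤ (Subfield.comap τ (L ⊔ B')).map A.subtype := by
    rw [sup_le_iff]
    constructor
    · intro c hc
      refine ⟨⟨c, hLA hc⟩, ?_, rfl⟩
      change τ ⟨c, hLA hc⟩ ∈ L ⊔ B'
      rw [hL c hc]
      exact (le_sup_left : L ≤ L ⊔ B') hc
    · intro c hc
      refine ⟨⟨c, hBA hc⟩, ?_, rfl⟩
      exact (le_sup_right : B' ≤ L ⊔ B') (hB c hc)
  obtain ⟨a, ha, hae⟩ := h1 hr
  have h2 : (⟨r, hrA⟩ : A) = a := Subtype.ext hae.symm
  rw [h2]
  exact ha

end galaux

section pigeon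

/-- Pigeonhole for two nested equivalence relations. -/
theorem pigeon {α : Type*} (P : α → Prop) (R S : α → α → Prop)
    (hRs : ∀ x y, P x → P y → R x y → R y x)
    (hRt : ∀ x y z, P x → P y → P z → R x y → R y z → R x z) (hRr : ∀ x, P x → R x x)
    (N N' : ℕ)
    (h1 : ∀ x : Fin (N + 1) → α, (∀ i, P (x i)) → ∃ i j, i ≠ j ∧ R (x i) (x j))
    (h2 : ∀ x : Fin (N' + 1) → α, (∀ i, P (x i)) → (∀ i j, R (x i) (x j)) →
      ∃ i j, i ≠ j ∧ S (x i) (x j))
    (hinf : ∀ M : ℕ, ∃ x : Fin M → α, (∀ i, P (x i)) ∧ ∀ i j, i ≠ j → ¬ S (x i) (x j)) :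
    False := by
  classical
  obtain ⟨x, hxP, hx⟩ := hinf (N * N' + 1)
  let s : Setoid (Fin (N * N' + 1)) :=
    { r := fun i j => R (x i) (x j)
      iseqv := ⟨fun i => hRr _ (hxP i), fun {i j} h => hRs _ _ (hxP i) (hxP j) h,
        fun {i j k} h h' => hRt _ _ _ (hxP i) (hxP j) (hxP k) h h'⟩ }
  let f : Fin (N * N' + 1) → Quotient s := fun i => Quotient.mk s i
  have hf : ∀ i j, f i = f j ↔ R (x i) (x j) := fun i j => Quotient.eq (r := s)
  have hcard : (Finset.univ.image f).card ≤ N := by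
    by_contra hcon
    push Not at hcon
    obtain ⟨t, ht, htc⟩ := Finset.exists_subset_card_eq (Nat.succ_le_of_lt hcon)
    have hpre : ∀ q : t, ∃ i, f i = (q : Quotient s) := by
      intro q
      have := ht q.2
      rw [Finset.mem_image] at this
      obtain ⟨i, -, hi⟩ := this
      exact ⟨i, hi⟩
    choose g hg using hpre
    let e : Fin (N + 1) ≃ t := (Finset.equivFinOfCardEq htc).symm
    obtain ⟨i, j, hij, hR⟩ := h1 (fun i => x (g (e i))) (fun i => hxP _)
    apply hij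
    have h3 := (hf _ _).2 hR
    rw [hg, hg] at h3
    exact e.injective (Subtype.ext h3)
  have hlt : (Finset.univ.image f).card * N' < (Finset.univ : Finset (Fin (N * N' + 1))).card := by
    rw [Finset.card_univ, Fintype.card_fin]
    exact Nat.lt_succ_of_le (Nat.mul_le_mul_right _ hcard)
  obtain ⟨q, -, hq⟩ := Finset.exists_lt_card_fiber_of_mul_lt_card_of_maps_to
    (fun i hi => Finset.mem_image_of_mem f hi) hlt
  obtain ⟨t, ht, htc⟩ := Finset.exists_subset_card_eq (Nat.succ_le_of_lt hq)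
  let e : Fin (N' + 1) ≃ t := (Finset.equivFinOfCardEq htc).symm
  have hfe : ∀ i, f (e i : Fin (N * N' + 1)) = q := by
    intro i
    have := ht (e i).2
    rw [Finset.mem_filter] at this
    exact this.2
  obtain ⟨i, j, hij, hS⟩ := h2 (fun i => x (e i : Fin (N * N' + 1))) (fun i => hxP _)
    (fun i j => (hf _ _).1 ((hfe i).trans (hfe j).symm))
  refine hx _ _ ?_ hS
  intro h3
  exact hij (e.injective (Subtype.ext h3))

end pigeon

section roots

variable {Ω : Type*} [Field Ω] [IsAlgClosed Ω]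

/-- If all roots of a polynomial over `L` are in `B` then the coefficients are in `B`. -/
theorem coeff_mem_of_roots {L B : Subfield Ω} {P : Polynomial L} (hP : P.Monic)
    (hroots : ∀ z : Ω, aeval z P = 0 → z ∈ B) (i : ℕ) : ((P.coeff i : L) : Ω) ∈ B := by
  have hm : (P.map (algebraMap L Ω)).Monic := hP.map _
  have h1 : P.map (algebraMap L Ω) =
      ((P.map (algebraMap L Ω)).roots.map fun a => X - C a).prod :=
    (IsAlgClosed.splits (P.map (algebraMap L Ω))).eq_prod_roots_of_monic hm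
  have h2 : P.map (algebraMap L Ω) ∈ Polynomial.lifts B.subtype := by
    rw [h1]
    refine multiset_prod_mem _ fun q hq => ?_
    rw [Multiset.mem_map] at hq
    obtain ⟨a, ha, rfl⟩ := hq
    have haB : a ∈ B := by
      apply hroots
      rw [mem_roots hm.ne_zero, IsRoot, eval_map] at ha
      rw [aeval_def]
      exact ha
    refine ⟨X - C ⟨a, haB⟩, ?_⟩
    simp
  obtain ⟨Q, hQ⟩ := h2
  have h3 := congrArg (fun q : Polynomial Ω => q.coeff i) hQ
  simp only [coeff_map, coe_mapRingHom] at h3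
  have h4 : ((P.coeff i : L) : Ω) = (Q.coeff i : Ω) := h3.symm
  rw [h4]
  exact (Q.coeff i).2

end roots

end Vale.Agent.P019
end

section

/-!
# P019: Moebius transformations along translations and dilations give a field isomorphism

Main result `sigma_exists`.
-/

namespace Vale.Agent.P019

open Filter

/-- `y = m(x)` for the Moebius map with matrix entries `A B C D`. -/
def MobRel {l : Type*} [Field l] (A B C D x y : l) : Prop := y * (C * x + D) = A * x + B

namespace Sg

variable {k l : Type*} [Field k] [Field l]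

/-- `y = g(x)` for the Moebius map of the linear automorphism `g` of `l × l`. -/
def Act (g : (l × l) ≃ₗ[l] (l × l)) (x y : l) : Prop :=
  ∃ t : l, t ≠ 0 ∧ g (x, 1) = t • ((y, 1) : l × l)

/-- determinant of two vectors -/
def dt (v w : l × l) : l := v.1 * w.2 - v.2 * w.1

theorem Act.comp {g h : (l × l) ≃ₗ[l] (l × l)} {x y z : l} (h1 : Act g x y) (h2 : Act h y z) :
    Act (g.trans h) x z := by
  obtain ⟨t, ht, h1⟩ := h1
  obtain ⟨s, hs, h2⟩ := h2
  refine ⟨t * s, mul_ne_zero ht hs, ?_⟩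
  rw [LinearEquiv.trans_apply, h1, map_smul, h2, smul_smul]

theorem Act.symm {g : (l × l) ≃ₗ[l] (l × l)} {x y : l} (h1 : Act g x y) : Act g.symm y x := by
  obtain ⟨t, ht, h1⟩ := h1
  refine ⟨t⁻¹, inv_ne_zero ht, ?_⟩
  rw [LinearEquiv.symm_apply_eq, map_smul, h1, smul_smul, inv_mul_cancel₀ ht, one_smul]

theorem Act.eq_right {g : (l × l) ≃ₗ[l] (l × l)} {x y z : l} (h1 : Act g x y) (h2 : Act g x z) :
    y = z := by
  obtain ⟨t, ht, h1⟩ := h1
  obtain ⟨s, hs, h2⟩ := h2
  rw [h1] at h2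
  have e2 : t = s := by simpa using congrArg Prod.snd h2
  have e1 : t * y = s * z := by simpa using congrArg Prod.fst h2
  rw [e2] at e1
  exact mul_left_cancel₀ hs e1

theorem Act.eq_left {g : (l × l) ≃ₗ[l] (l × l)} {x y z : l} (h1 : Act g x z) (h2 : Act g y z) :
    x = y := h1.symm.eq_right h2.symm

theorem dt_self (v : l × l) : dt v v = 0 := by simp [dt, mul_comm]

theorem exists_smul_of_dt {v w : l × l} (hv : v ≠ 0) (h : dt v w = 0) : ∃ s : l, w = s • v := by
  unfold dt at h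
  by_cases h1 : v.1 = 0
  · have h2 : v.2 ≠ 0 := by
      intro h2; exact hv (Prod.ext h1 h2)
    refine ⟨w.2 / v.2, ?_⟩
    rw [h1] at h
    have h3 : w.1 = 0 := by
      rcases mul_eq_zero.1 (by linear_combination -h : v.2 * w.1 = 0) with h' | h'
      · exact absurd h' h2
      · exact h'
    ext
    · simp [h1, h3]
    · simp [h2]
  · refine ⟨w.1 / v.1, ?_⟩
    ext
    · simp [h1]
    · simp only [Prod.smul_snd, smul_eq_mul]
      field_simp
      linear_combination h

/-- expansion in a basis -/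
theorem dt_expand (v w u : l × l) : dt v w • u = dt u w • v + dt v u • w := by
  ext
  · simp only [dt, Prod.smul_fst, Prod.fst_add, smul_eq_mul]; ring
  · simp only [dt, Prod.smul_snd, Prod.snd_add, smul_eq_mul]; ring

theorem scalar_of_two {f : (l × l) →ₗ[l] (l × l)} {v w : l × l} (h : dt v w ≠ 0) {a : l}
    (hv : f v = a • v) (hw : f w = a • w) (u : l × l) : f u = a • u := by
  have h1 := dt_expand v w u
  have h2 := congrArg f h1
  rw [map_smul, map_add, map_smul, map_smul, hv, hw] at h2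
  have h3 : dt v w • f u = dt v w • (a • u) := by
    rw [h2, smul_comm (dt v w) a u, h1, smul_add]
    simp only [smul_smul, mul_comm]
  exact smul_right_injective _ h h3

theorem scal3 {f : (l × l) →ₗ[l] (l × l)} {v₁ v₂ v₃ : l × l} {a₁ a₂ a₃ : l}
    (h12 : dt v₁ v₂ ≠ 0) (h13 : dt v₁ v₃ ≠ 0) (h32 : dt v₃ v₂ ≠ 0)
    (h1 : f v₁ = a₁ • v₁) (h2 : f v₂ = a₂ • v₂) (h3 : f v₃ = a₃ • v₃) :
    a₁ = a₂ ∧ ∀ u, f u = a₁ • u := by
  have e := dt_expand v₁ v₂ v₃
  have e2 := congrArg f e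
  rw [map_smul, map_add, map_smul, map_smul, h1, h2, h3] at e2
  have e3 : dt v₁ v₂ • (a₃ • v₃) = a₃ • (dt v₃ v₂ • v₁ + dt v₁ v₃ • v₂) := by
    rw [← e, smul_comm]
  rw [e3] at e2
  -- compare determinants with `v₁` and `v₂`
  have f1 := congrArg (fun z => dt v₁ z) e2
  have f2 := congrArg (fun z => dt z v₂) e2
  have g1 : a₃ * (dt v₁ v₃ * dt v₁ v₂) = a₂ * (dt v₁ v₃ * dt v₁ v₂) := by
    simp only [dt, Prod.smul_fst, Prod.smul_snd, Prod.fst_add, Prod.snd_add, smul_eq_mul] at f1 ⊢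
    linear_combination f1
  have g2 : a₃ * (dt v₃ v₂ * dt v₁ v₂) = a₁ * (dt v₃ v₂ * dt v₁ v₂) := by
    simp only [dt, Prod.smul_fst, Prod.smul_snd, Prod.fst_add, Prod.snd_add, smul_eq_mul] at f2 ⊢
    linear_combination f2
  have k1 : a₃ = a₂ := mul_right_cancel₀ (mul_ne_zero h13 h12) g1
  have k2 : a₃ = a₁ := mul_right_cancel₀ (mul_ne_zero h32 h12) g2
  have k3 : a₁ = a₂ := by rw [← k2, k1]
  refine ⟨k3, ?_⟩
  exact scalar_of_two h12 h1 (by rw [h2, k3])

theorem dt_pts (x y : l) : dt ((x, 1) : l × l) (y, 1) = x - y := by simp [dt]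

/-- two automorphisms with the same Moebius values at three points are proportional -/
theorem Act.unique {g g' : (l × l) ≃ₗ[l] (l × l)} {x₁ x₂ x₃ y₁ y₂ y₃ : l}
    (h12 : x₁ ≠ x₂) (h13 : x₁ ≠ x₃) (h32 : x₃ ≠ x₂)
    (g1 : Act g x₁ y₁) (g2 : Act g x₂ y₂) (g3 : Act g x₃ y₃)
    (g1' : Act g' x₁ y₁) (g2' : Act g' x₂ y₂) (g3' : Act g' x₃ y₃) :
    ∃ u : l, u ≠ 0 ∧ ∀ v, g v = u • g' v := by
  obtain ⟨t₁, ht₁, e₁⟩ := g1.comp g1'.symm
  obtain ⟨t₂, ht₂, e₂⟩ := g2.comp g2'.symm
  obtain ⟨t₃, ht₃, e₃⟩ := g3.comp g3'.symm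
  have key := scal3 (f := (g.trans g'.symm).toLinearMap) (v₁ := (x₁, 1)) (v₂ := (x₂, 1))
    (v₃ := (x₃, 1)) (by rw [dt_pts]; exact sub_ne_zero.2 h12)
    (by rw [dt_pts]; exact sub_ne_zero.2 h13) (by rw [dt_pts]; exact sub_ne_zero.2 h32) e₁ e₂ e₃
  refine ⟨t₁, ht₁, fun v => ?_⟩
  have := key.2 v
  simp only [LinearEquiv.coe_coe, LinearEquiv.trans_apply] at this
  rw [LinearEquiv.symm_apply_eq, map_smul] at this
  exact this

section ae

variable {φ : k → l}

omit [Field k] [Field l] in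
theorem three_pts [Infinite k] {P : k → Prop} (hinj : ∃ S : Set k, S.Finite ∧ Set.InjOn φ Sᶜ)
    (hP : ∀ᶠ b in cofinite, P b) :
    ∃ b₁ b₂ b₃, P b₁ ∧ P b₂ ∧ P b₃ ∧ φ b₁ ≠ φ b₂ ∧ φ b₁ ≠ φ b₃ ∧ φ b₃ ≠ φ b₂ := by
  classical
  obtain ⟨S, hS, hinj⟩ := hinj
  have h1 : ∀ᶠ b in cofinite, P b ∧ b ∈ Sᶜ := by
    refine hP.and ?_
    exact hS.compl_mem_cofinite
  have h2 : {b | P b ∧ b ∈ Sᶜ}.Infinite := by
    have h3 : {b | P b ∧ b ∈ Sᶜ}ᶜ.Finite := h1
    exact Set.infinite_of_finite_compl h3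
  obtain ⟨T, hT, hc⟩ := h2.exists_subset_card_eq 3
  obtain ⟨b₁, b₂, b₃, n12, n13, n23, rfl⟩ := Finset.card_eq_three.1 hc
  have m1 : b₁ ∈ {b | P b ∧ b ∈ Sᶜ} := hT (by simp)
  have m2 : b₂ ∈ {b | P b ∧ b ∈ Sᶜ} := hT (by simp)
  have m3 : b₃ ∈ {b | P b ∧ b ∈ Sᶜ} := hT (by simp)
  refine ⟨b₁, b₂, b₃, m1.1, m2.1, m3.1, ?_, ?_, ?_⟩
  · intro h; exact n12 (hinj m1.2 m2.2 h)
  · intro h; exact n13 (hinj m1.2 m3.2 h)
  · intro h; exact n23 (hinj m3.2 m2.2 h).symm

theorem unique_ae [Infinite k] (hinj : ∃ S : Set k, S.Finite ∧ Set.InjOn φ Sᶜ) {φ' : k → l}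
    {g g' : (l × l) ≃ₗ[l] (l × l)}
    (h : ∀ᶠ b in cofinite, Act g (φ b) (φ' b)) (h' : ∀ᶠ b in cofinite, Act g' (φ b) (φ' b)) :
    ∃ u : l, u ≠ 0 ∧ ∀ v, g v = u • g' v := by
  obtain ⟨b₁, b₂, b₃, ⟨p1, q1⟩, ⟨p2, q2⟩, ⟨p3, q3⟩, n12, n13, n32⟩ := three_pts hinj (h.and h')
  exact Act.unique n12 n13 n32 p1 p2 p3 q1 q2 q3

theorem ae_add {P : k → Prop} (c : k) (hP : ∀ᶠ b in cofinite, P b) :
    ∀ᶠ b in cofinite, P (b + c) :=
  (add_left_injective c).tendsto_cofinite.eventually hP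

theorem ae_mul {P : k → Prop} {c : k} (hc : c ≠ 0) (hP : ∀ᶠ b in cofinite, P b) :
    ∀ᶠ b in cofinite, P (c * b) :=
  (mul_right_injective₀ hc).tendsto_cofinite.eventually hP

/-- an automorphism fixing the line of `(1,0)` is affine -/
theorem affine_of_fix {g : (l × l) ≃ₗ[l] (l × l)} {s : l} (hg : g (1, 0) = s • (1, 0)) :
    ∃ α β : l, α ≠ 0 ∧ ∀ x y, Act g x y → y = α * x + β := by
  have hs : s ≠ 0 := by
    intro hs
    rw [hs, zero_smul] at hg
    have := (LinearEquiv.map_eq_zero_iff g).1 hg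
    simp at this
  have hd : (g (0, 1)).2 ≠ 0 := by
    intro hd
    have h1 : g (0, 1) = ((g (0, 1)).1 / s) • g (1, 0) := by
      rw [hg]
      ext
      · simp [hs]
      · simp [hd]
    rw [← map_smul] at h1
    have h2 := g.injective h1
    have := congrArg Prod.snd h2
    simp at this
  refine ⟨s / (g (0, 1)).2, (g (0, 1)).1 / (g (0, 1)).2, div_ne_zero hs hd, ?_⟩
  rintro x y ⟨t, ht, h⟩
  have h0 : ((x, 1) : l × l) = x • (1, 0) + (0, 1) := by ext <;> simp
  rw [h0, map_add, map_smul, hg] at h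
  have e2 := congrArg Prod.snd h
  have e1 := congrArg Prod.fst h
  simp only [Prod.snd_add, Prod.smul_snd, smul_eq_mul, mul_zero, zero_add, mul_one,
    Prod.fst_add, Prod.smul_fst] at e1 e2
  rw [e2]
  field_simp
  linear_combination -e1

/-- an automorphism moving a vector to the line of `(1,0)` -/
theorem exists_move {v : l × l} (hv : v ≠ 0) :
    ∃ (M : (l × l) ≃ₗ[l] (l × l)) (s : l), s ≠ 0 ∧ M v = s • (1, 0) := by
  by_cases h2 : v.2 = 0
  · refine ⟨LinearEquiv.refl l (l × l), v.1, ?_, ?_⟩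
    · intro h1; exact hv (Prod.ext h1 h2)
    · ext <;> simp [h2]
  · let r : l := v.1 / v.2
    let M : (l × l) ≃ₗ[l] (l × l) :=
      { toFun := fun w => (w.2, w.1 - r * w.2)
        invFun := fun w => (w.2 + r * w.1, w.1)
        map_add' := by
          intro x y
          ext
          · simp
          · simp only [Prod.fst_add, Prod.snd_add]; ring
        map_smul' := by
          intro c x
          ext
          · simp
          · simp only [Prod.smul_fst, Prod.smul_snd, smul_eq_mul, RingHom.id_apply]; ring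
        left_inv := by
          intro x
          ext
          · simp
          · simp
        right_inv := by
          intro x
          ext
          · simp
          · simp }
    refine ⟨M, v.2, h2, ?_⟩
    change (v.2, v.1 - r * v.2) = v.2 • ((1, 0) : l × l)
    ext
    · simp
    · simp only [r, Prod.smul_snd, smul_zero]
      field_simp
      ring

/-- an automorphism of the plane from a matrix -/
theorem exists_of_matrix {A B C D : l} (h : A * D - B * C ≠ 0) :
    ∃ g : (l × l) ≃ₗ[l] (l × l), ∀ x y, MobRel A B C D x y → Act g x y := by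
  let g : (l × l) ≃ₗ[l] (l × l) :=
    { toFun := fun w => (A * w.1 + B * w.2, C * w.1 + D * w.2)
      invFun := fun w => ((A * D - B * C)⁻¹ * (D * w.1 - B * w.2),
        (A * D - B * C)⁻¹ * (A * w.2 - C * w.1))
      map_add' := by
        intro x y
        ext
        · simp only [Prod.fst_add, Prod.snd_add]; ring
        · simp only [Prod.fst_add, Prod.snd_add]; ring
      map_smul' := by
        intro c x
        ext
        · simp only [Prod.smul_fst, Prod.smul_snd, smul_eq_mul, RingHom.id_apply]; ring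
        · simp only [Prod.smul_fst, Prod.smul_snd, smul_eq_mul, RingHom.id_apply]; ring
      left_inv := by
        intro x
        ext
        · simp only
          rw [show D * (A * x.1 + B * x.2) - B * (C * x.1 + D * x.2) =
            (A * D - B * C) * x.1 by ring, inv_mul_cancel_left₀ h]
        · simp only
          rw [show A * (C * x.1 + D * x.2) - C * (A * x.1 + B * x.2) =
            (A * D - B * C) * x.2 by ring, inv_mul_cancel_left₀ h]
      right_inv := by
        intro x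
        ext
        · simp only
          rw [show A * ((A * D - B * C)⁻¹ * (D * x.1 - B * x.2)) +
            B * ((A * D - B * C)⁻¹ * (A * x.2 - C * x.1)) =
            (A * D - B * C)⁻¹ * ((A * D - B * C) * x.1) by ring, inv_mul_cancel_left₀ h]
        · simp only
          rw [show C * ((A * D - B * C)⁻¹ * (D * x.1 - B * x.2)) +
            D * ((A * D - B * C)⁻¹ * (A * x.2 - C * x.1)) =
            (A * D - B * C)⁻¹ * ((A * D - B * C) * x.2) by ring, inv_mul_cancel_left₀ h] }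
  refine ⟨g, ?_⟩
  intro x y hxy
  unfold MobRel at hxy
  have hg : g (x, 1) = (A * x + B, C * x + D) := by
    change (A * x + B * 1, C * x + D * 1) = _
    simp
  refine ⟨C * x + D, ?_, ?_⟩
  · intro h0
    rw [h0, mul_zero] at hxy
    have : ((x, 1) : l × l) = 0 := by
      apply (LinearEquiv.map_eq_zero_iff g).1
      rw [hg, h0, ← hxy]
      rfl
    simp at this
  · rw [hg]
    ext
    · simp only [Prod.smul_fst, smul_eq_mul]
      linear_combination -hxy
    · simp

/-- a matrix from an automorphism of the plane -/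
theorem exists_matrix (g : (l × l) ≃ₗ[l] (l × l)) :
    ∃ A B C D : l, A * D - B * C ≠ 0 ∧ ∀ x y, Act g x y → MobRel A B C D x y := by
  refine ⟨(g (1, 0)).1, (g (0, 1)).1, (g (1, 0)).2, (g (0, 1)).2, ?_, ?_⟩
  · intro h
    have h1 : dt (g (1, 0)) (g (0, 1)) = 0 := by
      unfold dt
      linear_combination h
    have h0 : g (1, 0) ≠ 0 := by
      intro h0
      have := (LinearEquiv.map_eq_zero_iff g).1 h0
      simp at this
    obtain ⟨s, hs⟩ := exists_smul_of_dt h0 h1
    rw [← map_smul] at hs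
    have := congrArg Prod.snd (g.injective hs)
    simp at this
  · rintro x y ⟨t, ht, h⟩
    have h0 : ((x, 1) : l × l) = x • (1, 0) + (0, 1) := by ext <;> simp
    rw [h0, map_add, map_smul] at h
    have e2 := congrArg Prod.snd h
    have e1 := congrArg Prod.fst h
    simp only [Prod.snd_add, Prod.smul_snd, smul_eq_mul, mul_one,
      Prod.fst_add, Prod.smul_fst] at e1 e2
    unfold MobRel
    linear_combination y * e2 - e1

end ae

end Sg

end Vale.Agent.P019
end

section

/-!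
# Perfect subfields of a perfect field
-/

namespace Vale.Agent.P019P

open Vale.Agent.P019

set_option linter.style.haveILetI false

open Polynomial

section pf

variable {K : Type*} [Field K]

instance expChar_sub (E : Subfield K) : ExpChar E (ringExpChar K) :=
  (algebraMap E K).expChar (algebraMap E K).injective _

/-- perfect closure of a subfield in the ambient field. -/
noncomputable def pf (E : Subfield K) : Subfield K := (perfectClosure E K).toSubfield

theorem mem_pf {E : Subfield K} {z : K} : z ∈ pf E ↔ ∃ n : ℕ, z ^ ringExpChar K ^ n ∈ E := by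
  change z ∈ perfectClosure E K ↔ _
  rw [mem_perfectClosure_iff_pow_mem (ringExpChar K)]
  constructor
  · rintro ⟨n, y, hy⟩
    refine ⟨n, ?_⟩
    rw [← hy]
    exact y.2
  · rintro ⟨n, hn⟩
    exact ⟨n, ⟨_, hn⟩, rfl⟩

theorem le_pf (E : Subfield K) : E ≤ pf E := fun z hz => mem_pf.2 ⟨0, by simpa using hz⟩

theorem pf_mono {E F : Subfield K} (h : E ≤ F) : pf E ≤ pf F := fun z hz => by
  obtain ⟨n, hn⟩ := mem_pf.1 hz
  exact mem_pf.2 ⟨n, h hn⟩

theorem pf_pf (E : Subfield K) : pf (pf E) = pf E := by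
  apply le_antisymm _ (le_pf _)
  intro z hz
  obtain ⟨n, hn⟩ := mem_pf.1 hz
  obtain ⟨m, hm⟩ := mem_pf.1 hn
  refine mem_pf.2 ⟨n + m, ?_⟩
  rw [pow_add, pow_mul]
  exact hm

instance pf_perfect [PerfectField K] (E : Subfield K) : PerfectField (pf E) :=
  inferInstanceAs (PerfectField (perfectClosure E K))

theorem pow_q_injective (n : ℕ) : Function.Injective fun z : K => z ^ ringExpChar K ^ n := by
  have h2 := (iterateFrobenius K (ringExpChar K) n).injective
  intro x y hxy
  exact h2 (by simpa [iterateFrobenius_def] using hxy)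

/-- roots in perfect subfields. -/
theorem exists_root_q (E : Subfield K) [PerfectField E] {z : K} (hz : z ∈ E) (n : ℕ) :
    ∃ y ∈ E, y ^ ringExpChar K ^ n = z := by
  haveI : PerfectRing E (ringExpChar K) := PerfectField.toPerfectRing _
  have h2 := (bijective_iterateFrobenius E (ringExpChar K) (n := n)).2
  obtain ⟨y, hy⟩ := h2 ⟨z, hz⟩
  refine ⟨y, y.2, ?_⟩
  rw [iterateFrobenius_def] at hy
  exact congrArg Subtype.val hy

theorem pf_le {E F : Subfield K} [PerfectField F] (h : E ≤ F) : pf E ≤ F := by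
  intro z hz
  obtain ⟨n, hn⟩ := mem_pf.1 hz
  obtain ⟨y, hy, hyz⟩ := exists_root_q F (h hn) n
  rw [← pow_q_injective n hyz]
  exact hy

theorem pf_eq (E : Subfield K) [PerfectField E] : pf E = E := le_antisymm (pf_le le_rfl) (le_pf E)

theorem mem_of_pow_q {E : Subfield K} [PerfectField E] {z : K} {n : ℕ}
    (h : z ^ ringExpChar K ^ n ∈ E) : z ∈ E := by
  rw [← pf_eq E]
  exact mem_pf.2 ⟨n, h⟩

theorem perfect_of_root {E : Subfield K} (h : ∀ z ∈ E, ∃ y ∈ E, y ^ ringExpChar K = z) :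
    PerfectField E := by
  haveI : PerfectRing E (ringExpChar K) := PerfectRing.ofSurjective _ _ fun z => by
    obtain ⟨y, hy, hyz⟩ := h z z.2
    exact ⟨⟨y, hy⟩, Subtype.ext hyz⟩
  exact PerfectRing.toPerfectField E (ringExpChar K)

theorem perfect_of_pf_le [PerfectField K] {E : Subfield K} (h : pf E ≤ E) : PerfectField E := by
  have h1 : pf E = E := le_antisymm h (le_pf E)
  rw [← h1]
  infer_instance

instance perfect_sup {E F : Subfield K} [PerfectField E] [PerfectField F] :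
    PerfectField (E ⊔ F : Subfield K) := by
  let φ := frobenius K (ringExpChar K)
  have key : ∀ G : Subfield K, PerfectField G → G ≤ G.map φ := by
    intro G hG z hz
    obtain ⟨y, hy, hyz⟩ := exists_root_q G hz 1
    refine ⟨y, hy, ?_⟩
    rw [pow_one] at hyz
    exact hyz
  have h1 : E ⊔ F ≤ (E ⊔ F).map φ := by
    rw [Subfield.map_sup]
    exact sup_le_sup (key E inferInstance) (key F inferInstance)
  refine perfect_of_root ?_
  intro z hz
  obtain ⟨y, hy, hyz⟩ := h1 hz
  exact ⟨y, hy, hyz⟩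

instance perfect_inf {E F : Subfield K} [PerfectField E] [PerfectField F] :
    PerfectField (E ⊓ F : Subfield K) := by
  refine perfect_of_root ?_
  intro z hz
  obtain ⟨y, hy, hyz⟩ := exists_root_q E (Subfield.mem_inf.1 hz).1 1
  obtain ⟨y', hy', hyz'⟩ := exists_root_q F (Subfield.mem_inf.1 hz).2 1
  have h1 : y = y' := pow_q_injective 1 (hyz.trans hyz'.symm)
  rw [pow_one] at hyz
  exact ⟨y, Subfield.mem_inf.2 ⟨hy, by rw [h1]; exact hy'⟩, hyz⟩

instance perfect_top [PerfectField K] : PerfectField (⊤ : Subfield K) :=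
  perfect_of_pf_le le_top

theorem perfect_of_RAC [PerfectField K] {E : Subfield K} (h : RAC E) : PerfectField E := by
  refine perfect_of_pf_le ?_
  intro z hz
  obtain ⟨n, hn⟩ := mem_pf.1 hz
  refine h z (IsAlgebraic.of_pow (n := ringExpChar K ^ n) ?_ (isAlgebraic_of_mem hn))
  exact pow_pos (expChar_pos K _) n

instance perfect_rac [PerfectField K] (E : Subfield K) : PerfectField (rac E) :=
  perfect_of_RAC (RAC_rac E)

theorem isAlgebraic_pf {E : Subfield K} {z : K} : IsAlgebraic (pf E) z ↔ IsAlgebraic E z := by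
  constructor
  · intro h
    refine isAlgebraic_trans (le_pf E) ?_ h
    intro y hy
    obtain ⟨n, hn⟩ := mem_pf.1 hy
    refine IsAlgebraic.of_pow (n := ringExpChar K ^ n) ?_ (isAlgebraic_of_mem hn)
    exact pow_pos (expChar_pos K _) n
  · exact isAlgebraic_mono (le_pf E)

theorem pf_le_rac (E : Subfield K) : pf E ≤ rac E := by
  intro z hz
  rw [mem_rac]
  exact isAlgebraic_pf.1 (isAlgebraic_of_mem hz)

theorem rac_pf (E : Subfield K) : rac (pf E) = rac E := by
  ext z
  rw [mem_rac, mem_rac]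
  exact isAlgebraic_pf

end pf

section adj

variable {K : Type*} [Field K]

/-- the perfect closure of the subfield `E(t)`. -/
noncomputable def adj (E : Subfield K) (t : K) : Subfield K := pf (Vale.Agent.P019.adj E t)

theorem adj0_le_adj (E : Subfield K) (t : K) : Vale.Agent.P019.adj E t ≤ adj E t := le_pf _

theorem le_adj (E : Subfield K) (t : K) : E ≤ adj E t :=
  (Vale.Agent.P019.le_adj E t).trans (le_pf _)

theorem mem_adj (E : Subfield K) (t : K) : t ∈ adj E t :=
  le_pf _ (Vale.Agent.P019.mem_adj E t)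

instance perfect_adj [PerfectField K] (E : Subfield K) (t : K) : PerfectField (adj E t) :=
  pf_perfect _

theorem adj_le {E F : Subfield K} [PerfectField F] {t : K} (h : E ≤ F) (ht : t ∈ F) :
    adj E t ≤ F :=
  pf_le (Vale.Agent.P019.adj_le h ht)

theorem adj_mono {E F : Subfield K} (h : E ≤ F) (t : K) : adj E t ≤ adj F t :=
  pf_mono (Vale.Agent.P019.adj_mono h t)

theorem isAlgebraic_adj {E : Subfield K} {t z : K} :
    IsAlgebraic (adj E t) z ↔ IsAlgebraic (Vale.Agent.P019.adj E t) z := isAlgebraic_pf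

theorem rac_adj (E : Subfield K) (t : K) : rac (adj E t) = rac (Vale.Agent.P019.adj E t) :=
  rac_pf _

theorem exchange {E : Subfield K} {a b : K} (ha : ¬ IsAlgebraic E a)
    (h : IsAlgebraic (adj E b) a) : IsAlgebraic (adj E a) b :=
  isAlgebraic_adj.2 (Vale.Agent.P019.exchange ha (isAlgebraic_adj.1 h))

/-- elements of the perfect closure of `E(t)`. -/
theorem mem_adj_iff {E : Subfield K} {t z : K} :
    z ∈ adj E t ↔ ∃ n : ℕ, z ^ ringExpChar K ^ n ∈ Vale.Agent.P019.adj E t := mem_pf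

end adj

section VS

variable {ℓ : ℕ} {K : Type*} [Field K]

/-- the exponential characteristic is invertible modulo `ℓ`. -/
theorem q_ne_zero (ℓ : ℕ) [hl : Fact ℓ.Prime] (K : Type*) [Field K] [NeZero (ℓ : K)] :
    ((ringExpChar K : ℕ) : ZMod ℓ) ≠ 0 := by
  intro h
  rw [ZMod.natCast_eq_zero_iff] at h
  rcases CharP.exists K with ⟨p, hp⟩
  have h1 : ringExpChar K = max p 1 := by rw [ringExpChar, ringChar.eq K p]
  rcases CharP.char_is_prime_or_zero K p with h2 | h2
  · have h3 : ringExpChar K = p := by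
      rw [h1]
      exact max_eq_left h2.one_lt.le
    rw [h3, Nat.prime_dvd_prime_iff_eq hl.out h2] at h
    subst h
    exact NeZero.ne ((ℓ : ℕ) : K) (CharP.cast_eq_zero K ℓ)
  · subst h2
    rw [h1] at h
    exact hl.out.one_lt.ne' (Nat.dvd_one.1 (by simpa using h))

theorem q_pow_ne_zero (ℓ : ℕ) [Fact ℓ.Prime] (K : Type*) [Field K] [NeZero (ℓ : K)] (n : ℕ) :
    ((ringExpChar K ^ n : ℕ) : ZMod ℓ) ≠ 0 := by
  rw [Nat.cast_pow]
  exact pow_ne_zero _ (q_ne_zero ℓ K)

theorem VS_pf [Fact ℓ.Prime] [NeZero (ℓ : K)] (E : Subfield K) : VS ℓ (pf E) = VS ℓ E := by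
  apply le_antisymm _ (VS_mono (le_pf E))
  rintro v ⟨x, hx, hx0, rfl⟩
  obtain ⟨n, hn⟩ := mem_pf.1 hx
  have h1 : cl ℓ (x ^ ringExpChar K ^ n) ∈ VS ℓ E := cl_mem_VS hn
  rw [cl_pow] at h1
  have hu := q_pow_ne_zero ℓ K n
  have h2 := Submodule.smul_mem (VS ℓ E) ((ringExpChar K ^ n : ℕ) : ZMod ℓ)⁻¹ h1
  rw [← Nat.cast_smul_eq_nsmul (ZMod ℓ), smul_smul, inv_mul_cancel₀ hu, one_smul] at h2
  exact h2

end VS

section FG

variable {K : Type*} [Field K]

/-- `Λ` is the perfect closure of a finitely generated field extension of `E`. -/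
def FG (E Λ : Subfield K) : Prop := ∃ S : Finset K, Λ = pf (E ⊔ Subfield.closure (S : Set K))

/-- `t` is a non-constant with `k(t)` relatively algebraically closed, up to perfect closure. -/
def Good (k : Subfield K) (t : K) : Prop := t ∉ k ∧ RAC (adj k t)

end FG

/-- A model of a function field of transcendence degree at least two over an algebraically closed
field of constants. -/
structure Mdl (K : Type*) [Field K] where
  k : Subfield K
  k0 : Subfield K
  K0 : Subfield K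
  le_k : k0 ≤ k
  le_K0 : k0 ≤ K0
  ack : IsAlgClosed k
  ack0 : IsAlgClosed k0
  pfK0 : PerfectField K0
  sup : K0 ⊔ k = ⊤
  ctb : (K0 : Set K).Countable
  fg : FG k0 K0
  free : ∀ N : Subfield K, RAC N → k0 ≤ N → N ≤ k →
    ∀ a ∈ k, IsAlgebraic (K0 ⊔ N : Subfield K) a → a ∈ N
  x : K
  y : K
  hx : x ∈ K0
  hy : y ∈ K0
  hxk : x ∉ k
  hyx : ¬ IsAlgebraic (adj k x) y

namespace Mdl

variable {K : Type*} [Field K] (M : Mdl K)

instance instPerfectK0 (M : Mdl K) : PerfectField M.K0 := M.pfK0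

instance instPerfectk (M : Mdl K) : PerfectField M.k :=
  haveI := M.ack
  inferInstance

/-- the function field over smaller constants. -/
def F (N : Subfield K) : Subfield K := M.K0 ⊔ N

instance instPerfectF (N : Subfield K) [PerfectField N] : PerfectField (M.F N) :=
  inferInstanceAs (PerfectField (M.K0 ⊔ N : Subfield K))

/-- algebraically closed subfields of the constants. -/
structure Sub (N : Subfield K) : Prop where
  rac : RAC N
  ge : M.k0 ≤ N
  le : N ≤ M.k

variable {M}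

theorem Sub.isAlgClosed {N : Subfield K} (h : M.Sub N) : IsAlgClosed N :=
  isAlgClosed_of_RAC M.ack h.rac h.le

theorem Sub.perfect {N : Subfield K} (h : M.Sub N) : PerfectField N :=
  haveI := h.isAlgClosed
  inferInstance

theorem Sub.perfect_F {N : Subfield K} (h : M.Sub N) : PerfectField (M.F N) :=
  haveI := h.perfect
  inferInstance

theorem Sub.le_F (N : Subfield K) : N ≤ M.F N := le_sup_right

theorem K0_le (N : Subfield K) : M.K0 ≤ M.F N := le_sup_left

theorem F_mono {N N' : Subfield K} (h : N ≤ N') : M.F N ≤ M.F N' := sup_le_sup_left h _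

theorem RAC_k (M : Mdl K) : RAC M.k := RAC_of_isAlgClosed _ M.ack

theorem sub_k (M : Mdl K) : M.Sub M.k := ⟨M.RAC_k, M.le_k, le_rfl⟩

theorem F_k (M : Mdl K) : M.F M.k = ⊤ := M.sup

theorem sub_rac {N : Subfield K} (h0 : M.k0 ≤ N) (h : N ≤ M.k) : M.Sub (rac N) :=
  ⟨RAC_rac N, h0.trans (le_rac N), M.RAC_k.le h⟩

end Mdl

end Vale.Agent.P019P
end

section

/-!
# Valuations of rank one of perfect fields: uniformizers up to roots
-/

namespace Vale.Agent.P019P

open Vale.Agent.P019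

variable {K : Type*} [Field K]

/-- `π` is a uniformizer of `O` up to `q`-power roots, `q` the exponential characteristic. -/
structure IsUnif (O : ValuationSubring K) (π : K) : Prop where
  ne : π ≠ 0
  lt : O.valuation π < 1
  rep : ∀ z : K, z ≠ 0 → ∃ (m : ℕ) (n : ℤ), O.valuation (z ^ ringExpChar K ^ m * π ^ n) = 1

theorem qpos (K : Type*) [Field K] : 0 < ringExpChar K := expChar_pos K _

theorem qpow_pos (K : Type*) [Field K] (n : ℕ) : 0 < ringExpChar K ^ n := pow_pos (qpos K) n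

theorem IsUnif.zpow_eq_one {O : ValuationSubring K} {π : K} (h : IsUnif O π) {n : ℤ}
    (hn : O.valuation (π ^ n) = 1) : n = 0 := by
  rw [map_zpow₀] at hn
  have h0 : O.valuation π ≠ 0 := by rw [Valuation.ne_zero_iff]; exact h.ne
  rcases lt_trichotomy n 0 with h1 | h1 | h1
  · exfalso
    have : O.valuation π ^ (-n) = 1 := by rw [zpow_neg, hn, inv_one]
    have h2 : O.valuation π ^ (-n) < 1 := by
      obtain ⟨m, hm⟩ := Int.eq_ofNat_of_zero_le (a := -n) (by omega)
      rw [hm, zpow_natCast]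
      exact pow_lt_one₀ zero_le h.lt (by omega)
    exact h2.ne this
  · exact h1
  · exfalso
    have h2 : O.valuation π ^ n < 1 := by
      obtain ⟨m, hm⟩ := Int.eq_ofNat_of_zero_le (a := n) (by omega)
      rw [hm, zpow_natCast]
      exact pow_lt_one₀ zero_le h.lt (by omega)
    exact h2.ne hn

/-- two representations of the same element are proportional. -/
theorem IsUnif.rep_unique {O : ValuationSubring K} {π : K} (h : IsUnif O π) {z : K}
    {m m' : ℕ} {n n' : ℤ} (h1 : O.valuation (z ^ ringExpChar K ^ m * π ^ n) = 1)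
    (h2 : O.valuation (z ^ ringExpChar K ^ m' * π ^ n') = 1) :
    n * (ringExpChar K ^ m' : ℕ) = n' * (ringExpChar K ^ m : ℕ) := by
  have hz : z ≠ 0 := by
    rintro rfl
    rw [zero_pow (qpow_pos K m).ne', zero_mul, map_zero] at h1
    exact zero_ne_one h1
  have h3 : O.valuation ((z ^ ringExpChar K ^ m * π ^ n) ^ (ringExpChar K ^ m')) = 1 := by
    rw [map_pow, h1, one_pow]
  have h4 : O.valuation ((z ^ ringExpChar K ^ m' * π ^ n') ^ (ringExpChar K ^ m)) = 1 := by
    rw [map_pow, h2, one_pow]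
  have hπ := h.ne
  have h5 : O.valuation (π ^ (n * (ringExpChar K ^ m' : ℕ) - n' * (ringExpChar K ^ m : ℕ))) = 1 := by
    have e : π ^ (n * (ringExpChar K ^ m' : ℕ) - n' * (ringExpChar K ^ m : ℕ)) =
        (z ^ ringExpChar K ^ m * π ^ n) ^ (ringExpChar K ^ m') /
        (z ^ ringExpChar K ^ m' * π ^ n') ^ (ringExpChar K ^ m) := by
      rw [mul_pow, mul_pow, ← pow_mul, ← pow_mul, mul_comm (ringExpChar K ^ m'),
        mul_div_mul_left _ _ (pow_ne_zero _ hz), zpow_sub₀ hπ, zpow_mul, zpow_mul, zpow_natCast,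
        zpow_natCast]
    rw [e, map_div₀, h3, h4, div_one]
  have := h.zpow_eq_one h5
  omega

section fn

variable (ℓ : ℕ) [Fact ℓ.Prime] [NeZero (ℓ : K)]

/-- the order of `z` modulo `ℓ`. -/
noncomputable def IsUnif.val {O : ValuationSubring K} {π : K} (h : IsUnif O π) (z : K) :
    ZMod ℓ := by
  classical exact if hz : z = 0 then 0 else
    -(((h.rep z hz).choose_spec.choose : ℤ) : ZMod ℓ) *
      ((ringExpChar K ^ (h.rep z hz).choose : ℕ) : ZMod ℓ)⁻¹

theorem IsUnif.val_eq {O : ValuationSubring K} {π : K} (h : IsUnif O π) {z : K} {m : ℕ} {n : ℤ}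
    (hmn : O.valuation (z ^ ringExpChar K ^ m * π ^ n) = 1) :
    h.val ℓ z = -(n : ZMod ℓ) * ((ringExpChar K ^ m : ℕ) : ZMod ℓ)⁻¹ := by
  have hz : z ≠ 0 := by
    rintro rfl
    rw [zero_pow (qpow_pos K m).ne', zero_mul, map_zero] at hmn
    exact zero_ne_one hmn
  have h1 := h.rep_unique (h.rep z hz).choose_spec.choose_spec hmn
  unfold IsUnif.val
  rw [dif_neg hz]
  have h2 := q_pow_ne_zero ℓ K m
  have h3 := q_pow_ne_zero ℓ K (h.rep z hz).choose
  have h4 := congrArg (Int.cast : ℤ → ZMod ℓ) h1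
  rw [Int.cast_mul, Int.cast_mul, Int.cast_natCast, Int.cast_natCast] at h4
  field_simp
  rw [h4, mul_comm]

/-- the functional `V → ZMod ℓ` given by the order modulo `ℓ`. -/
noncomputable def IsUnif.fn {O : ValuationSubring K} {π : K} (h : IsUnif O π) :
    V ℓ K →ₗ[ZMod ℓ] ZMod ℓ :=
  V.lift
    { toFun := fun x => Multiplicative.ofAdd (h.val ℓ (x : K))
      map_one' := by
        have : h.val ℓ (1 : K) = 0 := by
          rw [h.val_eq ℓ (m := 0) (n := 0) (by simp)]
          simp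
        simp [this]
      map_mul' := by
        intro x y
        obtain ⟨m, n, h1⟩ := h.rep x x.ne_zero
        obtain ⟨m', n', h2⟩ := h.rep y y.ne_zero
        have h3 : O.valuation (((x : K) * y) ^ ringExpChar K ^ (m + m') *
            π ^ (n * (ringExpChar K ^ m' : ℕ) + n' * (ringExpChar K ^ m : ℕ))) = 1 := by
          have e : ((x : K) * y) ^ ringExpChar K ^ (m + m') *
              π ^ (n * (ringExpChar K ^ m' : ℕ) + n' * (ringExpChar K ^ m : ℕ)) =
              ((x : K) ^ ringExpChar K ^ m * π ^ n) ^ ringExpChar K ^ m' *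
              ((y : K) ^ ringExpChar K ^ m' * π ^ n') ^ ringExpChar K ^ m := by
            rw [zpow_add₀ h.ne, zpow_mul, zpow_mul, zpow_natCast, zpow_natCast, mul_pow, mul_pow,
              mul_pow, pow_add, pow_mul, ← pow_mul (y : K) (ringExpChar K ^ m'),
              mul_comm (ringExpChar K ^ m'), pow_mul (y : K)]
            ring
          rw [e, map_mul, map_pow, map_pow, h1, h2, one_pow, one_pow, one_mul]
        have h4 := q_pow_ne_zero ℓ K m
        have h5 := q_pow_ne_zero ℓ K m'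
        rw [Units.val_mul, h.val_eq ℓ h3, h.val_eq ℓ h1, h.val_eq ℓ h2, ← ofAdd_add]
        congr 1
        rw [pow_add]
        push_cast
        push_cast at h4 h5
        field_simp
        ring }

theorem IsUnif.fn_cl' {O : ValuationSubring K} {π : K} (h : IsUnif O π) {z : K}
    (hz : z ≠ 0) : h.fn ℓ (cl ℓ z) = h.val ℓ z := by
  rw [cl_of_ne ℓ hz]
  rfl

theorem IsUnif.fn_eq {O : ValuationSubring K} {π : K} (h : IsUnif O π) {z : K} {m : ℕ} {n : ℤ}
    (hmn : O.valuation (z ^ ringExpChar K ^ m * π ^ n) = 1) :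
    h.fn ℓ (cl ℓ z) = -(n : ZMod ℓ) * ((ringExpChar K ^ m : ℕ) : ZMod ℓ)⁻¹ := by
  have hz : z ≠ 0 := by
    rintro rfl
    rw [zero_pow (qpow_pos K m).ne', zero_mul, map_zero] at hmn
    exact zero_ne_one hmn
  rw [h.fn_cl' ℓ hz, h.val_eq ℓ hmn]

theorem IsUnif.fn_unit {O : ValuationSubring K} {π : K} (h : IsUnif O π) (z : K)
    (hz : O.valuation z = 1) : h.fn ℓ (cl ℓ z) = 0 := by
  rw [h.fn_eq ℓ (m := 0) (n := 0) (by simpa using hz)]
  simp

theorem IsUnif.fn_self {O : ValuationSubring K} {π : K} (h : IsUnif O π) :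
    h.fn ℓ (cl ℓ π) = 1 := by
  rw [h.fn_eq ℓ (m := 0) (n := -1) (by
    rw [pow_zero, pow_one, zpow_neg, zpow_one, mul_inv_cancel₀ h.ne, map_one])]
  simp

/-- the class of an element with trivial functional is the class of a unit. -/
theorem IsUnif.exists_unit_of_fn {O : ValuationSubring K} {π : K} (h : IsUnif O π) (v : V ℓ K)
    (hv : h.fn ℓ v = 0) : ∃ u : K, O.valuation u = 1 ∧ v = cl ℓ u := by
  obtain ⟨z, hz, rfl⟩ := cl_surj ℓ v
  obtain ⟨m, n, hmn⟩ := h.rep z hz
  have h1 := h.fn_eq ℓ hmn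
  rw [hv] at h1
  have h2 := q_pow_ne_zero ℓ K m
  have h3 : (n : ZMod ℓ) = 0 := by
    by_contra hn
    exact mul_ne_zero (neg_ne_zero.2 hn) (inv_ne_zero h2) h1.symm
  rw [ZMod.intCast_zmod_eq_zero_iff_dvd] at h3
  obtain ⟨j, hj⟩ := h3
  have hu : cl ℓ (z ^ ringExpChar K ^ m * π ^ n) = ((ringExpChar K ^ m : ℕ) : ZMod ℓ) • cl ℓ z := by
    rw [cl_mul ℓ (pow_ne_zero _ hz) (zpow_ne_zero _ h.ne), cl_pow, hj, zpow_mul, zpow_natCast,
      ← zpow_natCast, zpow_natCast, Nat.cast_smul_eq_nsmul]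
    rw [← zpow_natCast, ← zpow_mul, mul_comm, zpow_mul, zpow_natCast, cl_pow_self, add_zero]
  have hcop : ∃ a b : ℤ, a * (ringExpChar K ^ m : ℕ) + b * ℓ = 1 := by
    have h4 : IsCoprime ((ringExpChar K ^ m : ℕ) : ℤ) (ℓ : ℤ) := by
      rw [Nat.isCoprime_iff_coprime, Nat.coprime_comm, Nat.Prime.coprime_iff_not_dvd Fact.out]
      intro h5
      exact h2 ((ZMod.natCast_eq_zero_iff _ _).2 h5)
    obtain ⟨a, b, hab⟩ := h4
    exact ⟨a, b, hab⟩
  obtain ⟨a, b, hab⟩ := hcop
  refine ⟨(z ^ ringExpChar K ^ m * π ^ n) ^ a, by rw [map_zpow₀, hmn, one_zpow], ?_⟩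
  rw [cl_zpow, hu, ← Int.cast_smul_eq_zsmul (ZMod ℓ), smul_smul]
  have h5 := congrArg (Int.cast : ℤ → ZMod ℓ) hab
  push_cast at h5
  rw [ZMod.natCast_self, mul_zero, add_zero] at h5
  push_cast
  rw [h5, one_smul]

/-- every functional trivial on units is a multiple of `fn`. -/
theorem IsUnif.eq_smul_fn {O : ValuationSubring K} {π : K} (h : IsUnif O π)
    (f : V ℓ K →ₗ[ZMod ℓ] ZMod ℓ) (hf : ∀ z, O.valuation z = 1 → f (cl ℓ z) = 0) (v : V ℓ K) :
    f v = f (cl ℓ π) * h.fn ℓ v := by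
  have h1 : h.fn ℓ (v - h.fn ℓ v • cl ℓ π) = 0 := by
    rw [map_sub, map_smul, h.fn_self ℓ, smul_eq_mul, mul_one, sub_self]
  obtain ⟨u, hu, hv⟩ := h.exists_unit_of_fn ℓ _ h1
  have h2 := hf u hu
  rw [← hv, map_sub, map_smul, smul_eq_mul, sub_eq_zero] at h2
  rw [h2, mul_comm]

end fn

end Vale.Agent.P019P
end

section

/-!
# Transfer of rank one valuations through compatible isomorphisms
-/

namespace Vale.Agent.P019P

open Vale.Agent.P019

set_option linter.style.haveILetI false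

open scoped TensorProduct

variable {ℓ : ℕ} [Fact ℓ.Prime] {K L : Type*} [Field K] [Field L]

/-- if `f` is nonzero on all uniformizers, `U1 ≤ H f`. -/
theorem U1_le_H [PerfectField K] [NeZero (ℓ : K)] {W : ValuationSubring K} {π : K}
    (hW : IsUnif W π) : U1 ℓ W ≤ H (hW.fn ℓ) := by
  -- first: elements `1 + m` with `fn m ≠ 0`
  have h1 : ∀ m : K, m ≠ 0 → W.valuation m < 1 → hW.fn ℓ (cl ℓ m) ≠ 0 →
      cl ℓ (1 + m) ∈ H (hW.fn ℓ) := by
    intro m hm0 hlt hm g hg
    have h2 := hg (-m)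
    have e1 : (1 : K) - -m = 1 + m := by ring
    have hne : (-m) ≠ 0 := neg_ne_zero.2 hm0
    have e2 : (hW.fn ℓ) (cl ℓ (1 + m)) = 0 := hW.fn_unit ℓ _ (val_one_add hlt)
    have e4 : (hW.fn ℓ) (cl ℓ (-m)) = hW.fn ℓ (cl ℓ m) := by
      have e5 : -m = (-1) * m := by ring
      rw [e5, cl_mul ℓ (by norm_num) hm0, map_add,
        hW.fn_unit ℓ (-1) (by rw [Valuation.map_neg, map_one]), zero_add]
    rw [e1, e2, e4, zero_mul] at h2
    exact (mul_eq_zero.1 h2).resolve_left hm
  rintro _ ⟨m, hm, rfl⟩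
  by_cases hm0 : m = 0
  · rw [hm0, add_zero, cl_one]; exact Submodule.zero_mem _
  by_cases hfm : hW.fn ℓ (cl ℓ m) ≠ 0
  · exact h1 m hm0 hm hfm
  push Not at hfm
  -- an element with value between `m` and `1`
  obtain ⟨j, n, hjn⟩ := hW.rep m hm0
  haveI : PerfectRing K (ringExpChar K) := PerfectField.toPerfectRing _
  obtain ⟨p, hp⟩ := (bijective_iterateFrobenius K (ringExpChar K) (n := j)).2 π
  rw [iterateFrobenius_def] at hp
  have hp0 : p ≠ 0 := by
    rintro rfl
    rw [zero_pow (qpow_pos K j).ne'] at hp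
    exact hW.ne hp.symm
  have hq := q_pow_ne_zero ℓ K j
  have hfp : hW.fn ℓ (cl ℓ p) ≠ 0 := by
    have e : ((ringExpChar K ^ j : ℕ) : ZMod ℓ) * hW.fn ℓ (cl ℓ p) = 1 := by
      have e6 : cl ℓ (p ^ ringExpChar K ^ j) = cl ℓ π := congrArg (cl ℓ) hp
      rw [← hW.fn_self ℓ, ← e6, cl_pow, ← smul_eq_mul, ← map_smul, Nat.cast_smul_eq_nsmul]
    intro h0
    rw [h0, mul_zero] at e
    exact zero_ne_one e
  have hp1 : W.valuation p < 1 := by
    by_contra hcon
    push Not at hcon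
    have h2 : (1 : W.ValueGroup) ≤ W.valuation (p ^ ringExpChar K ^ j) := by
      rw [map_pow]
      exact one_le_pow₀ hcon
    rw [hp] at h2
    exact absurd hW.lt (not_lt.2 h2)
  have hmp : W.valuation m < W.valuation p := by
    have hπ := hW.ne
    have hv : W.valuation m ^ (ringExpChar K ^ j) = W.valuation π ^ (-n) := by
      have e : m ^ ringExpChar K ^ j = (m ^ ringExpChar K ^ j * π ^ n) * π ^ (-n) := by
        rw [mul_assoc, ← zpow_add₀ hπ]
        simp
      rw [← map_pow, e, map_mul, hjn, one_mul, map_zpow₀]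
    have hvp : W.valuation p ^ (ringExpChar K ^ j) = W.valuation π := by
      rw [← map_pow, hp]
    have hpos : 0 < W.valuation π := zero_lt_iff.2 ((Valuation.ne_zero_iff _).2 hπ)
    have hn1 : 0 < -n := by
      by_contra hcon
      push Not at hcon
      have h2 : 1 ≤ W.valuation π ^ (-n) := by
        have := zpow_le_zpow_right_of_le_one₀ hpos hW.lt.le hcon
        rwa [zpow_zero] at this
      rw [← hv] at h2
      exact absurd (pow_lt_one₀ zero_le hm (qpow_pos K j).ne') (not_lt.2 h2)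
    have hn2 : -n ≠ 1 := by
      intro h2
      have h3 := hW.fn_eq ℓ hjn
      rw [hfm] at h3
      have h4 : (n : ZMod ℓ) = -1 := by
        have : n = -1 := by omega
        rw [this]
        simp
      rw [h4, neg_neg, one_mul] at h3
      exact inv_ne_zero hq h3.symm
    refine lt_of_pow_lt_pow_left₀ (ringExpChar K ^ j) zero_le ?_
    rw [hv, hvp]
    have := zpow_lt_zpow_right_of_lt_one₀ hpos hW.lt (show (1 : ℤ) < -n by omega)
    rwa [zpow_one] at this
  have hmp1 : W.valuation (m / p) < 1 := by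
    rw [map_div₀]
    exact (div_lt_one₀ (zero_lt_iff.2 ((Valuation.ne_zero_iff _).2 hp0))).2 hmp
  have hne1 : 1 + p ≠ 0 := one_add_ne_zero hp1
  set m' := (m - p) / (1 + p) with hm'
  have e : 1 + m = (1 + p) * (1 + m') := by
    rw [hm']; field_simp; ring
  have hval : W.valuation (m / p - 1) = 1 := by
    have : m / p - 1 = -(1 + -(m / p)) := by ring
    rw [this, Valuation.map_neg]
    exact val_one_add (by rwa [Valuation.map_neg])
  have hne3 : m / p - 1 ≠ 0 := by
    intro h; rw [h, map_zero] at hval; exact zero_ne_one hval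
  have e2 : m' = (m / p - 1) * p / (1 + p) := by
    rw [hm']; field_simp [hp0]
  have hm'0 : m' ≠ 0 := by
    rw [e2]
    exact div_ne_zero (mul_ne_zero hne3 hp0) hne1
  have hvm' : W.valuation m' = W.valuation p := by
    rw [e2, map_div₀, map_mul, hval, one_mul, val_one_add hp1, div_one]
  have hfm' : hW.fn ℓ (cl ℓ m') ≠ 0 := by
    rw [e2, div_eq_mul_inv, cl_mul ℓ (mul_ne_zero hne3 hp0) (inv_ne_zero hne1),
      cl_mul ℓ hne3 hp0, map_add, map_add, hW.fn_unit ℓ _ hval, zero_add,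
      hW.fn_unit ℓ (1 + p)⁻¹ (by rw [map_inv₀, val_one_add hp1, inv_one]), add_zero]
    exact hfp
  have hlt' : W.valuation m' < 1 := by rw [hvm']; exact hp1
  rw [e, cl_mul ℓ hne1 (one_add_ne_zero hlt')]
  exact Submodule.add_mem _ (h1 p hp0 hp1 hfp) (h1 m' hm'0 hlt' hfm')

theorem H_fn_eq [PerfectField K] [NeZero (ℓ : K)] (hneg : ∃ i : K, i ^ ℓ = -1)
    {W : ValuationSubring K} {π : K}
    (hW : IsUnif W π) : H (hW.fn ℓ) = U1 ℓ W :=
  le_antisymm (H_le_U1 hneg W _ (fun z hz => hW.fn_unit ℓ z hz)) (U1_le_H hW)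

/-- transfer of a discrete valuation ring through a compatible isomorphism. -/
theorem transfer [PerfectField K] [NeZero (ℓ : K)]
    {Θ : V ℓ K ≃ₗ[ZMod ℓ] V ℓ L} (hΘ : Compatible Θ)
    (hnegK : ∃ i : K, i ^ ℓ = -1) (hnegL : ∃ i : L, i ^ ℓ = -1) {W : ValuationSubring K} {π : K}
    (hW : IsUnif W π) (g₀ : K)
    (h₀ : ∀ i j : ZMod ℓ, i • cl ℓ g₀ + j • cl ℓ (1 - g₀) ∈ U1 ℓ W → i = 0 ∧ j = 0) :
    ∃ O : ValuationSubring L, (∀ z, O.valuation z = 1 → hW.fn ℓ (Θ.symm (cl ℓ z)) = 0) ∧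
      (∀ v, Θ v ∈ U1 ℓ O ↔ v ∈ U1 ℓ W) := by
  have hH := H_fn_eq hnegK hW
  obtain ⟨O, h1, h2⟩ := exists_transfer hΘ hnegL (hW.fn ℓ) g₀ (by rw [hH]; exact h₀)
  refine ⟨O, h1, fun v => ⟨?_, ?_⟩⟩
  · rintro ⟨m, hm, hv⟩
    have := h2 m hm
    rw [← hv, LinearEquiv.symm_apply_apply, hH] at this
    exact this
  · intro hv
    have h3 : H ((hW.fn ℓ) ∘ₗ Θ.symm.toLinearMap) ≤ U1 ℓ O :=
      H_le_U1 hnegL O _ (fun z hz => h1 z hz)
    apply h3
    rw [← hH] at hv
    have := (hΘ.symm.mem_H (f := hW.fn ℓ) (v := Θ v))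
    rw [LinearEquiv.symm_apply_apply] at this
    exact this.1 hv

end Vale.Agent.P019P
end

section

/-!
# Valuations which are discrete up to roots of order `q`: more lemmas
-/

namespace Vale.Agent.P019P

open Vale.Agent.P019

set_option linter.style.haveILetI false
set_option linter.unusedSectionVars false

variable {K : Type*} [Field K]

theorem qn_ne_zero (K : Type*) [Field K] (n : ℕ) : (ringExpChar K) ^ n ≠ 0 :=
  pow_ne_zero _ (expChar_ne_zero K (ringExpChar K))

theorem cl_pow_q {ℓ : ℕ} (z : K) (n : ℕ) :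
    cl ℓ (z ^ (ringExpChar K) ^ n) = (((ringExpChar K) ^ n : ℕ) : ZMod ℓ) • cl ℓ z := by
  rw [cl_pow, Nat.cast_smul_eq_nsmul]

/-- roots in a perfect field. -/
theorem exists_root [PerfectField K] (z : K) (n : ℕ) : ∃ y : K, y ^ (ringExpChar K) ^ n = z := by
  obtain ⟨y, hy⟩ := (bijective_iterateFrobenius K (ringExpChar K) (n := n)).2 z
  exact ⟨y, by rw [← hy, iterateFrobenius_def]⟩

section fn

variable {ℓ : ℕ} [Fact ℓ.Prime] [NeZero (ℓ : K)]

end fn

end Vale.Agent.P019P
end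

section

/-!
# Places: basic facts
-/

namespace Vale.Agent.P019P

open Vale.Agent.P019

set_option linter.style.haveILetI false

open Polynomial

section places

variable {K Ω : Type*} [Field K] [Field Ω]

/-- S03 one variable places. -/
theorem exists_one [Algebra K Ω] [IsAlgClosed Ω] {l A : Subfield K} (hl : IsAlgClosed l)
    (hlA : l ≤ A) {y : K} (hy : ¬ IsAlgebraic A y) {c : K} (hc : c ∈ l) :
    ∃ P : Pl K Ω, (∀ a ∈ A, a ∈ P.O ∧ P.ev a = algebraMap K Ω a) ∧ y ∈ P.O ∧
      P.ev y = algebraMap K Ω c ∧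
      (∀ b ∈ P.O, IsAlgebraic (adj l y) b → ∃ d ∈ l, P.ev b = algebraMap K Ω d) := by
  obtain ⟨P, h1, h2, h3, h4⟩ := Vale.Agent.P019.exists_one (Ω := Ω) hl hlA hy hc
  exact ⟨P, h1, h2, h3, fun b hb h => h4 b hb (isAlgebraic_adj.1 h)⟩


/-- S05 -/
theorem rac_sup {l A B : Subfield K} (hl : IsAlgClosed l) (hlA : l ≤ A) (hlB : l ≤ B) {y : K}
    (hyB : y ∈ B) (hyA : ¬ IsAlgebraic A y) (hB : ∀ b ∈ B, IsAlgebraic (adj l y) b) {h : K}
    (hh : h ∈ A ⊔ B) (hha : IsAlgebraic A h) : h ∈ A := by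
  by_cases hh0 : h = 0
  · rw [hh0]; exact A.zero_mem
  obtain ⟨P, hPA, -, -, hPB⟩ := exists_one (Ω := AlgebraicClosure K) hl hlA hyA l.zero_mem
  have hAO : ∀ a ∈ A, a ∈ P.O := fun a ha => (hPA a ha).1
  have hBd : ∀ b ∈ B, b ∈ P.O → ∃ d ∈ l, P.ev b = P.ev d := by
    intro b hb hbO
    obtain ⟨d, hd, he⟩ := hPB b hbO (hB b hb)
    exact ⟨d, hd, by rw [he, (hPA d (hlA hd)).2]⟩
  obtain ⟨b, hb, hb0, hU, a, ha, hev⟩ := P.gauss hlA hlB hAO hBd hh hh0
  have hUh : P.U h := P.U_of_isAlgebraic A hAO hha hh0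
  have hUb : P.U b := by
    have h1 : b = (b * h) / h := by field_simp
    rw [h1]; exact hU.div hUh
  obtain ⟨d, hd, hbd⟩ := hBd b hb hUb.1
  have hUd : P.U d := ⟨hAO _ (hlA hd), by rw [← hbd]; exact hUb.2⟩
  have hdA : a / d ∈ A := A.div_mem ha (hlA hd)
  have hevh : P.ev h = P.ev (a / d) := by
    have h1 : h = (b * h) / b := by field_simp
    rw [P.ev_div (hAO _ ha) hUd, ← hev, ← hbd, ← P.ev_div hU.1 hUb, ← h1]
  by_contra hcon
  have hne : h - a / d ≠ 0 := by
    intro h0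
    rw [sub_eq_zero] at h0
    exact hcon (h0 ▸ hdA)
  have hsub : IsAlgebraic A (h - a / d) := hha.sub (isAlgebraic_of_mem hdA)
  have hU' := P.U_of_isAlgebraic A hAO hsub hne
  apply hU'.2
  rw [P.ev_sub hUh.1 (hAO _ hdA), hevh, sub_self]

/-- S06 -/
theorem pow_descent {l A B : Subfield K} (hl : IsAlgClosed l) (hlA : l ≤ A) (hlB : l ≤ B) {y : K}
    (hyB : y ∈ B) (hyA : ¬ IsAlgebraic A y) (hB : ∀ b ∈ B, IsAlgebraic (adj l y) b) {ℓ : ℕ}
    (hℓ : 0 < ℓ) {a b g : K} (ha : a ∈ A) (hb : b ∈ B) (hg : g ∈ A ⊔ B) (h : a = b * g ^ ℓ) :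
    ∃ w ∈ A, a = w ^ ℓ := by
  by_cases ha0 : a = 0
  · exact ⟨0, A.zero_mem, by rw [ha0, zero_pow hℓ.ne']⟩
  have hg0 : g ≠ 0 := by
    rintro rfl
    rw [zero_pow hℓ.ne', mul_zero] at h
    exact ha0 h
  obtain ⟨P, hPA, -, -, hPB⟩ := exists_one (Ω := AlgebraicClosure K) hl hlA hyA l.zero_mem
  have hAO : ∀ a ∈ A, a ∈ P.O := fun a ha => (hPA a ha).1
  have hBd : ∀ b ∈ B, b ∈ P.O → ∃ d ∈ l, P.ev b = P.ev d := by
    intro b hb hbO
    obtain ⟨d, hd, he⟩ := hPB b hbO (hB b hb)
    exact ⟨d, hd, by rw [he, (hPA d (hlA hd)).2]⟩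
  obtain ⟨b', hb', hb'0, hU, a', ha', hev⟩ := P.gauss hlA hlB hAO hBd hg hg0
  have hUa : P.U a := P.U_of_isAlgebraic A hAO (isAlgebraic_of_mem ha) ha0
  have hb''B : b / b' ^ ℓ ∈ B := B.div_mem hb (pow_mem hb' ℓ)
  have he1 : b / b' ^ ℓ = a / (b' * g) ^ ℓ := by
    rw [h, mul_pow]
    field_simp
  have hUb'' : P.U (b / b' ^ ℓ) := by
    rw [he1]; exact hUa.div (hU.pow ℓ)
  obtain ⟨d, hd, hbd⟩ := hBd _ hb''B hUb''.1
  obtain ⟨d', hd'⟩ := IsAlgClosed.exists_pow_nat_eq (⟨d, hd⟩ : l) hℓ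
  have hd'' : (d' : K) ^ ℓ = d := congrArg Subtype.val hd'
  have hwA : (d' : K) * a' ∈ A := A.mul_mem (hlA d'.2) ha'
  refine ⟨(d' : K) * a', hwA, ?_⟩
  apply (algebraMap K (AlgebraicClosure K)).injective
  rw [← (hPA a ha).2, ← (hPA _ (pow_mem hwA ℓ)).2]
  have he2 : a = (b / b' ^ ℓ) * (b' * g) ^ ℓ := by
    rw [he1]
    have := (hU.pow ℓ).ne_zero
    field_simp
  rw [mul_pow, hd'', P.ev_mul (hAO _ (hlA hd)) (pow_mem (hAO _ ha') ℓ), P.ev_pow (hAO _ ha'),
    ← hbd, ← hev]
  conv_lhs => rw [he2]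
  rw [P.ev_mul hUb''.1 (pow_mem hU.1 ℓ), P.ev_pow hU.1]

end places

end Vale.Agent.P019P
end

section
/-!
# Finiteness of the kernel of `V_F → V_L` for finitely generated extensions
-/

namespace Vale.Agent.P019P

open Vale.Agent.P019

set_option linter.style.haveILetI false

open IntermediateField

section

variable {F L : Type*} [Field F] [Field L] [Algebra F L]

/-- `ℓ`-th roots of pairwise inequivalent elements are linearly independent. -/
theorem linearIndependent_roots [PerfectField F] (ℓ : ℕ) [Fact ℓ.Prime] (ζ : F)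
    (hζ : IsPrimitiveRoot ζ ℓ) {n : ℕ} {w : Fin n → L} (hw0 : ∀ i, w i ≠ 0)
    (hw : ∀ i, ∃ a : F, w i ^ ℓ = algebraMap F L a)
    (hne : ∀ i j, i ≠ j → ¬ ∃ y : F, w i = w j * algebraMap F L y) :
    LinearIndependent F w := by
  classical
  haveI : NeZero ℓ := ⟨(Fact.out : ℓ.Prime).ne_zero⟩
  have halg : ∀ i, IsAlgebraic F (w i) := by
    intro i
    obtain ⟨a, ha⟩ := hw i
    refine (IsAlgebraic.of_pow (Fact.out : ℓ.Prime).pos ?_)
    rw [ha]
    exact isAlgebraic_algebraMap a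
  let E := algebraicClosure F L
  let Ω := AlgebraicClosure F
  haveI : Algebra.IsAlgebraic F E := algebraicClosure.isAlgebraic F L
  let j : E →ₐ[F] Ω := IsAlgClosed.lift
  haveI : IsGalois F Ω := ⟨⟩
  let wE : Fin n → E := fun i => ⟨w i, mem_algebraicClosure_iff.2 (halg i)⟩
  let v : Fin n → Ω := fun i => j (wE i)
  have hv0 : ∀ i, v i ≠ 0 := by
    intro i h
    have : wE i = 0 := (map_eq_zero j).1 h
    exact hw0 i (congrArg Subtype.val this)
  have hvl : ∀ i, ∃ a : F, v i ^ ℓ = algebraMap F Ω a := by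
    intro i
    obtain ⟨a, ha⟩ := hw i
    refine ⟨a, ?_⟩
    have h1 : wE i ^ ℓ = algebraMap F E a := Subtype.ext ha
    change j (wE i) ^ ℓ = _
    rw [← map_pow, h1, AlgHom.commutes]
  have hchar : ∀ (i : Fin n) (σ : Ω ≃ₐ[F] Ω), ∃ c : F, σ (v i) = algebraMap F Ω c * v i := by
    intro i σ
    obtain ⟨a, ha⟩ := hvl i
    have h1 : (σ (v i) / v i) ^ ℓ = 1 := by
      rw [div_pow, ← map_pow, ha, AlgEquiv.commutes]
      refine div_self ?_
      rw [← ha]; exact pow_ne_zero _ (hv0 i)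
    have hζ' : IsPrimitiveRoot (algebraMap F Ω ζ) ℓ :=
      hζ.map_of_injective (algebraMap F Ω).injective
    obtain ⟨m, -, hm⟩ := hζ'.eq_pow_of_pow_eq_one h1
    refine ⟨ζ ^ m, ?_⟩
    rw [map_pow, hm, div_mul_cancel₀ _ (hv0 i)]
  let χ : Fin n → ((Ω ≃ₐ[F] Ω) →* Ω) := fun i =>
    { toFun := fun σ => σ (v i) / v i
      map_one' := by rw [AlgEquiv.one_apply, div_self (hv0 i)]
      map_mul' := by
        intro σ τ
        obtain ⟨c, hc⟩ := hchar i τ
        rw [AlgEquiv.mul_apply, hc, map_mul, AlgEquiv.commutes, mul_div_assoc, mul_comm,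
          mul_div_assoc, div_self (hv0 i), mul_one] }
  have hχ : Function.Injective χ := by
    intro i i' h
    by_contra hii
    have h1 : ∀ σ : Ω ≃ₐ[F] Ω, σ (v i / v i') = v i / v i' := by
      intro σ
      have h2 : σ (v i) / v i = σ (v i') / v i' := DFunLike.congr_fun h σ
      have h3 := hv0 i
      have h4 := hv0 i'
      have h5 : σ (v i') ≠ 0 := (map_ne_zero σ).2 h4
      rw [map_div₀, div_eq_div_iff h5 h4]
      rw [div_eq_div_iff h3 h4] at h2
      rw [h2]; ring
    obtain ⟨y, hy⟩ := (InfiniteGalois.mem_range_algebraMap_iff_fixed _).2 h1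
    apply hne i i' hii
    refine ⟨y, ?_⟩
    have h6 : j (wE i) = j (wE i' * algebraMap F E y) := by
      rw [map_mul, AlgHom.commutes, hy]
      have h4 := hv0 i'
      change v i = v i' * (v i / v i')
      rw [mul_div_cancel₀ _ h4]
    have h7 := j.injective h6
    exact congrArg Subtype.val h7
  have hli := (linearIndependent_monoidHom (Ω ≃ₐ[F] Ω) Ω).comp χ hχ
  rw [Fintype.linearIndependent_iff] at hli ⊢
  intro c hc i
  have h1 : ∑ i, (algebraMap F Ω (c i) * v i) • (fun f : (Ω ≃ₐ[F] Ω) →* Ω => (f : (Ω ≃ₐ[F] Ω) → Ω))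
      (χ i) = 0 := by
    funext σ
    rw [Finset.sum_apply, Pi.zero_apply]
    have h2 : ∑ i, c i • w i = 0 := hc
    have h3 : ∑ i, algebraMap F Ω (c i) * v i = 0 := by
      have h4 : ∑ i, c i • wE i = 0 := by
        apply Subtype.ext
        rw [AddSubmonoidClass.coe_finsetSum]
        exact h2
      have h5 := congrArg j h4
      rw [map_sum, map_zero] at h5
      rw [← h5]
      refine Finset.sum_congr rfl (fun i _ => ?_)
      rw [Algebra.smul_def, map_mul, AlgHom.commutes]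
    have h6 := congrArg σ h3
    rw [map_sum, map_zero] at h6
    rw [← h6]
    refine Finset.sum_congr rfl (fun i _ => ?_)
    rw [map_mul, AlgEquiv.commutes]
    change (algebraMap F Ω (c i) * v i) * (σ (v i) / v i) = _
    rw [mul_assoc, mul_div_cancel₀ _ (hv0 i)]
  have h7 := hli (fun i => algebraMap F Ω (c i) * v i) h1 i
  have h8 : algebraMap F Ω (c i) = 0 := (mul_eq_zero.1 h7).resolve_right (hv0 i)
  exact (map_eq_zero _).1 h8

/-- **Finite kernel.** -/
theorem finite_kernel [PerfectField F] [Algebra.EssFiniteType F L] (ℓ : ℕ) [Fact ℓ.Prime] (ζ : F)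
    (hζ : IsPrimitiveRoot ζ ℓ) :
    ∃ N : ℕ, ∀ x : Fin (N + 1) → F, (∀ i, x i ≠ 0 ∧ ∃ w : L, w ^ ℓ = algebraMap F L (x i)) →
      ∃ i j, i ≠ j ∧ ∃ y : F, y ≠ 0 ∧ x i = x j * y ^ ℓ := by
  classical
  obtain ⟨S, hS⟩ := exists_isTranscendenceBasis F L
  haveI : Algebra.IsAlgebraic (adjoin F (Set.range ((↑) : S → L))) L := hS.isAlgebraic_field
  haveI : Algebra.EssFiniteType (adjoin F (Set.range ((↑) : S → L))) L :=
    Algebra.EssFiniteType.of_comp F _ L
  haveI : Module.Finite (adjoin F (Set.range ((↑) : S → L))) L :=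
    Algebra.finite_of_essFiniteType_of_isAlgebraic
  refine ⟨Module.finrank (adjoin F (Set.range ((↑) : S → L))) L, ?_⟩
  intro x hx
  by_contra hcon
  push Not at hcon
  choose hx0 w hw using hx
  have hℓ : ℓ ≠ 0 := (Fact.out : ℓ.Prime).ne_zero
  have hw0 : ∀ i, w i ≠ 0 := by
    intro i h
    have := hw i
    rw [h, zero_pow hℓ] at this
    exact hx0 i ((map_eq_zero _).1 this.symm)
  have h1 : LinearIndependent F w := by
    refine linearIndependent_roots ℓ ζ hζ hw0 (fun i => ⟨x i, hw i⟩) ?_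
    rintro i j hij ⟨y, hy⟩
    have hy0 : y ≠ 0 := by
      rintro rfl
      rw [map_zero, mul_zero] at hy
      exact hw0 i hy
    refine hcon i j hij y hy0 ?_
    apply (algebraMap F L).injective
    rw [← hw i, hy, mul_pow, hw j, map_mul, map_pow]
  have h2 := linearIndependent_adjoin hS.1 (fun i => by
    refine (IsAlgebraic.of_pow (Fact.out : ℓ.Prime).pos ?_)
    rw [hw i]
    exact isAlgebraic_algebraMap (x i)) h1
  have h3 := h2.fintype_card_le_finrank
  rw [Fintype.card_fin] at h3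
  omega

end

end Vale.Agent.P019P
end

section

/-!
# Rational function subfields
-/

namespace Vale.Agent.P019P

open Vale.Agent.P019

set_option linter.style.haveILetI false

open Polynomial

section line

variable {K : Type*} [Field K] [PerfectField K] {ℓ : ℕ} [Fact ℓ.Prime] [NeZero (ℓ : K)]

theorem line_VS_le {K : Type*} [Field K] {ℓ : ℕ} [Fact ℓ.Prime] [NeZero (ℓ : K)] {k : Subfield K}
    (hk : IsAlgClosed k) {x : K} (hx : x ∉ k) : VS ℓ (adj k x) ≤
      Submodule.span (ZMod ℓ) (Set.range fun c : k => cl ℓ (x - (c : K))) := by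
  rw [adj, VS_pf]
  exact Vale.Agent.P019.line_VS_le hk hx


/-- S17 linear independence of the classes of `x - c` for good `x`. -/
theorem good_independent {k : Subfield K} (hk : IsAlgClosed k) {x : K} (hx : Good k x)
    (s : Finset K) (hs : ∀ c ∈ s, c ∈ k) (n : K → ZMod ℓ)
    (h : ∑ c ∈ s, n c • cl ℓ (x - c) = 0) : ∀ c ∈ s, n c = 0 := by
  classical
  have hℓ : ℓ.Prime := Fact.out
  have hsub : ∀ c ∈ s, x - c ≠ 0 := by
    intro c hc h
    apply hx.1
    rw [sub_eq_zero] at h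
    rw [h]
    exact hs c hc
  -- product
  have e1 : ∀ t : Finset K, t ⊆ s → (∏ c ∈ t, (x - c) ^ (n c).val) ≠ 0 ∧
      cl ℓ (∏ c ∈ t, (x - c) ^ (n c).val) = ∑ c ∈ t, n c • cl ℓ (x - c) := by
    intro t
    induction t using Finset.induction_on with
    | empty =>
      intro _
      simp [cl_one]
    | insert a t ha ih =>
      intro ht
      have ih' := ih (fun c hc => ht (Finset.mem_insert_of_mem hc))
      have ha' : x - a ≠ 0 := hsub a (ht (Finset.mem_insert_self a t))
      rw [Finset.prod_insert ha, Finset.sum_insert ha]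
      refine ⟨mul_ne_zero (pow_ne_zero _ ha') ih'.1, ?_⟩
      rw [cl_mul ℓ (pow_ne_zero _ ha') ih'.1, ih'.2, cl_pow]
      congr 1
      rw [← Nat.cast_smul_eq_nsmul (ZMod ℓ), ZMod.natCast_zmod_val]
  obtain ⟨hne, hcl⟩ := e1 s (Finset.Subset.refl s)
  rw [h] at hcl
  obtain ⟨w, hw0, hw⟩ := (cl_eq_zero_iff ℓ hne).1 hcl
  -- the product as the value of a polynomial
  set P : k[X] := ∏ c ∈ s.attach, (X - C (⟨c.1, hs c.1 c.2⟩ : k)) ^ (n c.1).val with hP
  have hPx : aeval x P = ∏ c ∈ s, (x - c) ^ (n c).val := by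
    rw [hP, map_prod, ← Finset.prod_attach s]
    refine Finset.prod_congr rfl ?_
    intro c _
    rw [map_pow, map_sub, aeval_X, aeval_C]
    rfl
  have hPmem : aeval x P ∈ adj k x := by
    have : aeval x P = ∏ c ∈ s, (x - c) ^ (n c).val := hPx
    rw [this]
    refine Subfield.prod_mem _ ?_
    intro c hc
    exact Subfield.pow_mem _ (Subfield.sub_mem _ (mem_adj k x) (le_adj k x (hs c hc))) _
  have hwalg : IsAlgebraic (adj k x) w := by
    refine ⟨X ^ ℓ - C ⟨aeval x P, hPmem⟩, ?_, ?_⟩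
    · exact (monic_X_pow_sub_C _ hℓ.ne_zero).ne_zero
    · rw [map_sub, map_pow, aeval_X, aeval_C, hw, ← hPx]
      exact sub_self _
  have hwmem : w ∈ adj k x := hx.2 w hwalg
  obtain ⟨j, hj⟩ := mem_adj_iff.1 hwmem
  set Q := ringExpChar K ^ j with hQ
  have hQ0 : Q ≠ 0 := (pow_pos (expChar_pos K _) j).ne'
  obtain ⟨p, q, hpq⟩ := line_mem hj
  have hp : p ≠ 0 := by
    rintro rfl
    rw [map_zero, zero_div] at hpq
    exact pow_ne_zero _ hw0 hpq
  have hq : q ≠ 0 := by
    rintro rfl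
    rw [map_zero, div_zero] at hpq
    exact pow_ne_zero _ hw0 hpq
  have hqx := line_aeval_ne hk hx.1 hq
  have hpoly : P ^ Q * q ^ ℓ = p ^ ℓ := by
    apply line_transc hk hx.1
    rw [map_mul, map_pow, map_pow, map_pow, hPx, ← hw, ← pow_mul, mul_comm ℓ Q, pow_mul, hpq,
      div_pow, div_mul_cancel₀ _ (pow_ne_zero _ hqx)]
  have hP0 : P ≠ 0 := by
    intro h0
    rw [h0, zero_pow hQ0, zero_mul] at hpoly
    exact pow_ne_zero _ hp hpoly.symm
  intro c hc
  have hm : rootMultiplicity (⟨c, hs c hc⟩ : k) (P ^ Q * q ^ ℓ) =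
      rootMultiplicity (⟨c, hs c hc⟩ : k) (p ^ ℓ) := by rw [hpoly]
  have hcP : ∀ t : Finset s, rootMultiplicity (⟨c, hs c hc⟩ : k)
      (∏ c ∈ t, (X - C (⟨c.1, hs c.1 c.2⟩ : k)) ^ (n c.1).val) =
      if (⟨c, hc⟩ : s) ∈ t then (n c).val else 0 := by
    intro t
    induction t using Finset.induction_on with
    | empty => simp
    | insert a t ha ih =>
      have hne1 : ∀ u : Finset s, (∏ c ∈ u, (X - C (⟨c.1, hs c.1 c.2⟩ : k)) ^ (n c.1).val) ≠ 0 := by
        intro u
        exact Finset.prod_ne_zero_iff.2 (fun b _ => pow_ne_zero _ (X_sub_C_ne_zero _))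
      have hne2 : (∏ c ∈ insert a t, (X - C (⟨c.1, hs c.1 c.2⟩ : k)) ^ (n c.1).val) ≠ 0 := hne1 _
      rw [Finset.prod_insert ha] at hne2 ⊢
      rw [rootMultiplicity_mul hne2, ih]
      by_cases hac : a = ⟨c, hc⟩
      · subst hac
        rw [if_neg ha, if_pos (Finset.mem_insert_self _ _), add_zero, rootMultiplicity_X_sub_C_pow]
      · have h4 : (⟨c, hc⟩ : s) ∈ insert a t ↔ (⟨c, hc⟩ : s) ∈ t := by
          rw [Finset.mem_insert]
          constructor
          · rintro (h5 | h5)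
            · exact absurd h5.symm hac
            · exact h5
          · exact Or.inr
        have h5 : rootMultiplicity (⟨c, hs c hc⟩ : k)
            ((X - C (⟨a.1, hs a.1 a.2⟩ : k)) ^ (n a.1).val) = 0 := by
          apply rootMultiplicity_eq_zero
          rw [IsRoot, eval_pow, eval_sub, eval_X, eval_C]
          apply pow_ne_zero
          rw [Ne, sub_eq_zero]
          intro h6
          apply hac
          have h7 := congrArg (Subtype.val : k → K) h6
          exact Subtype.ext h7.symm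
        rw [h5, zero_add]
        simp only [h4]
  have hpowm : ∀ (r : k[X]) (m : ℕ), rootMultiplicity (⟨c, hs c hc⟩ : k) (r ^ m) =
      m * rootMultiplicity (⟨c, hs c hc⟩ : k) r := by
    intro r m
    rw [← count_roots, ← count_roots, roots_pow, Multiset.count_nsmul]
  rw [rootMultiplicity_mul (mul_ne_zero (pow_ne_zero _ hP0) (pow_ne_zero _ hq)), hpowm q,
    hpowm p, hpowm P, hP, hcP s.attach, if_pos (Finset.mem_attach _ _)] at hm
  have hdvd : ℓ ∣ (n c).val := by
    have h8 : ℓ ∣ Q * (n c).val + ℓ * rootMultiplicity (⟨c, hs c hc⟩ : k) q := by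
      rw [hm]; exact dvd_mul_right _ _
    have h9 : ℓ ∣ Q * (n c).val := (Nat.dvd_add_left (dvd_mul_right _ _)).1 h8
    refine (hℓ.dvd_mul.1 h9).resolve_left ?_
    intro h10
    exact q_pow_ne_zero ℓ K j ((ZMod.natCast_eq_zero_iff _ _).2 h10)
  have hlt : (n c).val < ℓ := ZMod.val_lt _
  have h0 : (n c).val = 0 := Nat.eq_zero_of_dvd_of_lt hdvd hlt
  exact (ZMod.val_eq_zero _).1 h0


/-- S18 factorization in the rational function field. -/
theorem adj_factor {k : Subfield K} (hk : IsAlgClosed k) {x : K} (hx : x ∉ k) {v : V ℓ K}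
    (hv : v ∈ VS ℓ (adj k x)) :
    ∃ (s : Finset K) (n : K → ZMod ℓ), (∀ c ∈ s, c ∈ k) ∧ v = ∑ c ∈ s, n c • cl ℓ (x - c) := by
  classical
  have h1 := line_VS_le hk hx hv
  obtain ⟨f, hf⟩ := (Finsupp.mem_span_range_iff_exists_finsupp).1 h1
  refine ⟨f.support.map ⟨Subtype.val, Subtype.val_injective⟩,
    fun c => if h : c ∈ k then f ⟨c, h⟩ else 0, ?_, ?_⟩
  · intro c hc
    obtain ⟨a, _, rfl⟩ := Finset.mem_map.1 hc
    exact a.2
  · rw [← hf, Finsupp.sum, Finset.sum_map]
    refine Finset.sum_congr rfl ?_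
    intro a _
    have : (a : K) ∈ k := a.2
    simp

/-- S19 the line subspaces are isotropic. -/
theorem adj_isotropic {k : Subfield K} (hk : IsAlgClosed k) {x : K} (hx : x ∉ k) :
    Isotropic (VS ℓ (adj k x)) := by
  have hsub : ∀ c : k, x - (c : K) ≠ 0 := by
    intro c h
    apply hx
    rw [sub_eq_zero] at h
    rw [h]
    exact c.2
  have hneg1 : ∃ i : K, i ^ ℓ = -1 := by
    obtain ⟨w, hw⟩ := IsAlgClosed.exists_pow_nat_eq (-1 : k) (Fact.out : ℓ.Prime).pos
    refine ⟨(w : K), ?_⟩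
    have h2 := congrArg (Subtype.val : k → K) hw
    simpa using h2
  have hself : ∀ a : K, Orth (cl ℓ a) (cl ℓ a) := by
    intro a
    by_cases ha0 : a = 0
    · rw [ha0, cl_zero]; exact orth_zero_left _
    by_cases ha1 : a = 1
    · rw [ha1, cl_one]; exact orth_zero_left _
    have h1 : (1 - a) ≠ 0 := sub_ne_zero.2 (Ne.symm ha1)
    have h2 : (1 - a⁻¹) ≠ 0 := by
      rw [sub_ne_zero]
      intro h
      exact ha1 (by rw [eq_comm, inv_eq_one] at h; exact h)
    have h3 : -a = (1 - a) / (1 - a⁻¹) := by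
      rw [eq_div_iff h2]
      field_simp
      ring
    have h4 : cl ℓ a = cl ℓ (1 - a) - cl ℓ (1 - a⁻¹) := by
      rw [← cl_neg ℓ hneg1 a, h3, cl_div ℓ h1 h2]
    have h5 : Orth (cl ℓ a) (cl ℓ (1 - a)) := orth_one_sub a
    have h6 : Orth (cl ℓ a) (cl ℓ (1 - a⁻¹)) := by
      have h7 : Orth (cl ℓ a⁻¹) (cl ℓ (1 - a⁻¹)) := orth_one_sub a⁻¹
      have h8 := h7.neg_left
      rw [cl_inv, neg_neg] at h8
      exact h8
    have h9 := h5.sub_right h6
    rw [← h4] at h9
    exact h9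
  have hpair : ∀ c d : k, Orth (cl ℓ (x - (c : K))) (cl ℓ (x - (d : K))) := by
    intro c d
    by_cases hcd : c = d
    · subst hcd
      exact hself _
    have hdc : (d : K) - c ≠ 0 := by
      rw [sub_ne_zero]
      intro h
      exact hcd (Subtype.ext h.symm)
    have hcd' : (c : K) - d ≠ 0 := by
      rw [sub_ne_zero]
      intro h
      exact hcd (Subtype.ext h)
    have h1 : Orth (cl ℓ ((x - c) / ((d : K) - c))) (cl ℓ (1 - (x - c) / ((d : K) - c))) :=
      orth_one_sub _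
    have h2 : 1 - (x - c) / ((d : K) - c) = (x - d) / ((c : K) - d) := by
      rw [eq_div_iff hcd', sub_mul, div_mul_eq_mul_div, sub_eq_iff_eq_add]
      field_simp
      ring
    rw [h2, cl_div ℓ (hsub c) hdc, cl_div ℓ (hsub d) hcd',
      line_cl_const hk (Subfield.sub_mem _ d.2 c.2), line_cl_const hk (Subfield.sub_mem _ c.2 d.2),
      sub_zero, sub_zero] at h1
    exact h1
  have key1 : ∀ c : k, ∀ w ∈ Submodule.span (ZMod ℓ) (Set.range fun c : k => cl ℓ (x - (c : K))),
      Orth (cl ℓ (x - (c : K))) w := by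
    intro c w hw
    refine Submodule.span_induction (p := fun w _ => Orth (cl ℓ (x - (c : K))) w) ?_ ?_ ?_ ?_ hw
    · rintro _ ⟨d, rfl⟩
      exact hpair c d
    · exact orth_zero_right _
    · intro a b _ _ ha hb
      exact ha.add_right hb
    · intro r a _ ha
      exact ha.smul_right r
  have key2 : ∀ u ∈ Submodule.span (ZMod ℓ) (Set.range fun c : k => cl ℓ (x - (c : K))),
      ∀ w ∈ Submodule.span (ZMod ℓ) (Set.range fun c : k => cl ℓ (x - (c : K))), Orth u w := by
    intro u hu w hw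
    refine Submodule.span_induction (p := fun u _ => Orth u w) ?_ ?_ ?_ ?_ hu
    · rintro _ ⟨c, rfl⟩
      exact key1 c w hw
    · exact orth_zero_left _
    · intro a b _ _ ha hb
      exact ha.add_left hb
    · intro r a _ ha
      exact ha.smul_left r
  intro u hu w hw
  exact key2 u (line_VS_le hk hx hu) w (line_VS_le hk hx hw)

end line

end Vale.Agent.P019P
end

section

/-!
# Finiteness of intersections
-/

namespace Vale.Agent.P019P

open Vale.Agent.P019

set_option linter.style.haveILetI false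

open Polynomial

section aux

variable {Ω : Type*} [Field Ω]

/-- a primitive root of unity in an algebraically closed subfield. -/
theorem finK_prim {l : Subfield Ω} (hl : IsAlgClosed l) (ℓ : ℕ) [Fact ℓ.Prime]
    [hℓ : NeZero (ℓ : Ω)] :
    ∃ ζ ∈ l, IsPrimitiveRoot ζ ℓ := by
  haveI : NeZero ℓ := ⟨(Fact.out : ℓ.Prime).ne_zero⟩
  haveI : NeZero (ℓ : l) := ⟨by
    intro h
    apply hℓ.out
    have h2 := congrArg (Subtype.val : l → Ω) h
    simpa using h2⟩
  obtain ⟨ζ, hζ⟩ := HasEnoughRootsOfUnity.exists_primitiveRoot l ℓ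
  exact ⟨ζ, ζ.2, hζ.map_of_injective (f := algebraMap l Ω) (algebraMap l Ω).injective⟩

theorem FG.perfect [PerfectField Ω] {E Λ : Subfield Ω} (h : FG E Λ) : PerfectField Λ := by
  obtain ⟨S, hS⟩ := h
  rw [hS]
  infer_instance

theorem FG.le {E Λ : Subfield Ω} (h : FG E Λ) : E ≤ Λ := by
  obtain ⟨S, hS⟩ := h
  rw [hS]
  exact le_sup_left.trans (le_pf _)

theorem FG.mono {E F Λ : Subfield Ω} (h : FG E Λ) (hEF : E ≤ F) (hF : F ≤ Λ) : FG F Λ := by
  obtain ⟨S, hS⟩ := h
  refine ⟨S, le_antisymm ?_ ?_⟩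
  · rw [hS]
    exact pf_mono (sup_le_sup_right hEF _)
  · rw [hS, ← pf_pf (E ⊔ Subfield.closure (S : Set Ω))]
    apply pf_mono
    rw [← hS]
    refine sup_le hF ?_
    rw [hS]
    exact le_sup_right.trans (le_pf _)

theorem FG.trans {E F Λ : Subfield Ω} (h : FG E F) (h' : FG F Λ) : FG E Λ := by
  classical
  obtain ⟨S, hS⟩ := h
  obtain ⟨T, hT⟩ := h'
  refine ⟨S ∪ T, ?_⟩
  rw [hT, hS]
  apply le_antisymm
  · rw [← pf_pf (E ⊔ Subfield.closure ((S ∪ T : Finset Ω) : Set Ω))]
    apply pf_mono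
    refine sup_le ?_ ?_
    · apply pf_mono
      refine sup_le_sup_left (Subfield.closure_mono ?_) _
      rw [Finset.coe_union]
      exact Set.subset_union_left
    · refine le_trans ?_ (le_pf _)
      refine le_trans (Subfield.closure_mono ?_) le_sup_right
      rw [Finset.coe_union]
      exact Set.subset_union_right
  · apply pf_mono
    rw [Finset.coe_union, Subfield.closure_union, ← sup_assoc]
    exact sup_le_sup_right (le_pf _) _

/-- `ℓ`-th roots in the perfect closure. -/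
theorem pf_root (ℓ : ℕ) [Fact ℓ.Prime] [NeZero (ℓ : Ω)] {E : Subfield Ω} {z y : Ω} (hz : z ∈ E)
    (hz0 : z ≠ 0) (hy : y ∈ pf E) (h : y ^ ℓ = z) : ∃ y' ∈ E, y' ^ ℓ = z := by
  obtain ⟨n, hn⟩ := mem_pf.1 hy
  have h2 := q_pow_ne_zero ℓ Ω n
  have h4 : IsCoprime ((ringExpChar Ω ^ n : ℕ) : ℤ) (ℓ : ℤ) := by
    rw [Nat.isCoprime_iff_coprime, Nat.coprime_comm, Nat.Prime.coprime_iff_not_dvd Fact.out]
    intro h5
    exact h2 ((ZMod.natCast_eq_zero_iff _ _).2 h5)
  obtain ⟨a, b, hab⟩ := h4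
  refine ⟨(y ^ ringExpChar Ω ^ n) ^ a * z ^ b, E.mul_mem (zpow_mem hn a) (zpow_mem hz b), ?_⟩
  have e1 : ((y ^ ringExpChar Ω ^ n) ^ a) ^ ℓ = z ^ (a * (ringExpChar Ω ^ n : ℕ)) := by
    have e2 : (y ^ ringExpChar Ω ^ n) ^ ℓ = z ^ ringExpChar Ω ^ n := by
      rw [← h, ← pow_mul, ← pow_mul, mul_comm]
    rw [← zpow_natCast, ← zpow_mul, mul_comm a, zpow_mul, zpow_natCast, e2, mul_comm a,
      zpow_mul, zpow_natCast]
  rw [mul_pow, e1, ← zpow_natCast (z ^ b), ← zpow_mul, ← zpow_add₀ hz0, hab, zpow_one]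

end aux

section finite

variable {Ω : Type*} [Field Ω] [PerfectField Ω] (ℓ : ℕ) [Fact ℓ.Prime] [NeZero (ℓ : Ω)]

/-- S11 finite kernel, ambient version. -/
theorem fk {F Λ : Subfield Ω} (h : FG F Λ) {ζ : Ω} (hζF : ζ ∈ F) (hζ : IsPrimitiveRoot ζ ℓ) :
    ∃ N : ℕ, ∀ x : Fin (N + 1) → Ω, (∀ i, x i ∈ F ∧ x i ≠ 0 ∧ ∃ w ∈ Λ, w ^ ℓ = x i) →
      ∃ i j, i ≠ j ∧ ∃ y ∈ F, y ≠ 0 ∧ x i = x j * y ^ ℓ := by
  classical
  have hℓ : ℓ ≠ 0 := (Fact.out : ℓ.Prime).ne_zero
  haveI : PerfectField Λ := h.perfect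
  obtain ⟨S, hS⟩ := h.mono (le_pf F) (pf_le h.le)
  set F' := pf F with hF'
  haveI : Algebra.EssFiniteType F' (IntermediateField.adjoin F' (S : Set Ω)) :=
    IntermediateField.essFiniteType_iff.2 ⟨S, rfl⟩
  have hζ' : IsPrimitiveRoot (⟨ζ, le_pf F hζF⟩ : F') ℓ :=
    IsPrimitiveRoot.of_map_of_injective (f := algebraMap F' Ω) hζ (algebraMap F' Ω).injective
  obtain ⟨N, hN⟩ := finite_kernel (F := F') (L := IntermediateField.adjoin F' (S : Set Ω)) ℓ
    ⟨ζ, le_pf F hζF⟩ hζ'
  refine ⟨N, fun x hx => ?_⟩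
  choose hxF hx0 w hw hwx using hx
  have h1 : ∀ i, ∃ n : ℕ, w i ^ ringExpChar Ω ^ n ∈ F' ⊔ Subfield.closure (S : Set Ω) := by
    intro i
    have h2 := hw i
    rw [hS] at h2
    exact mem_pf.1 h2
  choose n hn using h1
  obtain ⟨m, hm⟩ : ∃ m, ∀ i, n i ≤ m := ⟨Finset.univ.sup n, fun i => Finset.le_sup (Finset.mem_univ i)⟩
  set Q := ringExpChar Ω ^ m with hQ
  have hQ0 : Q ≠ 0 := (qpow_pos Ω m).ne'
  have hn' : ∀ i, w i ^ Q ∈ F' ⊔ Subfield.closure (S : Set Ω) := by
    intro i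
    obtain ⟨j, hj⟩ := Nat.exists_eq_add_of_le (hm i)
    rw [hQ, hj, pow_add, pow_mul]
    exact pow_mem (hn i) _
  obtain ⟨i, j, hij, y, hy0, hy⟩ := hN (fun i => ⟨x i ^ Q, pow_mem (le_pf F (hxF i)) _⟩) (by
    intro i
    refine ⟨fun h => pow_ne_zero Q (hx0 i) (congrArg Subtype.val h), ?_⟩
    have hw' : w i ^ Q ∈ IntermediateField.adjoin F' (S : Set Ω) := by
      have h3 : w i ^ Q ∈ (IntermediateField.adjoin F' (S : Set Ω)).toSubfield := by
        rw [finK_sup_eq]; exact hn' i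
      exact h3
    refine ⟨⟨w i ^ Q, hw'⟩, Subtype.ext ?_⟩
    change (w i ^ Q) ^ ℓ = x i ^ Q
    rw [← hwx i, ← pow_mul, ← pow_mul, mul_comm])
  have hy' : x i ^ Q = x j ^ Q * (y : Ω) ^ ℓ := congrArg Subtype.val hy
  obtain ⟨y', hy', hyy⟩ := exists_root_q F' y.2 m
  have h4 : x i = x j * y' ^ ℓ := by
    apply pow_q_injective m
    change x i ^ Q = (x j * y' ^ ℓ) ^ Q
    rw [mul_pow, ← pow_mul, mul_comm ℓ, pow_mul, hyy]
    assumption
  have h5 : y' ^ ℓ = x i / x j := by
    rw [h4, mul_div_cancel_left₀ _ (hx0 j)]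
  obtain ⟨y'', hy'', hyy'⟩ := pf_root ℓ (Subfield.div_mem _ (hxF i) (hxF j))
    (div_ne_zero (hx0 i) (hx0 j)) hy' h5
  refine ⟨i, j, hij, y'', hy'', ?_, ?_⟩
  · rintro rfl
    rw [zero_pow hℓ] at hyy'
    exact div_ne_zero (hx0 i) (hx0 j) hyy'.symm
  · rw [hyy', mul_div_cancel₀ _ (hx0 j)]

/-- S12 -/
theorem int_fin {l E₁ E₂ Λ : Subfield Ω} (hl : IsAlgClosed l) (hfg : FG l Λ) (h1 : l ≤ E₁)
    (h2 : l ≤ E₂) (h1' : E₁ ≤ Λ) (h2' : E₂ ≤ Λ) {y : Ω} (hy : y ∈ E₂) (hy1 : ¬ IsAlgebraic E₁ y)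
    (halg : ∀ z ∈ E₂, IsAlgebraic (adj l y) z) :
    ∃ N : ℕ, ∀ x : Fin (N + 1) → Ω,
      (∀ i, x i ∈ E₁ ∧ x i ≠ 0 ∧ ∃ e ∈ E₂, ∃ w ∈ Λ, x i = e * w ^ ℓ) →
      ∃ i j, i ≠ j ∧ ∃ w ∈ E₁, w ≠ 0 ∧ x i = x j * w ^ ℓ := by
  have hℓ : ℓ ≠ 0 := (Fact.out : ℓ.Prime).ne_zero
  obtain ⟨ζ, hζl, hζ⟩ := finK_prim hl ℓ
  have hlF : l ≤ E₁ ⊔ E₂ := h1.trans le_sup_left
  have hFG : FG (E₁ ⊔ E₂) Λ := hfg.mono hlF (sup_le h1' h2')
  obtain ⟨N, hN⟩ := fk ℓ hFG (hlF hζl) hζ
  refine ⟨N, fun x hx => ?_⟩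
  choose hxE hx0 e he w hw hxe using hx
  have he0 : ∀ i, e i ≠ 0 := by
    intro i h
    apply hx0 i
    rw [hxe i, h, zero_mul]
  obtain ⟨i, j, hij, y', hy', hy0, hyy⟩ := hN (fun i => x i / e i) (by
    intro i
    refine ⟨Subfield.div_mem _ ((le_sup_left : E₁ ≤ E₁ ⊔ E₂) (hxE i))
      ((le_sup_right : E₂ ≤ E₁ ⊔ E₂) (he i)), div_ne_zero (hx0 i) (he0 i), w i, hw i, ?_⟩
    rw [eq_div_iff (he0 i), hxe i, mul_comm])
  change x i / e i = x j / e j * y' ^ ℓ at hyy
  have hd : x i / x j = (e i / e j) * y' ^ ℓ := by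
    have h3 := he0 i
    have h4 := he0 j
    have h5 := hx0 j
    rw [div_eq_iff h3] at hyy
    rw [hyy]
    field_simp
  obtain ⟨v, hv, hvx⟩ := pow_descent hl h1 h2 hy hy1 halg (Nat.pos_of_ne_zero hℓ)
    (Subfield.div_mem _ (hxE i) (hxE j)) (Subfield.div_mem _ (he i) (he j)) hy' hd
  refine ⟨i, j, hij, v, hv, ?_, ?_⟩
  · rintro rfl
    rw [zero_pow hℓ] at hvx
    exact div_ne_zero (hx0 i) (hx0 j) hvx
  · rw [← hvx, mul_div_cancel₀ _ (hx0 j)]

/-- no two of the `x - c` are equivalent in `l(x)`. -/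
theorem finK_line0 {Ω : Type*} [Field Ω] (ℓ : ℕ) [Fact ℓ.Prime] {l : Subfield Ω}
    (hl : IsAlgClosed l) {x : Ω} (hxl : x ∉ l) {c c' : Ω}
    (hc : c ∈ l) (hc' : c' ∈ l) (hcc : c ≠ c') {y : Ω} (hy : y ∈ Vale.Agent.P019.adj l x)
    (h : x - c = (x - c') * y ^ ℓ) : False := by
  have hℓ : ℓ ≠ 0 := (Fact.out : ℓ.Prime).ne_zero
  have hℓ1 : ℓ ≠ 1 := (Fact.out : ℓ.Prime).one_lt.ne'
  have htr : ¬ IsAlgebraic l x := fun h' => hxl (RAC_of_isAlgClosed l hl x h')
  have hinj : ∀ p : l[X], aeval x p = 0 → p = 0 := by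
    intro p hp
    by_contra hp0
    exact htr ⟨p, hp0, hp⟩
  obtain ⟨p, q, hpq⟩ := finK_mem_adj.1 hy
  have hx0 : ∀ d ∈ l, x - d ≠ 0 := by
    intro d hd h0
    apply hxl
    rw [sub_eq_zero.1 h0]
    exact hd
  have hy0 : y ≠ 0 := by
    rintro rfl
    rw [zero_pow hℓ, mul_zero] at h
    exact hx0 c hc h
  have hq0 : aeval x q ≠ 0 := by
    intro h0
    rw [h0, div_zero] at hpq
    exact hy0 hpq
  have hp0 : aeval x p ≠ 0 := by
    intro h0
    rw [h0, zero_div] at hpq
    exact hy0 hpq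
  have hq : q ≠ 0 := fun h0 => hq0 (by rw [h0, map_zero])
  have hp : p ≠ 0 := fun h0 => hp0 (by rw [h0, map_zero])
  have hpoly : (X - C (⟨c, hc⟩ : l)) * q ^ ℓ = (X - C (⟨c', hc'⟩ : l)) * p ^ ℓ := by
    rw [← sub_eq_zero]
    apply hinj
    rw [map_sub, map_mul, map_mul, map_pow, map_pow, map_sub, map_sub, aeval_X, aeval_C, aeval_C]
    change (x - c) * _ - (x - c') * _ = 0
    rw [h, hpq, div_pow, mul_assoc, div_mul_cancel₀ _ (pow_ne_zero _ hq0), sub_self]
  have hm := congrArg (rootMultiplicity (⟨c, hc⟩ : l)) hpoly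
  rw [rootMultiplicity_mul (mul_ne_zero (X_sub_C_ne_zero _) (pow_ne_zero _ hq)),
    rootMultiplicity_mul (mul_ne_zero (X_sub_C_ne_zero _) (pow_ne_zero _ hp)),
    rootMultiplicity_X_sub_C_self] at hm
  have h3 : rootMultiplicity (⟨c, hc⟩ : l) (X - C (⟨c', hc'⟩ : l)) = 0 := by
    apply rootMultiplicity_eq_zero
    rw [IsRoot.def, eval_sub, eval_X, eval_C, sub_eq_zero]
    intro h4
    exact hcc (congrArg Subtype.val h4)
  rw [h3, zero_add] at hm
  have h5 : ∀ r : l[X], r ≠ 0 → ∀ n : ℕ, rootMultiplicity (⟨c, hc⟩ : l) (r ^ n) =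
      n * rootMultiplicity (⟨c, hc⟩ : l) r := by
    intro r hr n
    induction n with
    | zero => simp
    | succ n ih =>
      rw [pow_succ, rootMultiplicity_mul (mul_ne_zero (pow_ne_zero _ hr) hr), ih]
      ring
  rw [h5 q hq, h5 p hp] at hm
  have h6 : ℓ ∣ 1 := by
    have h7 : ℓ ∣ 1 + ℓ * rootMultiplicity (⟨c, hc⟩ : l) q := by
      rw [hm]; exact dvd_mul_right _ _
    exact (Nat.dvd_add_left (dvd_mul_right _ _)).1 h7
  exact hℓ1 (Nat.dvd_one.1 h6)

/-- no two of the `x - c` are equivalent in `l(x)`. -/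
theorem finK_line {l : Subfield Ω} (hl : IsAlgClosed l) {x : Ω} (hxl : x ∉ l) {c c' : Ω}
    (hc : c ∈ l) (hc' : c' ∈ l) (hcc : c ≠ c') {y : Ω} (hy : y ∈ adj l x)
    (h : x - c = (x - c') * y ^ ℓ) : False := by
  have hx0 : ∀ d ∈ l, x - d ≠ 0 := by
    intro d hd h0
    apply hxl
    rw [sub_eq_zero.1 h0]
    exact hd
  have h1 : y ^ ℓ = (x - c) / (x - c') := by
    rw [h, mul_div_cancel_left₀ _ (hx0 c' hc')]
  have hmem : ∀ d ∈ l, x - d ∈ Vale.Agent.P019.adj l x := fun d hd =>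
    Subfield.sub_mem _ (Vale.Agent.P019.mem_adj l x) (Vale.Agent.P019.le_adj l x hd)
  obtain ⟨y', hy', hyy⟩ := pf_root ℓ (Subfield.div_mem _ (hmem c hc) (hmem c' hc'))
    (div_ne_zero (hx0 c hc) (hx0 c' hc')) hy h1
  refine finK_line0 ℓ hl hxl hc hc' hcc hy' ?_
  rw [hyy, mul_div_cancel₀ _ (hx0 c' hc')]

/-- S13 classes of `x - c` for distinct constants are distinct up to finitely many. -/
theorem dist_fin {l Λ : Subfield Ω} (hl : IsAlgClosed l) (hfg : FG l Λ) {x : Ω} (hx : x ∈ Λ)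
    (hxl : x ∉ l) :
    ∃ N : ℕ, ∀ c : Fin (N + 1) → Ω, Function.Injective c → (∀ i, c i ∈ l) →
      ∃ i j, i ≠ j ∧ ¬ ∃ w ∈ Λ, x - c i = (x - c j) * w ^ ℓ := by
  have hℓ : ℓ ≠ 0 := (Fact.out : ℓ.Prime).ne_zero
  have hlΛ : l ≤ Λ := hfg.le
  haveI : PerfectField Λ := hfg.perfect
  obtain ⟨ζ, hζl, hζ⟩ := finK_prim hl ℓ
  obtain ⟨N, hN⟩ := fk ℓ (hfg.mono (le_adj l x) (adj_le hlΛ hx)) ((le_adj l x) hζl) hζ
  refine ⟨N + 1, fun c hc hcl => ?_⟩
  by_contra hcon
  push Not at hcon
  have hx0 : ∀ d ∈ l, x - d ≠ 0 := by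
    intro d hd h0
    apply hxl
    rw [sub_eq_zero.1 h0]
    exact hd
  have hmem : ∀ d ∈ l, x - d ∈ adj l x := fun d hd =>
    Subfield.sub_mem _ (mem_adj l x) (le_adj l x hd)
  obtain ⟨i, j, hij, y, hy, -, hyy⟩ := hN (fun i => (x - c i.succ) / (x - c 0)) (by
    intro i
    refine ⟨Subfield.div_mem _ (hmem _ (hcl _)) (hmem _ (hcl _)),
      div_ne_zero (hx0 _ (hcl _)) (hx0 _ (hcl _)), ?_⟩
    obtain ⟨w, hw, hww⟩ := hcon i.succ 0 (Fin.succ_ne_zero i)
    refine ⟨w, hw, ?_⟩
    rw [hww, mul_div_cancel_left₀ _ (hx0 _ (hcl _))])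
  change (x - c i.succ) / (x - c 0) = (x - c j.succ) / (x - c 0) * y ^ ℓ at hyy
  refine finK_line ℓ hl hxl (hcl i.succ) (hcl j.succ) ?_ hy ?_
  · intro h
    exact hij (Fin.succ_injective _ (hc h))
  · have h0 := hx0 _ (hcl 0)
    rw [div_mul_eq_mul_div, div_left_inj' h0] at hyy
    exact hyy

/-- S14 -/
theorem int_line {l E Λ : Subfield Ω} (hl : IsAlgClosed l) (hfg : FG l Λ) (hE : l ≤ E)
    (hEΛ : E ≤ Λ) {y : Ω} (hy : y ∈ Λ) (hyE : ¬ IsAlgebraic E y) (C : Set Ω) (hC : C.Infinite)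
    (hCl : ∀ c ∈ C, c ∈ l) : ∃ c ∈ C, ¬ ∃ e ∈ E, ∃ w ∈ Λ, y - c = e * w ^ ℓ := by
  have hℓ : ℓ ≠ 0 := (Fact.out : ℓ.Prime).ne_zero
  by_contra hcon
  push Not at hcon
  have hyl : y ∉ l := fun h => hyE (isAlgebraic_of_mem (hE h))
  have hlΛ : l ≤ Λ := hE.trans hEΛ
  haveI : PerfectField Λ := hfg.perfect
  have hx0 : ∀ d ∈ l, y - d ≠ 0 := by
    intro d hd h0
    apply hyl
    rw [sub_eq_zero.1 h0]
    exact hd
  obtain ⟨N, hN⟩ := int_fin ℓ hl hfg hE (le_adj l y) hEΛ (adj_le hlΛ hy) (mem_adj l y) hyE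
    (fun z hz => isAlgebraic_of_mem hz)
  obtain ⟨N', hN'⟩ := dist_fin ℓ hl hfg hy hyl
  have h' : ∀ c : C, ∃ e ∈ E, ∃ w ∈ Λ, y - c = e * w ^ ℓ := fun c => hcon c.1 c.2
  choose e he w hw hew using h'
  have he0 : ∀ c, e c ≠ 0 := by
    intro c h
    apply hx0 _ (hCl _ c.2)
    rw [hew c, h, zero_mul]
  have hw0 : ∀ c, w c ≠ 0 := by
    intro c h
    apply hx0 _ (hCl _ c.2)
    rw [hew c, h, zero_pow hℓ, mul_zero]
  let s : Setoid C :=
    { r := fun c c' => ∃ v ∈ Λ, v ≠ 0 ∧ y - c = (y - c') * v ^ ℓ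
      iseqv :=
        { refl := fun c => ⟨1, Λ.one_mem, one_ne_zero, by rw [one_pow, mul_one]⟩
          symm := by
            rintro c c' ⟨v, hv, hv0, h⟩
            refine ⟨v⁻¹, Λ.inv_mem hv, inv_ne_zero hv0, ?_⟩
            rw [h, inv_pow, mul_assoc, mul_inv_cancel₀ (pow_ne_zero _ hv0), mul_one]
          trans := by
            rintro c c' c'' ⟨v, hv, hv0, h⟩ ⟨v', hv', hv0', h'⟩
            refine ⟨v' * v, Λ.mul_mem hv' hv, mul_ne_zero hv0' hv0, ?_⟩
            rw [h, h', mul_pow, mul_assoc] } }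
  haveI : Finite (Quotient s) := by
    refine finK_finite s N (fun x => ?_)
    obtain ⟨i, j, hij, v, hv, hv0, hvv⟩ := hN (fun i => e (x i)) (by
      intro i
      refine ⟨he _, he0 _, y - x i, ?_, (w (x i))⁻¹, Λ.inv_mem (hw _), ?_⟩
      · exact Subfield.sub_mem _ (mem_adj l y) (le_adj l y (hCl _ (x i).2))
      · rw [hew (x i), inv_pow, mul_assoc, mul_inv_cancel₀ (pow_ne_zero _ (hw0 _)), mul_one])
    change e (x i) = e (x j) * v ^ ℓ at hvv
    refine ⟨i, j, hij, v * w (x i) / w (x j), Λ.div_mem (Λ.mul_mem (hEΛ hv) (hw _)) (hw _),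
      div_ne_zero (mul_ne_zero hv0 (hw0 _)) (hw0 _), ?_⟩
    have h3 := hw0 (x j)
    rw [hew (x i), hew (x j), hvv, div_pow, mul_pow]
    field_simp
  haveI : Infinite C := hC.to_subtype
  obtain ⟨Q, hQ⟩ := Finite.exists_infinite_fiber (Quotient.mk s)
  let f := Infinite.natEmbedding (Quotient.mk s ⁻¹' {Q})
  obtain ⟨i, j, hij, hne⟩ := hN' (fun i => ((f i.1).1 : Ω)) (by
    intro i j h
    have h1 : (f i.1).1 = (f j.1).1 := Subtype.ext h
    exact Fin.ext (f.injective (Subtype.ext h1))) (fun i => hCl _ (f i.1).1.2)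
  apply hne
  have h1 : Quotient.mk s (f i.1).1 = Q := (f i.1).2
  have h2 : Quotient.mk s (f j.1).1 = Q := (f j.1).2
  obtain ⟨v, hv, -, h⟩ := Quotient.exact (h1.trans h2.symm)
  exact ⟨v, hv, h⟩

end finite

section finiteK

variable {K : Type*} [Field K] [PerfectField K] (ℓ : ℕ) [Fact ℓ.Prime] [NeZero (ℓ : K)]

/-- S15 -/
theorem int_top {l E₁ E₂ : Subfield K} (hl : IsAlgClosed l) (hfg : FG l (⊤ : Subfield K))
    (h1 : l ≤ E₁) (h2 : l ≤ E₂) {y : K} (hy : y ∈ E₂) (hy1 : ¬ IsAlgebraic E₁ y)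
    (halg : ∀ z ∈ E₂, IsAlgebraic (adj l y) z) :
    ((VS ℓ E₁ ⊓ VS ℓ E₂ : Submodule (ZMod ℓ) (V ℓ K)) : Set (V ℓ K)).Finite := by
  by_contra hinf
  have hinf' : ((VS ℓ E₁ ⊓ VS ℓ E₂ : Submodule (ZMod ℓ) (V ℓ K)) : Set (V ℓ K)).Infinite := hinf
  obtain ⟨N, hN⟩ := int_fin ℓ hl hfg h1 h2 le_top le_top hy hy1 halg
  let f := hinf'.natEmbedding
  have hf : ∀ i, ((f i : V ℓ K) ∈ VS ℓ E₁) ∧ ((f i : V ℓ K) ∈ VS ℓ E₂) := fun i =>
    Submodule.mem_inf.1 (f i).2
  have h3 : ∀ i : ℕ, ∃ x ∈ E₁, x ≠ 0 ∧ (f i : V ℓ K) = cl ℓ x := fun i => mem_VS.1 (hf i).1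
  have h4 : ∀ i : ℕ, ∃ x ∈ E₂, x ≠ 0 ∧ (f i : V ℓ K) = cl ℓ x := fun i => mem_VS.1 (hf i).2
  choose x hx hx0 hxf using h3
  choose e he he0 hef using h4
  obtain ⟨i, j, hij, w, hw, hw0, hww⟩ := hN (fun i => x i.1) (by
    intro i
    have h5 : cl ℓ (x i.1) = cl ℓ (e i.1) := by rw [← hxf, ← hef]
    obtain ⟨w, hw, hww⟩ := (cl_eq_iff ℓ (hx0 _) (he0 _)).1 h5
    exact ⟨hx _, hx0 _, e i.1, he _, w, Subfield.mem_top _, hww⟩)
  apply hij
  have h6 : (f i.1 : V ℓ K) = f j.1 := by
    rw [hxf, hxf]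
    exact (cl_eq_iff ℓ (hx0 _) (hx0 _)).2 ⟨w, hw0, hww⟩
  exact Fin.ext (f.injective (Subtype.ext h6))

/-- S16 -/
theorem dist_top {l : Subfield K} (hl : IsAlgClosed l) (hfg : FG l (⊤ : Subfield K)) {x : K}
    (hxl : x ∉ l) (v : V ℓ K) : {c : K | c ∈ l ∧ cl ℓ (x - c) = v}.Finite := by
  by_contra hinf
  have hinf' : {c : K | c ∈ l ∧ cl ℓ (x - c) = v}.Infinite := hinf
  obtain ⟨N, hN⟩ := dist_fin ℓ hl hfg (Subfield.mem_top x) hxl
  let f := hinf'.natEmbedding
  obtain ⟨i, j, hij, hne⟩ := hN (fun i => (f i.1 : K)) (by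
    intro i j h
    exact Fin.ext (f.injective (Subtype.ext h))) (fun i => (f i.1).2.1)
  apply hne
  have hx0 : ∀ d ∈ l, x - d ≠ 0 := by
    intro d hd h0
    apply hxl
    rw [sub_eq_zero.1 h0]
    exact hd
  have h1 := (f i.1).2.2
  have h2 := (f j.1).2.2
  obtain ⟨w, -, hw⟩ := (cl_eq_iff ℓ (hx0 _ (f i.1).2.1) (hx0 _ (f j.1).2.1)).1 (h1.trans h2.symm)
  exact ⟨w, Subfield.mem_top _, hw⟩

end finiteK

end Vale.Agent.P019P
end

section

/-!
# Adjoining an element and all its roots of order `q^n`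
-/

namespace Vale.Agent.P019P

open Vale.Agent.P019

set_option linter.style.haveILetI false

variable {K : Type*} [Field K]

theorem pow_q_inj {x y : K} {n : ℕ} (h : x ^ (ringExpChar K) ^ n = y ^ (ringExpChar K) ^ n) :
    x = y := pow_q_injective n h

theorem add_pow_q (x y : K) (n : ℕ) :
    (x + y) ^ (ringExpChar K) ^ n = x ^ (ringExpChar K) ^ n + y ^ (ringExpChar K) ^ n :=
  add_pow_expChar_pow x y (ringExpChar K) n

theorem sub_pow_q (x y : K) (n : ℕ) :
    (x - y) ^ (ringExpChar K) ^ n = x ^ (ringExpChar K) ^ n - y ^ (ringExpChar K) ^ n :=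
  sub_pow_expChar_pow x y n

theorem adj_pow [PerfectField K] (E : Subfield K) (t : K) (n : ℕ) :
    adj E (t ^ (ringExpChar K) ^ n) = adj E t := by
  apply le_antisymm
  · exact adj_le (le_adj E t) ((adj E t).pow_mem (mem_adj E t) _)
  · exact adj_le (le_adj E _) (mem_of_pow_q (n := n) (mem_adj E _))

/-- the main device: `adj E t` is the union of the plain fields `E(t ^ (1/q^n))`. -/
theorem mem_adj_root [PerfectField K] {E : Subfield K} [PerfectField E] {t z : K} :
    z ∈ adj E t ↔ ∃ (n : ℕ) (y : K), y ^ (ringExpChar K) ^ n = t ∧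
      z ∈ Vale.Agent.P019.adj E y := by
  constructor
  · intro hz
    obtain ⟨n, hn⟩ := mem_adj_iff.1 hz
    obtain ⟨y, hy⟩ := exists_root t n
    refine ⟨n, y, hy, ?_⟩
    -- Frobenius^n maps `E(y)` onto a field containing `E(t)`
    have h1 : Vale.Agent.P019.adj E t ≤
        (Vale.Agent.P019.adj E y).map (iterateFrobenius K (ringExpChar K) n) := by
      refine Vale.Agent.P019.adj_le ?_ ?_
      · intro x hx
        obtain ⟨w, hw, h⟩ := exists_root_q E hx n
        exact ⟨w, Vale.Agent.P019.le_adj _ _ hw, by rw [iterateFrobenius_def, h]⟩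
      · exact ⟨y, Vale.Agent.P019.mem_adj _ _, by rw [iterateFrobenius_def, hy]⟩
    obtain ⟨w, hw, h⟩ := h1 hn
    have h2 : w = z := by
      apply pow_q_inj (n := n)
      rw [← h, iterateFrobenius_def]
    rwa [← h2]
  · rintro ⟨n, y, rfl, hz⟩
    rw [adj_pow]
    exact adj0_le_adj E y hz

/-- a common level for two roots. -/
theorem adj0_root_mono {E : Subfield K} {y w : K} {n : ℕ} (h : w ^ (ringExpChar K) ^ n = y) :
    Vale.Agent.P019.adj E y ≤ Vale.Agent.P019.adj E w :=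
  Vale.Agent.P019.adj_le (Vale.Agent.P019.le_adj _ _)
    (by rw [← h]; exact Subfield.pow_mem _ (Vale.Agent.P019.mem_adj _ _) _)

/-- finitely many elements of `adj E t` lie in one plain field `E(y)`, `y ^ (q^n) = t`. -/
theorem exists_common_root [PerfectField K] {E : Subfield K} [PerfectField E] {t : K}
    (s : Finset K) (hs : ∀ z ∈ s, z ∈ adj E t) :
    ∃ (n : ℕ) (y : K), y ^ (ringExpChar K) ^ n = t ∧
      ∀ z ∈ s, z ∈ Vale.Agent.P019.adj E y := by
  classical
  induction s using Finset.induction_on with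
  | empty => exact ⟨0, t, by simp, fun z hz => absurd hz (Finset.notMem_empty _)⟩
  | insert a s _ ih =>
    obtain ⟨n, y, hy, h⟩ := ih (fun z hz => hs z (Finset.mem_insert_of_mem hz))
    obtain ⟨m, w, hw, h'⟩ := mem_adj_root.1 (hs a (Finset.mem_insert_self _ _))
    obtain ⟨u, hu⟩ := exists_root y m
    have hu' : u ^ (ringExpChar K) ^ n = w := by
      apply pow_q_inj (n := m)
      rw [hw, ← hy, ← hu, ← pow_mul, ← pow_mul, mul_comm]
    refine ⟨m + n, u, ?_, ?_⟩
    · rw [pow_add, pow_mul, hu, hy]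
    · intro z hz
      rcases Finset.mem_insert.1 hz with rfl | hz
      · exact adj0_root_mono hu' h'
      · exact adj0_root_mono hu (h z hz)

theorem adj_comm [PerfectField K] (E : Subfield K) (x y : K) :
    adj (adj E x) y = adj (adj E y) x := by
  apply le_antisymm
  · refine adj_le (adj_le ((le_adj E y).trans (le_adj _ x)) (mem_adj _ _)) ?_
    exact le_adj _ _ (mem_adj _ _)
  · refine adj_le (adj_le ((le_adj E x).trans (le_adj _ y)) (mem_adj _ _)) ?_
    exact le_adj _ _ (mem_adj _ _)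

/-- an element is not in a perfect subfield if its power is not. -/
theorem pow_mem_iff {E : Subfield K} [PerfectField E] {z : K} {n : ℕ} :
    z ^ (ringExpChar K) ^ n ∈ E ↔ z ∈ E :=
  ⟨mem_of_pow_q, fun h => E.pow_mem h _⟩

theorem isAlgebraic_pow_iff {E : Subfield K} {z : K} {n : ℕ} :
    IsAlgebraic E (z ^ (ringExpChar K) ^ n) ↔ IsAlgebraic E z :=
  ⟨fun h => h.of_pow (Nat.pos_of_ne_zero (qn_ne_zero K n)), fun h => h.pow _⟩

theorem good_pow [PerfectField K] {k : Subfield K} [PerfectField k] {t : K} {n : ℕ} :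
    Good k (t ^ (ringExpChar K) ^ n) ↔ Good k t := by
  unfold Good
  rw [adj_pow, pow_mem_iff]

end Vale.Agent.P019P
end

section

/-!
# Definitions for the reconstruction of the field (perfect version)

The filter `ae k`, the predicate `Rk2` and the structure `Over` are those of the old files.
-/

namespace Vale.Agent.P019P

open Vale.Agent.P019

set_option linter.style.haveILetI false
set_option linter.unusedSectionVars false

open Polynomial Filter

section ae

variable {K : Type*} [Field K]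

theorem ae_neBot {k : Subfield K} (hk : (k : Set K).Infinite) : (ae k).NeBot := by
  rw [neBot_iff]
  intro h
  have h1 : ∀ᶠ a in ae k, False := by rw [h]; exact eventually_bot
  rw [ae_iff] at h1
  apply hk
  convert h1 using 1
  ext x
  simp

theorem infinite_of_isAlgClosed {k : Subfield K} (hk : IsAlgClosed k) :
    (k : Set K).Infinite := by
  have h1 : Infinite k := inferInstance
  exact Set.infinite_coe_iff.1 h1

theorem ae_neBot_of_isAlgClosed {k : Subfield K} (hk : IsAlgClosed k) : (ae k).NeBot :=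
  ae_neBot (infinite_of_isAlgClosed hk)

end ae

section crv

variable {K : Type*} [Field K]

/-- relatively algebraically closed subfields of transcendence degree one. -/
structure Crv (k E : Subfield K) : Prop where
  le : k ≤ E
  rac : RAC E
  ex : ∃ y ∈ E, y ∉ k ∧ ∀ z ∈ E, IsAlgebraic (adj k y) z

/-- `G` is a field of transcendence degree two below the whole field, with transcendence basis
`t, s` of the whole field over `G`. -/
structure Frame (k G : Subfield K) (t s : K) : Prop where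
  le : k ≤ G
  fg : FG k G
  tt : ¬ IsAlgebraic (adj G s) t
  ss : ¬ IsAlgebraic G s
  alg : ∀ z : K, IsAlgebraic (adj (adj G s) t) z

/-- a discrete valuation (up to `q`-powers), trivial on `F`, with residue field finite over `F`,
generated by `θ`. -/
structure Nice (W : ValuationSubring K) (F : Subfield K) (π θ : K) : Prop where
  pf : PerfectField F
  unif : IsUnif W π
  triv : TrivOn W F
  mem : θ ∈ W
  res : ∀ z : K, W.valuation z ≤ 1 → ∃ P Q : F[X], W.valuation (aeval θ Q) = 1 ∧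
    W.valuation (z * aeval θ Q - aeval θ P) < 1
  alg : ∃ P : F[X], P.Monic ∧ W.valuation (aeval θ P) < 1

end crv

section rk

variable {ℓ : ℕ} {K L : Type*} [Field K] [Field L]

/-- the valuation subring `O` corresponds to the discrete valuation subring `W`. -/
structure Tr [Fact ℓ.Prime] [NeZero (ℓ : K)] (Θ : V ℓ K ≃ₗ[ZMod ℓ] V ℓ L) (W : ValuationSubring K) (π : K)
    (O : ValuationSubring L) : Prop where
  unit : ∀ (hW : IsUnif W π) (z : L), O.valuation z = 1 → hW.fn ℓ (Θ.symm (cl ℓ z)) = 0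
  iff : ∀ v, Θ v ∈ U1 ℓ O ↔ v ∈ U1 ℓ W

/-- the hypotheses provided by the local theory and the theory of good elements. -/
structure Hyp (ℓ : ℕ) {K L : Type*} [Field K] [Field L] (k : Subfield K) (l : Subfield L)
    (Θ : V ℓ K ≃ₗ[ZMod ℓ] V ℓ L) : Prop where
  ack : IsAlgClosed k
  acl : IsAlgClosed l
  fgk : FG k (⊤ : Subfield K)
  fgl : FG l (⊤ : Subfield L)
  trk : ∃ x y : K, x ∉ k ∧ ¬ IsAlgebraic (adj k x) y
  trl : ∃ x y : L, x ∉ l ∧ ¬ IsAlgebraic (adj l x) y
  comp : Compatible Θ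
  stepA : ∀ t, Good k t → ∃ E : Subfield L, Crv l E ∧
    ∀ v, Θ v ∈ VS ℓ E ↔ v ∈ VS ℓ (adj k t)
  stepA' : ∀ t, Good l t → ∃ E : Subfield K, Crv k E ∧
    ∀ v, Θ.symm v ∈ VS ℓ E ↔ v ∈ VS ℓ (adj l t)
  ltr : ∀ (U : Submodule (ZMod ℓ) (V ℓ K)) (x : K), Good k x →
    ((U ⊓ VS ℓ (adj k x) : Submodule (ZMod ℓ) (V ℓ K)) : Set (V ℓ K)).Finite →
    ∀ O : ValuationSubring L, (∀ z, O.valuation z < 1 → Θ.symm (cl ℓ (1 + z)) ∈ U) → TrivOn O l
  ltr' : ∀ (U : Submodule (ZMod ℓ) (V ℓ L)) (x : L), Good l x →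
    ((U ⊓ VS ℓ (adj l x) : Submodule (ZMod ℓ) (V ℓ L)) : Set (V ℓ L)).Finite →
    ∀ O : ValuationSubring K, (∀ z, O.valuation z < 1 → Θ (cl ℓ (1 + z)) ∈ U) → TrivOn O k
  bert : ∀ x y : K, x ∉ k → ¬ IsAlgebraic (adj k x) y → ∀ᶠ c in ae k, Good k (x + c * y)
  bert' : ∀ x y : L, x ∉ l → ¬ IsAlgebraic (adj l x) y → ∀ᶠ c in ae l, Good l (x + c * y)

theorem Hyp.symm {k : Subfield K} {l : Subfield L} {Θ : V ℓ K ≃ₗ[ZMod ℓ] V ℓ L}
    [Fact ℓ.Prime] (h : Hyp ℓ k l Θ) : Hyp ℓ l k Θ.symm where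
  ack := h.acl
  acl := h.ack
  fgk := h.fgl
  fgl := h.fgk
  trk := h.trl
  trl := h.trk
  comp := h.comp.symm
  stepA := h.stepA'
  stepA' := h.stepA
  ltr := h.ltr'
  ltr' := h.ltr
  bert := h.bert'
  bert' := h.bert

end rk

section div

variable {ℓ : ℕ} {K L : Type*} [Field K] [Field L]

variable (ℓ) in
open Classical in
/-- the order functional at `s = b` on the classes of `k(s)`. -/
noncomputable def del (k : Subfield K) (s b : K) : V ℓ K →ₗ[ZMod ℓ] ZMod ℓ :=
  if h : ∃ f : V ℓ K →ₗ[ZMod ℓ] ZMod ℓ, f (cl ℓ (s - b)) = 1 ∧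
      ∀ c ∈ k, c ≠ b → f (cl ℓ (s - c)) = 0 then h.choose else 0

/-- `Θ` maps the classes of `k(s)` onto those of `l(s')`. -/
structure Rt (k : Subfield K) (l : Subfield L) (Θ : V ℓ K ≃ₗ[ZMod ℓ] V ℓ L) (s : K) (s' : L) :
    Prop where
  good : Good k s
  good' : Good l s'
  map : ∀ v, Θ v ∈ VS ℓ (adj l s') ↔ v ∈ VS ℓ (adj k s)

/-- the points `s = b` and `s' = β` correspond. -/
def Cor (k : Subfield K) (l : Subfield L) (Θ : V ℓ K ≃ₗ[ZMod ℓ] V ℓ L) (s : K) (s' : L)
    (e : ZMod ℓ) (b : K) (β : L) : Prop :=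
  ∀ v ∈ VS ℓ (adj k s), del ℓ k s b v = e * del ℓ l s' β (Θ v)

end div

end Vale.Agent.P019P
end

section

/-!
# Residue fields (perfect version)

`rs`, `bar`, `barEquiv`, `rs_aeval`, ... are those of the old file.
-/

namespace Vale.Agent.P019P

open Vale.Agent.P019

set_option linter.style.haveILetI false
set_option linter.unusedSectionVars false
set_option linter.unusedVariables false

open Polynomial Filter

variable {K : Type*} [Field K] {W : ValuationSubring K} {E : Subfield K}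

theorem rs_ringExpChar (h : TrivOn W E) :
    ringExpChar (IsLocalRing.ResidueField W) = ringExpChar K := by
  haveI h1 : ExpChar E (ringExpChar K) := expChar_sub E
  haveI h2 : ExpChar E (ringExpChar (IsLocalRing.ResidueField W)) :=
    (barHom h).expChar (barHom h).injective _
  exact ExpChar.eq h2 h1

theorem rs_perfect [PerfectField K] (h : TrivOn W E) :
    PerfectField (IsLocalRing.ResidueField W) := by
  haveI : PerfectRing (IsLocalRing.ResidueField W)
      (ringExpChar (IsLocalRing.ResidueField W)) := PerfectRing.ofSurjective _ _ fun c => by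
    obtain ⟨z, hz, rfl⟩ := rs_surj c
    obtain ⟨y, -, hy⟩ := exists_root_q (⊤ : Subfield K) (Subfield.mem_top z) 1
    rw [pow_one] at hy
    have hyW : y ∈ W := by
      rw [← W.valuation_le_one_iff]
      have h1 : W.valuation y ^ ringExpChar K ≤ 1 := by
        rw [← map_pow, hy]
        exact (W.valuation_le_one_iff z).2 hz
      exact (pow_le_one_iff_of_nonneg zero_le (expChar_pos K _).ne').1 h1
    refine ⟨rs W y, ?_⟩
    change rs W y ^ ringExpChar (IsLocalRing.ResidueField W) = _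
    rw [rs_ringExpChar h, ← rs_pow hyW, hy]
  exact PerfectRing.toPerfectField _ (ringExpChar (IsLocalRing.ResidueField W))

theorem rs_neZero {ℓ : ℕ} [NeZero (ℓ : K)] (h : TrivOn W E) :
    NeZero (ℓ : IsLocalRing.ResidueField W) := by
  refine ⟨?_⟩
  intro h0
  have h1 : barHom h (ℓ : E) = 0 := by rw [map_natCast, h0]
  have h2 : (ℓ : E) = 0 := (map_eq_zero _).1 h1
  have h3 := congrArg (algebraMap E K) h2
  rw [map_natCast, map_zero] at h3
  exact NeZero.ne ((ℓ : ℕ) : K) h3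

theorem bar_perfect [PerfectField E] (h : TrivOn W E) : PerfectField (bar h) := by
  refine perfect_of_root ?_
  intro z hz
  obtain ⟨e, he, rfl⟩ := (mem_bar h).1 hz
  obtain ⟨y, hy, hye⟩ := exists_root_q E he 1
  rw [pow_one] at hye
  refine ⟨rs W y, rs_mem_bar h hy, ?_⟩
  rw [rs_ringExpChar h, ← rs_pow (h _ hy), hye]

theorem bar_adj [PerfectField K] (h : TrivOn W E) {x : K} (hx : TrivOn W (adj E x)) :
    bar hx = adj (bar h) (rs W x) := by
  have hx0 : TrivOn W (Vale.Agent.P019.adj E x) := hx.mono (adj0_le_adj E x)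
  apply le_antisymm
  · intro c hc
    obtain ⟨e, he, rfl⟩ := (mem_bar hx).1 hc
    obtain ⟨n, hn⟩ := mem_adj_iff.1 he
    refine mem_adj_iff.2 ⟨n, ?_⟩
    rw [rs_ringExpChar h, ← rs_pow (hx _ he), ← Vale.Agent.P019.bar_adj h hx0]
    exact rs_mem_bar hx0 hn
  · haveI : PerfectField (bar hx) := bar_perfect hx
    exact adj_le (bar_mono h hx (le_adj E x)) (rs_mem_bar hx (mem_adj E x))

theorem isAlgebraic_of_bar (h : TrivOn W E) {z : K} (hz : TrivOn W (adj E z))
    (halg : IsAlgebraic (bar h) (rs W z)) : IsAlgebraic E z :=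
  Vale.Agent.P019.isAlgebraic_of_bar h (hz.mono (adj0_le_adj E z)) halg

end Vale.Agent.P019P
end

section

/-!
# Triviality of valuations on curves (perfect version)

`exists_pair_of_sum_zero` is that of the old file.
-/

namespace Vale.Agent.P019P

open Vale.Agent.P019

set_option linter.style.haveILetI false
set_option linter.unusedSectionVars false

open Polynomial Filter

variable {K : Type*} [Field K]

theorem Crv.perfect [PerfectField K] {k E : Subfield K} (h : Crv k E) : PerfectField E :=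
  perfect_of_RAC h.rac

theorem Crv.alg {k E : Subfield K} (hk : RAC k) (h : Crv k E) {y : K} (hy : y ∈ E)
    (hyk : y ∉ k) : ∀ z ∈ E, IsAlgebraic (adj k y) z := by
  obtain ⟨y0, hy0, -, hall⟩ := h.ex
  intro z hz
  have h1 : ¬ IsAlgebraic k y := fun h' => hyk (hk y h')
  have h2 : IsAlgebraic (adj k y) y0 := exchange h1 (hall y hy)
  rw [isAlgebraic_adj] at h2 ⊢
  have h3 : Vale.Agent.P019.adj k y0 ≤ Vale.Agent.P019.rac (Vale.Agent.P019.adj k y) :=
    Vale.Agent.P019.adj_le ((Vale.Agent.P019.le_adj k y).trans (le_rac _)) (mem_rac.2 h2)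
  exact isAlgebraic_rac (isAlgebraic_mono h3 (isAlgebraic_adj.1 (hall z hz)))

theorem Crv.of_good {k : Subfield K} {t : K} (h : Good k t) : Crv k (adj k t) :=
  ⟨le_adj k t, h.2, t, mem_adj k t, h.1, fun _ hz => isAlgebraic_of_mem hz⟩

theorem Crv.eq {k E₁ E₂ : Subfield K} (hk : RAC k) (h₁ : Crv k E₁) (h₂ : Crv k E₂) {y : K}
    (hy₁ : y ∈ E₁) (hy₂ : y ∈ E₂) (hyk : y ∉ k) : E₁ = E₂ := by
  apply le_antisymm
  · intro z hz
    exact h₂.rac z (isAlgebraic_mono (Vale.Agent.P019.adj_le h₂.le hy₂)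
      (isAlgebraic_adj.1 (h₁.alg hk hy₁ hyk z hz)))
  · intro z hz
    exact h₁.rac z (isAlgebraic_mono (Vale.Agent.P019.adj_le h₁.le hy₁)
      (isAlgebraic_adj.1 (h₂.alg hk hy₂ hyk z hz)))

/-- a curve in the new sense is one in the old sense. -/
theorem Crv.old {k E : Subfield K} (h : Crv k E) : Vale.Agent.P019.Crv k E where
  le := h.le
  rac := h.rac
  ex := by
    obtain ⟨y, hy, hyk, hall⟩ := h.ex
    exact ⟨y, hy, hyk, fun z hz => isAlgebraic_adj.1 (hall z hz)⟩

theorem triv_of_rk2 [PerfectField K] {ℓ : ℕ} [Fact ℓ.Prime] [NeZero (ℓ : K)] {k E : Subfield K}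
    (hk : IsAlgClosed k)
    (hE : Crv k E) {O : ValuationSubring K} (hOk : TrivOn O k)
    (h : Rk2 (VS ℓ E) (U1 ℓ O)) : TrivOn O E :=
  Vale.Agent.P019.triv_of_rk2 hk hE.old hOk h

end Vale.Agent.P019P
end

section

/-!
# The functionals of the points of a rational curve (perfect version)
-/

namespace Vale.Agent.P019P

open Vale.Agent.P019

set_option linter.style.haveILetI false
set_option linter.unusedSectionVars false

open Polynomial Filter

variable {K : Type*} [Field K] [PerfectField K] {ℓ : ℕ} [Fact ℓ.Prime] [NeZero (ℓ : K)]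
  {k : Subfield K}

theorem cl_sub_independent (hk : IsAlgClosed k) {s : K} (hs : Good k s) :
    LinearIndependent (ZMod ℓ) (fun c : k => cl ℓ (s - (c : K))) := by
  classical
  rw [linearIndependent_iff']
  intro T g hg c hc
  let n : K → ZMod ℓ := fun a => if h : a ∈ k then g ⟨a, h⟩ else 0
  have hn : ∀ a : k, n a = g a := by
    intro a
    change (if h : (a : K) ∈ k then g ⟨a, h⟩ else 0) = g a
    rw [dif_pos a.2]
  have h1 := good_independent (ℓ := ℓ) hk hs (T.map ⟨Subtype.val, Subtype.val_injective⟩)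
    (by
      intro a ha
      obtain ⟨a', _, rfl⟩ := Finset.mem_map.1 ha
      exact a'.2) n
    (by
      rw [Finset.sum_map]
      rw [← hg]
      refine Finset.sum_congr rfl ?_
      intro a _
      change n a • cl ℓ (s - (a : K)) = _
      rw [hn])
  have h2 := h1 c (Finset.mem_map.2 ⟨c, hc, rfl⟩)
  rw [hn] at h2
  exact h2

theorem exists_del (hk : IsAlgClosed k) {s : K} (hs : Good k s) {b : K} (hb : b ∈ k) :
    ∃ f : V ℓ K →ₗ[ZMod ℓ] ZMod ℓ, f (cl ℓ (s - b)) = 1 ∧
      ∀ c ∈ k, c ≠ b → f (cl ℓ (s - c)) = 0 := by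
  classical
  have hli := cl_sub_independent (ℓ := ℓ) hk hs
  obtain ⟨g, hg⟩ := LinearMap.exists_extend
    ((Finsupp.lapply (⟨b, hb⟩ : k)).comp hli.repr :
      Submodule.span (ZMod ℓ) (Set.range fun c : k => cl ℓ (s - (c : K))) →ₗ[ZMod ℓ] ZMod ℓ)
  have key : ∀ c : k, g (cl ℓ (s - (c : K))) = if c = ⟨b, hb⟩ then 1 else 0 := by
    intro c
    have hmem : cl ℓ (s - (c : K)) ∈
        Submodule.span (ZMod ℓ) (Set.range fun c : k => cl ℓ (s - (c : K))) :=
      Submodule.subset_span ⟨c, rfl⟩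
    have h1 := LinearMap.congr_fun hg ⟨_, hmem⟩
    have h2 : hli.repr ⟨cl ℓ (s - (c : K)), hmem⟩ = Finsupp.single c 1 :=
      hli.repr_eq_single c _ rfl
    change g (cl ℓ (s - (c : K))) = (hli.repr ⟨cl ℓ (s - (c : K)), hmem⟩) ⟨b, hb⟩ at h1
    rw [h1, h2, Finsupp.single_apply]
  refine ⟨g, ?_, ?_⟩
  · have := key ⟨b, hb⟩
    rw [if_pos rfl] at this
    exact this
  · intro c hc hcb
    have := key ⟨c, hc⟩
    rw [if_neg (fun h => hcb (congrArg Subtype.val h))] at this
    exact this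

theorem del_spec (hk : IsAlgClosed k) {s : K} (hs : Good k s) {b : K} (hb : b ∈ k) :
    del ℓ k s b (cl ℓ (s - b)) = 1 ∧ ∀ c ∈ k, c ≠ b → del ℓ k s b (cl ℓ (s - c)) = 0 := by
  have h := exists_del (ℓ := ℓ) hk hs hb
  unfold del
  rw [dif_pos h]
  exact h.choose_spec

theorem del_self (hk : IsAlgClosed k) {s : K} (hs : Good k s) {b : K} (hb : b ∈ k) :
    del ℓ k s b (cl ℓ (s - b)) = 1 := (del_spec hk hs hb).1

theorem del_ne (hk : IsAlgClosed k) {s : K} (hs : Good k s) {b c : K} (hb : b ∈ k) (hc : c ∈ k)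
    (hcb : c ≠ b) : del ℓ k s b (cl ℓ (s - c)) = 0 := (del_spec hk hs hb).2 c hc hcb

open Classical in
theorem del_eval (hk : IsAlgClosed k) {s : K} (hs : Good k s) (T : Finset K)
    (hT : ∀ c ∈ T, c ∈ k) (n : K → ZMod ℓ) {b : K} (hb : b ∈ k) :
    del ℓ k s b (∑ c ∈ T, n c • cl ℓ (s - c)) = if b ∈ T then n b else 0 := by
  rw [map_sum]
  have h1 : ∀ c ∈ T, del ℓ k s b (n c • cl ℓ (s - c)) = if b = c then n c else 0 := by
    intro c hc
    rw [map_smul]
    by_cases h : b = c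
    · subst h
      rw [del_self hk hs hb, if_pos rfl, smul_eq_mul, mul_one]
    · rw [del_ne hk hs hb (hT c hc) (Ne.symm h), if_neg h, smul_zero]
  rw [Finset.sum_congr rfl h1, Finset.sum_ite_eq]

theorem del_ae (hk : IsAlgClosed k) {s : K} (hs : Good k s) {v : V ℓ K}
    (hv : v ∈ VS ℓ (adj k s)) : ∀ᶠ b in ae k, del ℓ k s b v = 0 := by
  classical
  obtain ⟨T, n, hT, rfl⟩ := adj_factor hk hs.1 hv
  rw [ae_iff]
  refine T.finite_toSet.subset ?_
  rintro b ⟨hb, hne⟩
  rw [del_eval hk hs T hT n hb] at hne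
  by_contra h
  exact hne (if_neg h)

theorem del_sum (hk : IsAlgClosed k) {s : K} (hs : Good k s) {v : V ℓ K}
    (hv : v ∈ VS ℓ (adj k s)) (S : Finset K) (hSk : ∀ b ∈ S, b ∈ k)
    (hS : ∀ b ∈ k, b ∉ S → del ℓ k s b v = 0) :
    v = ∑ b ∈ S, del ℓ k s b v • cl ℓ (s - b) := by
  classical
  obtain ⟨T, n, hT, rfl⟩ := adj_factor hk hs.1 hv
  have hTS : ∀ b ∈ T, b ∉ S → n b = 0 := by
    intro b hb hbS
    have h1 := hS b (hT b hb) hbS
    rw [del_eval hk hs T hT n (hT b hb), if_pos hb] at h1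
    exact h1
  have h1 : ∀ b ∈ S, del ℓ k s b (∑ c ∈ T, n c • cl ℓ (s - c)) • cl ℓ (s - b) =
      if b ∈ T then n b • cl ℓ (s - b) else 0 := by
    intro b hb
    rw [del_eval hk hs T hT n (hSk b hb)]
    split_ifs
    · rfl
    · exact zero_smul _ _
  rw [Finset.sum_congr rfl h1, ← Finset.sum_filter]
  symm
  refine Finset.sum_subset (fun b hb => (Finset.mem_filter.1 hb).2) ?_
  intro b hb hb'
  have h2 : b ∉ S := fun h => hb' (Finset.mem_filter.2 ⟨h, hb⟩)
  rw [hTS b hb h2, zero_smul]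

theorem del_finite (hk : IsAlgClosed k) {s : K} (hs : Good k s) (S : Finset K)
    (hSk : ∀ b ∈ S, b ∈ k) :
    {v : V ℓ K | v ∈ VS ℓ (adj k s) ∧ ∀ b ∈ k, b ∉ S → del ℓ k s b v = 0}.Finite := by
  classical
  have : NeZero ℓ := ⟨(Fact.out : ℓ.Prime).ne_zero⟩
  have hfin : (Set.range fun g : S → ZMod ℓ => ∑ b : S, g b • cl ℓ (s - (b : K))).Finite :=
    Set.finite_range _
  refine hfin.subset ?_
  rintro v ⟨hv, hvS⟩
  refine ⟨fun b => del ℓ k s b v, ?_⟩
  have h1 := del_sum hk hs hv S hSk hvS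
  conv_rhs => rw [h1]
  rw [← Finset.sum_coe_sort S]

/-- functionals that kill the units of a valuation, at finite distance. -/
theorem del_of_kills (hk : IsAlgClosed k) {s : K} (hs : Good k s) {O : ValuationSubring K}
    (hOk : TrivOn O k) {b : K} (hb : b ∈ k) (hsb : O.valuation (s - b) < 1)
    (f : V ℓ K →ₗ[ZMod ℓ] ZMod ℓ) (hf : ∀ z, O.valuation z = 1 → f (cl ℓ z) = 0) {v : V ℓ K}
    (hv : v ∈ VS ℓ (adj k s)) : f v = f (cl ℓ (s - b)) * del ℓ k s b v := by
  classical
  obtain ⟨T, n, hT, rfl⟩ := adj_factor hk hs.1 hv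
  rw [del_eval hk hs T hT n hb, map_sum]
  have h1 : ∀ c ∈ T, f (n c • cl ℓ (s - c)) = if b = c then n c * f (cl ℓ (s - b)) else 0 := by
    intro c hc
    rw [map_smul]
    by_cases h : b = c
    · subst h
      rw [if_pos rfl, smul_eq_mul]
    · have h2 : O.valuation (b - c) = 1 :=
        hOk.eq_one (Subfield.sub_mem _ hb (hT c hc)) (sub_ne_zero.2 h)
      have h3 : O.valuation (s - c) = 1 := by
        have h4 : s - c = (s - b) + (b - c) := by ring
        rw [h4, Valuation.map_add_eq_of_lt_right _ (by rw [h2]; exact hsb), h2]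
      rw [hf _ h3, if_neg h, smul_zero]
  rw [Finset.sum_congr rfl h1, Finset.sum_ite_eq]
  split_ifs
  · ring
  · rw [mul_zero]

/-- a valuation that is nontrivial on `k(s)` has a centre. -/
theorem exists_centre (hk : IsAlgClosed k) {s : K} (hs : Good k s) {O : ValuationSubring K}
    (hOk : TrivOn O k) (hO : ¬ TrivOn O (adj k s)) :
    (∃ b ∈ k, O.valuation (s - b) < 1) ∨ 1 < O.valuation s := by
  by_contra hcon
  push Not at hcon
  obtain ⟨h1, h2⟩ := hcon
  have hunit : ∀ c ∈ k, O.valuation (s - c) = 1 := by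
    intro c hc
    refine le_antisymm ?_ (h1 c hc)
    refine (Valuation.map_sub _ _ _).trans (max_le h2 (hOk.le_one hc))
  have hpoly : ∀ p : k[X], p ≠ 0 → O.valuation (aeval s p) = 1 := by
    intro p hp
    have e1 : p = C p.leadingCoeff * (p.roots.map fun a => X - C a).prod :=
      (IsAlgClosed.splits p).eq_prod_roots
    have h3 : ((p.leadingCoeff : k) : K) ≠ 0 := by
      intro h
      exact hp (leadingCoeff_eq_zero.1 (Subtype.ext h))
    have key : ∀ m : Multiset k,
        O.valuation (aeval s ((m.map fun a => X - C a).prod : k[X])) = 1 := by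
      intro m
      induction m using Multiset.induction_on with
      | empty => simp
      | cons a m ih =>
        have e : aeval s (((a ::ₘ m).map fun a => X - C a).prod : k[X]) =
            (s - (a : K)) * aeval s ((m.map fun a => X - C a).prod : k[X]) := by
          rw [Multiset.map_cons, Multiset.prod_cons, map_mul, map_sub, aeval_X, aeval_C]
          rfl
        rw [e, map_mul, ih, hunit a a.2, one_mul]
    have e2 : aeval s p = ((p.leadingCoeff : k) : K) *
        aeval s ((p.roots.map fun a => X - C a).prod : k[X]) := by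
      conv_lhs => rw [e1]
      rw [map_mul, aeval_C]
      rfl
    rw [e2, map_mul, key, mul_one, hOk.eq_one (p.leadingCoeff).2 h3]
  apply hO
  intro z hz
  obtain ⟨N, hN⟩ := mem_adj_iff.1 hz
  rw [← O.valuation_le_one_iff]
  have hNle : O.valuation (z ^ (ringExpChar K) ^ N) ≤ 1 := by
    by_cases hz0 : z ^ (ringExpChar K) ^ N = 0
    · rw [hz0, map_zero]
      exact zero_le_one
    obtain ⟨p, q, hpq⟩ := line_mem hN
    rw [hpq] at hz0 ⊢
    have hp : p ≠ 0 := by
      rintro rfl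
      simp at hz0
    have hq : q ≠ 0 := by
      rintro rfl
      simp at hz0
    rw [map_div₀, hpoly p hp, hpoly q hq, div_one]
  rw [map_pow] at hNle
  exact (pow_le_one_iff (qn_ne_zero K N)).1 hNle

/-- twisting the coordinate by Frobenius multiplies the functional. -/
theorem del_pow (hk : IsAlgClosed k) {s : K} (hs : Good k s) {b : K} (hb : b ∈ k) (n : ℕ)
    {v : V ℓ K} (hv : v ∈ VS ℓ (adj k s)) :
    (((ringExpChar K) ^ n : ℕ) : ZMod ℓ) *
      del ℓ k (s ^ (ringExpChar K) ^ n) (b ^ (ringExpChar K) ^ n) v = del ℓ k s b v := by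
  classical
  haveI : IsAlgClosed k := hk
  haveI : PerfectField k := inferInstance
  obtain ⟨T, m, hT, rfl⟩ := adj_factor hk hs.1 hv
  have hs' : Good k (s ^ (ringExpChar K) ^ n) := good_pow.2 hs
  have hb' : b ^ (ringExpChar K) ^ n ∈ k := k.pow_mem hb _
  rw [del_eval hk hs T hT m hb, map_sum, Finset.mul_sum]
  have h1 : ∀ c ∈ T, (((ringExpChar K) ^ n : ℕ) : ZMod ℓ) *
      del ℓ k (s ^ (ringExpChar K) ^ n) (b ^ (ringExpChar K) ^ n) (m c • cl ℓ (s - c)) =
      if b = c then m c else 0 := by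
    intro c hc
    have h2 : (((ringExpChar K) ^ n : ℕ) : ZMod ℓ) *
        del ℓ k (s ^ (ringExpChar K) ^ n) (b ^ (ringExpChar K) ^ n) (m c • cl ℓ (s - c)) =
        m c * del ℓ k (s ^ (ringExpChar K) ^ n) (b ^ (ringExpChar K) ^ n)
          (cl ℓ (s ^ (ringExpChar K) ^ n - c ^ (ringExpChar K) ^ n)) := by
      rw [← sub_pow_q, cl_pow_q, map_smul, map_smul, smul_eq_mul, smul_eq_mul]
      ring
    rw [h2]
    by_cases h : b = c
    · subst h
      rw [del_self hk hs' hb', if_pos rfl, mul_one]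
    · rw [del_ne hk hs' hb' (k.pow_mem (hT c hc) _) (fun h' => h (pow_q_inj h').symm),
        if_neg h, mul_zero]
  rw [Finset.sum_congr rfl h1, Finset.sum_ite_eq]

end Vale.Agent.P019P
end

section

/-!
# Places of perfect fields: weak discreteness and the unramified lemma
-/

namespace Vale.Agent.P019P

open Vale.Agent.P019

set_option linter.style.haveILetI false

open Polynomial

section perf

variable {K L : Type*} [Field K] [Field L]

theorem ringExpChar_eq_of_hom (f : K →+* L) : ringExpChar K = ringExpChar L := by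
  haveI : ExpChar K (ringExpChar L) := f.expChar f.injective _
  exact ringExpChar.eq K (ringExpChar L)

instance perfect_map (f : K →+* L) (E : Subfield K) [PerfectField E] :
    PerfectField (E.map f) := by
  refine perfect_of_root ?_
  rintro _ ⟨z, hz, rfl⟩
  obtain ⟨y, hy, hyz⟩ := exists_root_q E hz 1
  refine ⟨f y, ⟨y, hy, rfl⟩, ?_⟩
  rw [← ringExpChar_eq_of_hom f, ← map_pow, ← hyz, pow_one]

instance perfect_fieldRange (f : K →+* L) [PerfectField K] : PerfectField f.fieldRange := by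
  haveI : PerfectRing K (ringExpChar K) := PerfectField.toPerfectRing _
  refine perfect_of_root ?_
  rintro _ ⟨z, rfl⟩
  obtain ⟨y, hy⟩ := (bijective_frobenius K (ringExpChar K)).2 z
  refine ⟨f y, ⟨y, rfl⟩, ?_⟩
  rw [← ringExpChar_eq_of_hom f, ← map_pow, ← frobenius_def, hy]

/-- some `q`-power of an algebraic element is separable. -/
theorem exists_sep_pow {E : Subfield K} {x : K} (hx : IsAlgebraic E x) :
    ∃ n : ℕ, IsSeparable E (x ^ ringExpChar K ^ n) := by
  obtain ⟨g, hg, n, hn⟩ :=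
    (minpoly.irreducible hx.isIntegral).hasSeparableContraction (ringExpChar K)
  refine ⟨n, ?_⟩
  have h1 : aeval (x ^ ringExpChar K ^ n) g = 0 := by
    rw [← expand_aeval, hn, minpoly.aeval]
  exact hg.of_dvd (minpoly.dvd E _ h1)

end perf

section gd

variable {K Ω : Type*} [Field K] [Field Ω]

/-- `P` is discrete on `F` up to `q`-power roots, with uniformizer `π` and residues in `κ`. -/
def Gd (P : Pl K Ω) (π : K) (κ : Subfield Ω) (F : Subfield K) : Prop :=
  ∀ z ∈ F, z ≠ 0 → ∃ (m : ℕ) (n : ℤ), P.U (z ^ ringExpChar K ^ m * π ^ n) ∧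
    P.ev (z ^ ringExpChar K ^ m * π ^ n) ∈ κ

variable {P : Pl K Ω} {π : K} {κ : Subfield Ω} {F : Subfield K}

theorem Gd.of_strong (h : Vale.Agent.P019.Gd P π κ F) : Gd P π κ F := by
  intro z hz hz0
  obtain ⟨n, h1, h2⟩ := h z hz hz0
  exact ⟨0, n, by simpa using h1, by simpa using h2⟩

theorem Gd.mono {F' : Subfield K} (h : F' ≤ F) (hF : Gd P π κ F) : Gd P π κ F' :=
  fun z hz hz0 => hF z (h hz) hz0

theorem Gd.pf (hF : Gd P π κ F) : Gd P π κ (pf F) := by
  intro z hz hz0
  obtain ⟨j, hj⟩ := mem_pf.1 hz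
  obtain ⟨m, n, h1, h2⟩ := hF _ hj (pow_ne_zero _ hz0)
  refine ⟨j + m, n, ?_, ?_⟩
  · rwa [pow_add, pow_mul]
  · rwa [pow_add, pow_mul]

theorem mem_of_pow_qK (P : Pl K Ω) {κ : Subfield Ω} [PerfectField κ] {y : Ω} {m : ℕ}
    (h : y ^ ringExpChar K ^ m ∈ κ) : y ∈ κ := by
  by_cases h1 : ringExpChar K = 1
  · rw [h1, one_pow, pow_one] at h
    exact h
  · have key : ∀ q : ℕ, ExpChar P.O q → q ≠ 1 → ExpChar Ω q := by
      intro q hq hq1
      rcases hq with _ | hprime
      · exact absurd rfl hq1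
      · haveI : CharP Ω q := by
          have h3 : ((q : ℕ) : Ω) = 0 := by
            rw [← map_natCast P.ψ, CharP.cast_eq_zero, map_zero]
          haveI : Fact q.Prime := ⟨hprime⟩
          rw [CharP.charP_iff_prime_eq_zero hprime]
          exact h3
        exact ExpChar.prime hprime
    have h2 : ringExpChar K = ringExpChar Ω := by
      haveI := key (ringExpChar K) ((P.O.subtype).expChar Subtype.val_injective _) h1
      exact (ringExpChar.eq Ω (ringExpChar K)).symm
    rw [h2] at h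
    exact mem_of_pow_q h

theorem Gd.ev_mem [PerfectField κ] (hπO : π ∈ P.O) (hπ0 : P.ev π = 0)
    (hF : Gd P π κ F) {z : K} (hz : z ∈ F) (hzO : z ∈ P.O) : P.ev z ∈ κ := by
  by_cases hz0 : z = 0
  · rw [hz0, P.ev_zero]; exact κ.zero_mem
  obtain ⟨m, n, hn, hn'⟩ := hF z hz hz0
  have hzm : z ^ ringExpChar K ^ m ∈ P.O := pow_mem hzO _
  rcases lt_trichotomy n 0 with h | h | h
  · -- then `ev z = 0`
    have h1 : P.ev (z ^ ringExpChar K ^ m) = 0 := by
      obtain ⟨j, hj⟩ := Int.eq_ofNat_of_zero_le (a := -n) (by omega)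
      by_cases hπ : π = 0
      · rw [hπ, zero_zpow n h.ne, mul_zero] at hn
        exact absurd rfl hn.ne_zero
      have e : z ^ ringExpChar K ^ m = (z ^ ringExpChar K ^ m * π ^ n) * π ^ j := by
        have : n = -(j : ℤ) := by omega
        rw [this, zpow_neg, zpow_natCast]
        field_simp
      rw [e, P.ev_mul hn.1 (pow_mem hπO _), P.ev_pow hπO, hπ0, zero_pow (by omega), mul_zero]
    apply mem_of_pow_qK P (m := m)
    rw [← P.ev_pow hzO, h1]
    exact κ.zero_mem
  · rw [h, zpow_zero, mul_one] at hn'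
    apply mem_of_pow_qK P (m := m)
    rw [← P.ev_pow hzO]
    exact hn'
  · exfalso
    obtain ⟨j, hj⟩ := Int.eq_ofNat_of_zero_le (a := n) (by omega)
    rw [hj, zpow_natCast] at hn
    have h3 := hn.2
    rw [P.ev_mul hzm (pow_mem hπO j), P.ev_pow hπO, hπ0, zero_pow (by omega), mul_zero] at h3
    exact h3 rfl

/-- adjoining finitely many separable constants. -/
theorem gd_finset_sep {E k : Subfield K}
    (hπ : π ≠ 0) (hπO : π ∈ P.O) (hπ0 : P.ev π = 0) (hπF : π ∈ F)
    (hF : Vale.Agent.P019.Gd P π κ F)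
    (hEF : E ≤ F) (hk : ∀ x ∈ k, x ∈ P.O) (hκ : ∀ x ∈ k, P.ev x ∈ κ) (hEk : E ≤ k)
    (T : Finset K) (hT : (T : Set K) ⊆ k) (halg : ∀ x ∈ T, IsSeparable E x) :
    Vale.Agent.P019.Gd P π κ (F ⊔ Subfield.closure (T : Set K)) := by
  classical
  induction T using Finset.induction_on with
  | empty => simpa using hF
  | insert c T hc ih =>
    have hck : c ∈ k := hT (by simp)
    have ih' := ih (fun x hx => hT (by
      simp only [Finset.coe_insert]; exact Set.mem_insert_of_mem _ hx))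
      (fun x hx => halg x (Finset.mem_insert_of_mem hx))
    set F' : Subfield K := F ⊔ Subfield.closure (T : Set K) with hF'
    have hEF' : E ≤ F' := hEF.trans le_sup_left
    have hsep := halg c (Finset.mem_insert_self c T)
    have hint : IsIntegral E c := hsep.isIntegral
    have hae : ∀ Q : E[X], aeval c (Q.map (Subfield.inclusion hEF')) = aeval c Q := by
      intro Q
      rw [aeval_def, eval₂_map]
      rfl
    have h1 : Vale.Agent.P019.Gd P π κ (Subfield.closure (F' ∪ {c})) := by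
      refine ih'.adjoin hπ hπO hπ0 ?_ (hk c hck) (hκ c hck)
        ((minpoly E c).map (Subfield.inclusion hEF')) ((minpoly.monic hint).map _) ?_ ?_ ?_
      · exact (le_sup_left : F ≤ F') hπF
      · intro i
        rw [coeff_map]
        exact hk _ (hEk (SetLike.coe_mem _))
      · rw [hae, minpoly.aeval]
      · rw [derivative_map, hae]
        refine Gn.U_of_field hk ?_ ?_
        · exact Vale.Agent.P019.adj_le hEk hck (Gn.aeval_mem_adj c _)
        · exact Separable.aeval_derivative_ne_zero hsep (minpoly.aeval E c)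
    refine Gn.Gd_mono ?_ h1
    rw [sup_le_iff, Subfield.closure_le]
    refine ⟨?_, ?_⟩
    · intro x hx
      exact Subfield.subset_closure (Or.inl ((le_sup_left : F ≤ F') hx))
    · intro x hx
      simp only [Finset.coe_insert] at hx
      rcases hx with rfl | hx
      · exact Subfield.subset_closure (Or.inr rfl)
      · exact Subfield.subset_closure (Or.inl ((le_sup_right : _ ≤ F')
          (Subfield.subset_closure hx)))

/-- **Unramified lemma** for perfect fields. -/
theorem Gd.sup {E B : Subfield K} [PerfectField B]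
    (hπ : π ≠ 0) (hπO : π ∈ P.O) (hπ0 : P.ev π = 0) (hπF : π ∈ F)
    (hF : Vale.Agent.P019.Gd P π κ F)
    (hEF : E ≤ F) (hEB : E ≤ B) (hB : ∀ x ∈ B, x ∈ P.O) (hκ : ∀ x ∈ B, P.ev x ∈ κ)
    (halg : ∀ x ∈ B, IsAlgebraic E x) : Gd P π κ (Vale.Agent.P019P.pf F ⊔ B) := by
  classical
  let Bs : Subfield K := B ⊓ (separableClosure E K).toSubfield
  have hBs : B ≤ Vale.Agent.P019P.pf Bs := by
    intro x hx
    obtain ⟨n, hn⟩ := exists_sep_pow (halg x hx)
    exact mem_pf.2 ⟨n, Subfield.mem_inf.2 ⟨pow_mem hx _, mem_separableClosure_iff.2 hn⟩⟩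
  have h1 : Vale.Agent.P019P.pf F ⊔ B ≤ Vale.Agent.P019P.pf (F ⊔ Bs) :=
    sup_le (pf_mono le_sup_left) (hBs.trans (pf_mono le_sup_right))
  refine Gd.mono h1 (Gd.pf (Gd.of_strong ?_))
  intro z hz hz0
  obtain ⟨T, hT, hzT⟩ := Gn.exists_finset_sup hz
  refine gd_finset_sep hπ hπO hπ0 hπF hF hEF hB hκ hEB T ?_ ?_ z hzT hz0
  · exact fun x hx => (Subfield.mem_inf.1 (hT hx)).1
  · exact fun x hx => mem_separableClosure_iff.1 (Subfield.mem_inf.1 (hT hx)).2

end gd

end Vale.Agent.P019P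
end

section

/-!
# Images of subfields under places
-/

namespace Vale.Agent.P019P

open Vale.Agent.P019

set_option linter.style.haveILetI false

open Polynomial

section im

variable {K Ω : Type*} [Field K] [Field Ω] (P : Pl K Ω)

/-- the valuation ring is closed under `q`-power roots. -/
theorem Pl.mem_of_pow {P : Pl K Ω} {z : K} {n : ℕ} (h : z ^ ringExpChar K ^ n ∈ P.O) :
    z ∈ P.O := by
  rw [← P.O.valuation_le_one_iff] at h ⊢
  rw [map_pow] at h
  exact (pow_le_one_iff (qpow_pos K n).ne').1 h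

theorem Pl.ringExpChar_eq (E : Subfield K) (hE : ∀ x ∈ E, x ∈ P.O) :
    ringExpChar K = ringExpChar Ω :=
  (ringExpChar_eq_of_hom (E.subtype)).symm.trans (ringExpChar_eq_of_hom (P.resHom E hE))

instance perfect_im (A : Subfield K) [PerfectField A] (hA : ∀ x ∈ A, x ∈ P.O) :
    PerfectField (P.im A hA) :=
  inferInstanceAs (PerfectField (P.resHom A hA).fieldRange)

/-- R2. -/
theorem Pl.mem_adj_of_transcendental (E : Subfield K) (hE : ∀ x ∈ E, x ∈ P.O) {b : K}
    (hb : b ∈ P.O) (hbt : ¬ IsAlgebraic (P.im E hE) (P.ev b)) : ∀ x ∈ adj E b, x ∈ P.O := by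
  intro x hx
  obtain ⟨n, hn⟩ := mem_adj_iff.1 hx
  exact Pl.mem_of_pow (Vale.Agent.P019.Pl.mem_adj_of_transcendental P E hE hb hbt _ hn)

theorem Pl.im_pf [PerfectField K] {A : Subfield K} (hA : ∀ x ∈ pf A, x ∈ P.O) :
    P.im (pf A) hA = pf (P.im A (fun x hx => hA x (le_pf A hx))) := by
  have hq := Pl.ringExpChar_eq P _ hA
  apply le_antisymm
  · intro w hw
    obtain ⟨x, hx, rfl⟩ := P.mem_im.1 hw
    obtain ⟨n, hn⟩ := mem_pf.1 hx
    refine mem_pf.2 ⟨n, ?_⟩
    rw [← hq, ← P.ev_pow (hA x hx)]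
    exact P.ev_mem_im _ hn
  · intro w hw
    obtain ⟨n, hn⟩ := mem_pf.1 hw
    obtain ⟨x, hx, hxw⟩ := P.mem_im.1 hn
    obtain ⟨y, hy, hyx⟩ := exists_root_q (pf A) (le_pf A hx) n
    refine P.mem_im.2 ⟨y, hy, ?_⟩
    apply pow_q_injective n
    change P.ev y ^ _ = w ^ _
    rw [← hxw, ← hyx, P.ev_pow (hA y hy), hq]

/-- R7b. -/
theorem Pl.im_adj [PerfectField K] {A E : Subfield K} [PerfectField A] (hA : ∀ x ∈ A, x ∈ P.O)
    (hEA : E ≤ A) {y : K} (hy : y ∈ A) :
    P.im (adj E y) (fun x hx => hA x (adj_le hEA hy hx)) =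
      adj (P.im E (fun x hx => hA x (hEA hx))) (P.ev y) := by
  have h1 := Pl.im_pf P (A := Vale.Agent.P019.adj E y) (fun x hx => hA x (adj_le hEA hy hx))
  have h2 := Vale.Agent.P019.Pl.im_adj P hA hEA hy
  unfold adj
  rw [← h2]
  exact h1

/-- R6. -/
theorem Pl.im_eq_rac {l B : Subfield K} (hB : ∀ x ∈ B, x ∈ P.O) (hBac : IsAlgClosed B)
    (hlB : l ≤ B) {z : K} (hz : z ∈ B) (halg : ∀ b ∈ B, IsAlgebraic (adj l z) b) :
    P.im B hB = rac (adj (P.im l (fun x hx => hB x (hlB hx))) (P.ev z)) := by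
  rw [rac_adj]
  exact Vale.Agent.P019.Pl.im_eq_rac P hB hBac hlB hz (fun b hb => isAlgebraic_adj.1 (halg b hb))

/-- R8b. -/
theorem Pl.fg_im [PerfectField K] {A E : Subfield K} (hA : ∀ x ∈ A, x ∈ P.O) (hEA : E ≤ A)
    (h : FG E A) :
    FG (P.im E (fun x hx => hA x (hEA hx))) (P.im A hA) := by
  classical
  obtain ⟨S, hS⟩ := h
  subst hS
  have h1 : Vale.Agent.P019.FG E (E ⊔ Subfield.closure (S : Set K)) := ⟨S, rfl⟩
  obtain ⟨T, hT⟩ := Vale.Agent.P019.Pl.fg_im P (A := E ⊔ Subfield.closure (S : Set K))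
    (fun x hx => hA x (le_pf _ hx)) le_sup_left h1
  refine ⟨T, ?_⟩
  rw [Pl.im_pf P hA, hT]

end im

end Vale.Agent.P019P
end

section

/-!
# The tame symbol on a subfield
-/

namespace Vale.Agent.P019P

open Vale.Agent.P019

set_option linter.style.haveILetI false

/-- R5. tame symbol at a place which is discrete on the subfield `E`. -/
theorem tame_sub {K Ω : Type*} [Field K] [Field Ω] (P : Pl K Ω) {E : Subfield K} {π : K}
    {κ : Subfield Ω} [PerfectField κ] (hπE : π ∈ E) (hπ : π ≠ 0) (hπO : π ∈ P.O) (hπ0 : P.ev π = 0)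
    (hGd : Gd P π κ E) (ℓ : ℕ) [Fact ℓ.Prime] [NeZero (ℓ : K)] (hneg : ∃ i ∈ E, i ^ ℓ = -1) {x G : K} (hx : x ∈ E)
    (hxU : P.U x) (hG : G ∈ E) (hG0 : G ≠ 0) 
    (hGn : ∀ (m : ℕ) (n : ℤ), P.U (G ^ ringExpChar K ^ m * π ^ n) → ¬ (ℓ : ℤ) ∣ n)
    (h : Orth (cl ℓ (⟨x, hx⟩ : E)) (cl ℓ (⟨G, hG⟩ : E))) : ∃ r ∈ κ, r ^ ℓ = P.ev x := by
  have hℓ : ℓ ≠ 0 := (Fact.out : ℓ.Prime).ne_zero
  have hq : ringExpChar E = ringExpChar K := ringExpChar_eq_of_hom E.subtype
  haveI : NeZero (ℓ : E) := ⟨by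
    intro h
    apply NeZero.ne (ℓ : K)
    have h2 := congrArg (Subtype.val : E → K) h
    simpa using h2⟩
  let O' : ValuationSubring E := P.O.comap (algebraMap E K)
  have hmem : ∀ z : E, O'.valuation z ≤ 1 ↔ P.O.valuation (z : K) ≤ 1 := by
    intro z
    rw [ValuationSubring.valuation_le_one_iff, ValuationSubring.valuation_le_one_iff]
    exact Iff.rfl
  have hone : ∀ z : E, O'.valuation z = 1 ↔ P.O.valuation (z : K) = 1 := by
    intro z
    constructor
    · intro hz
      have h1 := (hmem z).1 hz.le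
      have h2 := (hmem z⁻¹).1 (by rw [map_inv₀, hz, inv_one])
      have hz0 : (z : K) ≠ 0 := by
        intro h0
        have : z = 0 := Subtype.ext h0
        rw [this, map_zero] at hz
        exact zero_ne_one hz
      have e1 : ((z⁻¹ : E) : K) = (z : K)⁻¹ := rfl
      rw [e1, map_inv₀, inv_le_one₀ (by rw [Valuation.pos_iff]; exact hz0)] at h2
      exact le_antisymm h1 h2
    · intro hz
      have h1 := (hmem z).2 hz.le
      have h2 := (hmem z⁻¹).2 (by
        have e1 : ((z⁻¹ : E) : K) = (z : K)⁻¹ := rfl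
        rw [e1, map_inv₀, hz, inv_one])
      have hz0 : z ≠ 0 := by
        rintro rfl
        have e0 : ((0 : E) : K) = 0 := rfl
        rw [e0, map_zero] at hz
        exact zero_ne_one hz
      rw [map_inv₀, inv_le_one₀ (by rw [Valuation.pos_iff]; exact hz0)] at h2
      exact le_antisymm h1 h2
  have hlt : ∀ z : E, O'.valuation z < 1 ↔ P.O.valuation (z : K) < 1 := by
    intro z
    rw [lt_iff_le_and_ne, lt_iff_le_and_ne, hmem, Ne, Ne, hone]
  have hU : IsUnif O' (⟨π, hπE⟩ : E) := by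
    refine ⟨?_, ?_, ?_⟩
    · intro h0
      exact hπ (congrArg Subtype.val h0)
    · exact (hlt _).2 ((P.ev_eq_zero_iff hπO).1 hπ0)
    · intro z hz0
      have hz0' : (z : K) ≠ 0 := fun h0 => hz0 (Subtype.ext h0)
      obtain ⟨m, n, hn, -⟩ := hGd z z.2 hz0'
      refine ⟨m, n, (hone _).2 ?_⟩
      have e1 : ((z ^ ringExpChar E ^ m * (⟨π, hπE⟩ : E) ^ n : E) : K) =
          (z : K) ^ ringExpChar K ^ m * π ^ n := by rw [← hq]; rfl
      rw [e1]
      exact P.U_iff.1 hn
  have hneg' : ∃ i : E, i ^ ℓ = -1 := by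
    obtain ⟨i, hi, hi'⟩ := hneg
    exact ⟨⟨i, hi⟩, Subtype.ext hi'⟩
  have hxE0 : (⟨x, hx⟩ : E) ≠ 0 := fun h0 => hxU.ne_zero (congrArg Subtype.val h0)
  have hGE0 : (⟨G, hG⟩ : E) ≠ 0 := fun h0 => hG0 (congrArg Subtype.val h0)
  have h1 := tame_orth hneg' O' (hU.fn ℓ) (hU.fn_unit ℓ) h
  rw [hU.fn_unit ℓ (⟨x, hx⟩ : E) ((hone _).2 (P.U_iff.1 hxU)), zero_smul, sub_zero] at h1
  have hc : hU.fn ℓ (cl ℓ (⟨G, hG⟩ : E)) ≠ 0 := by
    obtain ⟨m, n, hmn⟩ := hU.rep _ hGE0
    rw [hU.fn_eq ℓ hmn]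
    refine mul_ne_zero (neg_ne_zero.2 ?_) (inv_ne_zero (q_pow_ne_zero ℓ E m))
    intro h0
    rw [ZMod.intCast_zmod_eq_zero_iff_dvd] at h0
    refine hGn m n ?_ h0
    have e1 : (((⟨G, hG⟩ : E) ^ ringExpChar E ^ m * (⟨π, hπE⟩ : E) ^ n : E) : K) =
        G ^ ringExpChar K ^ m * π ^ n := by rw [← hq]; rfl
    rw [P.U_iff, ← e1]
    exact (hone _).1 hmn
  rw [Submodule.smul_mem_iff _ hc] at h1
  obtain ⟨m, hm, hxm⟩ := h1
  obtain ⟨y, hy0, hy⟩ := (cl_eq_iff ℓ hxE0 (one_add_ne_zero hm)).1 hxm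
  have hm' : P.O.valuation (m : K) < 1 := (hlt m).1 hm
  have hyK : x = (1 + (m : K)) * (y : K) ^ ℓ := congrArg Subtype.val hy
  have hmU : P.U (1 + (m : K)) := P.U_iff.2 (val_one_add hm')
  have hyl : P.U ((y : K) ^ ℓ) := by
    have h2 : (y : K) ^ ℓ = x / (1 + (m : K)) := by
      rw [hyK]
      have := hmU.ne_zero
      field_simp
    rw [h2]
    exact hxU.div hmU
  have hyU : P.U (y : K) := by
    rw [P.U_iff] at hyl ⊢
    rw [map_pow] at hyl
    exact (pow_eq_one_iff.1 hyl).resolve_right hℓ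
  refine ⟨P.ev (y : K), Gd.ev_mem hπO hπ0 hGd y.2 hyU.1, ?_⟩
  rw [← P.ev_pow hyU.1]
  conv_rhs => rw [hyK]
  rw [P.ev_mul hmU.1 hyl.1, P.ev_add P.O.one_mem (P.mem_of_lt hm'), P.ev_one,
    P.ev_of_lt hm', add_zero, one_mul]

end Vale.Agent.P019P
end

section

/-!
# Unit classes, places and the data of a curve
-/

namespace Vale.Agent.P019P

open Vale.Agent.P019

set_option linter.style.haveILetI false
set_option linter.unusedSectionVars false

open Polynomial Filter

section

variable {F : Type*} [Field F]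

/-- the classes of the units of a valuation subring. -/
noncomputable def UC (ℓ : ℕ) (O : ValuationSubring F) : Submodule (ZMod ℓ) (V ℓ F) :=
  AddSubgroup.toZModSubmodule ℓ
  { carrier := {v | ∃ z : F, O.valuation z = 1 ∧ v = cl ℓ z}
    zero_mem' := ⟨1, map_one _, (cl_one ℓ).symm⟩
    add_mem' := by
      rintro _ _ ⟨x, hx, rfl⟩ ⟨y, hy, rfl⟩
      have hx0 : x ≠ 0 := by rintro rfl; rw [map_zero] at hx; exact zero_ne_one hx
      have hy0 : y ≠ 0 := by rintro rfl; rw [map_zero] at hy; exact zero_ne_one hy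
      exact ⟨x * y, by rw [map_mul, hx, hy, one_mul], (cl_mul ℓ hx0 hy0).symm⟩
    neg_mem' := by
      rintro _ ⟨x, hx, rfl⟩
      exact ⟨x⁻¹, by rw [map_inv₀, hx, inv_one], (cl_inv ℓ x).symm⟩ }

theorem mem_UC {ℓ : ℕ} {O : ValuationSubring F} {v : V ℓ F} :
    v ∈ UC ℓ O ↔ ∃ z : F, O.valuation z = 1 ∧ v = cl ℓ z := Iff.rfl

/-- the places of `F` over `k`. -/
def Plc (k : Subfield F) : Set (ValuationSubring F) := {O | TrivOn O k ∧ O ≠ ⊤}

/-- `F` is (the perfect closure of) a function field of transcendence degree one over `k`. -/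
structure Cv (k : Subfield F) : Prop where
  ac : IsAlgClosed k
  fg : FG k (⊤ : Subfield F)
  ex : ∃ x : F, x ∉ k ∧ ∀ z : F, IsAlgebraic (adj k x) z

/-- the Riemann-Hurwitz inequality (for five points whose fibres consist, up to `N` points, of
points with ramification index divisible by `ℓ`) and the bound of the genus by the bidegree of a
plane model. -/
structure CurveRH (ℓ : ℕ) (k : Subfield F) (g : ℕ) : Prop where
  rh : ∀ x : F, x ∉ k → ∀ (N : ℕ) (s : Finset F), (∀ c ∈ s, c ∈ k) → s.card = 5 →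
    (∀ c ∈ s, {O : ValuationSubring F | O ∈ Plc k ∧ O.valuation (x - c) < 1 ∧
      cl ℓ (x - c) ∉ UC ℓ O}.encard ≤ N) →
    Module.finrank (adj k x) F ≤ 4 * g + 5 * N
  gb : ∀ x y : F, x ∉ k → adj (adj k x) y = ⊤ → ∀ (m n : ℕ) (a : ℕ → ℕ → F),
    (∀ i j, a i j ∈ k) → (∃ i ∈ Finset.range (m + 1), ∃ j ∈ Finset.range (n + 1), a i j ≠ 0) →
    ∑ i ∈ Finset.range (m + 1), ∑ j ∈ Finset.range (n + 1), a i j * x ^ i * y ^ j = 0 →
    g ≤ m * n

/-- the number of classes unramified outside `T` is `ℓ ^ (2 g + |T| - 1)`. -/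
def CurveCard (ℓ : ℕ) (k : Subfield F) (g : ℕ) : Prop :=
  ∀ T : Finset (ValuationSubring F), (∀ O ∈ T, O ∈ Plc k) →
    Nat.card {v : V ℓ F // ∀ O ∈ Plc k, O ∉ T → v ∈ UC ℓ O} = ℓ ^ (2 * g + (T.card - 1))

/-- every element of `k` is zero or a root of unity. -/
def Fin' (k : Subfield F) : Prop := ∀ a ∈ k, a ≠ 0 → ∃ n : ℕ, 0 < n ∧ a ^ n = 1

/-- the center of `V` with respect to the pairing is trivial. -/
def NoCtr (ℓ : ℕ) (F : Type*) [Field F] : Prop :=
  ∀ h : V ℓ F →ₗ[ZMod ℓ] ZMod ℓ, (∀ x : F, x ≠ 0 → x ≠ 1 → h (cl ℓ x) ≠ 0 →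
    ∃ a : ZMod ℓ, cl ℓ (1 - x) = a • cl ℓ x) → h = 0

end

theorem Fin'.triv {F : Type*} [Field F] {k : Subfield F} (h : Fin' k) (O : ValuationSubring F) :
    TrivOn O k := by
  intro a ha
  by_cases h0 : a = 0
  · rw [h0]; exact O.zero_mem
  obtain ⟨n, hn, h1⟩ := h a ha h0
  rw [← O.valuation_le_one_iff]
  by_contra hcon
  push Not at hcon
  have h2 := one_lt_pow₀ hcon hn.ne'
  rw [← map_pow, h1, map_one] at h2
  exact lt_irrefl _ h2

/-- surfaces: `t, s` is a transcendence basis. -/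
abbrev Srf {K : Type*} [Field K] (k : Subfield K) (t s : K) : Prop := Frame k k t s

end Vale.Agent.P019P
end

section

end

section

/-!
# Free composita with algebraically closed fields
-/

namespace Vale.Agent.P019P

open Vale.Agent.P019

set_option linter.style.haveILetI false
set_option linter.unusedSectionVars false

open Polynomial

section fre

variable {K : Type*} [Field K]

/-- the relative algebraic closure of `l(T)`. -/
noncomputable def rcl (l : Subfield K) (T : Finset K) : Subfield K :=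
  rac (l ⊔ Subfield.closure (T : Set K))

theorem le_rcl (l : Subfield K) (T : Finset K) : l ≤ rcl l T := le_sup_left.trans (le_rac _)

theorem rcl_RAC (l : Subfield K) (T : Finset K) : RAC (rcl l T) := RAC_rac _

theorem mem_rcl {l : Subfield K} {T : Finset K} {c : K} (hc : c ∈ T) : c ∈ rcl l T :=
  (le_sup_right.trans (le_rac _) : Subfield.closure (T : Set K) ≤ rcl l T)
    (Subfield.subset_closure hc)

theorem rcl_le {l B : Subfield K} {T : Finset K} (hB : RAC B) (hlB : l ≤ B)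
    (hT : ∀ c ∈ T, c ∈ B) : rcl l T ≤ B :=
  hB.le (sup_le hlB (Subfield.closure_le.2 fun c hc => hT c hc))

theorem rcl_empty {l : Subfield K} (hl : RAC l) : rcl l ∅ = l :=
  le_antisymm (rcl_le hl le_rfl fun c hc => absurd hc (Finset.notMem_empty c)) (le_rcl l ∅)

theorem RAC_adj_le {N B : Subfield K} (hB : RAC B) (h : N ≤ B) {b : K} (hb : b ∈ B) :
    rac (adj N b) ≤ B := by
  rw [rac_adj]
  exact hB.le (Vale.Agent.P019.adj_le h hb)

theorem rcl_insert [DecidableEq K] (l : Subfield K) (T : Finset K) (b : K) :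
    rcl l (insert b T) = rac (adj (rcl l T) b) := by
  apply le_antisymm
  · refine rcl_le (RAC_rac _) ((le_rcl l T).trans ((le_adj _ b).trans (le_rac _))) ?_
    intro c hc
    rcases Finset.mem_insert.1 hc with rfl | hc
    · exact le_rac _ (mem_adj _ _)
    · exact le_rac _ (le_adj _ _ (mem_rcl hc))
  · refine RAC_adj_le (rcl_RAC _ _) (rcl_le (rcl_RAC _ _) (le_rcl _ _) ?_)
      (mem_rcl (Finset.mem_insert_self b T))
    intro c hc
    exact mem_rcl (Finset.mem_insert_of_mem hc)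

/-- going down a chain. -/
theorem chain_down {l B : Subfield K} (hl : RAC l) (p : Subfield K → Prop)
    (hstep : ∀ T : Finset K, (∀ c ∈ T, c ∈ B) → ∀ b ∈ B, b ∉ rcl l T →
      p (rac (adj (rcl l T) b)) → p (rcl l T))
    (T : Finset K) (hT : ∀ c ∈ T, c ∈ B) (h : p (rcl l T)) : p l := by
  classical
  induction T using Finset.induction_on with
  | empty => rwa [rcl_empty hl] at h
  | insert b T hbT ih =>
    rw [rcl_insert] at h
    have hTB : ∀ c ∈ T, c ∈ B := fun c hc => hT c (Finset.mem_insert_of_mem hc)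
    apply ih hTB
    by_cases hb : b ∈ rcl l T
    · have e : rac (adj (rcl l T) b) = rcl l T :=
        le_antisymm (RAC_adj_le (rcl_RAC _ _) le_rfl hb) ((le_adj _ _).trans (le_rac _))
      rwa [e] at h
    · exact hstep T hTB b (hT b (Finset.mem_insert_self b T)) hb h

/-- `A` and `B` are free over `l`. -/
def Fre (l A B : Subfield K) : Prop :=
  ∀ N : Subfield K, RAC N → l ≤ N → N ≤ B → ∀ a ∈ B, IsAlgebraic (A ⊔ N : Subfield K) a → a ∈ N

/-- relative algebraic closedness in free composita. -/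
theorem rac_sup_gen {l A B : Subfield K} (hl : RAC l) (hlA : l ≤ A) (hlB : l ≤ B)
    (hB : IsAlgClosed B) (hfree : Fre l A B) {h : K} (hh : h ∈ A ⊔ B) (hha : IsAlgebraic A h) :
    h ∈ A := by
  have hBR : RAC B := RAC_of_isAlgClosed B hB
  obtain ⟨C, hC, hCN⟩ := mem_sup_finite (k := B) (L := (A : Set K)) (z := h) (by
    rw [Subfield.closure_eq, sup_comm]
    exact hh)
  have h1 : h ∈ A ⊔ rcl l C := by
    have h2 := hCN (rcl l C) (fun c hc => mem_rcl hc)
    rw [Subfield.closure_eq, sup_comm] at h2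
    exact h2
  have h3 := chain_down (B := B) hl (fun N => h ∈ A ⊔ N) ?_ C (fun c hc => hC hc) h1
  · rwa [sup_eq_left.2 hlA] at h3
  · intro T hT b hb hbN hmem
    have hN := rcl_RAC l T
    have hlN := le_rcl l T
    have hNB := rcl_le hBR hlB hT
    set N := rcl l T with hNdef
    have hNac : IsAlgClosed N := isAlgClosed_of_RAC hB hN hNB
    refine rac_sup (l := N) (A := A ⊔ N) (B := rac (adj N b)) (y := b) hNac le_sup_right
      ((le_adj _ _).trans (le_rac _)) (le_rac _ (mem_adj _ _))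
      (fun h => hbN (hfree N hN hlN hNB b hb h)) (fun c hc => mem_rac.1 hc) ?_
      (isAlgebraic_mono le_sup_left hha)
    exact (sup_le_sup_right le_sup_left _ : A ⊔ rac (adj N b) ≤ _) hmem

theorem isAlgebraic_sup_of_adj {A N E : Subfield K} (hA : ∀ a ∈ A, IsAlgebraic E a) (hN : N ≤ E)
    {z : K} (hz : IsAlgebraic (A ⊔ N : Subfield K) z) : IsAlgebraic E z := by
  have h1 : A ⊔ N ≤ rac E := sup_le (fun a ha => mem_rac.2 (hA a ha)) (hN.trans (le_rac E))
  exact mem_rac.1 (RAC_rac E z (isAlgebraic_mono h1 hz))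

/-- freeness from one transcendental element. -/
theorem Fre.of_one {l A B : Subfield K} {y : K} (hA : ∀ a ∈ A, IsAlgebraic (adj l y) a)
    (hy : ¬ IsAlgebraic B y) : Fre l A B := by
  intro N hN hlN hNB a ha halg
  by_contra haN
  have h1 : IsAlgebraic (adj N y) a :=
    isAlgebraic_sup_of_adj (fun a ha => isAlgebraic_mono (adj_mono hlN y) (hA a ha))
      (le_adj _ _) halg
  have h2 := exchange (fun h => haN (hN a h)) h1
  have h3 : adj N a ≤ rac B := by
    have h4 : Vale.Agent.P019.adj N a ≤ B := Vale.Agent.P019.adj_le hNB ha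
    have h5 : rac (adj N a) ≤ rac B := by
      rw [rac_adj]
      exact rac_mono h4
    exact (le_rac _).trans h5
  exact hy (mem_rac.1 (RAC_rac B y (isAlgebraic_mono h3 h2)))

theorem adj_comm_alg {E : Subfield K} {x y z : K} (h : IsAlgebraic (adj (adj E x) y) z) :
    IsAlgebraic (adj (adj E y) x) z := by
  have h1 : adj (adj E x) y ≤ rac (adj (adj E y) x) := by
    have h2 : Vale.Agent.P019.adj E x ≤ adj (adj E y) x := by
      refine Vale.Agent.P019.adj_le ?_ (mem_adj _ _)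
      exact (le_adj E y).trans (le_adj _ x)
    have h3 : rac (adj E x) ≤ rac (adj (adj E y) x) := by
      rw [rac_adj]
      exact rac_mono h2
    have h4 : Vale.Agent.P019.adj (adj E x) y ≤ rac (adj (adj E y) x) := by
      refine Vale.Agent.P019.adj_le ((le_rac _).trans h3) (le_rac _ ?_)
      exact le_adj _ _ (mem_adj _ _)
    have h5 : rac (adj (adj E x) y) ≤ rac (adj (adj E y) x) := by
      rw [rac_adj]
      exact (RAC_rac _).le h4
    exact (le_rac _).trans h5
  exact mem_rac.1 (RAC_rac _ z (isAlgebraic_mono h1 h))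

/-- freeness from two algebraically independent elements. -/
theorem Fre.of_two {l A B : Subfield K} {x y : K}
    (hA : ∀ a ∈ A, IsAlgebraic (adj (adj l x) y) a) (hx : ¬ IsAlgebraic B x)
    (hy : ¬ IsAlgebraic (adj B x) y) : Fre l A B := by
  intro N hN hlN hNB a ha halg
  by_contra haN
  have hNa : adj N a ≤ rac B := by
    have h4 : Vale.Agent.P019.adj N a ≤ B := Vale.Agent.P019.adj_le hNB ha
    have h5 : rac (adj N a) ≤ rac B := by
      rw [rac_adj]
      exact rac_mono h4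
    exact (le_rac _).trans h5
  have h1 : IsAlgebraic (adj (adj N x) y) a :=
    isAlgebraic_sup_of_adj (fun a ha => isAlgebraic_mono (adj_mono (adj_mono hlN x) y) (hA a ha))
      ((le_adj _ _).trans (le_adj _ _)) halg
  have h2 : ¬ IsAlgebraic (adj N x) a := by
    intro h3
    have h4 := exchange (fun h => haN (hN a h)) h3
    exact hx (mem_rac.1 (RAC_rac B x (isAlgebraic_mono hNa h4)))
  have h3 := exchange h2 h1
  have h4 := adj_comm_alg h3
  apply hy
  have h5 : adj (adj N a) x ≤ rac (adj B x) := by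
    have h6 : rac B ≤ rac (adj B x) := rac_mono (le_adj B x)
    have h7 : Vale.Agent.P019.adj (adj N a) x ≤ rac (adj B x) :=
      Vale.Agent.P019.adj_le (hNa.trans h6) (le_rac _ (mem_adj _ _))
    have h8 : rac (adj (adj N a) x) ≤ rac (adj B x) := by
      rw [rac_adj]
      exact (RAC_rac _).le h7
    exact (le_rac _).trans h8
  exact mem_rac.1 (RAC_rac _ y (isAlgebraic_mono h5 h4))

/-- transcendence degree at most one. -/
def Td1 (N E : Subfield K) : Prop := ∀ u ∈ E, ∀ v ∈ E, u ∈ N ∨ IsAlgebraic (adj N u) v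

/-- one specialization step. -/
theorem spec_step [IsAlgClosed K] [PerfectField K] {ℓ : ℕ} {A N : Subfield K}
    (hN : IsAlgClosed N) {b : K}
    (hb : ¬ IsAlgebraic (A ⊔ N : Subfield K) b) {X : Set K} (hX : ∀ x ∈ X, x ∈ A ∧ x ≠ 0)
    {E : Subfield K} (hBE : rac (adj N b) ≤ E) (hEA : E ≤ A ⊔ rac (adj N b))
    (htd : Td1 (rac (adj N b)) E)
    (hXE : ∀ x ∈ X, ∃ e ∈ E, ∃ w ∈ A ⊔ rac (adj N b), x = e * w ^ ℓ) :
    ∃ E' : Subfield K, N ≤ E' ∧ E' ≤ A ⊔ N ∧ Td1 N E' ∧
      ∀ x ∈ X, ∃ e ∈ E', ∃ w ∈ A ⊔ N, x = e * w ^ ℓ := by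
  obtain ⟨P, hPA, hbO, -, hPB⟩ := exists_one (K := K) (Ω := K) hN
    (le_sup_right : N ≤ A ⊔ N) hb N.zero_mem
  simp only [Algebra.algebraMap_self_apply] at hPA hPB
  set B := rac (adj N b) with hB
  have hNB : N ≤ B := (le_adj _ _).trans (le_rac _)
  have hAO : ∀ a ∈ A ⊔ N, a ∈ P.O := fun a ha => (hPA a ha).1
  have hNO : ∀ a ∈ N, a ∈ P.O := fun a ha => hAO a ((le_sup_right : N ≤ A ⊔ N) ha)
  have hNev : ∀ a ∈ N, P.ev a = a := fun a ha => (hPA a ((le_sup_right : N ≤ A ⊔ N) ha)).2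
  have hBd : ∀ c ∈ B, c ∈ P.O → ∃ d ∈ N, P.ev c = P.ev d := by
    intro c hc hcO
    obtain ⟨d, hd, he⟩ := hPB c hcO (mem_rac.1 hc)
    exact ⟨d, hd, by rw [he, hNev d hd]⟩
  have hsup : A ⊔ B ≤ (A ⊔ N) ⊔ B := sup_le_sup_right le_sup_left B
  have hgauss : ∀ z ∈ A ⊔ B, z ≠ 0 → ∃ β ∈ B, β ≠ 0 ∧ P.U (β * z) ∧ P.ev (β * z) ∈ A ⊔ N := by
    intro z hz hz0
    obtain ⟨β, hβ, hβ0, hU, a, ha, hev⟩ := P.gauss (l := N) (A := A ⊔ N) (B := B) le_sup_right hNB
      hAO hBd (hsup hz) hz0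
    exact ⟨β, hβ, hβ0, hU, by rw [hev, (hPA a ha).2]; exact ha⟩
  have hinvO : ∀ e : K, e ∈ P.O → P.ev e ≠ 0 → P.U e := fun e he h => ⟨he, h⟩
  let E' : Subfield K :=
    { carrier := {z | ∃ e ∈ E, e ∈ P.O ∧ P.ev e = z}
      mul_mem' := by
        rintro _ _ ⟨e, he, heO, rfl⟩ ⟨f, hf, hfO, rfl⟩
        exact ⟨e * f, E.mul_mem he hf, P.O.mul_mem _ _ heO hfO, P.ev_mul heO hfO⟩
      one_mem' := ⟨1, E.one_mem, P.O.one_mem, P.ev_one⟩
      add_mem' := by
        rintro _ _ ⟨e, he, heO, rfl⟩ ⟨f, hf, hfO, rfl⟩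
        exact ⟨e + f, E.add_mem he hf, P.O.add_mem _ _ heO hfO, P.ev_add heO hfO⟩
      zero_mem' := ⟨0, E.zero_mem, P.O.zero_mem, P.ev_zero⟩
      neg_mem' := by
        rintro _ ⟨e, he, heO, rfl⟩
        exact ⟨-e, E.neg_mem he, P.O.neg_mem _ heO, P.ev_neg heO⟩
      inv_mem' := by
        rintro _ ⟨e, he, heO, rfl⟩
        by_cases h0 : P.ev e = 0
        · rw [h0, inv_zero]
          exact ⟨0, E.zero_mem, P.O.zero_mem, P.ev_zero⟩
        · have hU : P.U e := ⟨heO, h0⟩
          exact ⟨e⁻¹, E.inv_mem he, hU.inv_mem, hU.ev_inv⟩ }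
  have hmemE' : ∀ z, z ∈ E' ↔ ∃ e ∈ E, e ∈ P.O ∧ P.ev e = z := fun z => Iff.rfl
  have hNE' : N ≤ E' := fun c hc => ⟨c, hBE (hNB hc), hNO c hc, hNev c hc⟩
  refine ⟨E', hNE', ?_, ?_, ?_⟩
  · rintro _ ⟨e, he, heO, rfl⟩
    by_cases h0 : P.ev e = 0
    · rw [h0]; exact Subfield.zero_mem _
    have hUe : P.U e := ⟨heO, h0⟩
    obtain ⟨β, hβ, hβ0, hU, hev⟩ := hgauss e (hEA he) hUe.ne_zero
    have hUβ : P.U β := by
      have h1 : β = (β * e) / e := by
        have := hUe.ne_zero
        field_simp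
      rw [h1]; exact hU.div hUe
    obtain ⟨d, hd, hbd⟩ := hBd β hβ hUβ.1
    rw [P.ev_mul hUβ.1 heO] at hev
    have hd0 : P.ev β ≠ 0 := hUβ.2
    have h2 : P.ev e = (P.ev β * P.ev e) / P.ev β := by field_simp
    rw [h2]
    refine Subfield.div_mem _ hev ?_
    rw [hbd, hNev d hd]
    exact (le_sup_right : N ≤ A ⊔ N) hd
  · rintro _ ⟨e, he, heO, rfl⟩ _ ⟨f, hf, hfO, rfl⟩
    rcases htd e he f hf with h | h
    · left
      obtain ⟨d, hd, hbd⟩ := hBd e h heO
      rw [hbd, hNev d hd]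
      exact hd
    · by_cases hu : P.ev e ∈ N
      · exact Or.inl hu
      right
      -- the residue of `e` is transcendental
      have hNR : RAC N := RAC_of_isAlgClosed N hN
      have him : P.im N hNO = N := by
        ext z
        rw [P.mem_im]
        constructor
        · rintro ⟨c, hc, rfl⟩
          rw [hNev c hc]; exact hc
        · intro hz
          exact ⟨z, hz, hNev z hz⟩
      have htr : ¬ IsAlgebraic (P.im N hNO) (P.ev e) := by
        rw [him]
        exact fun h' => hu (hNR _ h')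
      have hadjO : ∀ x ∈ adj N e, x ∈ P.O := Pl.mem_adj_of_transcendental P N hNO heO htr
      have hadjev : ∀ x ∈ adj N e, P.ev x ∈ adj N (P.ev e) := by
        intro x hx
        haveI : PerfectField N := by
          haveI := hN
          infer_instance
        have h1 := Pl.im_adj P (A := adj N e) (E := N) hadjO (le_adj N e) (mem_adj N e)
        have h2 : P.ev x ∈ P.im (adj N e) hadjO := P.ev_mem_im hadjO hx
        have h3 : P.im (adj N e) hadjO = adj (P.im N hNO) (P.ev e) := h1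
        rw [h3, him] at h2
        exact h2
      refine P.isAlgebraic_ev (adj B e) (adj N (P.ev e)) ?_ h hfO
      intro x hx hxO
      by_cases h0 : P.ev x = 0
      · rw [h0]; exact Subfield.zero_mem _
      have hUx : P.U x := ⟨hxO, h0⟩
      -- pass to a power
      obtain ⟨n, hn⟩ := mem_adj_iff.1 hx
      have hUxn : P.U (x ^ ringExpChar K ^ n) := hUx.pow _
      have hmem : x ^ ringExpChar K ^ n ∈ adj N e ⊔ B := by
        refine (Vale.Agent.P019.adj_le ?_ ?_ : Vale.Agent.P019.adj B e ≤ adj N e ⊔ B) hn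
        · exact le_sup_right
        · exact (le_sup_left : adj N e ≤ _) (mem_adj N e)
      obtain ⟨β, hβ, hβ0, hU, a, ha, hev⟩ := P.gauss (l := N) (A := adj N e) (B := B)
        (le_adj N e) hNB hadjO hBd hmem hUxn.ne_zero
      have hUβ : P.U β := by
        have h1 : β = (β * x ^ ringExpChar K ^ n) / x ^ ringExpChar K ^ n := by
          have := hUxn.ne_zero
          field_simp
        rw [h1]; exact hU.div hUxn
      obtain ⟨d, hd, hbd⟩ := hBd β hβ hUβ.1
      rw [P.ev_mul hUβ.1 hUxn.1, P.ev_pow hxO] at hev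
      have hd0 : P.ev β ≠ 0 := hUβ.2
      have h2 : P.ev x ^ ringExpChar K ^ n = P.ev a / P.ev β := by
        rw [← hev]; field_simp
      have h3 : P.ev x ^ ringExpChar K ^ n ∈ adj N (P.ev e) := by
        rw [h2]
        refine Subfield.div_mem _ (hadjev a ha) ?_
        rw [hbd, hNev d hd]
        exact le_adj _ _ hd
      exact mem_of_pow_q h3
  · intro x hx
    obtain ⟨hxA, hx0⟩ := hX x hx
    obtain ⟨e, he, w, hw, hxe⟩ := hXE x hx
    have he0 : e ≠ 0 := by
      rintro rfl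
      rw [zero_mul] at hxe
      exact hx0 hxe
    have hUx : P.U x := by
      refine P.U_of_isAlgebraic (A ⊔ N) hAO (isAlgebraic_of_mem ?_) hx0
      exact (le_sup_left : A ≤ A ⊔ N) hxA
    have hevx : P.ev x = x := (hPA x ((le_sup_left : A ≤ A ⊔ N) hxA)).2
    by_cases hℓ : ℓ = 0
    · subst hℓ
      rw [pow_zero, mul_one] at hxe
      refine ⟨x, ⟨e, he, ?_, ?_⟩, 1, Subfield.one_mem _, by rw [pow_zero, mul_one]⟩
      · rw [← hxe]; exact hUx.1
      · rw [← hxe]; exact hevx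
    have hw0 : w ≠ 0 := by
      rintro rfl
      rw [zero_pow hℓ, mul_zero] at hxe
      exact hx0 hxe
    obtain ⟨β, hβ, hβ0, hUβ, hevβ⟩ := hgauss w hw hw0
    obtain ⟨γ, hγ, hγ0, hUγ, hevγ⟩ := hgauss e (hEA he) he0
    have hδ : P.U (β ^ ℓ * γ) := by
      have h1 : β ^ ℓ * γ = ((γ * e) * (β * w) ^ ℓ) / x := by
        rw [hxe, mul_pow]
        field_simp
      rw [h1]
      exact (hUγ.mul (hUβ.pow ℓ)).div hUx
    obtain ⟨d, hd, hbd⟩ := hBd _ (B.mul_mem (B.pow_mem hβ ℓ) hγ) hδ.1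
    have hd0 : P.ev (β ^ ℓ * γ) ≠ 0 := hδ.2
    have hkey : x * P.ev (β ^ ℓ * γ) = P.ev (γ * e) * P.ev (β * w) ^ ℓ := by
      rw [← P.ev_pow hUβ.1, ← P.ev_mul hUγ.1 (hUβ.pow ℓ).1]
      have h2 : γ * e * (β * w) ^ ℓ = x * (β ^ ℓ * γ) := by
        rw [hxe, mul_pow]; ring
      rw [h2, P.ev_mul hUx.1 hδ.1, hevx]
    have hdE : P.ev (β ^ ℓ * γ) ∈ E' := by
      rw [hbd, hNev d hd]
      exact hNE' hd
    refine ⟨P.ev (γ * e) / P.ev (β ^ ℓ * γ), E'.div_mem ?_ hdE, P.ev (β * w), hevβ, ?_⟩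
    · exact ⟨γ * e, E.mul_mem (hBE hγ) he, hUγ.1, rfl⟩
    · rw [div_mul_eq_mul_div, ← hkey]
      field_simp

end fre

end Vale.Agent.P019P
end

section

/-!
# The affine case, any characteristic
-/

namespace Vale.Agent.P019P

open Vale.Agent.P019

set_option linter.style.haveILetI false
set_option linter.unusedSectionVars false

open Filter

section alg

variable {k l : Type*} [Field k] [Field l]

end alg

end Vale.Agent.P019P
end

section

/-!
# Divisors and their degree
-/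

namespace Vale.Agent.P019P

/-- the degree of a divisor. -/
noncomputable def dg {P : Type*} : (P →₀ ℤ) →+ ℤ :=
  Finsupp.liftAddHom fun _ => AddMonoidHom.id ℤ

end Vale.Agent.P019P
end

section

/-!
# Linear independence over `k(x)` and polynomial relations
-/

namespace Vale.Agent.P019P

open Polynomial IntermediateField

section

variable {k F : Type*} [Field k] [Field F] [Algebra k F]

private theorem exists_frac {x c : F} (hc : c ∈ k⟮x⟯) :
    ∃ f g : k[X], aeval x g ≠ 0 ∧ c * aeval x g = aeval x f := by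
  obtain ⟨f, g, h⟩ := (mem_adjoin_simple_iff k c).1 hc
  by_cases hg : aeval x g = 0
  · refine ⟨0, 1, by simp, ?_⟩
    rw [h, hg]
    simp
  · exact ⟨f, g, hg, by rw [h, div_mul_cancel₀ _ hg]⟩

private theorem exists_rel' {x : F} {ι : Type*} [Fintype ι] {y : ι → F}
    (h : ¬ LinearIndependent k⟮x⟯ y) :
    ∃ φ : ι → k[X], (∃ i, φ i ≠ 0) ∧ ∑ i, aeval x (φ i) * y i = 0 := by
  classical
  obtain ⟨c, hc, i0, hi0⟩ := Fintype.not_linearIndependent_iff.1 h
  choose f g hg hfg using fun i => exists_frac (k := k) (x := x) (c i).2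
  have key : ∀ i, aeval x (f i * ∏ j ∈ Finset.univ.erase i, g j)
      = (c i : F) * ∏ j, aeval x (g j) := by
    intro i
    rw [map_mul, ← hfg i, map_prod, mul_assoc,
      Finset.mul_prod_erase Finset.univ (fun j => aeval x (g j)) (Finset.mem_univ i)]
  refine ⟨fun i => f i * ∏ j ∈ Finset.univ.erase i, g j, ⟨i0, fun h0 => ?_⟩, ?_⟩
  · have h1 := key i0
    simp only at h0
    rw [h0, map_zero] at h1
    rcases mul_eq_zero.1 h1.symm with h2 | h2
    · exact hi0 (Subtype.ext h2)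
    · exact Finset.prod_ne_zero_iff.2 (fun j _ => hg j) h2
  · have h1 : ∀ i, aeval x (f i * ∏ j ∈ Finset.univ.erase i, g j) * y i
        = (∏ j, aeval x (g j)) * (c i • y i) := by
      intro i
      rw [key i]
      change _ = _ * ((c i : F) * y i)
      ring
    simp only [h1]
    rw [← Finset.mul_sum, hc, mul_zero]

/-- a linear relation over `k(x)` can be normalised. -/
theorem exists_rel {x : F} (hx : Transcendental k x) {ι : Type*} [Fintype ι] {y : ι → F}
    (h : ¬ LinearIndependent k⟮x⟯ y) :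
    ∃ φ : ι → k[X], (∃ i, (φ i).coeff 0 ≠ 0) ∧ ∑ i, aeval x (φ i) * y i = 0 := by
  classical
  have hx0 : x ≠ 0 := fun h0 => by
    rw [h0] at hx
    exact hx (isAlgebraic_zero)
  have hex : ∃ n, ∃ φ : ι → k[X], (∃ i, φ i ≠ 0) ∧ ∑ i, aeval x (φ i) * y i = 0 ∧
      ∑ i, (φ i).natDegree = n := by
    obtain ⟨φ, h1, h2⟩ := exists_rel' h
    exact ⟨_, φ, h1, h2, rfl⟩
  obtain ⟨φ, ⟨i0, hi0⟩, h2, h3⟩ := Nat.find_spec hex
  refine ⟨φ, ?_, h2⟩
  by_contra hcon
  push Not at hcon
  have e : ∀ i, φ i = (φ i).divX * X := fun i => by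
    conv_lhs => rw [← divX_mul_X_add (φ i), hcon i, C_0, add_zero]
  have hne : (φ i0).divX ≠ 0 := fun h0 => hi0 (by rw [e i0, h0, zero_mul])
  have hdeg : (φ i0).natDegree = (φ i0).divX.natDegree + 1 := by
    conv_lhs => rw [e i0]
    exact natDegree_mul_X hne
  have hlt : ∑ i, (φ i).divX.natDegree < Nat.find hex := by
    rw [← h3]
    refine Finset.sum_lt_sum (fun i _ => natDegree_divX_le) ⟨i0, Finset.mem_univ _, ?_⟩
    omega
  refine Nat.find_min hex hlt ⟨fun i => (φ i).divX, ⟨i0, hne⟩, ?_, rfl⟩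
  have h4 : x * ∑ i, aeval x ((φ i).divX) * y i = 0 := by
    rw [← h2, Finset.mul_sum]
    refine Finset.sum_congr rfl fun i _ => ?_
    conv_rhs => rw [e i, map_mul, aeval_X]
    ring
  exact (mul_eq_zero.1 h4).resolve_left hx0

/-- a family independent over `k(x)` gives a family independent over `k`. -/
theorem indep_pow_mul {x : F} (hx : Transcendental k x) {ι : Type*} {y : ι → F}
    (h : LinearIndependent k⟮x⟯ y) :
    LinearIndependent k (fun p : ι × ℕ => x ^ p.2 * y p.1) := by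
  have h1 : LinearIndependent k (fun j : ℕ => (AdjoinSimple.gen k x) ^ j) := by
    have h2 := (Polynomial.basisMonomials k).linearIndependent.map'
      (aeval (AdjoinSimple.gen k x)).toLinearMap (by
        rw [LinearMap.ker_eq_bot]
        intro p q hpq
        have h3 : aeval x p = aeval x q := by
          have h4 := congrArg (algebraMap k⟮x⟯ F) hpq
          simpa only [AlgHom.toLinearMap_apply, ← aeval_algebraMap_apply,
            AdjoinSimple.algebraMap_gen] using h4
        exact transcendental_iff_injective.1 hx h3)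
    have h5 : (fun j : ℕ => (AdjoinSimple.gen k x) ^ j)
        = ⇑(aeval (AdjoinSimple.gen k x)).toLinearMap ∘ ⇑(basisMonomials k) := by
      funext j
      simp [coe_basisMonomials]
    rw [h5]
    exact h2
  have h5 := linearIndependent_smul h1 h
  have h6 := h5.comp Prod.swap Prod.swap_injective
  exact h6

/-- conversely, polynomial independence gives independence over `k(x)`. -/
theorem indep_of_poly {x : F} (hx : Transcendental k x) {ι : Type*} [Fintype ι] {y : ι → F}
    (h : ∀ φ : ι → k[X], ∑ i, aeval x (φ i) * y i = 0 → ∀ i, φ i = 0) :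
    LinearIndependent k⟮x⟯ y := by
  by_contra hn
  obtain ⟨φ, ⟨i, hi⟩, h0⟩ := exists_rel hx hn
  exact hi (by rw [h φ h0 i, coeff_zero])

end

end Vale.Agent.P019P
end

section

/-!
# Divisors: degree, induction along points
-/

namespace Vale.Agent.P019P

variable {P : Type*}

theorem dg_apply (D : P →₀ ℤ) : dg D = D.sum fun _ n => n := by
  unfold dg
  rw [Finsupp.liftAddHom_apply]
  rfl

theorem dg_sgl (p : P) (n : ℤ) : dg (Finsupp.single p n) = n := by
  rw [dg_apply, Finsupp.sum_single_index rfl]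

private theorem dg_nonneg {D : P →₀ ℤ} (h : 0 ≤ D) : 0 ≤ dg D := by
  rw [dg_apply]
  exact Finset.sum_nonneg fun p _ => h p

theorem dg_mono {D E : P →₀ ℤ} (h : D ≤ E) : dg D ≤ dg E := by
  have h1 : 0 ≤ dg (E - D) := dg_nonneg (sub_nonneg.2 h)
  rw [map_sub] at h1
  linarith

theorem eq_of_le_of_dg_le {D E : P →₀ ℤ} (h : D ≤ E) (h1 : dg E ≤ dg D) : D = E := by
  have h2 : dg (E - D) ≤ 0 := by rw [map_sub]; linarith
  rw [dg_apply] at h2
  have hn : ∀ p ∈ (E - D).support, 0 ≤ (E - D) p := fun p _ => by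
    rw [Finsupp.sub_apply]
    exact sub_nonneg.2 (h p)
  have h3 : (E - D).sum (fun _ n => n) = 0 := le_antisymm h2 (Finset.sum_nonneg hn)
  have h4 := (Finset.sum_eq_zero_iff_of_nonneg hn).1 h3
  ext p
  by_cases hp : p ∈ (E - D).support
  · have := h4 p hp
    rw [Finsupp.sub_apply] at this
    linarith
  · rw [Finsupp.notMem_support_iff, Finsupp.sub_apply] at hp
    linarith

theorem dg_eq_sum {D : P →₀ ℤ} {S : Finset P} (h : ∀ p, p ∉ S → D p = 0) :
    dg D = ∑ p ∈ S, D p := by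
  rw [dg_apply]
  refine Finsupp.sum_of_support_subset D ?_ _ fun _ _ => rfl
  intro p hp
  by_contra hps
  exact Finsupp.mem_support_iff.1 hp (h p hps)

/-- induction upwards from a divisor, adding one point at a time. -/
theorem dv_induct {motive : (P →₀ ℤ) → Prop} {D : P →₀ ℤ} (h0 : motive D)
    (hs : ∀ (E : P →₀ ℤ) (p : P), D ≤ E → motive E → motive (E + Finsupp.single p 1))
    {E : P →₀ ℤ} (hE : D ≤ E) : motive E := by
  obtain ⟨n, hn⟩ : ∃ n : ℕ, n = (dg (E - D)).toNat := ⟨_, rfl⟩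
  induction n generalizing E with
  | zero =>
    have h1 : dg E ≤ dg D := by
      have : dg (E - D) ≤ 0 := by
        by_contra hc
        push Not at hc
        have := Int.toNat_of_nonneg hc.le
        omega
      rw [map_sub] at this
      linarith
    rw [← eq_of_le_of_dg_le hE h1]
    exact h0
  | succ n ih =>
    have hne : E ≠ D := by
      rintro rfl
      rw [sub_self, map_zero] at hn
      simp at hn
    obtain ⟨p, hp⟩ : ∃ p, E p ≠ D p := by
      by_contra hc
      push Not at hc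
      exact hne (Finsupp.ext hc)
    have hp1 : D p < E p := lt_of_le_of_ne (hE p) (Ne.symm hp)
    have hE' : D ≤ E - Finsupp.single p 1 := by
      intro q
      rw [Finsupp.sub_apply]
      by_cases hq : q = p
      · subst hq
        rw [Finsupp.single_eq_same]
        omega
      · rw [Finsupp.single_eq_of_ne hq, sub_zero]
        exact hE q
    have h2 : n = (dg (E - Finsupp.single p 1 - D)).toNat := by
      have : dg (E - Finsupp.single p 1 - D) = dg (E - D) - 1 := by
        rw [map_sub, map_sub, map_sub, dg_sgl]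
        ring
      rw [this]
      omega
    have h3 := hs _ p hE' (ih hE' h2)
    rwa [sub_add_cancel] at h3

end Vale.Agent.P019P
end

section

/-!
# Graded bases
-/

namespace Vale.Agent.P019P

open Polynomial IntermediateField

section

variable {k F : Type*} [Field k] [Field F] [Algebra k F]

/-- a filtration of a subspace of `F` by finite dimensional spaces, compatible with multiplication
by `x`. -/
structure Flt (x : F) (M : ℤ → Submodule k F) : Prop where
  fin : ∀ r, FiniteDimensional k (M r)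
  neg : ∀ r, r < 0 → M r = ⊥
  mono : Monotone M
  mul : ∀ r z, z ∈ M r → x * z ∈ M (r + 1)
  colon : ∀ r s z, z ∈ M s → x * z ∈ M r → z ∈ M (r - 1)

/-- a graded basis of a filtration. -/
structure GrB (x : F) (M : ℤ → Submodule k F) {ι : Type*} [Fintype ι] (e : ι → F)
    (a : ι → ℕ) : Prop where
  mem : ∀ i, e i ∈ M (a i)
  ind : LinearIndependent k⟮x⟯ e
  span : ∀ (r : ℤ) (z : F), z ∈ M r → ∃ φ : ι → k[X], z = ∑ i, aeval x (φ i) * e i ∧
    ∀ i, φ i ≠ 0 → ((φ i).natDegree : ℤ) + a i ≤ r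

/-- complement of a subspace by a family. -/
private theorem CGrA_cpl (V W : Submodule k F) [FiniteDimensional k V] :
    ∃ (n : ℕ) (e : Fin n → F), (∀ i, e i ∈ V) ∧
      (∀ c : Fin n → k, ∑ i, c i • e i ∈ W → ∀ i, c i = 0) ∧
      ∀ z ∈ V, ∃ c : Fin n → k, z - ∑ i, c i • e i ∈ W := by
  let W' := W.comap V.subtype
  let b := Module.finBasis k (V ⧸ W')
  have hl : ∀ i, ∃ v : V, W'.mkQ v = b i := fun i => W'.mkQ_surjective (b i)
  choose v hv using hl
  refine ⟨Module.finrank k (V ⧸ W'), fun i => (v i : F), fun i => (v i).2, ?_, ?_⟩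
  · intro c hc i
    have h1 : (∑ i, c i • v i) ∈ W' := by
      show V.subtype (∑ i, c i • v i) ∈ W
      rw [map_sum]
      exact hc
    have h2 : ∑ i, c i • b i = 0 := by
      have h3 : W'.mkQ (∑ i, c i • v i) = 0 := (Submodule.Quotient.mk_eq_zero W').2 h1
      rw [map_sum] at h3
      rw [← h3]
      exact Finset.sum_congr rfl fun j _ => by rw [map_smul, hv]
    exact (Fintype.linearIndependent_iff.1 b.linearIndependent) c h2 i
  · intro z hz
    refine ⟨fun i => b.repr (W'.mkQ ⟨z, hz⟩) i, ?_⟩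
    have h1 : ((⟨z, hz⟩ : V) - ∑ i, b.repr (W'.mkQ ⟨z, hz⟩) i • v i) ∈ W' := by
      rw [← Submodule.Quotient.mk_eq_zero W']
      show W'.mkQ ((⟨z, hz⟩ : V) - ∑ i, b.repr (W'.mkQ ⟨z, hz⟩) i • v i) = 0
      rw [map_sub, map_sum, sub_eq_zero]
      conv_lhs => rw [← b.sum_repr (W'.mkQ ⟨z, hz⟩)]
      exact Finset.sum_congr rfl fun j _ => by rw [map_smul, hv]
    have h2 : V.subtype ((⟨z, hz⟩ : V) - ∑ i, b.repr (W'.mkQ ⟨z, hz⟩) i • v i) ∈ W := h1
    rw [map_sub, map_sum] at h2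
    exact h2

private theorem CGrA_pow {x : F} {M : ℤ → Submodule k F} (h : Flt x M) {s : ℤ} {z : F}
    (hz : z ∈ M s) (j : ℕ) : x ^ j * z ∈ M (s + j) := by
  induction j with
  | zero => simpa using hz
  | succ j ih =>
    have h1 := h.mul _ _ ih
    rw [← mul_assoc, ← pow_succ'] at h1
    rw [Nat.cast_succ, ← add_assoc]
    exact h1

/-- the triangular step. -/
private theorem CGrA_tri {x : F} {M : ℤ → Submodule k F} (h : Flt x M) {ι : Type*} [Fintype ι]
    (e : ι → F) (a : ι → ℕ) (h1 : ∀ i, e i ∈ M (a i))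
    (h2 : ∀ (r : ℕ) (c : ι → k), (∃ z₁ ∈ M ((r : ℤ) - 1), ∃ z₂ ∈ M ((r : ℤ) - 1),
      (∑ i, if a i = r then c i • e i else 0) = z₁ + x * z₂) → ∀ i, a i = r → c i = 0)
    (c : ι → k) : ∀ r : ℕ,
      (∑ i, if a i ≤ r then c i • (x ^ (r - a i) * e i) else 0) ∈ M ((r : ℤ) - 1) →
      ∀ i, a i ≤ r → c i = 0 := by
  intro r
  induction r with
  | zero =>
    intro hr i hi
    refine h2 0 c ⟨_, hr, 0, Submodule.zero_mem _, ?_⟩ i (by omega)
    rw [mul_zero, add_zero]
    refine Finset.sum_congr rfl fun j _ => ?_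
    by_cases hj : a j = 0
    · rw [if_pos hj, if_pos hj.le, hj, Nat.sub_self, pow_zero, one_mul]
    · rw [if_neg hj, if_neg (by omega)]
  | succ r ih =>
    intro hr
    have hr' : (((r + 1 : ℕ) : ℤ) - 1) = r := by push_cast; ring
    rw [hr'] at hr
    have e1 : (∑ i, if a i ≤ r + 1 then c i • (x ^ (r + 1 - a i) * e i) else 0) =
        x * (∑ i, if a i ≤ r then c i • (x ^ (r - a i) * e i) else 0) +
          ∑ i, if a i = r + 1 then c i • e i else 0 := by
      rw [Finset.mul_sum, ← Finset.sum_add_distrib]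
      refine Finset.sum_congr rfl fun j _ => ?_
      rcases lt_trichotomy (a j) (r + 1) with hj | hj | hj
      · rw [if_pos hj.le, if_pos (by omega), if_neg (by omega), add_zero, mul_smul_comm,
          ← mul_assoc, ← pow_succ', show r + 1 - a j = r - a j + 1 by omega]
      · rw [if_pos hj.le, if_neg (by omega), if_pos hj, hj, Nat.sub_self, pow_zero, one_mul,
          mul_zero, zero_add]
      · rw [if_neg (by omega), if_neg (by omega), if_neg (by omega), mul_zero, zero_add]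
    have hSr : (∑ i, if a i ≤ r then c i • (x ^ (r - a i) * e i) else 0) ∈ M (r : ℤ) := by
      refine Submodule.sum_mem _ fun j _ => ?_
      split_ifs with hj
      · refine Submodule.smul_mem _ _ ?_
        have h3 := CGrA_pow h (h1 j) (r - a j)
        have h4 : ((a j : ℤ) + ((r - a j : ℕ) : ℤ)) = r := by omega
        rwa [h4] at h3
      · exact Submodule.zero_mem _
    have hc1 := h2 (r + 1) c ⟨_, hr' ▸ hr, _, hr' ▸ (Submodule.neg_mem _ hSr), by
      rw [e1]; ring⟩
    have e2 : (∑ i, if a i = r + 1 then c i • e i else 0) = 0 := by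
      refine Finset.sum_eq_zero fun j _ => ?_
      split_ifs with hj
      · rw [hc1 j hj, zero_smul]
      · rfl
    rw [e1, e2, add_zero] at hr
    have h5 := ih (h.colon _ _ _ hSr hr)
    intro i hi
    rcases Nat.lt_or_ge (a i) (r + 1) with h6 | h6
    · exact h5 i (by omega)
    · exact hc1 i (by omega)

/-- independence. -/
private theorem CGrA_ind {x : F} {M : ℤ → Submodule k F} (h : Flt x M)
    (hx : Transcendental k x) {ι : Type*} [Fintype ι]
    (e : ι → F) (a : ι → ℕ) (h1 : ∀ i, e i ∈ M (a i))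
    (h2 : ∀ (r : ℕ) (c : ι → k), (∃ z₁ ∈ M ((r : ℤ) - 1), ∃ z₂ ∈ M ((r : ℤ) - 1),
      (∑ i, if a i = r then c i • e i else 0) = z₁ + x * z₂) → ∀ i, a i = r → c i = 0) :
    LinearIndependent k⟮x⟯ e := by
  refine indep_of_poly hx fun φ h0 => ?_
  have key : ∀ N : ℕ, (∀ i j, N + 1 ≤ j + a i → (φ i).coeff j = 0) →
      ∀ i j, N ≤ j + a i → (φ i).coeff j = 0 := by
    intro N hN
    have h3 : (∑ i, if a i ≤ N then (φ i).coeff (N - a i) • (x ^ (N - a i) * e i) else 0) ∈
        M ((N : ℤ) - 1) := by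
      have h4 : (∑ i, (aeval x (φ i) * e i -
          if a i ≤ N then (φ i).coeff (N - a i) • (x ^ (N - a i) * e i) else 0)) ∈
          M ((N : ℤ) - 1) := by
        refine Submodule.sum_mem _ fun i _ => ?_
        by_cases hi : a i ≤ N
        · rw [if_pos hi]
          have hd : (φ i).natDegree < N - a i + 1 := by
            rw [Nat.lt_succ_iff, natDegree_le_iff_coeff_eq_zero]
            intro j hj
            exact hN i j (by omega)
          rw [aeval_eq_sum_range' hd, Finset.sum_range_succ, add_mul, Finset.sum_mul,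
            smul_mul_assoc, add_sub_cancel_right]
          refine Submodule.sum_mem _ fun j hj => ?_
          rw [smul_mul_assoc]
          refine Submodule.smul_mem _ _ (h.mono ?_ (CGrA_pow h (h1 i) j))
          have := Finset.mem_range.1 hj
          omega
        · rw [if_neg hi, sub_zero]
          have h5 : φ i = 0 := by
            ext j
            rw [coeff_zero]
            exact hN i j (by omega)
          rw [h5, map_zero, zero_mul]
          exact Submodule.zero_mem _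
      rw [Finset.sum_sub_distrib, h0, zero_sub] at h4
      exact (Submodule.neg_mem_iff _).1 h4
    have h6 := CGrA_tri h e a h1 h2 (fun i => (φ i).coeff (N - a i)) N h3
    intro i j hij
    rcases Nat.lt_or_ge N (j + a i) with h7 | h7
    · exact hN i j h7
    · have h8 := h6 i (by omega)
      rwa [show N - a i = j by omega] at h8
  have hbig : ∀ i j, (∑ i, ((φ i).natDegree + a i)) + 1 ≤ j + a i → (φ i).coeff j = 0 := by
    intro i j hij
    refine coeff_eq_zero_of_natDegree_lt ?_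
    have := Finset.single_le_sum (f := fun i => (φ i).natDegree + a i)
      (fun _ _ => Nat.zero_le _) (Finset.mem_univ i)
    omega
  have hall : ∀ N : ℕ, (∀ i j, N ≤ j + a i → (φ i).coeff j = 0) → ∀ i j, (φ i).coeff j = 0 := by
    intro N
    induction N with
    | zero => intro hN i j; exact hN i j (Nat.zero_le _)
    | succ N ih => intro hN; exact ih (key N hN)
  intro i
  ext j
  rw [coeff_zero]
  exact hall _ hbig i j

/-- the span. -/
private theorem CGrA_span {x : F} {M : ℤ → Submodule k F} (h : Flt x M) {ι : Type*} [Fintype ι]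
    (e : ι → F) (a : ι → ℕ)
    (h3 : ∀ (r : ℕ) (z : F), z ∈ M r → ∃ c : ι → k, ∃ z₁ ∈ M ((r : ℤ) - 1),
      ∃ z₂ ∈ M ((r : ℤ) - 1), z = (∑ i, if a i = r then c i • e i else 0) + (z₁ + x * z₂)) :
    ∀ (N : ℕ) (z : F), z ∈ M ((N : ℤ) - 1) → ∃ φ : ι → k[X], z = ∑ i, aeval x (φ i) * e i ∧
      ∀ i j, (φ i).coeff j ≠ 0 → j + a i < N := by
  intro N
  induction N with
  | zero =>
    intro z hz
    rw [h.neg _ (by norm_num), Submodule.mem_bot] at hz
    refine ⟨fun _ => 0, ?_, ?_⟩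
    · rw [hz]
      simp
    · intro i j hj
      exact absurd (coeff_zero j) hj
  | succ N ih =>
    intro z hz
    have hr' : (((N + 1 : ℕ) : ℤ) - 1) = N := by push_cast; ring
    rw [hr'] at hz
    obtain ⟨c, z₁, hz₁, z₂, hz₂, hzz⟩ := h3 N z hz
    obtain ⟨φ₁, e₁, d₁⟩ := ih z₁ hz₁
    obtain ⟨φ₂, e₂, d₂⟩ := ih z₂ hz₂
    refine ⟨fun i => (if a i = N then C (c i) else 0) + (φ₁ i + X * φ₂ i), ?_, ?_⟩
    · rw [hzz]
      conv_lhs => rw [e₁, e₂]
      rw [Finset.mul_sum, ← Finset.sum_add_distrib, ← Finset.sum_add_distrib]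
      refine Finset.sum_congr rfl fun i _ => ?_
      rw [map_add, map_add, map_mul, aeval_X]
      split_ifs
      · rw [aeval_C, Algebra.smul_def]
        ring
      · rw [map_zero]
        ring
    · intro i j hj
      by_contra hcon
      apply hj
      rw [coeff_add, coeff_add]
      have g1 : (φ₁ i).coeff j = 0 := by
        by_contra hne
        have := d₁ i j hne
        omega
      have g2 : (X * φ₂ i).coeff j = 0 := by
        cases j with
        | zero => rw [mul_coeff_zero, coeff_X_zero, zero_mul]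
        | succ j =>
          rw [coeff_X_mul]
          by_contra hne
          have := d₂ i j hne
          omega
      have g3 : (if a i = N then C (c i) else (0 : k[X])).coeff j = 0 := by
        split_ifs with hi
        · rw [coeff_C_of_ne_zero]
          omega
        · exact coeff_zero j
      rw [g1, g2, g3, add_zero, add_zero]

/-- existence of graded bases. -/
theorem Flt.exists_GrB {x : F} {M : ℤ → Submodule k F} (h : Flt x M) (hx : Transcendental k x)
    [FiniteDimensional k⟮x⟯ F] : ∃ (n : ℕ) (e : Fin n → F) (a : Fin n → ℕ), GrB x M e a := by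
  classical
  have hex : ∀ r : ℕ, ∃ (n : ℕ) (e : Fin n → F), (∀ i, e i ∈ M r) ∧
      (∀ c : Fin n → k, ∑ i, c i • e i ∈
        M ((r : ℤ) - 1) ⊔ (M ((r : ℤ) - 1)).map (LinearMap.mulLeft k x) → ∀ i, c i = 0) ∧
      ∀ z ∈ M r, ∃ c : Fin n → k, z - ∑ i, c i • e i ∈
        M ((r : ℤ) - 1) ⊔ (M ((r : ℤ) - 1)).map (LinearMap.mulLeft k x) := by
    intro r
    have := h.fin r
    exact CGrA_cpl (M r) _
  choose n e he1 he2 he3 using hex
  have hW : ∀ (r : ℕ) (w : F),
      w ∈ M ((r : ℤ) - 1) ⊔ (M ((r : ℤ) - 1)).map (LinearMap.mulLeft k x) ↔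
        ∃ z₁ ∈ M ((r : ℤ) - 1), ∃ z₂ ∈ M ((r : ℤ) - 1), w = z₁ + x * z₂ := by
    intro r w
    rw [Submodule.mem_sup]
    constructor
    · rintro ⟨y, hy, z, hz, rfl⟩
      obtain ⟨z', hz', rfl⟩ := Submodule.mem_map.1 hz
      exact ⟨y, hy, z', hz', rfl⟩
    · rintro ⟨y, hy, z, hz, rfl⟩
      exact ⟨y, hy, x * z, Submodule.mem_map.2 ⟨z, hz, rfl⟩, rfl⟩
  -- the sums over the finite families
  have hsum : ∀ (R r : ℕ) (hr : r < R) (c : (Σ s : Fin R, Fin (n s)) → k),
      (∑ p : (Σ s : Fin R, Fin (n s)), if (p.1 : ℕ) = r then c p • e p.1 p.2 else 0) =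
        ∑ i : Fin (n r), c ⟨⟨r, hr⟩, i⟩ • e r i := by
    intro R r hr c
    rw [Fintype.sum_sigma, Finset.sum_eq_single (⟨r, hr⟩ : Fin R)]
    · exact Finset.sum_congr rfl fun i _ => if_pos rfl
    · intro s _ hs
      refine Finset.sum_eq_zero fun i _ => if_neg ?_
      intro h4
      exact hs (Fin.ext h4)
    · intro h4
      exact absurd (Finset.mem_univ _) h4
  have hI1 : ∀ (R : ℕ) (p : (Σ s : Fin R, Fin (n s))), e p.1 p.2 ∈ M ((p.1 : ℕ) : ℤ) :=
    fun R p => he1 p.1 p.2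
  have hI2 : ∀ (R : ℕ) (r : ℕ) (c : (Σ s : Fin R, Fin (n s)) → k),
      (∃ z₁ ∈ M ((r : ℤ) - 1), ∃ z₂ ∈ M ((r : ℤ) - 1),
        (∑ p : (Σ s : Fin R, Fin (n s)), if (p.1 : ℕ) = r then c p • e p.1 p.2 else 0) =
          z₁ + x * z₂) → ∀ p : (Σ s : Fin R, Fin (n s)), (p.1 : ℕ) = r → c p = 0 := by
    intro R r c hc p hp
    have hr : r < R := hp ▸ p.1.2
    rw [hsum R r hr] at hc
    have h4 := he2 r _ ((hW r _).2 hc)
    obtain ⟨⟨s, hs⟩, i⟩ := p
    simp only at hp
    subst hp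
    exact h4 i
  have hind : ∀ R : ℕ, LinearIndependent k⟮x⟯
      (fun p : (Σ s : Fin R, Fin (n s)) => e p.1 p.2) := fun R =>
    CGrA_ind h hx (fun p : (Σ s : Fin R, Fin (n s)) => e p.1 p.2) (fun p => (p.1 : ℕ)) (hI1 R)
      (hI2 R)
  -- finiteness
  have hbd : ∀ R : ℕ, ∑ s ∈ Finset.range R, n s ≤ Module.finrank k⟮x⟯ F := by
    intro R
    have h4 := (hind R).fintype_card_le_finrank
    rw [Fintype.card_sigma] at h4
    simp only [Fintype.card_fin] at h4
    rwa [Fin.sum_univ_eq_sum_range (fun s => n s) R] at h4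
  obtain ⟨R, hR⟩ : ∃ R : ℕ, ∀ s, R ≤ s → n s = 0 := by
    have hb : BddAbove (Set.range fun R : ℕ => ∑ s ∈ Finset.range R, n s) :=
      ⟨_, by rintro _ ⟨R, rfl⟩; exact hbd R⟩
    obtain ⟨R, hR⟩ := Nat.sSup_mem (Set.range_nonempty fun R : ℕ => ∑ s ∈ Finset.range R, n s) hb
    refine ⟨R, fun s hs => ?_⟩
    have h4 : ∑ s ∈ Finset.range (s + 1), n s ≤ ∑ s ∈ Finset.range R, n s := by
      have h5 := le_csSup hb (Set.mem_range_self (f := fun R : ℕ => ∑ s ∈ Finset.range R, n s)
        (s + 1))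
      rw [← hR] at h5
      exact h5
    have h6 : ∑ s ∈ Finset.range R, n s ≤ ∑ s ∈ Finset.range s, n s :=
      Finset.sum_le_sum_of_subset (Finset.range_subset_range.2 hs)
    rw [Finset.sum_range_succ] at h4
    omega
  -- the third property
  have hI3 : ∀ (r : ℕ) (z : F), z ∈ M r → ∃ c : (Σ s : Fin R, Fin (n s)) → k,
      ∃ z₁ ∈ M ((r : ℤ) - 1), ∃ z₂ ∈ M ((r : ℤ) - 1),
      z = (∑ p : (Σ s : Fin R, Fin (n s)), if (p.1 : ℕ) = r then c p • e p.1 p.2 else 0) +
        (z₁ + x * z₂) := by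
    intro r z hz
    obtain ⟨c, hc⟩ := he3 r z hz
    obtain ⟨z₁, hz₁, z₂, hz₂, hzz⟩ := (hW r _).1 hc
    rcases Nat.lt_or_ge r R with hr | hr
    · refine ⟨fun p => if hp : (p.1 : ℕ) = r then c (hp ▸ p.2) else 0, z₁, hz₁, z₂, hz₂, ?_⟩
      rw [hsum R r hr, ← hzz]
      have h4 : ∀ i : Fin (n r), (if hp : r = r then c (hp ▸ i) else 0) = c i := by
        intro i
        rw [dif_pos rfl]
      have h5 : (∑ i : Fin (n r), (if hp : r = r then c (hp ▸ i) else 0) • e r i) =
          ∑ i, c i • e r i := Finset.sum_congr rfl fun i _ => by rw [h4]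
      show z = (∑ i : Fin (n r), (if hp : r = r then c (hp ▸ i) else 0) • e r i) + _
      rw [h5]
      ring
    · refine ⟨0, z₁, hz₁, z₂, hz₂, ?_⟩
      have h4 : ∑ i, c i • e r i = 0 := by
        refine Finset.sum_eq_zero fun i _ => ?_
        have h9 := i.2
        have h10 := hR r hr
        omega
      rw [h4, sub_zero] at hzz
      have h5 : (∑ p : (Σ s : Fin R, Fin (n s)),
          if (p.1 : ℕ) = r then (0 : (Σ s : Fin R, Fin (n s)) → k) p • e p.1 p.2 else 0) = 0 := by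
        refine Finset.sum_eq_zero fun p _ => ?_
        split_ifs
        · rw [Pi.zero_apply, zero_smul]
        · rfl
      rw [h5, zero_add]
      exact hzz
  have hspan := CGrA_span h (fun p : (Σ s : Fin R, Fin (n s)) => e p.1 p.2) (fun p => (p.1 : ℕ))
    hI3
  have hspan2 : ∀ (r : ℤ) (z : F), z ∈ M r → ∃ φ : (Σ s : Fin R, Fin (n s)) → k[X],
      z = ∑ p, aeval x (φ p) * e p.1 p.2 ∧
        ∀ p, φ p ≠ 0 → ((φ p).natDegree : ℤ) + ((p.1 : ℕ) : ℤ) ≤ r := by
    intro r z hz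
    rcases lt_or_ge r 0 with hr | hr
    · rw [h.neg _ hr, Submodule.mem_bot] at hz
      refine ⟨fun _ => 0, ?_, fun p hp => absurd rfl hp⟩
      rw [hz]
      simp
    · obtain ⟨N, rfl⟩ := Int.eq_ofNat_of_zero_le hr
      obtain ⟨φ, hφ1, hφ2⟩ := hspan (N + 1) z (by
        have hr' : (((N + 1 : ℕ) : ℤ) - 1) = N := by push_cast; ring
        rw [hr']
        exact hz)
      refine ⟨φ, hφ1, fun p hp => ?_⟩
      have h4 := hφ2 p (φ p).natDegree (by
        rw [coeff_natDegree]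
        exact leadingCoeff_ne_zero.2 hp)
      omega
  -- reindexing
  let E := Fintype.equivFin (Σ s : Fin R, Fin (n s))
  refine ⟨Fintype.card (Σ s : Fin R, Fin (n s)), fun i => e (E.symm i).1 (E.symm i).2,
    fun i => ((E.symm i).1 : ℕ), ⟨fun i => hI1 R (E.symm i), ?_, ?_⟩⟩
  · exact (hind R).comp E.symm E.symm.injective
  · intro r z hz
    obtain ⟨φ, hφ1, hφ2⟩ := hspan2 r z hz
    refine ⟨fun i => φ (E.symm i), ?_, fun i hi => hφ2 (E.symm i) hi⟩
    rw [hφ1]
    exact (E.symm.sum_comp fun p => aeval x (φ p) * e p.1 p.2).symm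

end

end Vale.Agent.P019P
end

section

/-!
# Function fields of one variable over an algebraically closed field: interface

Definitions: `CFF`, `Plk`, `IsOrd` (CDef), `ord`, `ord_spec`, `exists_isOrd`, `exists_cst` (CVal),
`dv_finite`, `fib_finite`, `dv` (CZero), `dv_eq_zero_iff`, `prn`, `LL` (CPole), `LL_finite` (CL),
`dg_dv`, `fib_sum`, `pol` (CDeg), `exists_RR`, `gen`, `can`, `RR` (CDual), `gen_le` (CGb),
`gen_eq` (CIso), `RH` (CRH), `exists_sep`, `finite_of_notMem` (CFld).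
-/
end

section

/-!
# The abstract zeta theorem: data
-/

namespace Vale.Agent.P019P

/-- the data of a curve over (the closure of) a finite field needed for the zeta function:
`P` is the set of places, `σ` the `q`-Frobenius. -/
structure ZDat (P : Type*) where
  σ : Equiv.Perm P
  q : ℕ
  g : ℕ
  prin : AddSubgroup (P →₀ ℤ)
  l : (P →₀ ℤ) → ℕ
  κ : P →₀ ℤ
  P0 : P
  two_le : 2 ≤ q
  fix0 : σ P0 = P0
  per : ∀ p, ∃ n : ℕ, 0 < n ∧ (σ ^ n) p = p
  fin : ∀ n : ℕ, 0 < n → {p | (σ ^ n) p = p}.Finite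
  deg_prin : ∀ D ∈ prin, dg D = 0
  sig_prin : ∀ D, D ∈ prin ↔ D.mapDomain σ ∈ prin
  rr : ∀ D, (l D : ℤ) - l (κ - D) = dg D + 1 - g
  l_neg : ∀ D, dg D < 0 → l D = 0
  l_prin : ∀ D ∈ prin, l D = 1
  l_zero : ∀ D, dg D = 0 → D ∉ prin → l D = 0
  count : ∀ n : ℕ, 0 < n → ∀ D, D.mapDomain (σ ^ n) - D ∈ prin →
    Nat.card {E : P →₀ ℤ // 0 ≤ E ∧ E.mapDomain (σ ^ n) = E ∧ E - D ∈ prin} * (q ^ n - 1) =
      q ^ (n * l D) - 1

end Vale.Agent.P019P
end

section

/-!
# Logarithmic derivatives of power series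
-/

namespace Vale.Agent.P019P

open PowerSeries

variable {R : Type*} [CommRing R]

/-- `S` is the logarithmic derivative `X A' / A` of `A`. -/
def LD (A S : R⟦X⟧) : Prop := X * (d⁄dX R A) = A * S

/-- the power series `∑_{m ≥ 1} s m X^m`. -/
noncomputable def pos (s : ℕ → R) : R⟦X⟧ := PowerSeries.mk fun m => if m = 0 then 0 else s m

theorem LD.mul {A B S T : R⟦X⟧} (h1 : LD A S) (h2 : LD B T) : LD (A * B) (S + T) := by
  unfold LD at *
  rw [Derivation.leibniz, smul_eq_mul, smul_eq_mul]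
  calc X * (A * (d⁄dX R) B + B * (d⁄dX R) A)
      = A * (X * (d⁄dX R) B) + B * (X * (d⁄dX R) A) := by ring
    _ = A * B * (S + T) := by rw [h1, h2]; ring

theorem LD_of_rec (a s : ℕ → R)
    (h : ∀ M : ℕ, (M : R) * a M = ∑ m ∈ Finset.Icc 1 M, s m * a (M - m)) :
    LD (PowerSeries.mk a) (pos s) := by
  unfold LD
  ext M
  have hL : coeff M (X * (d⁄dX R) (PowerSeries.mk a)) = (M : R) * a M := by
    cases M with
    | zero => simp
    | succ k =>
      rw [coeff_succ_X_mul, coeff_derivative, coeff_mk]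
      push_cast
      ring
  rw [hL, h M, mul_comm (PowerSeries.mk a), coeff_mul,
    Finset.Nat.sum_antidiagonal_eq_sum_range_succ_mk]
  have hs : Finset.Icc 1 M ⊆ Finset.range (M + 1) := by
    intro m hm
    rw [Finset.mem_Icc] at hm
    rw [Finset.mem_range]
    omega
  rw [← Finset.sum_subset hs]
  · refine Finset.sum_congr rfl fun m hm => ?_
    rw [Finset.mem_Icc] at hm
    have : m ≠ 0 := by omega
    simp only [pos, coeff_mk, if_neg this]
  · intro m hm1 hm2
    rw [Finset.mem_range] at hm1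
    rw [Finset.mem_Icc] at hm2
    have : m = 0 := by omega
    simp only [pos, coeff_mk, if_pos this, zero_mul]

theorem LD_lin (a : R) : LD (1 - C a * X) (pos fun m => -a ^ m) := by
  unfold LD
  have h1 : (d⁄dX R) (1 - C a * X : R⟦X⟧) = - C a := by
    rw [map_sub, Derivation.leibniz, derivative_X, derivative_C, smul_zero, add_zero,
      smul_eq_mul, mul_one, Derivation.map_one_eq_zero, zero_sub]
  rw [h1, sub_mul, one_mul, mul_assoc]
  ext n
  rw [map_sub, coeff_C_mul]
  rcases n with _ | _ | n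
  · simp [pos]
  · rw [coeff_succ_X_mul, coeff_succ_X_mul]
    simp [pos]
  · rw [coeff_succ_X_mul, coeff_succ_X_mul, map_neg, coeff_C, if_neg (Nat.succ_ne_zero n)]
    simp only [pos, coeff_mk, Nat.add_eq_zero_iff, one_ne_zero, and_false, if_false]
    ring

theorem pos_add (s t : ℕ → R) : pos s + pos t = pos fun m => s m + t m := by
  ext n
  simp only [pos, map_add, coeff_mk]
  split_ifs
  · rw [add_zero]
  · rfl

theorem pos_inj {s t : ℕ → R} (h : pos s = pos t) (m : ℕ) (hm : 0 < m) : s m = t m := by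
  have h1 := congrArg (coeff m) h
  simpa only [pos, coeff_mk, if_neg hm.ne'] using h1

theorem pos_congr {s t : ℕ → R} (h : ∀ m, 0 < m → s m = t m) : pos s = pos t := by
  ext n
  simp only [pos, coeff_mk]
  split_ifs with h0
  · rfl
  · exact h n (Nat.pos_of_ne_zero h0)

theorem LD_prod (A : Multiset R) :
    LD ((A.map fun a => (1 : R⟦X⟧) - C a * X).prod) (pos fun m => -(A.map fun a => a ^ m).sum) := by
  induction A using Multiset.induction_on with
  | empty =>
    unfold LD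
    ext n
    simp [pos]
  | cons a A ih =>
    rw [Multiset.map_cons, Multiset.prod_cons]
    have h1 := (LD_lin a).mul ih
    rw [pos_add] at h1
    convert h1 using 2
    funext m
    rw [Multiset.map_cons, Multiset.sum_cons, neg_add]

/-- the logarithmic derivative is unique. -/
theorem LD.right_unique [IsDomain R] {A S T : R⟦X⟧} (h0 : constantCoeff A = 1)
    (h1 : LD A S) (h2 : LD A T) : S = T := by
  have hA : A ≠ 0 := by
    rintro rfl
    simp at h0
  exact mul_left_cancel₀ hA (h1.symm.trans h2)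

/-- a power series with constant coefficient one is determined by its logarithmic derivative. -/
theorem LD.left_unique [IsDomain R] [CharZero R] {A B S : R⟦X⟧} (hA : constantCoeff A = 1)
    (hB : constantCoeff B = 1) (h1 : LD A S) (h2 : LD B S) : A = B := by
  have hS : coeff 0 S = 0 := by
    have h3 := congrArg constantCoeff h1
    rw [map_mul, map_mul, constantCoeff_X, zero_mul, hA, one_mul] at h3
    rw [coeff_zero_eq_constantCoeff_apply]
    exact h3.symm
  ext n
  induction n using Nat.strong_induction_on with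
  | _ n ih =>
    cases n with
    | zero => rw [coeff_zero_eq_constantCoeff_apply, coeff_zero_eq_constantCoeff_apply, hA, hB]
    | succ k =>
      have key : coeff (k + 1) (A * S) = coeff (k + 1) (B * S) := by
        rw [coeff_mul, coeff_mul]
        refine Finset.sum_congr rfl fun p hp => ?_
        have hp' : p.1 + p.2 = k + 1 := Finset.HasAntidiagonal.mem_antidiagonal.1 hp
        rcases Nat.eq_zero_or_pos p.2 with h0 | h0
        · rw [h0, hS, mul_zero, mul_zero]
        · rw [ih p.1 (by omega)]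
      unfold LD at h1 h2
      rw [← h1, ← h2, coeff_succ_X_mul, coeff_succ_X_mul, coeff_derivative,
        coeff_derivative] at key
      exact mul_right_cancel₀ (by exact_mod_cast Nat.succ_ne_zero k) key

end Vale.Agent.P019P
end

section

/-!
# The numerator of the zeta function is a polynomial
-/

namespace Vale.Agent.P019P

open Polynomial

/-- Coefficients of the numerator. -/
def zpB (A : ℕ → ℤ) (Q : ℤ) : ℕ → ℤ
  | 0 => A 0
  | 1 => A 1 - (Q + 1) * A 0
  | m + 2 => A (m + 2) - (Q + 1) * A (m + 1) + Q * A m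

theorem zpB_coeff (A : ℕ → ℤ) (Q : ℤ) (m : ℕ) :
    PowerSeries.coeff m ((1 - PowerSeries.C 1 * PowerSeries.X) *
      (1 - PowerSeries.C Q * PowerSeries.X) * PowerSeries.mk A) = zpB A Q m := by
  have h : (1 - PowerSeries.C (1 : ℤ) * PowerSeries.X) *
      (1 - PowerSeries.C Q * PowerSeries.X) * PowerSeries.mk A =
      PowerSeries.mk A - PowerSeries.C (Q + 1) * (PowerSeries.X * PowerSeries.mk A) +
        PowerSeries.C Q * (PowerSeries.X * (PowerSeries.X * PowerSeries.mk A)) := by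
    rw [map_add, map_one]
    ring
  rw [h, map_add, map_sub, PowerSeries.coeff_C_mul, PowerSeries.coeff_C_mul]
  match m with
  | 0 => simp [zpB]
  | 1 =>
    rw [PowerSeries.coeff_succ_X_mul, PowerSeries.coeff_succ_X_mul, PowerSeries.coeff_mk,
      PowerSeries.coeff_mk, PowerSeries.coeff_zero_X_mul]
    simp [zpB]
  | m + 2 =>
    rw [PowerSeries.coeff_succ_X_mul, PowerSeries.coeff_succ_X_mul,
      PowerSeries.coeff_succ_X_mul, PowerSeries.coeff_mk,
      PowerSeries.coeff_mk, PowerSeries.coeff_mk]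
    simp [zpB]

theorem zpB_sum (A : ℕ → ℤ) (Q : ℤ) (K : ℕ) :
    ∑ m ∈ Finset.range (K + 2), zpB A Q m = A (K + 1) - Q * A K := by
  induction K with
  | zero =>
    rw [Finset.sum_range_succ, Finset.sum_range_one]
    simp only [zpB]
    ring
  | succ K ih =>
    rw [Finset.sum_range_succ, ih]
    simp only [zpB]
    ring

/-- The three facts on the coefficients. -/
theorem zpB_facts (A : ℕ → ℤ) (g : ℕ) (Q h : ℤ) (hQ : 2 ≤ Q) (h0 : A 0 = 1)
    (h1 : ∀ M : ℕ, 2 * g ≤ M + 1 → A M * (Q - 1) = h * (Q ^ (M + 1 - g) - 1))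
    (h2 : 0 < g → A (2 * g - 2) * (Q - 1) = (h - 1) * (Q ^ (g - 1) - 1) + (Q ^ g - 1)) :
    (∀ m, 2 * g < m → zpB A Q m = 0) ∧ zpB A Q (2 * g) = Q ^ g ∧
      ∑ m ∈ Finset.range (2 * g + 1), zpB A Q m = h := by
  have hQ1 : Q - 1 ≠ 0 := by omega
  rcases g with _ | g
  · have e0 := h1 0 (by omega)
    rw [h0] at e0
    simp only [zero_add, Nat.sub_zero, pow_one, one_mul] at e0
    have hh : h = 1 := by
      have : (h - 1) * (Q - 1) = 0 := by linear_combination -e0
      rcases mul_eq_zero.1 this with h3 | h3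
      · omega
      · exact absurd h3 hQ1
    subst hh
    refine ⟨fun m hm => ?_, ?_, ?_⟩
    · apply mul_right_cancel₀ hQ1
      match m, hm with
      | 1, _ =>
        have e1 := h1 1 (by omega)
        simp only [zpB]
        rw [h0]
        norm_num at e1
        linear_combination e1
      | k + 2, _ =>
        have e1 := h1 k (by omega)
        have e2 := h1 (k + 1) (by omega)
        have e3 := h1 (k + 2) (by omega)
        simp only [Nat.sub_zero] at e1 e2 e3
        simp only [zpB]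
        rw [zero_mul]
        have p2 : Q ^ (k + 1 + 1) = Q ^ (k + 1) * Q := pow_succ _ _
        have p3 : Q ^ (k + 2 + 1) = Q ^ (k + 1) * Q * Q := by rw [pow_succ, pow_succ]
        rw [p2] at e2
        rw [p3] at e3
        linear_combination e3 - (Q + 1) * e2 + Q * e1
    · simp only [zpB, pow_zero]
      exact h0
    · simp only [mul_zero, zero_add, Finset.sum_range_one, zpB]
      exact h0
  · have h2' := h2 (by omega)
    have i1 : 2 * (g + 1) - 2 = 2 * g := by omega
    have i2 : g + 1 - 1 = g := by omega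
    rw [i1, i2] at h2'
    have e1 := h1 (2 * g + 1) (by omega)
    have e2 := h1 (2 * g + 2) (by omega)
    have i3 : 2 * g + 1 + 1 - (g + 1) = g + 1 := by omega
    have i4 : 2 * g + 2 + 1 - (g + 1) = g + 2 := by omega
    rw [i3] at e1
    rw [i4] at e2
    have i5 : 2 * (g + 1) = 2 * g + 2 := by ring
    have p1 : Q ^ (g + 1) = Q ^ g * Q := pow_succ _ _
    have p2 : Q ^ (g + 2) = Q ^ g * Q * Q := by rw [pow_succ, pow_succ]
    rw [p1] at e1 h2'
    rw [p2] at e2
    refine ⟨fun m hm => ?_, ?_, ?_⟩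
    · apply mul_right_cancel₀ hQ1
      obtain ⟨k, rfl⟩ : ∃ k, m = k + 2 := ⟨m - 2, by omega⟩
      have e1 := h1 k (by omega)
      have e2 := h1 (k + 1) (by omega)
      have e3 := h1 (k + 2) (by omega)
      obtain ⟨e, he⟩ : ∃ e, k + 1 - (g + 1) = e := ⟨_, rfl⟩
      have j2 : k + 1 + 1 - (g + 1) = e + 1 := by omega
      have j3 : k + 2 + 1 - (g + 1) = e + 2 := by omega
      rw [he] at e1
      rw [j2, pow_succ] at e2
      rw [j3, pow_succ, pow_succ] at e3
      simp only [zpB]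
      linear_combination e3 - (Q + 1) * e2 + Q * e1
    · apply mul_right_cancel₀ hQ1
      rw [i5, p1]
      simp only [zpB]
      linear_combination e2 - (Q + 1) * e1 + Q * h2'
    · have hs := zpB_sum A Q (2 * g + 1)
      have i6 : 2 * (g + 1) + 1 = 2 * g + 1 + 2 := by ring
      rw [i6, hs]
      apply mul_right_cancel₀ hQ1
      linear_combination e2 - Q * e1

theorem poly_L (A : ℕ → ℤ) (g : ℕ) (Q h : ℤ) (hQ : 2 ≤ Q) (h0 : A 0 = 1)
    (h1 : ∀ M : ℕ, 2 * g ≤ M + 1 → A M * (Q - 1) = h * (Q ^ (M + 1 - g) - 1))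
    (h2 : 0 < g → A (2 * g - 2) * (Q - 1) = (h - 1) * (Q ^ (g - 1) - 1) + (Q ^ g - 1)) :
    ∃ L : ℤ[X], L.natDegree ≤ 2 * g ∧ L.coeff 0 = 1 ∧ L.coeff (2 * g) = Q ^ g ∧
      L.eval 1 = h ∧ (L : PowerSeries ℤ) =
        (1 - PowerSeries.C 1 * PowerSeries.X) * (1 - PowerSeries.C Q * PowerSeries.X) *
          PowerSeries.mk A := by
  obtain ⟨f1, f2, f3⟩ := zpB_facts A g Q h hQ h0 h1 h2
  obtain ⟨S, hS⟩ : ∃ S, S = (1 - PowerSeries.C 1 * PowerSeries.X) *
      (1 - PowerSeries.C Q * PowerSeries.X) * PowerSeries.mk A := ⟨_, rfl⟩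
  have hc : ∀ m, PowerSeries.coeff m S = zpB A Q m := fun m => by
    rw [hS]; exact zpB_coeff A Q m
  rw [← hS]
  have hco : ∀ m, (PowerSeries.trunc (2 * g + 1) S).coeff m =
      if m < 2 * g + 1 then zpB A Q m else 0 := fun m => by
    rw [PowerSeries.coeff_trunc, hc]
  have hlt : (PowerSeries.trunc (2 * g + 1) S).natDegree < 2 * g + 1 :=
    PowerSeries.natDegree_trunc_lt _ _
  refine ⟨PowerSeries.trunc (2 * g + 1) S, by omega, ?_, ?_, ?_, ?_⟩
  · rw [hco, if_pos (by omega)]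
    exact h0
  · rw [hco, if_pos (by omega)]
    exact f2
  · rw [Polynomial.eval_eq_sum_range' hlt, ← f3]
    refine Finset.sum_congr rfl fun m hm => ?_
    rw [hco, if_pos (Finset.mem_range.1 hm), one_pow, mul_one]
  · ext m
    rw [Polynomial.coeff_coe, hco, hc]
    split_ifs with hm
    · rfl
    · exact (f1 m (by omega)).symm

end Vale.Agent.P019P
end

section

/-!
# Reciprocal roots
-/

namespace Vale.Agent.P019P

open Polynomial

theorem exists_roots (f : ℂ[X]) (N : ℕ) (hf : f.natDegree ≤ N) (h0 : f.coeff 0 = 1) :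
    ∃ A : Multiset ℂ, Multiset.card A = N ∧ f = (A.map fun a => 1 - C a * X).prod := by
  induction N generalizing f with
  | zero =>
    refine ⟨0, rfl, ?_⟩
    rw [Multiset.map_zero, Multiset.prod_zero, eq_C_of_natDegree_le_zero hf, h0, C_1]
  | succ N ih =>
    by_cases hN : f.natDegree ≤ N
    · obtain ⟨A, hA, h⟩ := ih f hN h0
      refine ⟨0 ::ₘ A, by simp [hA], ?_⟩
      rw [Multiset.map_cons, Multiset.prod_cons, ← h]
      simp
    · have hd : f.natDegree = N + 1 := by omega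
      have hdeg : f.degree ≠ 0 := by
        intro h
        have h' : f.natDegree = 0 := natDegree_eq_of_degree_eq_some h
        omega
      obtain ⟨r, hr⟩ := IsAlgClosed.exists_root f hdeg
      have hr0 : r ≠ 0 := by
        rintro rfl
        rw [IsRoot.def, ← coeff_zero_eq_eval_zero, h0] at hr
        exact one_ne_zero hr
      obtain ⟨g, hg⟩ := dvd_iff_isRoot.2 hr
      have hf0 : f ≠ 0 := by
        rintro rfl
        simp at h0
      have hg0 : g ≠ 0 := by
        rintro rfl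
        rw [mul_zero] at hg
        exact hf0 hg
      have hgd : g.natDegree = N := by
        rw [hg, natDegree_mul (X_sub_C_ne_zero r) hg0, natDegree_X_sub_C] at hd
        omega
      have e : f = (1 - C r⁻¹ * X) * (C (-r) * g) := by
        rw [hg, ← mul_assoc]
        congr 1
        have h1 : (C r⁻¹ : ℂ[X]) * C r = 1 := by
          rw [← C_mul, inv_mul_cancel₀ hr0, C_1]
        rw [C_neg]
        linear_combination (-X : ℂ[X]) * h1
      have hc : (C (-r) * g).coeff 0 = 1 := by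
        have h2 := h0
        rw [e, mul_coeff_zero] at h2
        simpa using h2
      obtain ⟨A, hA, h⟩ := ih (C (-r) * g) ((natDegree_C_mul_le _ _).trans hgd.le) hc
      refine ⟨r⁻¹ ::ₘ A, by simp [hA], ?_⟩
      rw [Multiset.map_cons, Multiset.prod_cons, ← h]
      exact e

/-- evaluation of a polynomial with known power series. -/
theorem coe_prod_lin (A : Multiset ℂ) :
    (((A.map fun a => 1 - C a * X).prod : ℂ[X]) : PowerSeries ℂ) =
      (A.map fun a => (1 : PowerSeries ℂ) - PowerSeries.C a * PowerSeries.X).prod := by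
  induction A using Multiset.induction_on with
  | empty => simp
  | cons a A ih =>
    rw [Multiset.map_cons, Multiset.prod_cons, Multiset.map_cons, Multiset.prod_cons,
      Polynomial.coe_mul, ih, Polynomial.coe_sub, Polynomial.coe_mul, Polynomial.coe_C,
      Polynomial.coe_X, Polynomial.coe_one]

theorem coe_map_int (f : ℤ[X]) :
    ((f.map (Int.castRingHom ℂ) : ℂ[X]) : PowerSeries ℂ) =
      PowerSeries.map (Int.castRingHom ℂ) (f : PowerSeries ℤ) := by
  ext n
  rw [Polynomial.coeff_coe, Polynomial.coeff_map, PowerSeries.coeff_map, Polynomial.coeff_coe]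

theorem eval_prod_lin (A : Multiset ℂ) :
    ((A.map fun a => 1 - C a * X).prod : ℂ[X]).eval 1 = (A.map fun a => 1 - a).prod := by
  induction A using Multiset.induction_on with
  | empty => simp
  | cons a A ih =>
    rw [Multiset.map_cons, Multiset.prod_cons, Multiset.map_cons, Multiset.prod_cons, eval_mul, ih]
    simp

end Vale.Agent.P019P
end

section

/-!
# Growth of `det (1 - M ^ n)`
-/

namespace Vale.Agent.P019P

open Polynomial

/-- Two integer matrices with the same image modulo `m` differ by a multiple of `m`. -/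
theorem exists_eq_add_smul {N : ℕ} (m : ℕ) (A B : Matrix (Fin N) (Fin N) ℤ)
    (h : (Int.castRingHom (ZMod m)).mapMatrix A = (Int.castRingHom (ZMod m)).mapMatrix B) :
    ∃ Y : Matrix (Fin N) (Fin N) ℤ, A = B + (m : ℤ) • Y := by
  have key : ∀ i j, ∃ y : ℤ, A i j = B i j + (m : ℤ) * y := by
    intro i j
    have h1 : ((A i j : ℤ) : ZMod m) = ((B i j : ℤ) : ZMod m) := by
      have h2 := congrFun (congrFun h i) j
      simpa [RingHom.mapMatrix_apply, Matrix.map_apply] using h2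
    have h3 : ((B i j : ℤ) : ZMod m) = ((A i j : ℤ) : ZMod m) := h1.symm
    rw [ZMod.intCast_eq_intCast_iff_dvd_sub] at h3
    obtain ⟨y, hy⟩ := h3
    exact ⟨y, by linarith⟩
  choose y hy using key
  refine ⟨Matrix.of y, ?_⟩
  ext i j
  simp [hy i j]

/-- If `A` maps to the scalar `c` modulo `ℓ`, with `c` not divisible by `ℓ`, then `ℓ` does not
divide the determinant. -/
theorem not_dvd_det_of_map {ℓ : ℕ} (hℓ : ℓ.Prime) {N : ℕ} (A : Matrix (Fin N) (Fin N) ℤ) (c : ℕ)
    (hc : ¬ ℓ ∣ c)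
    (h : (Int.castRingHom (ZMod ℓ)).mapMatrix A = (c : ZMod ℓ) • (1 : Matrix (Fin N) (Fin N) (ZMod ℓ))) :
    ¬ (ℓ : ℤ) ∣ A.det := by
  have := Fact.mk hℓ
  intro hd
  have h1 : ((A.det : ℤ) : ZMod ℓ) = 0 := (ZMod.intCast_zmod_eq_zero_iff_dvd _ _).2 hd
  have h2 : (Int.castRingHom (ZMod ℓ)) A.det = ((Int.castRingHom (ZMod ℓ)).mapMatrix A).det :=
    RingHom.map_det _ _
  rw [h, Matrix.det_smul, Matrix.det_one, mul_one] at h2
  have h3 : (c : ZMod ℓ) ^ Fintype.card (Fin N) = 0 := by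
    rw [← h2]; simpa using h1
  have h4 : (c : ZMod ℓ) = 0 := eq_zero_of_pow_eq_zero h3
  exact hc ((ZMod.natCast_eq_zero_iff _ _).1 h4)

theorem det_growth {ℓ : ℕ} (hℓ : ℓ.Prime) {N : ℕ} (M : Matrix (Fin N) (Fin N) ℤ)
    (hM : ¬ (ℓ : ℤ) ∣ M.det) :
    ∃ n0 : ℕ, 0 < n0 ∧
      (∀ n, n0 ∣ n → ∃ u : ℤ, ¬ (ℓ : ℤ) ∣ u ∧
        (1 - M ^ (n * ℓ)).det = (1 - M ^ n).det * (ℓ ^ N * u)) ∧
      (∀ n r : ℕ, n0 ∣ n → ¬ ℓ ∣ r → ∃ u : ℤ, ¬ (ℓ : ℤ) ∣ u ∧
        (1 - M ^ (n * r)).det = (1 - M ^ n).det * u) := by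
  classical
  have : NeZero (ℓ ^ 2) := ⟨pow_ne_zero _ hℓ.ne_zero⟩
  set F := (Int.castRingHom (ZMod (ℓ ^ 2))).mapMatrix (m := Fin N) with hF
  -- the reduction of `M` is a unit
  have hunit : IsUnit (F M) := by
    rw [Matrix.isUnit_iff_isUnit_det]
    have h1 : (F M).det = ((M.det : ℤ) : ZMod (ℓ ^ 2)) := by
      rw [hF, ← RingHom.map_det]; rfl
    rw [h1, ZMod.coe_int_isUnit_iff_isCoprime]
    have h2 : IsCoprime ((ℓ : ℤ)) M.det :=
      (Nat.prime_iff_prime_int.1 hℓ).coprime_iff_not_dvd.2 hM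
    have h3 : IsCoprime ((ℓ : ℤ) ^ 2) M.det := IsCoprime.pow_left h2
    simpa using h3
  obtain ⟨U, hU⟩ := hunit
  have hfin : IsOfFinOrder U := isOfFinOrder_of_finite U
  refine ⟨orderOf U, hfin.orderOf_pos, ?_⟩
  have hpow : ∀ n, orderOf U ∣ n → F (M ^ n) = 1 := by
    intro n hn
    rw [map_pow, ← hU, ← Units.val_pow_eq_pow_val, orderOf_dvd_iff_pow_eq_one.1 hn, Units.val_one]
  -- geometric sums
  have hgeom : ∀ n r : ℕ, orderOf U ∣ n →
      ∃ Y : Matrix (Fin N) (Fin N) ℤ,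
        1 - M ^ (n * r) = (1 - M ^ n) * (((r : ℤ) • (1 : Matrix (Fin N) (Fin N) ℤ))
          + ((ℓ ^ 2 : ℕ) : ℤ) • Y) := by
    intro n r hn
    have h1 : F (∑ i ∈ Finset.range r, (M ^ n) ^ i) = F ((r : ℤ) • (1 : Matrix (Fin N) (Fin N) ℤ)) := by
      rw [map_sum]
      have h2 : ∀ i ∈ Finset.range r, F ((M ^ n) ^ i) = 1 := by
        intro i _
        rw [map_pow, hpow n hn, one_pow]
      rw [Finset.sum_congr rfl h2]
      simp
    obtain ⟨Y, hY⟩ := exists_eq_add_smul (ℓ ^ 2) _ _ h1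
    refine ⟨Y, ?_⟩
    rw [← hY, mul_neg_geom_sum, ← pow_mul]
  refine ⟨?_, ?_⟩
  · intro n hn
    obtain ⟨Y, hY⟩ := hgeom n ℓ hn
    refine ⟨(1 + (ℓ : ℤ) • Y).det, ?_, ?_⟩
    · refine not_dvd_det_of_map hℓ _ 1 (by
        intro h; exact hℓ.one_lt.ne' (Nat.dvd_one.1 h)) ?_
      ext i j
      rw [RingHom.mapMatrix_apply, Matrix.map_apply, Matrix.add_apply, Matrix.smul_apply,
        Matrix.smul_apply, Matrix.one_apply, Matrix.one_apply]
      split_ifs <;> simp
    · rw [hY, Matrix.det_mul]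
      congr 1
      have h1 : ((ℓ : ℤ) • (1 : Matrix (Fin N) (Fin N) ℤ)) + ((ℓ ^ 2 : ℕ) : ℤ) • Y
          = (ℓ : ℤ) • (1 + (ℓ : ℤ) • Y) := by
        rw [smul_add, smul_smul]
        congr 2
        push_cast
        ring
      rw [h1, Matrix.det_smul]
      simp
  · intro n r hn hr
    obtain ⟨Y, hY⟩ := hgeom n r hn
    refine ⟨_, ?_, by rw [hY, Matrix.det_mul]⟩
    refine not_dvd_det_of_map hℓ _ r hr ?_
    ext i j
    rw [RingHom.mapMatrix_apply, Matrix.map_apply, Matrix.add_apply, Matrix.smul_apply,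
      Matrix.smul_apply, Matrix.smul_apply, Matrix.one_apply, Matrix.one_apply]
    split_ifs <;> simp

end Vale.Agent.P019P
end

section

/-!
# Fields of roots of unity
-/

namespace Vale.Agent.P019P

/-- the characteristic of a field of roots of unity. -/
theorem exists_prime_char {k : Type*} [Field k] (hf : ∀ a : k, a ≠ 0 → ∃ n : ℕ, 0 < n ∧ a ^ n = 1) :
    ∃ p : ℕ, p.Prime ∧ CharP k p := by
  obtain ⟨p, hp⟩ := CharP.exists k
  rcases CharP.char_is_prime_or_zero k p with h | h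
  · exact ⟨p, h, hp⟩
  · exfalso
    subst h
    have : CharZero k := CharP.charP_to_charZero k
    obtain ⟨n, hn, h1⟩ := hf 2 two_ne_zero
    have h2 : ((2 ^ n : ℕ) : k) = ((1 : ℕ) : k) := by
      push_cast
      exact h1
    have h3 : (2 : ℕ) ^ n = 1 := Nat.cast_injective h2
    have h4 : 1 < 2 ^ n := Nat.one_lt_two_pow hn.ne'
    omega

namespace AuxFFrobA

theorem iter_fix {k : Type*} [Field k] {p m : ℕ} {a : k} (h : a ^ p ^ m = a) (j : ℕ) :
    a ^ p ^ (m * j) = a := by
  induction j with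
  | zero => simp
  | succ j ih =>
    rw [Nat.mul_succ, pow_add, pow_mul, ih, h]

theorem one_fix {k : Type*} [Field k] {p : ℕ} [Fact p.Prime] [CharP k p]
    (hf : ∀ a : k, a ≠ 0 → ∃ n : ℕ, 0 < n ∧ a ^ n = 1) (a : k) :
    ∃ m : ℕ, 0 < m ∧ a ^ p ^ m = a := by
  have hp : p.Prime := Fact.out
  by_cases ha : a = 0
  · subst ha
    exact ⟨1, one_pos, by rw [pow_one, zero_pow hp.ne_zero]⟩
  · obtain ⟨n, hn, h1⟩ := hf a ha
    obtain ⟨r, q, hq, rfl⟩ := Nat.exists_eq_pow_mul_and_not_dvd hn.ne' p hp.ne_one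
    have hq0 : 0 < q := Nat.pos_of_mul_pos_left hn |> fun h => by
      rcases Nat.eq_zero_or_pos q with h0 | h0
      · subst h0; simp at hq
      · exact h0
    have haq : a ^ q = 1 := by
      have h2 : (a ^ q) ^ p ^ r = 1 := by
        rw [← pow_mul, mul_comm]; exact h1
      have h3 : (a ^ q) ^ p ^ r = (1 : k) ^ p ^ r := by rw [h2, one_pow]
      exact iterateFrobenius_inj k p r (by
        simpa [iterateFrobenius_def] using h3)
    have hcop : Nat.Coprime p q := (Nat.Prime.coprime_iff_not_dvd hp).2 hq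
    have hmod : p ^ Nat.totient q ≡ 1 [MOD q] := Nat.ModEq.pow_totient hcop
    refine ⟨Nat.totient q, Nat.totient_pos.2 hq0, ?_⟩
    have h4 : a ^ p ^ Nat.totient q = a ^ 1 :=
      pow_eq_pow_of_modEq hmod haq
    rw [h4, pow_one]

end AuxFFrobA

/-- finitely many constants lie in a finite field. -/
theorem exists_pow_fix {k : Type*} [Field k] {p : ℕ} [Fact p.Prime] [CharP k p]
    (hf : ∀ a : k, a ≠ 0 → ∃ n : ℕ, 0 < n ∧ a ^ n = 1) (s : Finset k) :
    ∃ m : ℕ, 0 < m ∧ ∀ a ∈ s, a ^ p ^ m = a := by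
  classical
  induction s using Finset.induction_on with
  | empty => exact ⟨1, one_pos, by simp⟩
  | insert b s hb ih =>
    obtain ⟨m, hm, h⟩ := ih
    obtain ⟨m', hm', h'⟩ := AuxFFrobA.one_fix (p := p) hf b
    refine ⟨m * m', Nat.mul_pos hm hm', ?_⟩
    intro a ha
    rcases Finset.mem_insert.1 ha with h1 | h1
    · subst h1
      rw [mul_comm]
      exact AuxFFrobA.iter_fix h' m
    · exact AuxFFrobA.iter_fix (h a h1) m'

end Vale.Agent.P019P
end

section

/-!
# Lang's lemma: a nonzero fixed vector of a semilinear map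
-/

namespace Vale.Agent.P019P

namespace AuxFLang1

open Polynomial

variable {k : Type*} [Field k]

/-- The coefficient polynomials: `f 0 = c 0 X^Q`, `f (i+1) = (f i)^Q + c (i+1) X^Q`. -/
noncomputable def f (Q : ℕ) (c : ℕ → k) : ℕ → k[X]
  | 0 => C (c 0) * X ^ Q
  | i + 1 => f Q c i ^ Q + C (c (i + 1)) * X ^ Q

theorem dvd_f {Q : ℕ} (hQ : 2 ≤ Q) (c : ℕ → k) (i : ℕ) : (X : k[X]) ^ 2 ∣ f Q c i := by
  have h2 : (X : k[X]) ^ 2 ∣ X ^ Q := pow_dvd_pow _ hQ
  induction i with
  | zero => exact Dvd.dvd.mul_left h2 _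
  | succ i ih => exact dvd_add (dvd_pow ih (by omega)) (Dvd.dvd.mul_left h2 _)

theorem natDegree_f {Q : ℕ} (hQ : 2 ≤ Q) {c : ℕ → k} (hc : c 0 ≠ 0) (i : ℕ) :
    2 ≤ (f Q c i).natDegree := by
  induction i with
  | zero =>
    rw [f, natDegree_C_mul_X_pow _ _ hc]
    exact hQ
  | succ i ih =>
    have h1 : (C (c (i + 1)) * X ^ Q : k[X]).natDegree < (f Q c i ^ Q).natDegree := by
      refine lt_of_le_of_lt (natDegree_C_mul_X_pow_le _ _) ?_
      rw [natDegree_pow]
      nlinarith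
    rw [f, natDegree_add_eq_left_of_natDegree_lt h1, natDegree_pow]
    nlinarith

theorem exists_fix [IsAlgClosed k] {Q : ℕ} (hQ : 2 ≤ Q) {c : ℕ → k} (hc : c 0 ≠ 0) (i : ℕ) :
    ∃ x : k, x ≠ 0 ∧ (f Q c i).eval x = x := by
  obtain ⟨h, hh⟩ := dvd_f hQ c i
  have hh0 : h ≠ 0 := by
    rintro rfl
    have := natDegree_f hQ hc i
    rw [hh, mul_zero, natDegree_zero] at this
    omega
  have hd : (X * h - 1 : k[X]).degree ≠ 0 := by
    have h1 : (1 : k[X]).degree < (X * h).degree := by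
      rw [degree_one, degree_mul, degree_X, degree_eq_natDegree hh0]
      exact_mod_cast (by omega : 0 < 1 + h.natDegree)
    rw [degree_sub_eq_left_of_degree_lt h1]
    rw [degree_one] at h1
    exact h1.ne'
  obtain ⟨x, hx⟩ := IsAlgClosed.exists_root _ hd
  rw [IsRoot.def, eval_sub, eval_mul, eval_X, eval_one, sub_eq_zero] at hx
  refine ⟨x, ?_, ?_⟩
  · rintro rfl
    simp at hx
  · rw [hh, eval_mul, eval_pow, eval_X, sq, mul_assoc, hx, mul_one]

end AuxFLang1

section lang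

variable {k V : Type*} [Field k] [IsAlgClosed k] [AddCommGroup V] [Module k V]

open AuxFLang1 in
/-- a nonzero fixed vector. -/
theorem lang_exists {p n : ℕ} [Fact p.Prime] [CharP k p] (hn : 0 < n) [FiniteDimensional k V]
    (φ : V →+ V) (hinj : Function.Injective φ)
    (hφ : ∀ (a : k) (v : V), φ (a • v) = a ^ (p ^ n) • φ v) [Nontrivial V] :
    ∃ v : V, v ≠ 0 ∧ φ v = v := by
  classical
  set Q := p ^ n with hQdef
  have hQ : 2 ≤ Q := le_trans (Fact.out : p.Prime).two_le (Nat.le_self_pow (by omega) p)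
  obtain ⟨v, hv⟩ := exists_ne (0 : V)
  set e : ℕ → V := fun i => φ^[i] v with he
  have hs : ∀ i, φ (e i) = e (i + 1) := fun i => (Function.iterate_succ_apply' φ i v).symm
  have hex : ∃ r : ℕ, ¬ LinearIndependent k (fun i : Fin r => e i) := by
    refine ⟨Module.finrank k V + 1, fun h => ?_⟩
    have := h.fintype_card_le_finrank
    simp at this
  have hr := Nat.find_spec hex
  have hmin := fun m => Nat.find_min hex (m := m)
  set r := Nat.find hex with hrdef
  obtain ⟨s, hs1⟩ : ∃ s, r = s + 1 := by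
    refine ⟨r - 1, ?_⟩
    have : r ≠ 0 := by
      intro h0
      rw [h0] at hr
      exact hr linearIndependent_empty_type
    omega
  have hLI : LinearIndependent k (fun i : Fin s => e i) := not_not.1 (hmin s (by omega))
  have hspan : e s ∈ Submodule.span k (Set.range fun i : Fin s => e i) := by
    by_contra hcon
    rw [hs1] at hr
    apply hr
    rw [linearIndependent_finSucc']
    refine ⟨?_, ?_⟩
    · exact hLI
    · have e1 : (Fin.init fun i : Fin (s + 1) => e i) = fun i : Fin s => e i := by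
        funext i
        simp [Fin.init]
      rw [e1]
      simpa using hcon
  obtain ⟨m, rfl⟩ : ∃ m, s = m + 1 := by
    refine ⟨s - 1, ?_⟩
    have : s ≠ 0 := by
      rintro rfl
      have h1 : (Set.range fun i : Fin 0 => e i) = ∅ := Set.range_eq_empty _
      rw [h1, Submodule.span_empty, Submodule.mem_bot] at hspan
      exact hv hspan
    omega
  obtain ⟨c₀, hc₀⟩ := (Submodule.mem_span_range_iff_exists_fun k).1 hspan
  set c : ℕ → k := fun i => if h : i < m + 1 then c₀ ⟨i, h⟩ else 0 with hcdef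
  have hc : e (m + 1) = ∑ i ∈ Finset.range (m + 1), c i • e i := by
    rw [← hc₀, ← Fin.sum_univ_eq_sum_range (fun i => c i • e i) (m + 1)]
    refine Finset.sum_congr rfl fun i _ => ?_
    simp only [hcdef, i.2, dif_pos]
  -- the powers of `φ` on combinations
  have hsum : ∀ (x : ℕ → k) (N : ℕ), φ (∑ i ∈ Finset.range N, x i • e i) =
      ∑ i ∈ Finset.range N, x i ^ Q • e (i + 1) := by
    intro x N
    rw [map_sum]
    exact Finset.sum_congr rfl fun i _ => by rw [hφ, hs]
  have hc0 : c 0 ≠ 0 := by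
    intro h0
    have hroot : ∀ a : k, ∃ d : k, d ^ Q = a := fun a =>
      IsAlgClosed.exists_pow_nat_eq a (by omega)
    choose ρ hρ using hroot
    have h1 : φ (e m) = φ (∑ i ∈ Finset.range m, ρ (c (i + 1)) • e i) := by
      rw [hs, hc, Finset.sum_range_succ', h0, zero_smul, add_zero,
        hsum (fun i => ρ (c (i + 1)))]
      exact Finset.sum_congr rfl fun i _ => by rw [hρ]
    have h2 := hinj h1
    have h3 := (linearIndependent_finSucc'.1 hLI).2
    apply h3
    have e1 : (Fin.init fun i : Fin (m + 1) => e i) = fun i : Fin m => e i := by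
      funext i
      simp [Fin.init]
    rw [e1, Fin.val_last, h2]
    refine Submodule.sum_mem _ fun i hi => Submodule.smul_mem _ _ (Submodule.subset_span ?_)
    exact ⟨⟨i, Finset.mem_range.1 hi⟩, rfl⟩
  obtain ⟨x₀, hx₀, hfix⟩ := exists_fix hQ hc0 m
  set x : ℕ → k := fun i => (f Q c i).eval x₀ with hx
  have hxm : x m = x₀ := hfix
  have hx0 : x 0 = c 0 * x₀ ^ Q := by simp [hx, f]
  have hxs : ∀ i, x (i + 1) = x i ^ Q + c (i + 1) * x₀ ^ Q := by
    intro i
    simp [hx, f]
  refine ⟨∑ i ∈ Finset.range (m + 1), x i • e i, ?_, ?_⟩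
  · intro h0
    rw [← Fin.sum_univ_eq_sum_range (fun i => x i • e i) (m + 1)] at h0
    have h1 := Fintype.linearIndependent_iff.1 hLI (fun i => x i) h0 (Fin.last m)
    simp only [Fin.val_last] at h1
    exact hx₀ (hxm ▸ h1)
  · rw [hsum, Finset.sum_range_succ, hxm, hc, Finset.smul_sum, Finset.sum_range_succ',
      Finset.sum_range_succ' (fun i => x i • e i), hx0]
    simp only [hxs, smul_smul]
    rw [← add_assoc, ← Finset.sum_add_distrib]
    congr 1
    · refine Finset.sum_congr rfl fun i _ => ?_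
      rw [add_smul, mul_comm (c (i + 1))]
    · rw [mul_comm]

end lang

end Vale.Agent.P019P
end

section

/-!
# Frobenius on the rational function field
-/

namespace Vale.Agent.P019P

open Polynomial IntermediateField

/-- the Frobenius of the constants acting on the coefficients of rational functions. -/
theorem exists_frob_adj {k F : Type*} [Field k] [Field F] [Algebra k F]
    {p : ℕ} [Fact p.Prime] [CharP k p] {x : F} (hx : Transcendental k x) (m : ℕ) :
    ∃ τ : k⟮x⟯ →+* k⟮x⟯, (∀ a : k, τ (algebraMap k k⟮x⟯ a) = algebraMap k k⟮x⟯ (a ^ p ^ m)) ∧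
      τ (AdjoinSimple.gen k x) = AdjoinSimple.gen k x := by
  set φ : k[X] →+* k⟮x⟯ := Polynomial.eval₂RingHom
    ((algebraMap k k⟮x⟯).comp (iterateFrobenius k p m)) (AdjoinSimple.gen k x) with hφd
  have hgen : Transcendental k (AdjoinSimple.gen k x) := by
    intro h
    apply hx
    have := h.algebraMap (A := F)
    rwa [AdjoinSimple.algebraMap_gen] at this
  have hinj : ∀ f : k[X], φ f = 0 → f = 0 := by
    intro f hf
    have h1 : φ f = aeval (AdjoinSimple.gen k x) (f.map (iterateFrobenius k p m)) := by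
      simp only [hφd, coe_eval₂RingHom, aeval_def, eval₂_map]
    rw [h1] at hf
    have h2 : f.map (iterateFrobenius k p m) = 0 := by
      by_contra hne
      exact hgen ⟨_, hne, hf⟩
    rwa [Polynomial.map_eq_zero] at h2
  have hφ : nonZeroDivisors k[X] ≤ (nonZeroDivisors k⟮x⟯).comap φ := by
    intro f hf
    rw [Submonoid.mem_comap, mem_nonZeroDivisors_iff_ne_zero]
    intro h
    exact (mem_nonZeroDivisors_iff_ne_zero.1 hf) (hinj f h)
  refine ⟨(RatFunc.liftRingHom φ hφ).comp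
    ((RatFunc.algEquivOfTranscendental x hx).symm : k⟮x⟯ →+* RatFunc k), ?_, ?_⟩
  · intro a
    have h1 : (RatFunc.algEquivOfTranscendental x hx).symm (algebraMap k k⟮x⟯ a) =
        RatFunc.C a := by
      rw [AlgEquiv.commutes]
      rfl
    simp only [RingHom.comp_apply, RingHom.coe_coe]
    rw [h1, RatFunc.liftRingHom_C]
    simp [hφd, iterateFrobenius_def]
  · simp only [RingHom.comp_apply, RingHom.coe_coe]
    rw [RatFunc.algEquivOfTranscendental_symm_gen, RatFunc.liftRingHom_X]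
    simp [hφd]

/-- every element of `k(x)` is fixed by a power of Frobenius. -/
theorem exists_frob_fix {k F : Type*} [Field k] [Field F] [Algebra k F]
    {p : ℕ} [Fact p.Prime] [CharP k p]
    (hf : ∀ a : k, a ≠ 0 → ∃ n : ℕ, 0 < n ∧ a ^ n = 1) {x : F} (s : Finset k⟮x⟯) :
    ∃ m : ℕ, 0 < m ∧ ∀ τ : k⟮x⟯ →+* k⟮x⟯,
      (∀ a : k, τ (algebraMap k k⟮x⟯ a) = algebraMap k k⟮x⟯ (a ^ p ^ m)) →
      τ (AdjoinSimple.gen k x) = AdjoinSimple.gen k x → ∀ z ∈ s, τ z = z := by
  classical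
  have hex : ∀ z : k⟮x⟯, ∃ r q : k[X], z = aeval (AdjoinSimple.gen k x) r /
      aeval (AdjoinSimple.gen k x) q := by
    intro z
    obtain ⟨r, q, h⟩ := (IntermediateField.mem_adjoin_simple_iff k (z : F)).1 z.2
    refine ⟨r, q, ?_⟩
    apply (algebraMap k⟮x⟯ F).injective
    rw [map_div₀, ← aeval_algebraMap_apply, ← aeval_algebraMap_apply,
      AdjoinSimple.algebraMap_gen]
    exact h
  choose r q hrq using hex
  obtain ⟨m, hm, hfix⟩ := exists_pow_fix (p := p) hf
    (s.biUnion fun z => (r z).coeffs ∪ (q z).coeffs)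
  refine ⟨m, hm, fun τ hτ hτx z hz => ?_⟩
  have key : ∀ f : k[X], (∀ n ∈ f.support, f.coeff n ^ p ^ m = f.coeff n) →
      τ (aeval (AdjoinSimple.gen k x) f) = aeval (AdjoinSimple.gen k x) f := by
    intro f hcf
    rw [aeval_def, Polynomial.hom_eval₂, hτx, eval₂_eq_sum, eval₂_eq_sum, Polynomial.sum_def,
      Polynomial.sum_def]
    refine Finset.sum_congr rfl fun n hn => ?_
    rw [RingHom.comp_apply, hτ, hcf n hn]
  have h1 : τ (aeval (AdjoinSimple.gen k x) (r z)) = aeval (AdjoinSimple.gen k x) (r z) := by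
    refine key _ fun n hn => hfix _ (Finset.mem_biUnion.2 ⟨z, hz, Finset.mem_union_left _ ?_⟩)
    exact Polynomial.coeff_mem_coeffs (Polynomial.mem_support_iff.1 hn)
  have h2 : τ (aeval (AdjoinSimple.gen k x) (q z)) = aeval (AdjoinSimple.gen k x) (q z) := by
    refine key _ fun n hn => hfix _ (Finset.mem_biUnion.2 ⟨z, hz, Finset.mem_union_right _ ?_⟩)
    exact Polynomial.coeff_mem_coeffs (Polynomial.mem_support_iff.1 hn)
  rw [hrq z, map_div₀, h1, h2]

end Vale.Agent.P019P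
end

section

/-!
# Bounded relations between elements of bounded degree
-/

namespace Vale.Agent.P019P

open Vale.Agent.P019

set_option linter.style.haveILetI false
set_option linter.unusedSectionVars false

open Polynomial

/-- a nontrivial polynomial relation of bidegree at most `(d, d)` with coefficients in `l`. -/
def BRel {κ : Type*} [Field κ] (l : Subfield κ) (d : ℕ) (X Y : κ) : Prop :=
  ∃ c : ℕ → ℕ → κ, (∀ i j, c i j ∈ l) ∧
    (∃ i ∈ Finset.range (d + 1), ∃ j ∈ Finset.range (d + 1), c i j ≠ 0) ∧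
    ∑ i ∈ Finset.range (d + 1), ∑ j ∈ Finset.range (d + 1), c i j * X ^ i * Y ^ j = 0

section urel

variable {κ : Type*} [Field κ] {l : Subfield κ}

/-- coefficients of the swapped polynomial. -/
theorem urel_coeff_swap {R : Type*} [CommRing R] (Φ : R[X][X]) (i j : ℕ) :
    ((Bivariate.swap Φ).coeff i).coeff j = (Φ.coeff j).coeff i := by
  induction Φ using Polynomial.induction_on' with
  | add p q hp hq => simp only [map_add, coeff_add, hp, hq]
  | monomial n a =>
    induction a using Polynomial.induction_on' with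
    | add p q hp hq => simp only [map_add, coeff_add, hp, hq]
    | monomial m b =>
      rw [Bivariate.swap_monomial_monomial, coeff_monomial, coeff_monomial]
      split_ifs with h1 h2 h2
      · rw [coeff_monomial, coeff_monomial, if_pos h1, if_pos h2]
      · rw [coeff_monomial, if_neg h2, coeff_zero]
      · rw [coeff_monomial, if_neg h1, coeff_zero]
      · rw [coeff_zero, coeff_zero]

/-- the evaluation in two variables. -/
theorem urel_eval (x y : κ) (Φ : l[X][X]) :
    aevalAeval x y Φ = eval₂ ((aeval x : l[X] →ₐ[l] κ) : l[X] →+* κ) y Φ := by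
  induction Φ using Polynomial.induction_on' with
  | add p q hp hq => rw [map_add, hp, hq, eval₂_add]
  | monomial n a =>
    rw [eval₂_monomial, ← C_mul_X_pow_eq_monomial, map_mul, map_pow, aevalAeval_C, aevalAeval_Y]
    rfl

/-- polynomials in `Z` are in `l(Z)`. -/
theorem urel_mem (Z : κ) (A : l[X]) : aeval Z A ∈ Vale.Agent.P019.adj l Z := by
  rw [aeval_eq_sum_range]
  refine sum_mem fun i _ => ?_
  rw [Algebra.smul_def]
  exact mul_mem (Vale.Agent.P019.le_adj l Z (A.coeff i).2)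
    (pow_mem (Vale.Agent.P019.mem_adj l Z) i)

/-- the evaluation with values in `l(Z)`. -/
noncomputable def urelEv (l : Subfield κ) (Z : κ) : l[X] →+* Vale.Agent.P019.adj l Z :=
  ((aeval Z : l[X] →ₐ[l] κ) : l[X] →+* κ).codRestrict _ (fun p => urel_mem Z p)

theorem urelEv_inj {Z : κ} (hZ : ¬ IsAlgebraic l Z) : Function.Injective (urelEv l Z) := by
  rw [injective_iff_map_eq_zero]
  intro p hp
  by_contra hne
  exact hZ ⟨p, hne, congrArg Subtype.val hp⟩

theorem urel_frac {Z : κ} (hZ : ¬ IsAlgebraic l Z) :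
    @IsFractionRing l[X] _ (Vale.Agent.P019.adj l Z) _ (urelEv l Z).toAlgebra := by
  letI : Algebra l[X] (Vale.Agent.P019.adj l Z) := (urelEv l Z).toAlgebra
  haveI : FaithfulSMul l[X] (Vale.Agent.P019.adj l Z) :=
    (faithfulSMul_iff_algebraMap_injective _ _).2 (urelEv_inj hZ)
  refine IsFractionRing.of_field l[X] (Vale.Agent.P019.adj l Z) ?_
  rintro ⟨z, hz⟩
  obtain ⟨p, q, h⟩ := finK_mem_adj.1 hz
  exact ⟨p, q, Subtype.ext h⟩

/-- an irreducible relation. -/
theorem urel_exists {Z W : κ} (hZ : ¬ IsAlgebraic l Z)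
    (hW : IsAlgebraic (Vale.Agent.P019.adj l Z) W) :
    ∃ Φ : l[X][X], Irreducible Φ ∧ aevalAeval Z W Φ = 0 := by
  letI : Algebra l[X] (Vale.Agent.P019.adj l Z) := (urelEv l Z).toAlgebra
  haveI := urel_frac hZ
  letI : Algebra l[X] κ := ((aeval Z : l[X] →ₐ[l] κ) : l[X] →+* κ).toAlgebra
  haveI : IsScalarTower l[X] (Vale.Agent.P019.adj l Z) κ :=
    IsScalarTower.of_algebraMap_eq (fun _ => rfl)
  obtain ⟨p, hp0, hp⟩ := (IsFractionRing.isAlgebraic_iff l[X] (Vale.Agent.P019.adj l Z) κ).2 hW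
  let ψ : l[X][X] →+* κ := ((aevalAeval Z W : l[X][X] →ₐ[l] κ) : l[X][X] →+* κ)
  have h1 : (RingHom.ker ψ).IsPrime := RingHom.ker_isPrime ψ
  have h2 : RingHom.ker ψ ≠ ⊥ := by
    intro h
    apply hp0
    have h3 : p ∈ RingHom.ker ψ := by
      rw [RingHom.mem_ker]
      change aevalAeval Z W p = 0
      rw [urel_eval]
      exact hp
    rw [h] at h3
    exact h3
  obtain ⟨Φ, hΦ, hΦp⟩ := h1.exists_mem_prime_of_ne_bot h2
  exact ⟨Φ, hΦp.irreducible, hΦ⟩

/-- Gauss's lemma. -/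
theorem urel_gauss {Z W : κ} (hZ : ¬ IsAlgebraic l Z) {Φ : l[X][X]} (hΦ : Irreducible Φ)
    (h0 : aevalAeval Z W Φ = 0) :
    Irreducible (Φ.map (urelEv l Z)) ∧ aeval W (Φ.map (urelEv l Z)) = 0 := by
  constructor
  · letI : Algebra l[X] (Vale.Agent.P019.adj l Z) := (urelEv l Z).toAlgebra
    haveI := urel_frac hZ
    have h1 : Φ.natDegree ≠ 0 := by
      intro h
      obtain ⟨a, ha⟩ := natDegree_eq_zero.1 h
      rw [← ha, aevalAeval_C] at h0
      have ha0 : a ≠ 0 := by
        rintro rfl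
        rw [C_0] at ha
        exact hΦ.ne_zero ha.symm
      exact hZ ⟨a, ha0, h0⟩
    exact ((hΦ.isPrimitive h1).irreducible_iff_irreducible_map_fraction_map
      (K := Vale.Agent.P019.adj l Z)).1 hΦ
  · rw [aeval_def, eval₂_map, ← h0, urel_eval]
    rfl

/-- the degree of the minimal polynomial. -/
theorem urel_natDegree {Z W : κ} (hZ : ¬ IsAlgebraic l Z) {Φ : l[X][X]} (hΦ : Irreducible Φ)
    (h0 : aevalAeval Z W Φ = 0) :
    (minpoly (Vale.Agent.P019.adj l Z) W).natDegree = Φ.natDegree := by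
  obtain ⟨h1, h2⟩ := urel_gauss hZ hΦ h0
  rw [← minpoly.eq_of_irreducible h1 h2, natDegree_mul_C
    (inv_ne_zero (leadingCoeff_ne_zero.2 h1.ne_zero)),
    natDegree_map_eq_of_injective (urelEv_inj hZ)]

/-- separability. -/
theorem urel_sep {Z W : κ} (hZ : ¬ IsAlgebraic l Z) {Φ : l[X][X]} (hΦ : Irreducible Φ)
    (h0 : aevalAeval Z W Φ = 0) (hd : derivative Φ ≠ 0) :
    IsSeparable (Vale.Agent.P019.adj l Z) W := by
  obtain ⟨h1, h2⟩ := urel_gauss hZ hΦ h0
  have h3 : (Φ.map (urelEv l Z)).Separable := by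
    rw [separable_iff_derivative_ne_zero h1, derivative_map]
    rwa [Ne, Polynomial.map_eq_zero_iff (urelEv_inj hZ)]
  exact h3.of_dvd (minpoly.dvd _ _ h2)

/-- the two derivatives of an irreducible polynomial are not both zero. -/
theorem urel_deriv {F : Type*} [Field F] [PerfectField F] {Φ : F[X][X]} (hΦ : Irreducible Φ)
    (h1 : derivative Φ = 0) (h2 : derivative (Bivariate.swap Φ) = 0) : False := by
  obtain ⟨p, hp⟩ := ExpChar.exists F
  haveI : PerfectRing F p := PerfectField.toPerfectRing p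
  haveI : ExpChar F[X] p := inferInstance
  have hco : ∀ j, derivative (Φ.coeff j) = 0 := by
    intro j
    ext i
    rw [coeff_derivative, coeff_zero]
    have h3 := congrArg (fun q => (q.coeff i).coeff j) h2
    simp only [coeff_derivative, coeff_zero] at h3
    have h4 : ((Bivariate.swap Φ).coeff (i + 1) * ((i : F[X]) + 1)).coeff j =
        ((Bivariate.swap Φ).coeff (i + 1)).coeff j * ((i : F) + 1) := by
      have h5 : ((i : F[X]) + 1) = C ((i : F) + 1) := by
        rw [C_add, C_1, ← C_eq_natCast]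
      rw [h5, coeff_mul_C]
    rw [h4, urel_coeff_swap] at h3
    exact h3
  have hlift : ∀ j, Φ.coeff j ∈ Set.range (frobenius F[X] p) := by
    intro j
    have h3 := expand_contract' (p := p) (hco j)
    refine ⟨(contract p (Φ.coeff j)).map ((frobeniusEquiv F p).symm : F →+* F), ?_⟩
    have h5 : (frobenius F p).comp ((frobeniusEquiv F p).symm : F →+* F) = RingHom.id F := by
      ext x
      rw [RingHom.comp_apply, RingHom.id_apply]
      exact frobenius_apply_frobeniusEquiv_symm F p x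
    rw [frobenius_def, ← map_frobenius_expand, map_expand, map_map, h5, Polynomial.map_id, h3]
  have h3 := expand_contract' (p := p) h1
  have h4 : contract p Φ ∈ lifts (frobenius F[X] p) := by
    rw [lifts_iff_coeff_lifts]
    intro n
    rw [coeff_contract (expChar_pos F p).ne']
    exact hlift _
  obtain ⟨G, hG⟩ := (mem_lifts _).1 h4
  rw [← hG, ← map_expand, map_frobenius_expand] at h3
  obtain _ | ⟨hprime⟩ := hp
  · have h5 : Φ.natDegree = 0 := derivative_eq_zero.1 h1
    have h6 : (Φ.coeff 0).natDegree = 0 := derivative_eq_zero.1 (hco 0)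
    rw [eq_C_of_natDegree_eq_zero h5, eq_C_of_natDegree_eq_zero h6] at hΦ
    by_cases hb : (Φ.coeff 0).coeff 0 = 0
    · rw [hb, C_0, C_0] at hΦ
      exact hΦ.ne_zero rfl
    · exact hΦ.not_isUnit (isUnit_C.2 (isUnit_C.2 (isUnit_iff_ne_zero.2 hb)))
  · rw [← h3] at hΦ
    exact not_irreducible_pow hprime.ne_one hΦ

/-- the degree of a separable element. -/
theorem urel_deg {Z W : κ} {d : ℕ} (hs : IsSeparable (Vale.Agent.P019.adj l Z) W)
    (hf : Module.Finite (adj l Z) κ) (hd : Module.finrank (adj l Z) κ ≤ d) :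
    (minpoly (Vale.Agent.P019.adj l Z) W).natDegree ≤ d := by
  have h1 := minpoly.map_eq_of_isSeparable_of_isPurelyInseparable
    (F := Vale.Agent.P019.adj l Z) (perfectClosure (Vale.Agent.P019.adj l Z) κ) W hs
  haveI : Module.Finite (perfectClosure (Vale.Agent.P019.adj l Z) κ) κ := hf
  have h2 : Module.finrank (perfectClosure (Vale.Agent.P019.adj l Z) κ) κ ≤ d := hd
  have h3 := minpoly.natDegree_le (A := perfectClosure (Vale.Agent.P019.adj l Z) κ) W
  rw [← h1, natDegree_map] at h3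
  exact h3.trans h2

/-- the relation. -/
theorem urel_brel {Z W : κ} {d : ℕ} (hZ : ¬ IsAlgebraic l Z) (hW : ¬ IsAlgebraic l W)
    (hs : IsSeparable (Vale.Agent.P019.adj l Z) W) (hs' : IsSeparable (Vale.Agent.P019.adj l W) Z)
    (hf : Module.Finite (adj l Z) κ) (hd : Module.finrank (adj l Z) κ ≤ d)
    (hf' : Module.Finite (adj l W) κ) (hd' : Module.finrank (adj l W) κ ≤ d) : BRel l d Z W := by
  obtain ⟨Φ, hΦ, h0⟩ := urel_exists hZ hs.isIntegral.isAlgebraic
  have hΦ' : Irreducible (Bivariate.swap Φ) := (MulEquiv.irreducible_iff _).2 hΦ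
  have h0' : aevalAeval W Z (Bivariate.swap Φ) = 0 := by
    rw [Bivariate.aevalAeval_swap]
    exact h0
  have h1 : Φ.natDegree ≤ d := by
    rw [← urel_natDegree hZ hΦ h0]
    exact urel_deg hs hf hd
  have h2 : (Bivariate.swap Φ).natDegree ≤ d := by
    rw [← urel_natDegree hW hΦ' h0']
    exact urel_deg hs' hf' hd'
  have h3 : ∀ j, (Φ.coeff j).natDegree ≤ d := by
    intro j
    rw [natDegree_le_iff_coeff_eq_zero]
    intro i hi
    rw [← urel_coeff_swap, coeff_eq_zero_of_natDegree_lt (lt_of_le_of_lt h2 hi), coeff_zero]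
  refine ⟨fun i j => (((Φ.coeff j).coeff i : l) : κ), fun i j => ((Φ.coeff j).coeff i).2, ?_, ?_⟩
  · by_contra hcon
    push Not at hcon
    apply hΦ.ne_zero
    ext j i
    rw [coeff_zero, coeff_zero]
    by_cases hj : j ∈ Finset.range (d + 1)
    · by_cases hi : i ∈ Finset.range (d + 1)
      · exact hcon i hi j hj
      · have h4 : d < i := by
          rw [Finset.mem_range] at hi
          omega
        rw [coeff_eq_zero_of_natDegree_lt (lt_of_le_of_lt (h3 j) h4)]
    · have h4 : d < j := by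
        rw [Finset.mem_range] at hj
        omega
      rw [coeff_eq_zero_of_natDegree_lt (lt_of_le_of_lt h1 h4), coeff_zero]
  · rw [urel_eval, eval₂_eq_sum_range' _ (Nat.lt_succ_of_le h1)] at h0
    rw [Finset.sum_comm, ← h0]
    refine Finset.sum_congr rfl fun j _ => ?_
    rw [RingHom.coe_coe, aeval_eq_sum_range' (Nat.lt_succ_of_le (h3 j)), Finset.sum_mul]
    rfl

/-- one of the two elements is separable over the field of the other one. -/
theorem urel_or (hl : IsAlgClosed l) {Z W : κ} (hZ : ¬ IsAlgebraic l Z) (hW : ¬ IsAlgebraic l W)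
    (h : IsAlgebraic (Vale.Agent.P019.adj l Z) W) :
    IsSeparable (Vale.Agent.P019.adj l Z) W ∨ IsSeparable (Vale.Agent.P019.adj l W) Z := by
  obtain ⟨Φ, hΦ, h0⟩ := urel_exists hZ h
  have hΦ' : Irreducible (Bivariate.swap Φ) := (MulEquiv.irreducible_iff _).2 hΦ
  have h0' : aevalAeval W Z (Bivariate.swap Φ) = 0 := by
    rw [Bivariate.aevalAeval_swap]
    exact h0
  by_cases h1 : derivative Φ = 0
  · by_cases h2 : derivative (Bivariate.swap Φ) = 0
    · exact (urel_deriv hΦ h1 h2).elim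
    · exact Or.inr (urel_sep hW hΦ' h0' h2)
  · exact Or.inl (urel_sep hZ hΦ h0 h1)

theorem urel_sep_mem {E : Subfield κ} {z : κ} (hz : z ∈ E) : IsSeparable E z :=
  isSeparable_algebraMap (⟨z, hz⟩ : E)

theorem urel_sep_add {E : Subfield κ} {z w : κ} (hz : z ∈ E) (hw : IsSeparable E w) :
    IsSeparable E (z + w) :=
  Field.isSeparable_add (urel_sep_mem hz) hw

theorem urel_sep_sub {E : Subfield κ} {z w : κ} (hz : z ∈ E) (hw : IsSeparable E (z + w)) :
    IsSeparable E w := by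
  have h1 := Field.isSeparable_add (urel_sep_mem (E.neg_mem hz)) hw
  rwa [neg_add_cancel_left] at h1

end urel

/-- bounded relations in a perfect field of transcendence degree one. -/
theorem exists_brel {κ : Type*} [Field κ] [PerfectField κ] {l : Subfield κ} (hl : IsAlgClosed l)
    {X Y : κ} {d : ℕ}
    (hX : X ∉ l ∧ Module.Finite (adj l X) κ ∧ Module.finrank (adj l X) κ ≤ d)
    (hY : Y ∉ l ∧ Module.Finite (adj l Y) κ ∧ Module.finrank (adj l Y) κ ≤ d)
    (hXY : X + Y ∉ l ∧ Module.Finite (adj l (X + Y)) κ ∧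
      Module.finrank (adj l (X + Y)) κ ≤ d) :
    BRel l d X Y ∨ BRel l d X (X + Y) ∨ BRel l d Y (X + Y) := by
  obtain ⟨hX0, hXf, hXd⟩ := hX
  obtain ⟨hY0, hYf, hYd⟩ := hY
  obtain ⟨hZ0, hZf, hZd⟩ := hXY
  have htr : ∀ z : κ, z ∉ l → ¬ IsAlgebraic l z := fun z hz h =>
    hz (RAC_of_isAlgClosed l hl z h)
  have halg : ∀ z w : κ, Module.Finite (adj l z) κ →
      IsAlgebraic (Vale.Agent.P019.adj l z) w := by
    intro z w h
    rw [← isAlgebraic_adj]
    exact Algebra.IsAlgebraic.isAlgebraic w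
  have tX := htr X hX0
  have tY := htr Y hY0
  have tZ := htr (X + Y) hZ0
  have mX := Vale.Agent.P019.mem_adj l X
  have mY := Vale.Agent.P019.mem_adj l Y
  have mZ := Vale.Agent.P019.mem_adj l (X + Y)
  -- goodness does not depend on the other element
  have gX : IsSeparable (Vale.Agent.P019.adj l X) Y ↔
      IsSeparable (Vale.Agent.P019.adj l X) (X + Y) :=
    ⟨urel_sep_add mX, urel_sep_sub mX⟩
  have gY : IsSeparable (Vale.Agent.P019.adj l Y) X ↔
      IsSeparable (Vale.Agent.P019.adj l Y) (X + Y) := by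
    rw [add_comm X Y]
    exact ⟨urel_sep_add mY, urel_sep_sub mY⟩
  have gZ : ∀ a b : κ, a + b = X + Y → IsSeparable (Vale.Agent.P019.adj l (X + Y)) a →
      IsSeparable (Vale.Agent.P019.adj l (X + Y)) b := by
    intro a b hab h
    have h1 : b = (a + b) + (-a) := by ring
    rw [h1, hab]
    exact urel_sep_add mZ (Field.isSeparable_neg h)
  have gZ' : IsSeparable (Vale.Agent.P019.adj l (X + Y)) X ↔
      IsSeparable (Vale.Agent.P019.adj l (X + Y)) Y :=
    ⟨gZ X Y rfl, gZ Y X (add_comm Y X)⟩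
  have a1 := urel_or hl tX tY (halg X Y hXf)
  have a2 := urel_or hl tX tZ (halg X (X + Y) hXf)
  have a3 := urel_or hl tY tZ (halg Y (X + Y) hYf)
  rw [← gX] at a2
  rw [← gY, ← gZ'] at a3
  by_cases h1 : IsSeparable (Vale.Agent.P019.adj l X) Y
  · by_cases h2 : IsSeparable (Vale.Agent.P019.adj l Y) X
    · exact Or.inl (urel_brel tX tY h1 h2 hXf hXd hYf hYd)
    · have h3 := a3.resolve_left h2
      exact Or.inr (Or.inl (urel_brel tX tZ (gX.1 h1) h3 hXf hXd hZf hZd))
  · have h2 := a1.resolve_left h1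
    have h3 := a2.resolve_left h1
    exact Or.inr (Or.inr (urel_brel tY tZ (gY.1 h2) (gZ'.1 h3) hYf hYd hZf hZd))

end Vale.Agent.P019P
end
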