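import Vale.Agent.P019.MathlibUsed
import Vale.Agent.P019.Bdl.B1

set_option linter.all false

section

/-!
# Frames and generic valuations
-/

namespace Vale.Agent.P019

open Polynomial Filter

variable {K : Type*} [Field K]

theorem mem_adjoin_simple {F : Subfield K} {x z : K} :
    z ∈ IntermediateField.adjoin F {x} ↔ z ∈ adj F x := by
  rw [adj_eq]
  exact Iff.rfl

theorem isAlgebraic_adjoin_simple {F : Subfield K} {x z : K} :
    IsAlgebraic (IntermediateField.adjoin F {x}) z ↔ IsAlgebraic (adj F x) z := by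
  rw [adj_eq]
  exact Iff.rfl

theorem frb_ae {k : Subfield K} {P : K → Prop} (h : ∀ᶠ b : k in cofinite, P b) :
    ∀ᶠ a in ae k, P a := by
  rw [ae_iff]
  rw [eventually_cofinite] at h
  refine (h.image Subtype.val).subset ?_
  rintro a ⟨ha, hPa⟩
  exact ⟨⟨a, ha⟩, hPa, rfl⟩

theorem exists_over {F : Subfield K} {t : K} (ht : ¬ IsAlgebraic F t) {a : K} (ha : a ∈ F) :
    ∃ W : ValuationSubring K, Over W F t a := by
  have h1 : Transcendental F (t - a) := by
    intro h
    apply ht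
    have h2 : t - a ∈ rac F := mem_rac.2 h
    have h3 : t ∈ rac F := by
      have h4 := (rac F).add_mem h2 (le_rac F ha)
      rwa [sub_add_cancel] at h4
    exact mem_rac.1 h3
  obtain ⟨W, hW1, hW2⟩ := exists_triv F (t - a) h1
  exact ⟨W, hW1, hW2⟩

end Vale.Agent.P019
end

section

/-!
# Order functionals on the classes of a rational function field
-/

set_option linter.unusedSectionVars false
set_option linter.unusedVariables false

namespace Vale.Agent.P019

open Polynomial Filter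

variable {K : Type*} [Field K] [CharZero K] {ℓ : ℕ} [Fact ℓ.Prime] {k : Subfield K}

end Vale.Agent.P019
end

section

/-!
# Rationality of functions that are constant on fibres
-/

namespace Vale.Agent.P019

open Polynomial Filter

variable {N : Type*} [Field N]

/-- the elements which become polynomial in `h` after multiplication by a power of `u`. -/
def locRing (B : Subring N) (u : N) (hu : u ∈ B) : Subring N where
  carrier := {x | ∃ m : ℕ, x * u ^ m ∈ B}
  mul_mem' := by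
    rintro x y ⟨m, hm⟩ ⟨k, hk⟩
    refine ⟨m + k, ?_⟩
    have : x * y * u ^ (m + k) = (x * u ^ m) * (y * u ^ k) := by ring
    rw [this]
    exact B.mul_mem hm hk
  one_mem' := ⟨0, by simp⟩
  add_mem' := by
    rintro x y ⟨m, hm⟩ ⟨k, hk⟩
    refine ⟨m + k, ?_⟩
    have : (x + y) * u ^ (m + k) = (x * u ^ m) * u ^ k + (y * u ^ k) * u ^ m := by ring
    rw [this]
    exact B.add_mem (B.mul_mem hm (B.pow_mem hu k)) (B.mul_mem hk (B.pow_mem hu m))
  zero_mem' := ⟨0, by simp⟩
  neg_mem' := by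
    rintro x ⟨m, hm⟩
    refine ⟨m, ?_⟩
    rw [neg_mul]
    exact B.neg_mem hm

/-- if all valuations over `σ = b` kill `h - c` then a power of `h - c` is divisible by
`σ - b` in `G[σ, h]`. -/
theorem exists_pow_eq {G : Subfield N} {σ h b c : N} (B : Subring N) (hG : ∀ g ∈ G, g ∈ B)
    (hσ : σ ∈ B) (hh : h ∈ B) (hb : b ∈ G) (hc : c ∈ G)
    (hW : ∀ W : ValuationSubring N, Over W G σ b → W.valuation (h - c) < 1) :
    ∃ m : ℕ, ∃ β ∈ B, (h - c) ^ m = (σ - b) * β := by
  by_cases h0 : h - c = 0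
  · exact ⟨1, 0, B.zero_mem, by rw [h0]; simp⟩
  have hu : h - c ∈ B := B.sub_mem hh (hG c hc)
  let A := locRing B (h - c) hu
  have hBA : ∀ x ∈ B, x ∈ A := fun x hx => ⟨0, by simpa using hx⟩
  have hsb : σ - b ∈ A := hBA _ (B.sub_mem hσ (hG b hb))
  by_cases hI : Ideal.span {(⟨σ - b, hsb⟩ : A)} = ⊤
  · rw [Ideal.eq_top_iff_one, Ideal.mem_span_singleton'] at hI
    obtain ⟨⟨a, m, ha⟩, h1⟩ := hI
    have h2 : a * (σ - b) = 1 := congrArg Subtype.val h1
    refine ⟨m, a * (h - c) ^ m, ha, ?_⟩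
    rw [← mul_assoc, mul_comm (σ - b) a, h2, one_mul]
  · exfalso
    obtain ⟨W, hW1, hW2⟩ := exists_val_of_proper A _ hI
    have hov : Over W G σ b :=
      ⟨fun g hg => hW1 g (hBA g (hG g hg)), hW2 ⟨σ - b, hsb⟩ (Ideal.mem_span_singleton_self _)⟩
    have h3 := hW W hov
    have h4 : (h - c)⁻¹ ∈ A := ⟨1, by
      rw [pow_one, inv_mul_cancel₀ h0]; exact B.one_mem⟩
    have h5 := (W.valuation_le_one_iff _).2 (hW1 _ h4)
    rw [map_inv₀] at h5
    have h6 : 0 < W.valuation (h - c) := zero_lt_iff.2 ((Valuation.ne_zero_iff _).2 h0)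
    exact absurd h3 (not_lt.2 ((inv_le_one₀ h6).1 h5))

theorem residue_eq_zero {W : ValuationSubring N} (x : W) :
    IsLocalRing.residue W x = 0 ↔ W.valuation (x : N) < 1 := by
  rw [IsLocalRing.residue_eq_zero_iff, W.valuation_lt_one_iff]

/-- monic divisors of a power of `T - c`. -/
theorem eq_pow_of_dvd {κ : Type*} [Field κ] {Φ : κ[X]} (hΦ : Φ.Monic) {c : κ} {m : ℕ}
    (h : Φ ∣ (X - C c) ^ m) : Φ = (X - C c) ^ Φ.natDegree := by
  obtain ⟨i, _, hi⟩ := (dvd_prime_pow (prime_X_sub_C c) m).1 h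
  have h1 : Φ = (X - C c) ^ i :=
    eq_of_monic_of_associated hΦ ((monic_X_sub_C c).pow i) hi
  have h2 : Φ.natDegree = i := by
    rw [h1, natDegree_pow, natDegree_X_sub_C, mul_one]
  rw [h2]; exact h1

end Vale.Agent.P019
end

section

/-!
# Rational functions with many values in a smaller field
-/

namespace Vale.Agent.P019

open Polynomial Filter

variable {N : Type*} [Field N]

/-- a linear functional applied to the coefficients of a polynomial. -/
noncomputable def ratDescPl {k G : Type*} [Field k] [Field G] [Algebra k G] (f : G →ₗ[k] k)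
    (P : G[X]) : k[X] := ∑ i ∈ P.support, monomial i (f (P.coeff i))

theorem ratDescPl_coeff {k G : Type*} [Field k] [Field G] [Algebra k G] (f : G →ₗ[k] k)
    (P : G[X]) (i : ℕ) : (ratDescPl f P).coeff i = f (P.coeff i) := by
  unfold ratDescPl
  rw [finsetSum_coeff]
  simp only [coeff_monomial]
  rw [Finset.sum_ite_eq' P.support i (fun j => f (P.coeff j))]
  split_ifs with h
  · rfl
  · rw [notMem_support_iff.1 h, map_zero]

theorem ratDescPl_eval {k G : Type*} [Field k] [Field G] [Algebra k G] (f : G →ₗ[k] k)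
    (P : G[X]) (b : k) : (ratDescPl f P).eval b = f (P.eval (algebraMap k G b)) := by
  unfold ratDescPl
  rw [eval_finsetSum, eval_eq_sum, Polynomial.sum_def, map_sum]
  refine Finset.sum_congr rfl fun i _ => ?_
  rw [eval_monomial, ← map_pow, mul_comm (P.coeff i), ← Algebra.smul_def, map_smul,
    smul_eq_mul, mul_comm]

theorem rat_descent {k G : Subfield N} (hkG : k ≤ G) {σ h : N} (hσ : ¬ IsAlgebraic G σ)
    (hh : h ∈ adj G σ)
    (hinf : {b : N | b ∈ k ∧ ∃ c ∈ k, ∀ W : ValuationSubring N, Over W G σ b →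
      W.valuation (h - c) < 1}.Infinite) : h ∈ adj k σ := by
  classical
  obtain ⟨P, Q, hPQ⟩ := Gn.mem_adj_frac hh
  by_cases hQ0 : Q = 0
  · rw [hPQ, hQ0, map_zero, div_zero]
    exact zero_mem _
  have hQσ : aeval σ Q ≠ 0 := fun h0 => hσ ⟨Q, hQ0, h0⟩
  let _ : Algebra k G := (Subfield.inclusion hkG).toAlgebra
  have hval : ∀ b : G, (b : N) ∈ {b : N | b ∈ k ∧ ∃ c ∈ k, ∀ W : ValuationSubring N,
      Over W G σ b → W.valuation (h - c) < 1} →
      ∃ c : k, P.eval b = algebraMap k G c * Q.eval b := by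
    rintro b ⟨hb, c, hc, hW⟩
    obtain ⟨W, hover⟩ := exists_over hσ b.2
    refine ⟨⟨c, hc⟩, ?_⟩
    have e1 := aeval_sub_eval hover P
    have e2 := aeval_sub_eval hover Q
    have e3 := hW W hover
    have e4 : h * aeval σ Q = aeval σ P := by
      rw [hPQ, div_mul_cancel₀ _ hQσ]
    have hQW : W.valuation (aeval σ Q) ≤ 1 := by
      rw [W.valuation_le_one_iff]
      exact aeval_mem (hover.mem b.2) (fun i => hover.triv _ (Q.coeff i).2)
    have hcW : W.valuation c ≤ 1 := by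
      rw [W.valuation_le_one_iff]
      exact hover.triv _ (hkG hc)
    have e5 : W.valuation (((P.eval b : G) : N) - c * (Q.eval b : G)) < 1 := by
      have e6 : ((P.eval b : G) : N) - c * (Q.eval b : G) =
          -(aeval σ P - (P.eval b : G)) + (h - c) * aeval σ Q +
            c * (aeval σ Q - (Q.eval b : G)) := by
        rw [← e4]; ring
      rw [e6]
      refine W.valuation.map_add_lt (W.valuation.map_add_lt ?_ ?_) ?_
      · rw [Valuation.map_neg]; exact e1
      · rw [map_mul]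
        exact lt_of_le_of_lt (mul_le_of_le_one_right' hQW) e3
      · rw [map_mul]
        exact lt_of_le_of_lt (mul_le_of_le_one_left' hcW) e2
    have e7 : ((P.eval b : G) : N) - c * (Q.eval b : G) = 0 := by
      by_contra hne
      have hmem : ((P.eval b : G) : N) - c * (Q.eval b : G) ∈ G :=
        sub_mem (P.eval b : G).2 (mul_mem (hkG hc) (Q.eval b : G).2)
      rw [hover.triv.eq_one hmem hne] at e5
      exact lt_irrefl _ e5
    apply Subtype.ext
    exact sub_eq_zero.1 e7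
  -- a functional
  obtain ⟨i, hi⟩ : ∃ i, Q.coeff i ≠ 0 := by
    by_contra hcon
    push Not at hcon
    exact hQ0 (Polynomial.ext (by simpa using hcon))
  obtain ⟨f, hf⟩ : ∃ f : G →ₗ[k] k, f (Q.coeff i) ≠ 0 := by
    by_contra hcon
    push Not at hcon
    exact hi ((Module.forall_dual_apply_eq_zero_iff k (Q.coeff i)).1 hcon)
  have hpoly : P * (ratDescPl f Q).map (algebraMap k G) =
      Q * (ratDescPl f P).map (algebraMap k G) := by
    refine Polynomial.eq_of_infinite_eval_eq _ _ (Set.Infinite.mono ?_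
      (Set.Infinite.preimage (f := ((↑) : G → N)) hinf ?_))
    · intro b hb
      obtain ⟨c, hc⟩ := hval b hb
      have hbk : algebraMap k G ⟨(b : N), hb.1⟩ = b := Subtype.ext rfl
      have h1 : (ratDescPl f P).eval ⟨(b : N), hb.1⟩ =
          c * (ratDescPl f Q).eval ⟨(b : N), hb.1⟩ := by
        rw [ratDescPl_eval, ratDescPl_eval, hbk, hc, ← Algebra.smul_def, map_smul, smul_eq_mul]
      show (P * (ratDescPl f Q).map (algebraMap k G)).eval b =
        (Q * (ratDescPl f P).map (algebraMap k G)).eval b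
      rw [eval_mul, eval_mul]
      have h2 : ∀ R : k[X], (R.map (algebraMap k G)).eval b =
          algebraMap k G (R.eval ⟨(b : N), hb.1⟩) := by
        intro R
        conv_lhs => rw [← hbk]
        rw [eval_map_algebraMap, aeval_algebraMap_apply, coe_aeval_eq_eval]
      rw [h2, h2, h1, hc, map_mul]
      ring
    · rintro b ⟨hb, -⟩
      exact ⟨⟨b, hkG hb⟩, rfl⟩
  have hmap : ∀ R : k[X], aeval σ (R.map (algebraMap k G)) = aeval σ R := by
    intro R
    rw [aeval_def, eval₂_map]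
    rfl
  have h3 := congrArg (aeval σ) hpoly
  rw [map_mul, map_mul, hmap, hmap] at h3
  have hQl : aeval σ (ratDescPl f Q) ≠ 0 := by
    intro h0
    have hne : ratDescPl f Q ≠ 0 := by
      intro h0'
      have := ratDescPl_coeff f Q i
      rw [h0', coeff_zero] at this
      exact hf this.symm
    exact hσ (isAlgebraic_mono hkG ⟨_, hne, h0⟩)
  have h4 : h = aeval σ (ratDescPl f P) / aeval σ (ratDescPl f Q) := by
    rw [hPQ, div_eq_div_iff hQσ hQl, h3, mul_comm]
  rw [h4]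
  exact (adj k σ).div_mem (Gn.aeval_mem_adj _ _) (Gn.aeval_mem_adj _ _)

end Vale.Agent.P019
end

section

/-!
# Functions whose fibre classes come from a rational function field
-/

namespace Vale.Agent.P019

open Polynomial Filter

end Vale.Agent.P019
end

section

/-!
# The core rationality lemma
-/

namespace Vale.Agent.P019

open Polynomial Filter

variable {K : Type*} [Field K]

/-- classes of units modulo `U1` are classes in the residue field. -/
theorem cl_mem_U1_iff {ℓ : ℕ} [Fact ℓ.Prime] {W : ValuationSubring K} {z : K}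
    (hz : W.valuation z = 1) : cl ℓ z ∈ U1 ℓ W ↔ cl ℓ (rs W z) = 0 := by
  have hℓ : ℓ ≠ 0 := (Fact.out : ℓ.Prime).ne_zero
  have hz0 : z ≠ 0 := by rintro rfl; rw [map_zero] at hz; exact zero_ne_one hz
  constructor
  · rintro ⟨m, hm, h⟩
    obtain ⟨w, hw0, hw⟩ := (cl_eq_iff ℓ hz0 (one_add_ne_zero hm)).1 h
    have h1 : W.valuation w = 1 := by
      have h2 := congrArg W.valuation hw
      rw [hz, map_mul, val_one_add hm, one_mul, map_pow] at h2
      exact (pow_eq_one_iff_of_nonneg zero_le hℓ).1 h2.symm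
    have hmW : m ∈ W := (W.valuation_le_one_iff _).1 hm.le
    have h3 : rs W z = rs W w ^ ℓ := by
      rw [hw, rs_mul (add_mem (one_mem W) hmW) (pow_mem (mem_of_val h1) ℓ),
        rs_pow (mem_of_val h1), rs_add (one_mem W) hmW, rs_one, (rs_eq_zero hmW).2 hm,
        add_zero, one_mul]
    rw [h3, cl_pow_self]
  · intro h
    have h1 : rs W z ≠ 0 := (rs_ne_zero (mem_of_val hz)).2 hz
    obtain ⟨c, hc0, hc⟩ := (cl_eq_zero_iff ℓ h1).1 h
    obtain ⟨w, hwW, rfl⟩ := rs_surj c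
    have hw1 : W.valuation w = 1 := (rs_ne_zero hwW).1 hc0
    have h2 : W.valuation (z - w ^ ℓ) < 1 := by
      rw [← rs_eq (mem_of_val hz) (pow_mem hwW ℓ), rs_pow hwW, hc]
    have h3 := cl_sub_cl_mem_U1 (ℓ := ℓ) (by rw [map_pow, hw1, one_pow]) h2
    rwa [cl_pow_self, sub_zero] at h3

/-- residues of values of polynomials -/
theorem rs_aeval_mem {F : Subfield K} {W : ValuationSubring K} (h : TrivOn W F) {θ : K}
    (hθ : θ ∈ W) {R : Subfield (IsLocalRing.ResidueField W)} (hR : bar h ≤ R)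
    (hθR : rs W θ ∈ R) (P : F[X]) : rs W (aeval θ P) ∈ R := by
  rw [rs_aeval h hθ, aeval_eq_sum_range]
  refine sum_mem fun i _ => ?_
  rw [Algebra.smul_def]
  exact mul_mem (hR ((P.map (barEquiv h).toRingHom).coeff i).2) (pow_mem hθR i)

theorem aeval_mem_W {F : Subfield K} {W : ValuationSubring K} (h : TrivOn W F) {θ : K}
    (hθ : θ ∈ W) (P : F[X]) : aeval θ P ∈ W :=
  aeval_mem hθ (fun i => h _ (P.coeff i).2)

/-- residues are quotients of values of polynomials at the residue of `θ`. -/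
theorem Nice.rs_eq_div {F : Subfield K} {W : ValuationSubring K} {π θ : K}
    (hW : Nice W F π θ) (c : IsLocalRing.ResidueField W) :
    ∃ P Q : F[X], rs W (aeval θ Q) ≠ 0 ∧ c = rs W (aeval θ P) / rs W (aeval θ Q) := by
  obtain ⟨z, hz, rfl⟩ := rs_surj c
  obtain ⟨P, Q, hQ, hPQ⟩ := hW.res z ((W.valuation_le_one_iff _).2 hz)
  have hP' := aeval_mem_W hW.triv hW.mem P
  have hQ' := aeval_mem_W hW.triv hW.mem Q
  have hQ0 : rs W (aeval θ Q) ≠ 0 := (rs_ne_zero hQ').2 hQ
  refine ⟨P, Q, hQ0, ?_⟩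
  rw [eq_div_iff hQ0, ← rs_mul hz hQ']
  exact (rs_eq (mul_mem hz hQ') hP').2 hPQ

/-- finite generation of the residue field. -/
theorem Nice.fg {k F : Subfield K} (hkF : k ≤ F) (hfg : FG k F) {W : ValuationSubring K}
    {π θ : K} (hW : Nice W F π θ) (hk : TrivOn W k) :
    FG (bar hk) (⊤ : Subfield (IsLocalRing.ResidueField W)) := by
  classical
  obtain ⟨S, hS⟩ := hfg
  refine ⟨(insert θ S).image (rs W), ?_⟩
  set R := bar hk ⊔ Subfield.closure (((insert θ S).image (rs W) : Finset _) : Set _) with hR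
  have hSR : ∀ z ∈ insert θ S, rs W z ∈ R := by
    intro z hz
    refine (le_sup_right : Subfield.closure _ ≤ R) (Subfield.subset_closure ?_)
    exact Finset.mem_coe.2 (Finset.mem_image_of_mem _ hz)
  have h1 : bar hW.triv ≤ R := by
    intro c hc
    obtain ⟨e, he, rfl⟩ := (mem_bar hW.triv).1 hc
    have h2 : F ≤ (R.comap (barHom hW.triv)).map F.subtype := by
      have h3 : k ⊔ Subfield.closure (S : Set K) ≤
          (R.comap (barHom hW.triv)).map F.subtype := by
        refine sup_le ?_ (Subfield.closure_le.2 ?_)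
        · intro c hc
          exact ⟨⟨c, hkF hc⟩, (le_sup_left : bar hk ≤ R) (rs_mem_bar hk hc), rfl⟩
        · intro c hc
          have hcF : c ∈ F := by
            rw [hS]
            exact (le_sup_right : Subfield.closure _ ≤ k ⊔ Subfield.closure (S : Set K))
              (Subfield.subset_closure hc)
          exact ⟨⟨c, hcF⟩, hSR c (Finset.mem_insert_of_mem hc), rfl⟩
      rw [← hS] at h3
      exact h3
    obtain ⟨⟨c, hc'⟩, hc'', rfl⟩ := h2 he
    exact hc''
  have hθ : rs W θ ∈ R := hSR θ (Finset.mem_insert_self _ _)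
  symm
  rw [eq_top_iff]
  intro c _
  obtain ⟨P, Q, -, rfl⟩ := hW.rs_eq_div c
  exact div_mem (rs_aeval_mem hW.triv hW.mem h1 hθ P) (rs_aeval_mem hW.triv hW.mem h1 hθ Q)

end Vale.Agent.P019
end

section

/-!
# Finite kernels and ranks modulo `U1`
-/

namespace Vale.Agent.P019

open Polynomial Filter

variable {K : Type*} [Field K] {ℓ : ℕ} [Fact ℓ.Prime]

theorem Nice.finite [CharZero K] {k F E : Subfield K} (hk : IsAlgClosed k) (hkF : k ≤ F)
    (hfg : FG k F) {W : ValuationSubring K} {π θ : K} (hW : Nice W F π θ) (hkE : k ≤ E)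
    (hEW : TrivOn W E) :
    ((U1 ℓ W ⊓ VS ℓ E : Submodule (ZMod ℓ) (V ℓ K)) : Set (V ℓ K)).Finite := by
  have hkW : TrivOn W k := hW.triv.mono hkF
  have := rs_charZero hEW
  have hfgN : FG (bar hkW) (⊤ : Subfield (IsLocalRing.ResidueField W)) :=
    hW.fg hkF hfg hkW
  have hfgE : FG (bar hEW) (⊤ : Subfield (IsLocalRing.ResidueField W)) :=
    hfgN.mono (bar_mono hkW hEW hkE) le_top
  obtain ⟨ζ, hζk, hζ⟩ := finK_prim (bar_isAlgClosed hkW hk) ℓ
  obtain ⟨N, hN⟩ := fk ℓ hfgE (bar_mono hkW hEW hkE hζk) hζ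
  by_contra hinf
  have hinf' : ((U1 ℓ W ⊓ VS ℓ E : Submodule (ZMod ℓ) (V ℓ K)) : Set (V ℓ K)).Infinite := hinf
  let f := hinf'.natEmbedding
  have hf : ∀ n : ℕ, ∃ e ∈ E, e ≠ 0 ∧ ((f n : V ℓ K)) = cl ℓ e ∧ cl ℓ e ∈ U1 ℓ W := by
    intro n
    obtain ⟨h1, h2⟩ := Submodule.mem_inf.1 (f n).2
    obtain ⟨e, he, he0, h⟩ := mem_VS.1 h2
    exact ⟨e, he, he0, h, h ▸ h1⟩
  choose e heE he0 hfe heU using hf
  have hval : ∀ n, W.valuation (e n) = 1 := fun n => hEW.eq_one (heE n) (he0 n)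
  obtain ⟨i, j, hij, y, hy, hy0, hxy⟩ := hN (fun i => rs W (e i)) (by
    intro i
    have h1 : rs W (e i) ≠ 0 := (rs_ne_zero (hEW _ (heE i))).2 (hval i)
    refine ⟨rs_mem_bar hEW (heE i), h1, ?_⟩
    obtain ⟨w, _, hw⟩ := (cl_eq_zero_iff ℓ h1).1 ((cl_mem_U1_iff (hval i)).1 (heU i))
    exact ⟨w, Subfield.mem_top w, hw⟩)
  obtain ⟨e', he', rfl⟩ := (mem_bar hEW).1 hy
  have he'0 : e' ≠ 0 := by
    rintro rfl
    exact hy0 rs_zero
  have h1 : e i = e j * e' ^ ℓ := by
    apply rs_injOn hEW (heE i) (E.mul_mem (heE j) (E.pow_mem he' ℓ))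
    rw [rs_mul (hEW _ (heE j)) (hEW _ (E.pow_mem he' ℓ)), rs_pow (hEW _ he')]
    exact hxy
  have h2 : cl ℓ (e i) = cl ℓ (e j) := (cl_eq_iff ℓ (he0 i) (he0 j)).2 ⟨e', he'0, h1⟩
  apply hij
  apply Fin.ext
  apply f.injective
  apply Subtype.ext
  rw [hfe, hfe, h2]

theorem rk2_of_finite {A U : Submodule (ZMod ℓ) (V ℓ K)} (hA : (A : Set (V ℓ K)).Infinite)
    (h : ((U ⊓ A : Submodule (ZMod ℓ) (V ℓ K)) : Set (V ℓ K)).Finite) : Rk2 A U := by
  have : NeZero ℓ := ⟨(Fact.out : ℓ.Prime).ne_zero⟩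
  obtain ⟨u, huA, hu⟩ := hA.exists_notMem_finite h
  have huU : u ∉ U := fun h' => hu ⟨h', huA⟩
  have h2 : (⋃ i : ZMod ℓ, (fun w => i • u + w) ''
      ((U ⊓ A : Submodule (ZMod ℓ) (V ℓ K)) : Set (V ℓ K))).Finite :=
    Set.finite_iUnion fun i => h.image _
  obtain ⟨v, hvA, hv⟩ := hA.exists_notMem_finite h2
  refine ⟨u, huA, v, hvA, fun i j hij => ?_⟩
  have hj : j = 0 := by
    by_contra hj
    apply hv
    rw [Set.mem_iUnion]
    refine ⟨-(j⁻¹ * i), v + (j⁻¹ * i) • u, ⟨?_, ?_⟩, ?_⟩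
    · have h3 := U.smul_mem j⁻¹ hij
      rw [smul_add, smul_smul, smul_smul, inv_mul_cancel₀ hj, one_smul, add_comm] at h3
      exact h3
    · exact A.add_mem hvA (A.smul_mem _ huA)
    · simp only [neg_smul]
      abel
  refine ⟨?_, hj⟩
  by_contra hi
  apply huU
  rw [hj, zero_smul, add_zero] at hij
  have h3 := U.smul_mem i⁻¹ hij
  rw [smul_smul, inv_mul_cancel₀ hi, one_smul] at h3
  exact h3

theorem Rk2.mono {A B U : Submodule (ZMod ℓ) (V ℓ K)} (h : Rk2 A U) (hAB : A ≤ B ⊔ U) :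
    Rk2 B U := by
  obtain ⟨u, hu, v, hv, huv⟩ := h
  obtain ⟨b, hb, w, hw, rfl⟩ := Submodule.mem_sup.1 (hAB hu)
  obtain ⟨b', hb', w', hw', rfl⟩ := Submodule.mem_sup.1 (hAB hv)
  refine ⟨b, hb, b', hb', fun i j hij => huv i j ?_⟩
  have h1 : i • (b + w) + j • (b' + w') = (i • b + j • b') + (i • w + j • w') := by
    rw [smul_add, smul_add]
    abel
  rw [h1]
  exact U.add_mem hij (U.add_mem (U.smul_mem _ hw) (U.smul_mem _ hw'))

theorem finB_cl_neg {k : Subfield K} (hk : IsAlgClosed k) (x : K) : cl ℓ (-x) = cl ℓ x := by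
  by_cases hx : x = 0
  · rw [hx, neg_zero]
  · have h1 : -x = (-1) * x := by ring
    rw [h1, cl_mul ℓ (by simp) hx, line_cl_const hk (k.neg_mem k.one_mem), zero_add]

end Vale.Agent.P019
end

section

/-!
# Transfer of nice valuations
-/

namespace Vale.Agent.P019

open Polynomial Filter

variable {K L : Type*} [Field K] [Field L] [CharZero K] [CharZero L] {ℓ : ℕ} [Fact ℓ.Prime]
  {k : Subfield K} {l : Subfield L} {Θ : V ℓ K ≃ₗ[ZMod ℓ] V ℓ L}

omit [CharZero K] in
theorem exists_neg (hk : IsAlgClosed k) : ∃ i : K, i ^ ℓ = -1 := by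
  obtain ⟨z, hz⟩ := IsAlgClosed.exists_pow_nat_eq (-1 : k) (Fact.out : ℓ.Prime).pos
  refine ⟨z, ?_⟩
  have := congrArg (algebraMap k K) hz
  rw [map_pow, map_neg, map_one] at this
  exact this

theorem FG.adj {K : Type*} [Field K] {k F : Subfield K} (h : FG k F) (s : K) : FG k (adj F s) := by
  classical
  obtain ⟨S, rfl⟩ := h
  refine ⟨insert s S, ?_⟩
  rw [Finset.coe_insert, Set.insert_eq, Subfield.closure_union]
  unfold Vale.Agent.P019.adj
  rw [sup_comm (Subfield.closure {s}), sup_assoc]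

omit [CharZero K] [CharZero L] in
theorem Rk2.map {A U : Submodule (ZMod ℓ) (V ℓ K)} {A' U' : Submodule (ZMod ℓ) (V ℓ L)}
    (h : Rk2 A U) (hA : ∀ v ∈ A, Θ v ∈ A') (hU : ∀ v, Θ v ∈ U' → v ∈ U) : Rk2 A' U' := by
  obtain ⟨u, hu, v, hv, h⟩ := h
  refine ⟨Θ u, hA u hu, Θ v, hA v hv, fun i j hij => h i j (hU _ ?_)⟩
  rwa [map_add, map_smul, map_smul]

end Vale.Agent.P019
end

section

/-!
# Rationality of the curves corresponding to good elements
-/

namespace Vale.Agent.P019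

open Polynomial Filter

set_option linter.unusedSectionVars false

section shift

variable {K : Type*} [Field K] {ℓ : ℕ} [Fact ℓ.Prime] {k : Subfield K}

end shift

variable {K L : Type*} [Field K] [Field L] [CharZero K] [CharZero L] {ℓ : ℕ} [Fact ℓ.Prime]
  {k : Subfield K} {l : Subfield L} {Θ : V ℓ K ≃ₗ[ZMod ℓ] V ℓ L}

omit [CharZero K] in
theorem ne_ae (k : Subfield K) (a : K) : ∀ᶠ c in ae k, c ≠ a := by
  rw [ae_iff]
  refine (Set.finite_singleton a).subset ?_
  rintro c ⟨-, hc⟩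
  rw [not_not] at hc
  exact hc

end Vale.Agent.P019
end

section

/-!
# The correspondence of points on rational curves
-/

set_option linter.unusedSectionVars false
set_option linter.unusedVariables false

namespace Vale.Agent.P019

open Polynomial Filter

variable {K L : Type*} [Field K] [Field L] [CharZero K] [CharZero L] {ℓ : ℕ} [Fact ℓ.Prime]
  {k : Subfield K} {l : Subfield L} {Θ : V ℓ K ≃ₗ[ZMod ℓ] V ℓ L}

/-- the functionals of the points corresponding to a pole. -/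
def PoleAt (k : Subfield K) (l : Subfield L) (Θ : V ℓ K ≃ₗ[ZMod ℓ] V ℓ L) (s : K) (s' : L)
    (b : K) : Prop :=
  ∃ f : V ℓ L →ₗ[ZMod ℓ] ZMod ℓ, (∀ v ∈ VS ℓ (adj k s), del ℓ k s b v = f (Θ v)) ∧
    ∀ c ∈ l, f (cl ℓ (s' - c)) = f (cl ℓ s')

end Vale.Agent.P019
end

section

/-!
# Injective rational functions are Moebius transformations
-/

namespace Vale.Agent.P019

open Polynomial

section MobHelpers

variable {l : Type*} [Field l]

theorem mob_not_both_root {P Q : l[X]} (hcop : IsCoprime P Q) {x : l} (hQ : Q.eval x = 0) :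
    P.eval x ≠ 0 := by
  intro hP
  obtain ⟨a, b, hab⟩ := hcop
  have := congrArg (Polynomial.eval x) hab
  simp [hP, hQ] at this

theorem mob_fibre_ne_zero {P Q : l[X]} (hcop : IsCoprime P Q)
    (hnc : P.natDegree ≠ 0 ∨ Q.natDegree ≠ 0) (c : l) : P - C c * Q ≠ 0 := by
  intro h
  have hP : P = C c * Q := sub_eq_zero.mp h
  have hQ : IsUnit Q := by
    refine hcop.isUnit_of_dvd' ?_ dvd_rfl
    exact ⟨C c, by rw [hP]; ring⟩
  have hQ0 : Q.natDegree = 0 := natDegree_eq_zero_of_isUnit hQ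
  have hP0 : P.natDegree = 0 := by
    have h1 : P.natDegree ≤ Q.natDegree := by
      rw [hP]; exact natDegree_C_mul_le c Q
    omega
  rcases hnc with h1 | h1 <;> contradiction

theorem mob_value {P Q : l[X]} (hcop : IsCoprime P Q) {c x : l}
    (h : (P - C c * Q).eval x = 0) : Q.eval x ≠ 0 ∧ P.eval x / Q.eval x = c := by
  have h1 : P.eval x = c * Q.eval x := by
    have : P.eval x - c * Q.eval x = 0 := by simpa using h
    linear_combination this
  have h2 : Q.eval x ≠ 0 := by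
    intro h0
    exact mob_not_both_root hcop h0 (by rw [h1, h0, mul_zero])
  exact ⟨h2, by rw [h1]; field_simp⟩

theorem mob_wronskian {P Q : l[X]} [CharZero l] (hcop : IsCoprime P Q)
    (hnc : P.natDegree ≠ 0 ∨ Q.natDegree ≠ 0) : wronskian P Q ≠ 0 := by
  intro h
  rw [hcop.wronskian_eq_zero_iff] at h
  have hP : P.natDegree = 0 := derivative_eq_zero.mp h.1
  have hQ : Q.natDegree = 0 := derivative_eq_zero.mp h.2
  rcases hnc with h1 | h1 <;> contradiction

end MobHelpers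

end Vale.Agent.P019
end

section

/-!
# Shifts on fibres and centres
-/

namespace Vale.Agent.P019

open Polynomial Filter

section shift

variable {K : Type*} [Field K] [CharZero K] {ℓ : ℕ} [Fact ℓ.Prime] {k : Subfield K}

end shift

variable {K L : Type*} [Field K] [Field L] [CharZero K] [CharZero L] {ℓ : ℕ} [Fact ℓ.Prime]
  {k : Subfield K} {l : Subfield L} {Θ : V ℓ K ≃ₗ[ZMod ℓ] V ℓ L}

end Vale.Agent.P019
end

section

/-!
# Normalized coordinates
-/

namespace Vale.Agent.P019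

set_option linter.unusedSectionVars false
set_option linter.unusedVariables false

open Polynomial Filter

/-- `σ` restricts to an isomorphism of the subfields `k` and `l`. -/
structure IsoOn {K L : Type*} [Field K] [Field L] (k : Subfield K) (l : Subfield L) (σ : K → L) :
    Prop where
  mem : ∀ a ∈ k, σ a ∈ l
  add : ∀ a ∈ k, ∀ b ∈ k, σ (a + b) = σ a + σ b
  mul : ∀ a ∈ k, ∀ b ∈ k, σ (a * b) = σ a * σ b
  one : σ 1 = 1
  surj : ∀ β ∈ l, ∃ b ∈ k, σ b = β

variable {K L : Type*} [Field K] [Field L]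
  {ℓ : ℕ} {k : Subfield K} {l : Subfield L} {Θ : V ℓ K ≃ₗ[ZMod ℓ] V ℓ L}

theorem IsoOn.zero {σ : K → L} (hσ : IsoOn k l σ) : σ 0 = 0 := by
  have h := hσ.add 0 k.zero_mem 0 k.zero_mem
  rw [add_zero] at h
  exact (left_eq_add).1 h

theorem IsoOn.neg {σ : K → L} (hσ : IsoOn k l σ) {a : K} (ha : a ∈ k) : σ (-a) = - σ a := by
  have h := hσ.add a ha (-a) (k.neg_mem ha)
  rw [add_neg_cancel, hσ.zero] at h
  exact (neg_eq_of_add_eq_zero_right h.symm).symm

theorem IsoOn.sub {σ : K → L} (hσ : IsoOn k l σ) {a b : K} (ha : a ∈ k) (hb : b ∈ k) :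
    σ (a - b) = σ a - σ b := by
  rw [sub_eq_add_neg, hσ.add a ha (-b) (k.neg_mem hb), hσ.neg hb, sub_eq_add_neg]

theorem IsoOn.ne_zero {σ : K → L} (hσ : IsoOn k l σ) {a : K} (ha : a ∈ k) (h0 : a ≠ 0) :
    σ a ≠ 0 := by
  intro h
  have h1 := hσ.mul a ha a⁻¹ (k.inv_mem ha)
  rw [mul_inv_cancel₀ h0, hσ.one, h, zero_mul] at h1
  exact one_ne_zero h1

theorem IsoOn.inj {σ : K → L} (hσ : IsoOn k l σ) {a b : K} (ha : a ∈ k) (hb : b ∈ k)
    (h : σ a = σ b) : a = b := by
  by_contra hab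
  refine hσ.ne_zero (k.sub_mem ha hb) (sub_ne_zero.2 hab) ?_
  rw [hσ.sub ha hb, h, sub_self]

variable [CharZero K] [CharZero L] [Fact ℓ.Prime]

end Vale.Agent.P019
end

section

/-!
# Moebius relations between the correspondences
-/

namespace Vale.Agent.P019

set_option linter.unusedVariables false

open Polynomial Filter

section relb_ae

variable {K L : Type*} [Field K] [Field L]

theorem relb_comap {k : Subfield K} {l : Subfield L} {f : K → L} {G : K → Prop}
    (hG : ∀ᶠ a in ae k, G a) (hf : ∀ a ∈ k, G a → f a ∈ l)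
    (hinj : ∀ a ∈ k, G a → ∀ b ∈ k, G b → f a = f b → a = b) {P : L → Prop}
    (hP : ∀ᶠ β in ae l, P β) : ∀ᶠ a in ae k, P (f a) := by
  rw [ae_iff] at hG hP ⊢
  have h1 : {a : K | a ∈ k ∧ G a ∧ ¬ P (f a)}.Finite := by
    refine Set.Finite.of_finite_image (f := f) (hP.subset ?_) ?_
    · rintro _ ⟨a, ⟨ha, hGa, hPa⟩, rfl⟩
      exact ⟨hf a ha hGa, hPa⟩
    · rintro a ⟨ha, hGa, -⟩ b ⟨hb, hGb, -⟩ hab
      exact hinj a ha hGa b hb hGb hab
  refine (hG.union h1).subset ?_
  rintro a ⟨ha, hPa⟩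
  by_cases hGa : G a
  · exact Or.inr ⟨ha, hGa, hPa⟩
  · exact Or.inl ⟨ha, hGa⟩

theorem relb_aeval_mem {k : Subfield K} (x : K) (F : k[X]) : aeval x F ∈ adj k x := by
  rw [aeval_eq_sum_range]
  refine sum_mem fun i _ => ?_
  rw [Algebra.smul_def]
  exact mul_mem (le_adj k x (F.coeff i).2) (pow_mem (mem_adj k x) i)

theorem relb_coprime {k : Subfield K} (hk : IsAlgClosed k) {x z : K} (hx : x ∉ k)
    (hz : z ∈ adj k x) :
    ∃ p q : k[X], IsCoprime p q ∧ q ≠ 0 ∧ z = aeval x p / aeval x q := by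
  classical
  obtain ⟨p, q, rfl⟩ := line_mem hz
  by_cases hq : q = 0
  · refine ⟨0, 1, isCoprime_one_right, one_ne_zero, ?_⟩
    rw [hq]
    simp
  · set g := EuclideanDomain.gcd p q with hg
    have hg0 : g ≠ 0 := by
      intro h
      exact hq (EuclideanDomain.gcd_eq_zero_iff.1 h).2
    have h1 : p = g * (p / g) := (EuclideanDomain.mul_div_cancel' hg0
      (EuclideanDomain.gcd_dvd_left p q)).symm
    have h2 : q = g * (q / g) := (EuclideanDomain.mul_div_cancel' hg0
      (EuclideanDomain.gcd_dvd_right p q)).symm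
    refine ⟨p / g, q / g, ?_, ?_, ?_⟩
    · obtain ⟨u, v, h3⟩ : ∃ u v, g = p * u + q * v :=
        ⟨_, _, EuclideanDomain.gcd_eq_gcd_ab p q⟩
      refine ⟨u, v, mul_left_cancel₀ hg0 ?_⟩
      calc g * (u * (p / g) + v * (q / g)) = (g * (p / g)) * u + (g * (q / g)) * v := by ring
        _ = p * u + q * v := by rw [← h1, ← h2]
        _ = g * 1 := by rw [← h3, mul_one]
    · intro h
      rw [h, mul_zero] at h2
      exact hq h2
    · have h3 : aeval x g ≠ 0 := line_aeval_ne hk hx hg0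
      conv_lhs => rw [h1, h2]
      rw [map_mul, map_mul, mul_div_mul_left _ _ h3]

end relb_ae

section relb_psi

variable {K L : Type*} [Field K] [Field L] [CharZero K] [CharZero L] {ℓ : ℕ} [Fact ℓ.Prime]
  {k : Subfield K} {l : Subfield L} {Θ : V ℓ K ≃ₗ[ZMod ℓ] V ℓ L}

end relb_psi

section relb_poly

set_option linter.unusedSectionVars false

variable {L : Type*} [Field L] [CharZero L] {ℓ : ℕ} [Fact ℓ.Prime] {l : Subfield L}

open Classical in
/-- the polynomial `P - x Q`. -/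
noncomputable def relbF (P Q : l[X]) (x : L) : l[X] :=
  P - C (if h : x ∈ l then ⟨x, h⟩ else 0) * Q

variable (hl : IsAlgClosed l) {s' z' R : L} (hs' : s' ∉ l) (hz' : z' ∉ l)
  {W : ValuationSubring L} (hWs : TrivOn W (adj l s')) (hWz : TrivOn W (adj l z'))
  {P Q : l[X]} (hQ : Q ≠ 0) (hR : R = aeval s' P / aeval s' Q) (hW : W.valuation (z' - R) < 1)

end relb_poly

section relb_main

set_option linter.unusedSectionVars false

variable {K L : Type*} [Field K] [Field L] [CharZero K] [CharZero L] {ℓ : ℕ} [Fact ℓ.Prime]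
  {k : Subfield K} {l : Subfield L} {Θ : V ℓ K ≃ₗ[ZMod ℓ] V ℓ L}

end relb_main

variable {K L : Type*} [Field K] [Field L] [CharZero K] [CharZero L] {ℓ : ℕ} [Fact ℓ.Prime]
  {k : Subfield K} {l : Subfield L} {Θ : V ℓ K ≃ₗ[ZMod ℓ] V ℓ L}

end Vale.Agent.P019
end

section

/-!
# Generic good elements
-/

namespace Vale.Agent.P019

set_option linter.unusedSectionVars false

open Polynomial Filter

variable {K : Type*} [Field K] [CharZero K] {k : Subfield K}

end Vale.Agent.P019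
end

section

/-!
# Functions on an uncountable field that are almost invariant
-/

namespace Vale.Agent.P019

open Filter

end Vale.Agent.P019
end

section

/-!
# The isomorphism of the fields of constants
-/

namespace Vale.Agent.P019

open Polynomial Filter

section aux

variable {K : Type*} [Field K]

/-- the filter `ae k` and cofinite sets of the type `k`. -/
theorem ae_iff_sub {k : Subfield K} {P : K → Prop} :
    (∀ᶠ a in ae k, P a) ↔ ∀ᶠ a : k in cofinite, P a := by
  rw [ae_iff, eventually_cofinite]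
  constructor
  · intro h
    refine Set.Finite.of_finite_image (f := Subtype.val) (h.subset ?_)
      Subtype.val_injective.injOn
    rintro _ ⟨a, ha, rfl⟩
    exact ⟨a.2, ha⟩
  · intro h
    refine (h.image Subtype.val).subset ?_
    rintro a ⟨ha, ha'⟩
    exact ⟨⟨a, ha⟩, ha', rfl⟩

theorem ae_shift {k : Subfield K} {P : K → Prop} {c : K} (hc : c ∈ k)
    (h : ∀ᶠ a in ae k, P a) : ∀ᶠ a in ae k, P (c + a) := by
  rw [ae_iff] at h ⊢
  refine Set.Finite.of_finite_image (f := fun a => c + a) (h.subset ?_)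
    (add_right_injective c).injOn
  rintro _ ⟨a, ⟨ha, ha'⟩, rfl⟩
  exact ⟨add_mem hc ha, ha'⟩

theorem ae_scale {k : Subfield K} {P : K → Prop} {c : K} (hc : c ∈ k) (hc0 : c ≠ 0)
    (h : ∀ᶠ a in ae k, P a) : ∀ᶠ a in ae k, P (c * a) := by
  rw [ae_iff] at h ⊢
  refine Set.Finite.of_finite_image (f := fun a => c * a) (h.subset ?_)
    (mul_right_injective₀ hc0).injOn
  rintro _ ⟨a, ⟨ha, ha'⟩, rfl⟩
  exact ⟨mul_mem hc ha, ha'⟩

theorem ae_ne {k : Subfield K} (c : K) : ∀ᶠ a in ae k, a ≠ c := by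
  rw [ae_iff]
  refine (Set.finite_singleton c).subset ?_
  rintro a ⟨-, ha⟩
  exact not_not.1 ha

end aux

variable {K L : Type*} [Field K] [Field L] [CharZero K] [CharZero L] {ℓ : ℕ} [Fact ℓ.Prime]
  {k : Subfield K} {l : Subfield L} {Θ : V ℓ K ≃ₗ[ZMod ℓ] V ℓ L}

open Classical in
/-- restriction of a map to the constants. -/
noncomputable def rst (k : Subfield K) (l : Subfield L) (ψ : K → L) : k → l :=
  fun b => if h : ψ b ∈ l then ⟨ψ b, h⟩ else 0

end Vale.Agent.P019
end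

section

/-!
# Frames and generic valuations (perfect version)

`mem_adjoin_simple`, `isAlgebraic_adjoin_simple` (for the plain `adj`), `frb_ae`, `exists_over`,
`Over.trivOn` are those of the old file.
-/

namespace Vale.Agent.P019P

open Vale.Agent.P019

set_option linter.style.haveILetI false
set_option linter.unusedSectionVars false

open Polynomial Filter

variable {K : Type*} [Field K]

theorem isAlgebraic_adjoin_simple' {F : Subfield K} {x z : K} :
    IsAlgebraic (IntermediateField.adjoin F {x}) z ↔ IsAlgebraic (adj F x) z := by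
  rw [isAlgebraic_adj]
  exact isAlgebraic_adjoin_simple

/-- a subfield algebraic over a perfect subfield is perfect. -/
theorem frp_perfect {F E : Subfield K} [PerfectField F] (h : F ≤ E)
    (halg : ∀ z ∈ E, IsAlgebraic F z) : PerfectField E := by
  letI : Algebra F E := (Subfield.inclusion h).toAlgebra
  haveI : Algebra.IsAlgebraic F E := ⟨fun z => by
    obtain ⟨P, hP0, hP⟩ := halg z z.2
    refine ⟨P, hP0, ?_⟩
    apply Subtype.ext
    have e : ((aeval z P : E) : K) = aeval (z : K) P := by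
      have h1 : algebraMap F K = (algebraMap E K).comp (algebraMap F E) := rfl
      rw [aeval_def, aeval_def, h1]
      exact hom_eval₂ P (algebraMap F E) (algebraMap E K) z
    rw [e, hP]
    rfl⟩
  exact Algebra.IsAlgebraic.perfectField (K := F) (L := E)

/-- primitive elements. -/
theorem exists_prim [PerfectField K] {k F : Subfield K} [PerfectField F] (hkF : k ≤ F)
    (hfg : FG k (⊤ : Subfield K)) (halg : ∀ z : K, IsAlgebraic F z) :
    ∃ θ : K, ∀ z, z ∈ Vale.Agent.P019.adj F θ := by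
  obtain ⟨S, hS⟩ := hfg
  set F' : Subfield K := F ⊔ Subfield.closure (S : Set K) with hF'
  haveI : PerfectField F' := frp_perfect (le_sup_left : F ≤ F') fun z _ => halg z
  have htop : (⊤ : Subfield K) = F' := by
    apply le_antisymm _ le_top
    rw [hS]
    exact pf_le (sup_le_sup_right hkF _)
  have hfg' : Vale.Agent.P019.FG F (⊤ : Subfield K) := ⟨S, htop⟩
  have : Algebra.EssFiniteType F K := bert_ess le_rfl hfg'
  have : Algebra.IsAlgebraic F K := ⟨halg⟩
  have : Module.Finite F K := Algebra.finite_of_essFiniteType_of_isAlgebraic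
  obtain ⟨θ, hθ⟩ := Field.exists_primitive_element F K
  refine ⟨θ, fun z => mem_adjoin_simple.1 ?_⟩
  rw [hθ]
  exact IntermediateField.mem_top

theorem exists_frame [PerfectField K] {k : Subfield K} (hfg : FG k (⊤ : Subfield K)) {t s : K}
    (hs : ¬ IsAlgebraic k s) (ht : ¬ IsAlgebraic (adj k s) t) : ∃ G, Frame k G t s := by
  classical
  obtain ⟨S, hS⟩ := hfg
  let GT : Finset K → Subfield K := fun T => pf (k ⊔ Subfield.closure (T : Set K))
  let 𝒯 : Finset (Finset K) := S.powerset.filter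
    (fun T => ¬ IsAlgebraic (GT T) s ∧ ¬ IsAlgebraic (adj (GT T) s) t)
  have hne : 𝒯.Nonempty := by
    refine ⟨∅, Finset.mem_filter.2 ⟨Finset.mem_powerset.2 (Finset.empty_subset _), ?_⟩⟩
    have : GT ∅ = pf k := by
      change pf (k ⊔ Subfield.closure ((∅ : Finset K) : Set K)) = pf k
      rw [Finset.coe_empty, Subfield.closure_empty, sup_bot_eq]
    rw [this]
    refine ⟨fun h => hs (isAlgebraic_pf.1 h), fun h => ht ?_⟩
    refine isAlgebraic_mono ?_ h
    exact adj_le ((pf_mono (Vale.Agent.P019.le_adj k s))) (mem_adj k s)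
  obtain ⟨T, hT, hmax⟩ := 𝒯.exists_max_image Finset.card hne
  rw [Finset.mem_filter, Finset.mem_powerset] at hT
  obtain ⟨hTS, hTs, hTt⟩ := hT
  refine ⟨GT T, (le_sup_left : k ≤ k ⊔ _).trans (le_pf _), ⟨T, rfl⟩, hTt, hTs, ?_⟩
  set H : Subfield K := adj (adj (GT T) s) t with hH
  have hkH : k ≤ H := ((le_sup_left : k ≤ k ⊔ Subfield.closure (T : Set K)).trans (le_pf _)).trans
    ((le_adj _ _).trans (le_adj _ _))
  have hgen : ∀ z ∈ S, IsAlgebraic H z := by
    intro z hz
    by_contra hcon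
    have hzT : z ∉ T := by
      intro h
      apply hcon
      have h1 : z ∈ GT T := le_pf _ ((le_sup_right : Subfield.closure (T : Set K) ≤ _)
        (Subfield.subset_closure h))
      exact isAlgebraic_of_mem (le_adj _ t (le_adj _ s h1))
    have hG' : GT (insert z T) = adj (GT T) z := by
      have e1 : k ⊔ Subfield.closure ((insert z T : Finset K) : Set K) =
        (k ⊔ Subfield.closure (T : Set K)) ⊔ Subfield.closure {z} := by
        rw [Finset.coe_insert, Set.insert_eq, Subfield.closure_union, sup_assoc]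
        congr 1
        exact sup_comm _ _
      change pf (k ⊔ Subfield.closure ((insert z T : Finset K) : Set K)) = _
      rw [e1]
      apply le_antisymm
      · exact pf_mono (sup_le_sup_right (le_pf _) _)
      · refine adj_le (pf_mono le_sup_left) ?_
        exact le_pf _ ((le_sup_right : Subfield.closure {z} ≤ _)
          (Subfield.subset_closure rfl))
    have h1 : insert z T ∈ 𝒯 := by
      refine Finset.mem_filter.2 ⟨Finset.mem_powerset.2 (Finset.insert_subset hz hTS), ?_, ?_⟩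
      · rw [hG']
        intro h
        exact hcon (isAlgebraic_mono (le_adj _ t) (exchange hTs h))
      · rw [hG', adj_comm]
        intro h
        exact hcon (exchange hTt h)
    have h2 := hmax _ h1
    rw [Finset.card_insert_of_notMem hzT] at h2
    omega
  intro z
  have h1 : (⊤ : Subfield K) ≤ rac H := by
    rw [hS]
    refine pf_le (sup_le (hkH.trans (le_rac H)) (Subfield.closure_le.2 ?_))
    intro w hw
    exact mem_rac.2 (hgen w hw)
  exact mem_rac.1 (h1 (Subfield.mem_top z))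

theorem Frame.perfect [PerfectField K] {k G : Subfield K} {t s : K} (h : Frame k G t s) :
    PerfectField G := h.fg.perfect

theorem Frame.swap [PerfectField K] {k G : Subfield K} {t s : K} (h : Frame k G t s) :
    Frame k G s t where
  le := h.le
  fg := h.fg
  tt := fun h' => h.tt (exchange h.ss h')
  ss := fun h' => h.tt (isAlgebraic_mono (le_adj _ _) h')
  alg := fun z => by
    rw [adj_comm]
    exact h.alg z

/-- a valuation over `t = b` is over `y = c` for roots `y`, `c` of `t`, `b`. -/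
theorem Over.root {F : Subfield K} [PerfectField F] {W : ValuationSubring K} {t b y : K} {n : ℕ}
    (hb : b ∈ F) (hy : y ^ (ringExpChar K) ^ n = t) (h : Over W F t b) :
    ∃ c ∈ F, c ^ (ringExpChar K) ^ n = b ∧ Over W F y c := by
  obtain ⟨c, hc, hcb⟩ := exists_root_q F hb n
  refine ⟨c, hc, hcb, h.triv, ?_⟩
  have h1 := h.lt
  rw [← hy, ← hcb, ← sub_pow_q, map_pow] at h1
  by_contra hcon
  exact absurd h1 (not_lt.2 (one_le_pow₀ (not_lt.1 hcon)))

/-- generic description of the valuations, for elements of a plain field `F(y, θ)`. -/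
theorem frp_core {F : Subfield K} {X θ : K} {W : ValuationSubring K} (hX0 : X ≠ 0)
    (hWF : TrivOn W F) (hWX : W.valuation X < 1) (F' : IntermediateField F K)
    (hF' : F' = IntermediateField.adjoin F {X}) (Φ : F'[X]) (hmon : Φ.Monic)
    (hint : IntCoeff W Φ) (hroot : aeval θ Φ = 0)
    (hder : W.valuation (aeval θ (derivative Φ)) = 1) :
    θ ∈ W ∧
    (∀ z ∈ IntermediateField.adjoin F' {θ}, z ≠ 0 → ∃ n : ℤ, W.valuation (z * X ^ n) = 1) ∧
    (∀ z ∈ IntermediateField.adjoin F' {θ}, W.valuation z ≤ 1 → ∃ P Q : F[X],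
      W.valuation (aeval θ Q) = 1 ∧ W.valuation (z * aeval θ Q - aeval θ P) < 1) ∧
    ∃ P : F[X], P.Monic ∧ W.valuation (aeval θ P) < 1 := by
  let π : F' := ⟨X, by rw [hF']; exact IntermediateField.mem_adjoin_simple_self F X⟩
  have hπ0 : π ≠ 0 := fun h => hX0 (congrArg Subtype.val h)
  have hFrep : ∀ z : F', z ≠ 0 → ∃ n : ℤ, W.valuation (algebraMap F' K (z * π ^ n)) = 1 := by
    intro z hz
    have hzF : (z : K) ∈ IntermediateField.adjoin F {X} := by rw [← hF']; exact z.2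
    obtain ⟨n, c, hc, hc0, h⟩ := exists_residue hWF hWX hX0 hzF
      (fun h => hz (Subtype.ext h))
    refine ⟨n, ?_⟩
    rw [map_mul, map_zpow₀]
    exact val_of_sub (hWF.eq_one hc hc0) h
  have hcore := fun z (hz : z ∈ IntermediateField.adjoin F' {θ}) (hz0 : z ≠ 0) =>
    unr_core W π hπ0 hWX hFrep θ Φ hmon hint hroot hder z hz hz0
  have hθW : θ ∈ W := mem_of_root hmon hint hroot
  have hred : ∀ P : F'[X], IntCoeff W P → ∃ r : ℕ → F, ∀ i,
      W.valuation ((P.coeff i : K) - (r i : K)) < 1 := by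
    intro P hP
    have hPF : ∀ i : ℕ, ((P.coeff i : F') : K) ∈ IntermediateField.adjoin F {X} := by
      intro i; rw [← hF']; exact (P.coeff i).2
    choose r hr using fun i : ℕ => exists_residue_of_le hWF hWX hX0 (hPF i)
      ((W.valuation_le_one_iff _).2 (hP i))
    exact ⟨r, hr⟩
  refine ⟨hθW, ?_, ?_, ?_⟩
  · intro z hz hz0
    obtain ⟨n, G, H, -, -, hH, hG, h⟩ := hcore z hz hz0
    refine ⟨n, ?_⟩
    have := congrArg W.valuation h
    rw [map_mul, hH, hG, mul_one] at this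
    exact this
  · intro z hz hz1
    rcases hz1.lt_or_eq with hlt | heq
    · exact ⟨0, 1, by rw [map_one, map_one], by rw [map_one, map_zero, sub_zero, mul_one]; exact hlt⟩
    have hz0 : z ≠ 0 := by rintro rfl; rw [map_zero] at heq; exact zero_ne_one heq
    obtain ⟨n, G, H, hGi, hHi, hH, hG, h⟩ := hcore z hz hz0
    have hn : n = 0 := by
      have h1 := congrArg W.valuation h
      rw [map_mul, map_mul, hH, hG, heq, mul_one, one_mul, map_zpow₀] at h1
      by_contra hn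
      have hpos : 0 < W.valuation X := zero_lt_iff.2 ((Valuation.ne_zero_iff _).2 hX0)
      have h1' : W.valuation X ^ n = 1 := h1
      rcases lt_or_gt_of_ne hn with hn | hn
      · have := zpow_lt_zpow_right_of_lt_one₀ hpos hWX hn
        rw [h1', zpow_zero] at this; exact lt_irrefl _ this
      · have := zpow_lt_zpow_right_of_lt_one₀ hpos hWX hn
        rw [h1', zpow_zero] at this; exact lt_irrefl _ this
    rw [hn, zpow_zero, mul_one] at h
    have hred' : ∀ P : F'[X], IntCoeff W P → ∃ P₀ : F[X],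
        W.valuation (aeval θ P - aeval θ P₀) < 1 := by
      intro P hP
      obtain ⟨r, hr⟩ := hred P hP
      refine ⟨∑ i ∈ Finset.range (P.natDegree + 1), C (r i) * Polynomial.X ^ i, ?_⟩
      have e : aeval θ P - aeval θ (∑ i ∈ Finset.range (P.natDegree + 1),
          C (r i) * Polynomial.X ^ i) =
          ∑ i ∈ Finset.range (P.natDegree + 1), ((P.coeff i : K) - (r i : K)) * θ ^ i := by
        rw [map_sum, aeval_eq_sum_range, ← Finset.sum_sub_distrib]
        refine Finset.sum_congr rfl fun i _ => ?_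
        rw [map_mul, aeval_C, map_pow, aeval_X, Algebra.smul_def, sub_mul]
        rfl
      rw [e]
      refine Valuation.map_sum_lt _ one_ne_zero fun i _ => ?_
      rw [map_mul, map_pow]
      exact lt_of_le_of_lt (mul_le_of_le_one_right' (pow_le_one₀ zero_le
        ((W.valuation_le_one_iff _).2 hθW))) (hr i)
    obtain ⟨G₀, hG₀⟩ := hred' G hGi
    obtain ⟨H₀, hH₀⟩ := hred' H hHi
    refine ⟨G₀, H₀, ?_, ?_⟩
    · refine val_of_sub hH ?_
      rw [← Valuation.map_neg, neg_sub]; exact hH₀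
    · have e : z * aeval θ H₀ - aeval θ G₀ =
          -(z * (aeval θ H - aeval θ H₀)) + (aeval θ G - aeval θ G₀) := by
        rw [← h]; ring
      rw [e]
      refine Valuation.map_add_lt _ ?_ hG₀
      rw [Valuation.map_neg, map_mul, heq, one_mul]
      exact hH₀
  · obtain ⟨r, hr⟩ := hred Φ hint
    refine ⟨Polynomial.X ^ Φ.natDegree +
      ∑ i ∈ Finset.range Φ.natDegree, C (r i) * Polynomial.X ^ i, ?_, ?_⟩
    · refine monic_X_pow_add ?_
      refine lt_of_le_of_lt (degree_sum_le _ _) ?_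
      rw [Finset.sup_lt_iff (by exact WithBot.bot_lt_coe _)]
      intro i hi
      refine lt_of_le_of_lt (degree_C_mul_X_pow_le _ _) ?_
      exact_mod_cast Finset.mem_range.1 hi
    · have e : aeval θ (Polynomial.X ^ Φ.natDegree +
          ∑ i ∈ Finset.range Φ.natDegree, C (r i) * Polynomial.X ^ i : F[X]) =
          ∑ i ∈ Finset.range Φ.natDegree, ((r i : K) - (Φ.coeff i : K)) * θ ^ i := by
        have h4 : aeval θ Φ = θ ^ Φ.natDegree +
            ∑ i ∈ Finset.range Φ.natDegree, (Φ.coeff i : K) * θ ^ i := by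
          rw [aeval_eq_sum_range, Finset.sum_range_succ, hmon.coeff_natDegree, one_smul, add_comm]
          rfl
        rw [hroot] at h4
        have h5 : θ ^ Φ.natDegree =
            -∑ i ∈ Finset.range Φ.natDegree, (Φ.coeff i : K) * θ ^ i :=
          eq_neg_of_add_eq_zero_left h4.symm
        rw [map_add, map_pow, aeval_X, map_sum, h5, neg_add_eq_sub, ← Finset.sum_sub_distrib]
        refine Finset.sum_congr rfl fun i _ => ?_
        rw [map_mul, aeval_C, map_pow, aeval_X, sub_mul]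
        rfl
      rw [e]
      refine Valuation.map_sum_lt _ one_ne_zero fun i _ => ?_
      rw [map_mul, map_pow]
      refine lt_of_le_of_lt (mul_le_of_le_one_right' (pow_le_one₀ zero_le
        ((W.valuation_le_one_iff _).2 hθW))) ?_
      rw [← Valuation.map_neg, neg_sub]
      exact hr i

theorem frp_int_ae {G : Subfield K} {σ : K} (F' : IntermediateField G K)
    (hF' : F' = IntermediateField.adjoin G {σ}) (p : F'[X]) :
    ∀ᶠ b : G in cofinite, ∀ W : ValuationSubring K, Over W G σ b → IntCoeff W p := by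
  subst hF'
  have h1 : ∀ᶠ b : G in cofinite, ∀ i ∈ p.support, ∀ W : ValuationSubring K, Over W G σ b →
      W.valuation (p.coeff i : K) = 1 := by
    rw [Filter.eventually_all_finset]
    intro i hi
    refine unit_ae_of_mem (p.coeff i).2 ?_
    intro h; exact (mem_support_iff.1 hi) (Subtype.ext h)
  filter_upwards [h1] with b hb W hW i
  by_cases hi : i ∈ p.support
  · change (p.coeff i : K) ∈ W
    rw [← W.valuation_le_one_iff]; exact (hb i hi W hW).le
  · rw [notMem_support_iff.1 hi, map_zero]; exact zero_mem _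

theorem frp_alg_aeval {F L : Type*} [Field F] [Field L] [Algebra F L] {θ : L}
    (hθ : IsAlgebraic F θ) (P : F[X]) : IsAlgebraic F (aeval θ P) := by
  induction P using Polynomial.induction_on' with
  | add p q hp hq =>
    rw [map_add]
    exact hp.add hq
  | monomial n a =>
    rw [aeval_monomial]
    exact (isAlgebraic_algebraMap a).mul (hθ.pow n)

/-- the generic valuations over `y = c`. -/
theorem frp_core_ae {F : Subfield K} {y θ : K} (hy : ¬ IsAlgebraic F y)
    (F' : IntermediateField F K) (hF' : F' = IntermediateField.adjoin F {y})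
    (Φ : F'[X]) (hmon : Φ.Monic) (hroot : aeval θ Φ = 0)
    (hsep : Φ.Separable) :
    ∀ᶠ c in ae F, ∀ W : ValuationSubring K, Over W F y c →
      θ ∈ W ∧
      (∀ z ∈ Vale.Agent.P019.adj (Vale.Agent.P019.adj F y) θ, z ≠ 0 →
        ∃ n : ℤ, W.valuation (z * (y - c) ^ n) = 1) ∧
      (∀ z ∈ Vale.Agent.P019.adj (Vale.Agent.P019.adj F y) θ, W.valuation z ≤ 1 →
        ∃ P Q : F[X], W.valuation (aeval θ Q) = 1 ∧
          W.valuation (z * aeval θ Q - aeval θ P) < 1) ∧
      ∃ P : F[X], P.Monic ∧ W.valuation (aeval θ P) < 1 := by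
  have hθ : IsAlgebraic F' θ := ⟨Φ, hmon.ne_zero, hroot⟩
  have hder0 : aeval θ (derivative Φ) ≠ 0 := hsep.aeval_derivative_ne_zero hroot
  have halg : IsAlgebraic F' (aeval θ (derivative Φ)) := frp_alg_aeval hθ _
  have halg' : IsAlgebraic (IntermediateField.adjoin F {y}) (aeval θ (derivative Φ)) := by
    rw [← hF']
    exact halg
  refine frb_ae ?_
  filter_upwards [frp_int_ae F' hF' Φ, unit_ae halg' hder0] with b hb1 hb2 W hW
  have hX0 : y - (b : K) ≠ 0 := by
    intro h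
    rw [sub_eq_zero] at h
    apply hy
    rw [h]
    exact isAlgebraic_algebraMap b
  have h1 := frp_core (θ := θ) hX0 hW.triv hW.lt F' (by rw [hF', adjoin_sub]) Φ hmon
    (hb1 W hW) hroot (hb2 W hW)
  have hmem : ∀ z, z ∈ Vale.Agent.P019.adj (Vale.Agent.P019.adj F y) θ ↔
      z ∈ IntermediateField.adjoin F' {θ} := by
    intro z
    rw [adj_eq F y, hF']
    exact mem_adjoin_simple.symm
  refine ⟨h1.1, fun z hz => h1.2.1 z ((hmem z).1 hz), fun z hz => h1.2.2.1 z ((hmem z).1 hz),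
    h1.2.2.2⟩

theorem frp_aeval_mem {L : Type*} [Field L] {E : Subfield L} (a : L) (r : E[X]) :
    aeval a r ∈ Vale.Agent.P019.adj E a := by
  rw [aeval_eq_sum_range]
  refine Subfield.sum_mem _ (fun i _ => ?_)
  rw [Algebra.smul_def]
  exact Subfield.mul_mem _ (Vale.Agent.P019.le_adj E a (SetLike.coe_mem _))
    (pow_mem (Vale.Agent.P019.mem_adj E a) i)

/-- residues. -/
theorem frp_res [PerfectField K] {F : Subfield K} [PerfectField F] {θ : K}
    {W : ValuationSubring K} (hF : TrivOn W F) (hθ : θ ∈ W)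
    (halg : ∃ P : F[X], P.Monic ∧ W.valuation (aeval θ P) < 1) {z : K}
    (hz : W.valuation z ≤ 1) {n : ℕ}
    (h : ∃ P Q : F[X], W.valuation (aeval θ Q) = 1 ∧
      W.valuation (z ^ (ringExpChar K) ^ n * aeval θ Q - aeval θ P) < 1) :
    ∃ P Q : F[X], W.valuation (aeval θ Q) = 1 ∧
      W.valuation (z * aeval θ Q - aeval θ P) < 1 := by
  have hzW : z ∈ W := (W.valuation_le_one_iff z).1 hz
  have hmemW : ∀ Q : F[X], aeval θ Q ∈ W := fun Q => aeval_mem hθ (fun i => hF _ (Q.coeff i).2)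
  haveI : PerfectField (bar hF) := bar_perfect hF
  have hθalg : IsAlgebraic (bar hF) (rs W θ) := by
    obtain ⟨P, hPm, hP⟩ := halg
    refine ⟨P.map (barEquiv hF).toRingHom, (hPm.map _).ne_zero, ?_⟩
    rw [← rs_aeval hF hθ]
    exact (rs_eq_zero (hmemW P)).2 hP
  -- the residue field generated by `θ` is perfect
  set R : Subfield (IsLocalRing.ResidueField W) := Vale.Agent.P019.adj (bar hF) (rs W θ) with hR
  have hRrac : R ≤ rac (bar hF) :=
    Vale.Agent.P019.adj_le (le_rac _) (mem_rac.2 hθalg)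
  haveI : PerfectField R := frp_perfect (Vale.Agent.P019.le_adj _ _)
    fun z hz => mem_rac.1 (hRrac hz)
  have haevR : ∀ Q : F[X], rs W (aeval θ Q) ∈ R := by
    intro Q
    rw [rs_aeval hF hθ]
    exact frp_aeval_mem _ _
  obtain ⟨P, Q, hQ, hPQ⟩ := h
  have hzR : rs W z ∈ R := by
    apply mem_of_pow_q (n := n)
    rw [rs_ringExpChar hF, ← rs_pow hzW]
    have hQ0 : rs W (aeval θ Q) ≠ 0 := (rs_ne_zero (hmemW Q)).2 hQ
    have h1 : rs W (z ^ (ringExpChar K) ^ n) * rs W (aeval θ Q) = rs W (aeval θ P) := by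
      rw [← rs_mul (pow_mem hzW _) (hmemW Q), rs_eq (mul_mem (pow_mem hzW _) (hmemW Q)) (hmemW P)]
      exact hPQ
    rw [eq_div_of_mul_eq hQ0 h1]
    exact R.div_mem (haevR P) (haevR Q)
  obtain ⟨A, B, hAB⟩ := (IntermediateField.mem_adjoin_simple_iff _ _).1
    (mem_adjoin_simple.2 hzR)
  -- lift the polynomials
  have hlift : ∀ A : (bar hF)[X], ∃ A' : F[X], rs W (aeval θ A') = aeval (rs W θ) A := by
    intro A
    refine ⟨A.map (barEquiv hF).symm.toRingHom, ?_⟩
    rw [rs_aeval hF hθ, Polynomial.map_map]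
    have : (barEquiv hF).toRingHom.comp (barEquiv hF).symm.toRingHom = RingHom.id _ := by
      ext x; simp
    rw [this, Polynomial.map_id]
  obtain ⟨A', hA'⟩ := hlift A
  obtain ⟨B', hB'⟩ := hlift B
  by_cases hB0 : aeval (rs W θ) B = 0
  · rw [hB0, div_zero] at hAB
    refine ⟨0, 1, by rw [map_one, map_one], ?_⟩
    rw [map_one, map_zero, sub_zero, mul_one]
    exact (rs_eq_zero hzW).1 hAB
  · refine ⟨A', B', ?_, ?_⟩
    · rw [← rs_ne_zero (hmemW B'), hB']
      exact hB0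
    · rw [← rs_eq (mul_mem hzW (hmemW B')) (hmemW A'), rs_mul hzW (hmemW B'), hB', hA', hAB,
        div_mul_cancel₀ _ hB0]

/-- for almost all `a`, every valuation subring over `t = a` is nice. -/
theorem Frame.nice [PerfectField K] {k G : Subfield K} {t s : K} (h : Frame k G t s)
    (hfg : FG k (⊤ : Subfield K)) :
    ∃ θ : K, ∀ᶠ a in ae (adj G s), ∀ W : ValuationSubring K, Over W (adj G s) t a →
      Nice W (adj G s) (t - a) θ := by
  classical
  set F : Subfield K := adj G s with hF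
  haveI : PerfectField F := perfect_adj _ _
  haveI : PerfectField (adj F t) := perfect_adj _ _
  obtain ⟨θ, hθ⟩ := exists_prim (h.le.trans ((le_adj _ s).trans (le_adj _ t))) hfg h.alg
  refine ⟨θ, ?_⟩
  have hθalg : IsAlgebraic (adj F t) θ := h.alg θ
  set Ψ := minpoly (adj F t) θ with hΨ
  have hΨm : Ψ.Monic := minpoly.monic hθalg.isIntegral
  have hΨs : Ψ.Separable := PerfectField.separable_of_irreducible
    (minpoly.irreducible hθalg.isIntegral)
  obtain ⟨m, y, hy, hcoef⟩ := exists_common_root (E := F) (t := t)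
    (Ψ.support.image (fun i => ((Ψ.coeff i : adj F t) : K))) (by
      intro z hz
      obtain ⟨i, -, rfl⟩ := Finset.mem_image.1 hz
      exact (Ψ.coeff i).2)
  have hcoef' : ∀ i, ((Ψ.coeff i : adj F t) : K) ∈ Vale.Agent.P019.adj F y := by
    intro i
    by_cases hi : i ∈ Ψ.support
    · exact hcoef _ (Finset.mem_image_of_mem _ hi)
    · rw [notMem_support_iff.1 hi]
      exact Subfield.zero_mem _
  have hyF : ¬ IsAlgebraic F y := by
    intro h'
    apply h.tt
    rw [← hy]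
    exact h'.pow _
  -- descend the minimal polynomial
  set F' := IntermediateField.adjoin F {y} with hF'
  have hle : Vale.Agent.P019.adj F y ≤ adj F t := by
    rw [← hy, adj_pow]
    exact adj0_le_adj F y
  have hF'le : ∀ z : F', (z : K) ∈ adj F t := fun z => hle (mem_adjoin_simple.1 z.2)
  let j : F' →+* adj F t :=
    { toFun := fun z => ⟨z, hF'le z⟩
      map_one' := rfl
      map_mul' := fun _ _ => rfl
      map_zero' := rfl
      map_add' := fun _ _ => rfl }
  have hl : Ψ ∈ Polynomial.lifts j := by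
    rw [Polynomial.lifts_iff_coeff_lifts]
    intro n
    exact ⟨⟨Ψ.coeff n, mem_adjoin_simple.2 (hcoef' n)⟩, rfl⟩
  obtain ⟨Φ, hΦ⟩ := hl
  have hΦ' : Φ.map j = Ψ := hΦ
  have hΦm : Φ.Monic := by
    rw [← hΦ'] at hΨm
    exact Polynomial.monic_of_injective j.injective hΨm
  have hΦs : Φ.Separable := by
    rw [← hΦ'] at hΨs
    exact (Polynomial.separable_map j).1 hΨs
  have hΦr : aeval θ Φ = 0 := by
    have h1 : aeval θ Ψ = 0 := minpoly.aeval _ _
    rw [← hΦ', aeval_def, eval₂_map] at h1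
    rw [aeval_def]
    exact h1
  have hcore := frp_core_ae hyF F' hF' Φ hΦm hΦr hΦs
  -- every element has a power in the plain field
  set N0 : Subfield K := Vale.Agent.P019.adj (Vale.Agent.P019.adj F y) θ with hN0
  have hall : ∀ z : K, ∃ n : ℕ, z ^ (ringExpChar K) ^ n ∈ N0 := by
    intro z
    rw [← mem_pf]
    have h1 : Vale.Agent.P019.adj (adj F t) θ ≤ pf N0 := by
      refine Vale.Agent.P019.adj_le ?_ (le_pf _ (Vale.Agent.P019.mem_adj _ _))
      refine pf_mono ?_
      refine Vale.Agent.P019.adj_le ((Vale.Agent.P019.le_adj F y).trans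
        (Vale.Agent.P019.le_adj _ θ)) ?_
      rw [← hy]
      exact Subfield.pow_mem _ (Vale.Agent.P019.le_adj _ θ (Vale.Agent.P019.mem_adj F y)) _
    exact h1 (hθ z)
  rw [ae_iff] at hcore ⊢
  refine (hcore.image (fun c => c ^ (ringExpChar K) ^ m)).subset ?_
  rintro a ⟨haF, ha⟩
  obtain ⟨c, hcF, hca⟩ := exists_root_q F haF m
  refine ⟨c, ⟨hcF, ?_⟩, hca⟩
  intro hc
  apply ha
  intro W hW
  obtain ⟨c', hc'F, hc'a, hWc⟩ := Over.root haF hy hW
  have hcc : c' = c := pow_q_inj (hc'a.trans hca.symm)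
  rw [hcc] at hWc
  obtain ⟨h1, h2, h3, h4⟩ := hc W hWc
  have hπ : (y - c) ^ (ringExpChar K) ^ m = t - a := by
    rw [sub_pow_q, hy, hca]
  have hne : t - a ≠ 0 := by
    intro h0
    apply h.tt
    rw [sub_eq_zero.1 h0]
    exact isAlgebraic_of_mem haF
  refine ⟨inferInstance, ⟨hne, hW.lt, ?_⟩, hW.triv, h1, ?_, h4⟩
  · intro z hz0
    obtain ⟨n, hn⟩ := hall z
    obtain ⟨i, hi⟩ := h2 _ hn (pow_ne_zero _ hz0)
    refine ⟨n + m, i, ?_⟩
    have e2 : ((y - c) ^ (ringExpChar K) ^ m) ^ i = ((y - c) ^ i) ^ (ringExpChar K) ^ m := by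
      rw [← zpow_natCast, ← zpow_natCast, ← zpow_mul, ← zpow_mul, mul_comm]
    have e : z ^ (ringExpChar K) ^ (n + m) * (t - a) ^ i =
        (z ^ (ringExpChar K) ^ n * (y - c) ^ i) ^ (ringExpChar K) ^ m := by
      rw [← hπ, e2, pow_add, pow_mul, mul_pow]
    rw [e, map_pow, hi, one_pow]
  · intro z hz
    obtain ⟨n, hn⟩ := hall z
    refine frp_res hW.triv h1 h4 hz (n := n) (h3 _ hn ?_)
    rw [map_pow]
    exact pow_le_one₀ zero_le hz

/-- nonzero elements are units over `t = a` for almost all `a`. -/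
theorem unit_over {F : Subfield K} {t z : K} (hz : z ≠ 0) (halg : IsAlgebraic (adj F t) z) :
    ∀ᶠ a in ae F, ∀ W : ValuationSubring K, Over W F t a → W.valuation z = 1 := by
  exact frb_ae (unit_ae (isAlgebraic_adjoin_simple'.2 halg) hz)

/-- nonzero elements are units over `t = a` for almost all `a`. -/
theorem Frame.unit {k G : Subfield K} {t s : K} (h : Frame k G t s) {z : K} (hz : z ≠ 0) :
    ∀ᶠ a in ae (adj G s), ∀ W : ValuationSubring K, Over W (adj G s) t a →
      W.valuation z = 1 :=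
  unit_over hz (h.alg z)

end Vale.Agent.P019P
end

section

/-!
# Rationality of functions that are constant on fibres (perfect version)
-/

namespace Vale.Agent.P019P

open Vale.Agent.P019

set_option linter.style.haveILetI false
set_option linter.unusedSectionVars false

open Polynomial Filter

variable {N : Type*} [Field N]

/-- the reduction argument over one point `b` : the minimal polynomial of `h` reduces to a power
of `X - c`. -/
theorem lemZ_point {G : Subfield N} {σ h b c : N} {W : ValuationSubring N}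
    (F' : Subfield N) (hGF : G ≤ F') (hσF : σ ∈ F') (hh : IsAlgebraic F' h) (hb : b ∈ G)
    (hc : c ∈ G) (hov : Over W G σ b) (hint : IntCoeff W (minpoly F' h))
    (hW : ∀ W : ValuationSubring N, Over W G σ b → W.valuation (h - c) < 1)
    (hn : 2 ≤ (minpoly F' h).natDegree) :
    W.valuation (aeval h (derivative (minpoly F' h))) < 1 := by
  set Φ := minpoly F' h with hΦdef
  have hmon : Φ.Monic := minpoly.monic hh.isIntegral
  set n := Φ.natDegree with hndef
  -- the ring of `W`-integral elements of `F'`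
  let O : Subring F' := W.toSubring.comap F'.subtype
  let ψ : O →+* W := (F'.subtype.comp O.subtype).codRestrict W.toSubring (fun x => x.2)
  let ρ : O →+* IsLocalRing.ResidueField W := (IsLocalRing.residue W).comp ψ
  have hρ : ∀ x : O, ρ x = 0 ↔ W.valuation ((x : F') : N) < 1 := fun x => residue_eq_zero (ψ x)
  let ι : O →+* F' := O.subtype
  have hι : Function.Injective ι := Subtype.val_injective
  let jj : O →+* N := F'.subtype.comp ι
  let B : Subring N := (eval₂RingHom jj h).range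
  have hσW : σ ∈ W := hov.mem hb
  have hGB : ∀ g ∈ G, g ∈ B := by
    intro g hg
    refine ⟨C (⟨⟨g, hGF hg⟩, hov.triv g hg⟩ : O), ?_⟩
    simp [jj, ι]
  have hσB : σ ∈ B := by
    refine ⟨C (⟨⟨σ, hσF⟩, hσW⟩ : O), ?_⟩
    simp [jj, ι]
  have hhB : h ∈ B := ⟨X, by simp⟩
  obtain ⟨m, β, ⟨P, hP⟩, hm⟩ := exists_pow_eq B hGB hσB hhB hb hc hW
  let σO : O := ⟨⟨σ - b, F'.sub_mem hσF (hGF hb)⟩, (W.valuation_le_one_iff _).1 hov.lt.le⟩
  let cO : O := ⟨⟨c, hGF hc⟩, hov.triv c hc⟩
  let Ψ : O[X] := (X - C cO) ^ m - C σO * P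
  have hΨ : aeval h (Ψ.map ι) = 0 := by
    rw [aeval_def, eval₂_map]
    have e1 : (algebraMap F' N).comp ι = jj := rfl
    rw [e1]
    have e2 : eval₂ jj h P = β := hP
    have e3 : jj σO = σ - b := rfl
    have e4 : jj cO = c := rfl
    simp only [Ψ, eval₂_sub, eval₂_pow, eval₂_X, eval₂_C, eval₂_mul, e2, e3, e4, hm, sub_self]
  have hdvd : Φ ∣ Ψ.map ι := minpoly.dvd F' h hΨ
  -- lift of the minimal polynomial
  obtain ⟨Φ0, hΦ0, hΦ0m⟩ : ∃ Φ0 : O[X], Φ0.map ι = Φ ∧ Φ0.Monic := by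
    have h1 : Φ ∈ lifts ι := by
      rw [lifts_iff_coeff_lifts]
      intro i
      exact ⟨⟨Φ.coeff i, hint i⟩, rfl⟩
    obtain ⟨Q, hQ1, _, hQ3⟩ := lifts_and_natDegree_eq_and_monic h1 hmon
    exact ⟨Q, hQ1, hQ3⟩
  have hdvd0 : Φ0 ∣ Ψ := by
    rw [← hΦ0] at hdvd
    exact (map_dvd_map ι hι hΦ0m).1 hdvd
  have hred : Φ0.map ρ ∣ (X - C (ρ cO)) ^ m := by
    have h1 := Polynomial.map_dvd ρ hdvd0
    have h2 : Ψ.map ρ = (X - C (ρ cO)) ^ m := by
      have h3 : ρ σO = 0 := (hρ σO).2 hov.lt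
      simp only [Ψ, Polynomial.map_sub, Polynomial.map_pow, Polynomial.map_mul, map_X, map_C, h3,
        map_zero, zero_mul, sub_zero]
    rwa [h2] at h1
  have hmρ : (Φ0.map ρ).Monic := hΦ0m.map ρ
  have hn0 : Φ0.natDegree = n := by
    rw [hndef, ← hΦ0, hΦ0m.natDegree_map]
  have hdeg : (Φ0.map ρ).natDegree = n := by rw [hΦ0m.natDegree_map, hn0]
  have hpow := eq_pow_of_dvd hmρ hred
  rw [hdeg] at hpow
  -- the element `h` is integral with residue that of `c`
  have hcW : c ∈ W := hov.triv c hc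
  have hhW : h ∈ W := by
    have h1 : h = (h - c) + c := by ring
    rw [h1]
    exact add_mem ((W.valuation_le_one_iff _).1 (hW W hov).le) hcW
  have hres : IsLocalRing.residue W ⟨h, hhW⟩ = ρ cO := by
    have h1 : IsLocalRing.residue W ((⟨h, hhW⟩ : W) - ⟨c, hcW⟩) = 0 :=
      (residue_eq_zero _).2 (hW W hov)
    rw [map_sub, sub_eq_zero] at h1
    exact h1
  -- the derivative at `h`
  have hval : aeval h (derivative Φ) = ((eval₂ ψ ⟨h, hhW⟩ (derivative Φ0) : W) : N) := by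
    rw [← hΦ0, Polynomial.derivative_map, aeval_def, eval₂_map]
    have e1 : (algebraMap F' N).comp ι = W.subtype.comp ψ := rfl
    rw [e1]
    have e2 := Polynomial.hom_eval₂ (derivative Φ0) ψ W.subtype ⟨h, hhW⟩
    exact e2.symm
  rw [hval, ← residue_eq_zero, Polynomial.hom_eval₂, hres]
  have e3 : eval₂ ((IsLocalRing.residue W).comp ψ) (ρ cO) (derivative Φ0) =
      eval (ρ cO) (derivative (Φ0.map ρ)) := by
    rw [Polynomial.derivative_map, eval_map]
  rw [e3, hpow, derivative_X_sub_C_pow, eval_mul, eval_pow, eval_sub, eval_X, eval_C, eval_C, sub_self,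
    zero_pow (by omega), mul_zero]

theorem lemZ [PerfectField N] {G : Subfield N} [PerfectField G] {σ h : N}
    (hσ : ¬ IsAlgebraic G σ) (hh : IsAlgebraic (adj G σ) h)
    (hinf : {b : N | b ∈ G ∧ ∃ c ∈ G, ∀ W : ValuationSubring N, Over W G σ b →
      W.valuation (h - c) < 1}.Infinite) : h ∈ adj G σ := by
  classical
  set P := adj G σ with hP
  have hPsep : (minpoly P h).Separable :=
    (PerfectField.separable_iff_squarefree).2
      (minpoly.irreducible hh.isIntegral).squarefree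
  -- a plain field containing the coefficients
  obtain ⟨m, y, hy, hcoef⟩ := exists_common_root (E := G) (t := σ)
    ((minpoly P h).support.image fun i => ((minpoly P h).coeff i : N)) (by
      intro z hz
      obtain ⟨i, _, rfl⟩ := Finset.mem_image.1 hz
      exact ((minpoly P h).coeff i).2)
  have hcoef' : ∀ i, ((minpoly P h).coeff i : N) ∈ Vale.Agent.P019.adj G y := by
    intro i
    by_cases hi : i ∈ (minpoly P h).support
    · exact hcoef _ (Finset.mem_image_of_mem _ hi)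
    · rw [Polynomial.notMem_support_iff.1 hi]
      exact (Vale.Agent.P019.adj G y).zero_mem
  set F' := IntermediateField.adjoin G {y} with hF'
  have hFP : ∀ z ∈ F', z ∈ P := by
    intro z hz
    rw [mem_adjoin_simple] at hz
    have h1 : adj G (y ^ ringExpChar N ^ m) = adj G y := adj_pow G y m
    rw [hP, ← hy, h1]
    exact adj0_le_adj G y hz
  -- the minimal polynomial descends
  obtain ⟨Q, hQ⟩ : ∃ Q : F'[X], Q.map (algebraMap F' N) = (minpoly P h).map (algebraMap P N) := by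
    have h1 : (minpoly P h).map (algebraMap P N) ∈ lifts (algebraMap F' N) := by
      rw [lifts_iff_coeff_lifts]
      intro i
      rw [coeff_map]
      exact ⟨⟨_, mem_adjoin_simple.2 (hcoef' i)⟩, rfl⟩
    exact (mem_lifts _).1 h1
  have hQ0 : Q ≠ 0 := by
    intro h0
    rw [h0, Polynomial.map_zero] at hQ
    exact (Polynomial.map_ne_zero (minpoly.ne_zero hh.isIntegral)) hQ.symm
  have hQroot : aeval h Q = 0 := by
    have h1 : aeval h Q = eval h (Q.map (algebraMap F' N)) := by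
      rw [eval_map, aeval_def]
    rw [h1, hQ, eval_map, ← aeval_def, minpoly.aeval]
  have hh' : IsAlgebraic F' h := ⟨Q, hQ0, hQroot⟩
  have hQsep : Q.Separable := by
    have h1 : (Q.map (algebraMap F' N)).Separable := by
      rw [hQ]
      exact hPsep.map
    exact (Polynomial.separable_map _).1 h1
  set Φ := minpoly F' h with hΦdef
  have hΦsep : Φ.Separable := hQsep.of_dvd (minpoly.dvd F' h hQroot)
  have hΦpos : 0 < Φ.natDegree := minpoly.natDegree_pos hh'.isIntegral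
  by_cases hn : 2 ≤ Φ.natDegree
  · exfalso
    have hder : aeval h (derivative Φ) ≠ 0 := hΦsep.aeval_derivative_ne_zero (minpoly.aeval F' h)
    have hyG : ¬ IsAlgebraic G y := by
      intro h1
      apply hσ
      rw [← hy]
      exact h1.pow _
    have halg : IsAlgebraic F' (aeval h (derivative Φ)) := by
      have h1 : aeval h (derivative Φ) ∈ Algebra.adjoin F' {h} := aeval_mem_adjoin_singleton F' h
      have h2 : Algebra.adjoin F' {h} ≤ integralClosure F' N :=
        Algebra.adjoin_le (Set.singleton_subset_iff.2 hh'.isIntegral)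
      exact (h2 h1 : IsIntegral F' (aeval h (derivative Φ))).isAlgebraic
    have h1 := (int_ae hh').and (unit_ae halg hder)
    have h2 : {b : G | ∃ c ∈ G, ∀ W : ValuationSubring N, Over W G y b →
      W.valuation (h - c) < 1}.Infinite := by
      intro hfin
      apply hinf
      refine (hfin.image (fun b : G => (b : N) ^ ringExpChar N ^ m)).subset ?_
      rintro b ⟨hb, c, hc, hcW⟩
      obtain ⟨b', hb', hbb⟩ := exists_root_q G hb m
      refine ⟨⟨b', hb'⟩, ⟨c, hc, fun W hW => hcW W ⟨hW.triv, ?_⟩⟩, hbb⟩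
      rw [← hy, ← hbb, ← sub_pow_q, map_pow]
      exact pow_lt_one₀ zero_le hW.lt (pow_pos (expChar_pos N _) m).ne'
    obtain ⟨b, ⟨c, hc, hcW⟩, h3, h4⟩ :=
      ((frequently_cofinite_iff_infinite.2 h2).and_eventually h1).exists
    obtain ⟨W, hW⟩ := exists_over hyG b.2
    have h5 := lemZ_point (W := W) F'.toSubfield (fun g hg => F'.algebraMap_mem ⟨g, hg⟩)
      (IntermediateField.mem_adjoin_simple_self G y) hh' b.2 hc hW (h3 W hW) hcW hn
    exact absurd (h4 W hW) (ne_of_lt h5)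
  · have hn1 : Φ.natDegree = 1 := by omega
    apply hFP
    have h1 : h ∈ (algebraMap F' N).range := by
      rw [← minpoly.natDegree_eq_one_iff]
      exact hn1
    obtain ⟨z, rfl⟩ := h1
    exact z.2

end Vale.Agent.P019P
end

section

/-!
# Rational functions with many values in a smaller field, Lueroth (perfect version)
-/

namespace Vale.Agent.P019P

open Vale.Agent.P019

set_option linter.style.haveILetI false
set_option linter.unusedSectionVars false

open Polynomial Filter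

variable {N : Type*} [Field N]

theorem rat_descent [PerfectField N] {k G : Subfield N} [PerfectField k] [PerfectField G]
    (hkG : k ≤ G) {σ h : N} (hσ : ¬ IsAlgebraic G σ) (hh : h ∈ adj G σ)
    (hinf : {b : N | b ∈ k ∧ ∃ c ∈ k, ∀ W : ValuationSubring N, Over W G σ b →
      W.valuation (h - c) < 1}.Infinite) : h ∈ adj k σ := by
  obtain ⟨m, y, hy, hhy⟩ := mem_adj_root.1 hh
  have hqm : 0 < ringExpChar N ^ m := pow_pos (expChar_pos N _) m
  have hyG : ¬ IsAlgebraic G y := by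
    intro h0
    apply hσ
    rw [← hy]
    exact h0.pow _
  refine mem_adj_root.2 ⟨m, y, hy, Vale.Agent.P019.rat_descent hkG hyG hhy ?_⟩
  intro hfin
  apply hinf
  refine (hfin.image fun x => x ^ ringExpChar N ^ m).subset ?_
  rintro b ⟨hb, c, hc, hW⟩
  obtain ⟨b0, hb0, hbb⟩ := exists_root_q k hb m
  refine ⟨b0, ⟨hb0, c, hc, fun W hover => hW W ⟨hover.triv, ?_⟩⟩, hbb⟩
  have e : σ - b = (y - b0) ^ ringExpChar N ^ m := by
    rw [sub_pow_q, hy, hbb]
  rw [e, map_pow]
  exact pow_lt_one₀ zero_le hover.lt hqm.ne'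

theorem luroth_sub [PerfectField N] {k E : Subfield N} [PerfectField k] [PerfectField E] {σ : N}
    (hσ : ¬ IsAlgebraic k σ) (hkE : k ≤ E) (hE : E ≤ adj k σ) (hne : ¬ E ≤ k) :
    ∃ u ∈ E, E = adj k u := by
  have hnot : ¬ E ⊓ Vale.Agent.P019.adj k σ ≤ k := by
    intro hle
    apply hne
    intro z hz
    obtain ⟨n, hn⟩ := mem_adj_iff.1 (hE hz)
    exact mem_of_pow_q (hle (Subfield.mem_inf.2 ⟨E.pow_mem hz _, hn⟩))
  obtain ⟨u, hu, hEu⟩ := Vale.Agent.P019.luroth_sub (E := E ⊓ Vale.Agent.P019.adj k σ) hσ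
    (le_inf hkE (Vale.Agent.P019.le_adj k σ)) inf_le_right hnot
  refine ⟨u, (Subfield.mem_inf.1 hu).1, le_antisymm ?_ (adj_le hkE (Subfield.mem_inf.1 hu).1)⟩
  intro z hz
  obtain ⟨n, hn⟩ := mem_adj_iff.1 (hE hz)
  refine mem_adj_iff.2 ⟨n, ?_⟩
  rw [← hEu]
  exact Subfield.mem_inf.2 ⟨E.pow_mem hz _, hn⟩

end Vale.Agent.P019P
end

section

/-!
# Elements with all translates in a rational subspace (perfect version)
-/

namespace Vale.Agent.P019P

open Vale.Agent.P019

set_option linter.style.haveILetI false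
set_option linter.unusedSectionVars false

open Polynomial Filter

/-- the value of a class on the order functional of a fibre. -/
theorem lemX_fn {N : Type*} [Field N] {ℓ : ℕ} [Fact ℓ.Prime] [NeZero (ℓ : N)] {k : Subfield N}
    {W : ValuationSubring N} (hW : TrivOn W k) {σ b : N} (hb : b ∈ k)
    (hU : IsUnif W (σ - b)) (s : Finset N) (hs : ∀ c ∈ s, c ∈ k) (n : N → ZMod ℓ)
    (hbs : b ∈ s) : hU.fn ℓ (∑ c ∈ s, n c • cl ℓ (σ - c)) = n b := by
  classical
  rw [map_sum, Finset.sum_eq_single b]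
  · rw [map_smul, hU.fn_self ℓ, smul_eq_mul, mul_one]
  · intro c hc hcb
    rw [map_smul]
    have h1 : W.valuation (σ - c) = 1 := by
      have h2 : σ - c = (b - c) + (σ - b) := by ring
      have h3 : W.valuation (b - c) = 1 :=
        hW.eq_one (k.sub_mem hb (hs c hc)) (sub_ne_zero.2 (Ne.symm hcb))
      rw [h2, Valuation.map_add_eq_of_lt_left, h3]
      rw [h3]
      exact hU.lt
    rw [hU.fn_unit ℓ _ h1, smul_zero]
  · intro h
    exact absurd hbs h

/-- a separable generator up to `q`-powers. -/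
theorem lemX_gen {N : Type*} [Field N] {k G : Subfield N} (hkG : k ≤ G)
    (hfg : FG k (⊤ : Subfield N)) {σ : N} (halg : ∀ z : N, IsAlgebraic (adj G σ) z) :
    ∃ θ : N, IsSeparable (IntermediateField.adjoin G {σ}) θ ∧ ∀ z : N, ∃ m : ℕ,
      z ^ ringExpChar N ^ m ∈
        IntermediateField.adjoin (IntermediateField.adjoin G {σ}) {θ} := by
  classical
  obtain ⟨S, hS⟩ := hfg
  set F' := IntermediateField.adjoin G {σ} with hF'
  have hsep : ∀ s : N, ∃ n : ℕ, IsSeparable F' (s ^ ringExpChar N ^ n) := by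
    intro s
    have h1 : IsAlgebraic F'.toSubfield s :=
      isAlgebraic_adjoin_simple.2 (isAlgebraic_adj.1 (halg s))
    exact exists_sep_pow h1
  choose e he using hsep
  set n := S.sup e with hn
  have hsep' : ∀ s ∈ S, IsSeparable F' (s ^ ringExpChar N ^ n) := by
    intro s hs
    have h1 : e s ≤ n := Finset.le_sup hs
    obtain ⟨d, hd⟩ := Nat.exists_eq_add_of_le h1
    rw [hd, pow_add, pow_mul]
    have h2 := mem_separableClosure_iff.2 (he s)
    exact mem_separableClosure_iff.1 (pow_mem h2 _)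
  set T : Finset N := S.image (fun s => s ^ ringExpChar N ^ n) with hT
  have hTsep : ∀ x ∈ (T : Set N), IsSeparable F' x := by
    intro x hx
    rw [hT, Finset.coe_image] at hx
    obtain ⟨s, hs, rfl⟩ := hx
    exact hsep' s hs
  set L := IntermediateField.adjoin F' (T : Set N) with hL
  haveI : Algebra.IsSeparable F' L :=
    (IntermediateField.isSeparable_adjoin_iff_isSeparable F' N).2 hTsep
  haveI : FiniteDimensional F' L :=
    IntermediateField.finiteDimensional_adjoin fun x hx => (hTsep x hx).isIntegral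
  obtain ⟨α, hα⟩ := Field.exists_primitive_element F' L
  have hLα : IntermediateField.adjoin F' {(α : N)} = L := by
    rw [← IntermediateField.lift_adjoin_simple, hα, IntermediateField.lift_top]
  refine ⟨α, ?_, fun z => ?_⟩
  · refine (IntermediateField.isSeparable_adjoin_iff_isSeparable F' N (S := {(α : N)})).1 ?_ α rfl
    rw [hLα]
    infer_instance
  · rw [hLα]
    have hz : z ∈ pf (k ⊔ Subfield.closure (S : Set N)) := by
      rw [← hS]
      exact Subfield.mem_top z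
    obtain ⟨m, hm⟩ := mem_pf.1 hz
    have h1 : k ⊔ Subfield.closure (S : Set N) ≤
        L.toSubfield.comap (iterateFrobenius N (ringExpChar N) n) := by
      refine sup_le ?_ (Subfield.closure_le.2 ?_)
      · intro x hx
        rw [Subfield.mem_comap, iterateFrobenius_def]
        refine pow_mem ?_ _
        exact L.algebraMap_mem ⟨x, F'.algebraMap_mem ⟨x, hkG hx⟩⟩
      · intro x hx
        rw [SetLike.mem_coe, Subfield.mem_comap, iterateFrobenius_def]
        refine IntermediateField.subset_adjoin _ _ ?_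
        rw [hT, Finset.coe_image]
        exact ⟨x, hx, rfl⟩
    have h2 := h1 hm
    rw [Subfield.mem_comap, iterateFrobenius_def, ← pow_mul, ← pow_add] at h2
    exact ⟨m + n, h2⟩

/-- for almost all `b`, every valuation over `σ = b` has uniformizer `σ - b` up to roots. -/
theorem lemX_unif_ae {N : Type*} [Field N] {G : Subfield N} {σ θ : N}
    (hσ : Transcendental G σ) (hsep : IsSeparable (IntermediateField.adjoin G {σ}) θ)
    (htop : ∀ z : N, ∃ m : ℕ, z ^ ringExpChar N ^ m ∈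
      IntermediateField.adjoin (IntermediateField.adjoin G {σ}) {θ}) :
    ∀ᶠ b : G in cofinite, ∀ W : ValuationSubring N, Over W G σ b → IsUnif W (σ - b) := by
  set F' := IntermediateField.adjoin G {σ} with hF'
  have hθ : IsAlgebraic F' θ := hsep.isIntegral.isAlgebraic
  have hder0 : aeval θ (derivative (minpoly F' θ)) ≠ 0 :=
    Separable.aeval_derivative_ne_zero hsep (minpoly.aeval _ _)
  have halg : IsAlgebraic F' (aeval θ (derivative (minpoly F' θ))) := by
    have := isAlgebraic_aeval (F := F'.toSubfield) (θ := θ) hθ (derivative (minpoly F' θ))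
    exact this
  filter_upwards [int_ae hθ, unit_ae halg hder0] with b hb1 hb2 W hW
  have hX0 : σ - (b : N) ≠ 0 := by
    intro h
    rw [sub_eq_zero] at h
    apply hσ
    rw [h]
    exact isAlgebraic_algebraMap b
  have hFb : F' = IntermediateField.adjoin G {σ - (b : N)} := by rw [hF', adjoin_sub]
  let π : F' := ⟨σ - (b : N), by
    rw [hFb]; exact IntermediateField.mem_adjoin_simple_self G _⟩
  have hπ0 : π ≠ 0 := fun h => hX0 (congrArg Subtype.val h)
  have hFrep : ∀ z : F', z ≠ 0 → ∃ n : ℤ, W.valuation (algebraMap F' N (z * π ^ n)) = 1 := by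
    intro z hz
    have hzF : (z : N) ∈ IntermediateField.adjoin G {σ - (b : N)} := by rw [← hFb]; exact z.2
    obtain ⟨n, c, hc, hc0, h⟩ := exists_residue hW.triv hW.lt hX0 hzF
      (fun h => hz (Subtype.ext h))
    refine ⟨n, ?_⟩
    rw [map_mul, map_zpow₀]
    exact val_of_sub (hW.triv.eq_one hc hc0) h
  refine ⟨hX0, hW.lt, fun z hz0 => ?_⟩
  obtain ⟨m, hm⟩ := htop z
  obtain ⟨n, P, Q, -, -, hQ, hP, h⟩ := unr_core W π hπ0 hW.lt hFrep θ (minpoly F' θ)
    (minpoly.monic hθ.isIntegral) (hb1 W hW) (minpoly.aeval _ _) (hb2 W hW)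
    (z ^ ringExpChar N ^ m) hm (pow_ne_zero _ hz0)
  refine ⟨m, n, ?_⟩
  have := congrArg W.valuation h
  rw [map_mul, hQ, hP, mul_one] at this
  exact this

theorem lemX {N : Type*} [Field N] [PerfectField N] {ℓ : ℕ} [Fact ℓ.Prime] [NeZero (ℓ : N)]
    {k G : Subfield N} [PerfectField G] (hk : IsAlgClosed k) (hkG : k ≤ G)
    (hfg : FG k (⊤ : Subfield N)) {σ h : N}
    (hσ : ¬ IsAlgebraic G σ) (halg : ∀ z : N, IsAlgebraic (adj G σ) z) (hh : h ∉ k)
    (hcl : ∀ c ∈ k, cl ℓ (h - c) ∈ VS ℓ (adj k σ)) : h ∈ adj k σ := by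
  classical
  haveI := hk
  haveI : PerfectField k := inferInstance
  have hσk : σ ∉ k := fun h => hσ (isAlgebraic_of_mem (hkG h))
  obtain ⟨θ, hθ, hθ'⟩ := lemX_gen hkG hfg halg
  have hhalg : IsAlgebraic (IntermediateField.adjoin G {σ}) h :=
    isAlgebraic_adjoin_simple.2 (isAlgebraic_adj.1 (halg h))
  have hB := (lemX_unif_ae hσ hθ hθ').and (mem_ae hhalg)
  rw [eventually_cofinite] at hB
  set bad : Set N := Subtype.val '' {b : G | ¬ ((∀ W : ValuationSubring N, Over W G σ b →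
      IsUnif W (σ - b)) ∧
      ∀ W : ValuationSubring N, Over W G σ b → h ∈ W)} with hbad
  have hbadfin : bad.Finite := hB.image _
  have hgood : ∀ b ∈ G, b ∉ bad → ∀ W : ValuationSubring N, Over W G σ b →
      IsUnif W (σ - b) ∧ h ∈ W := by
    intro b hb hbb W hW
    by_contra hcon
    apply hbb
    refine ⟨⟨b, hb⟩, ?_, rfl⟩
    intro h1
    exact hcon ⟨h1.1 W hW, h1.2 W hW⟩
  -- factorizations
  have hfac : ∀ c : N, ∃ (s : Finset N) (n : N → ZMod ℓ), c ∈ k → (∀ b ∈ s, b ∈ k) ∧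
      cl ℓ (h - c) = ∑ b ∈ s, n b • cl ℓ (σ - b) := by
    intro c
    by_cases hc : c ∈ k
    · obtain ⟨s, n, h1, h2⟩ := adj_factor hk hσk (hcl c hc)
      exact ⟨s, n, fun _ => ⟨h1, h2⟩⟩
    · exact ⟨∅, 0, fun h => absurd h hc⟩
  choose s n hsn using hfac
  -- exceptional constants
  set D : Set N := {c : N | c ∈ k ∧ ∀ b ∈ s c, n c b ≠ 0 → b ∈ bad} with hD
  have hDfin : D.Finite := by
    have : NeZero ℓ := ⟨(Fact.out : ℓ.Prime).ne_zero⟩
    let Φ : (hbadfin.toFinset → ZMod ℓ) → V ℓ N := fun m => ∑ b, m b • cl ℓ (σ - (b : N))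
    have hT : (Set.range Φ).Finite := Set.finite_range Φ
    refine (hT.biUnion (fun v _ => dist_top (ℓ := ℓ) hk hfg hh v)).subset ?_
    intro c hc
    rw [hD, Set.mem_ofPred_eq] at hc
    rw [Set.mem_iUnion₂]
    refine ⟨cl ℓ (h - c), ⟨fun b => if (b : N) ∈ s c then n c b else 0, ?_⟩, hc.1, rfl⟩
    change ∑ b : hbadfin.toFinset, (if (b : N) ∈ s c then n c b else 0) • cl ℓ (σ - (b : N)) = _
    rw [(hsn c hc.1).2, Finset.sum_coe_sort hbadfin.toFinset
      (fun b => (if b ∈ s c then n c b else 0) • cl ℓ (σ - b))]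
    have h1 : ∑ b ∈ s c, n c b • cl ℓ (σ - b) =
        ∑ b ∈ (s c).filter (fun b => b ∈ hbadfin.toFinset), n c b • cl ℓ (σ - b) := by
      rw [Finset.sum_filter]
      refine Finset.sum_congr rfl (fun b hb => ?_)
      split_ifs with h2
      · rfl
      · have h3 : n c b = 0 := by
          by_contra h4
          exact h2 (hbadfin.mem_toFinset.2 (hc.2 b hb h4))
        rw [h3, zero_smul]
    rw [h1]
    have h2 : ∀ b, (if b ∈ s c then n c b else 0) • cl ℓ (σ - b) =
        if b ∈ s c then n c b • cl ℓ (σ - b) else 0 := by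
      intro b
      split_ifs
      · rfl
      · rw [zero_smul]
    simp only [h2]
    rw [← Finset.sum_filter]
    refine Finset.sum_congr ?_ (fun _ _ => rfl)
    ext b
    rw [Finset.mem_filter, Finset.mem_filter, and_comm]
  have hkinf : (k : Set N).Infinite := infinite_of_isAlgClosed hk
  have hinf : ((k : Set N) \ D).Infinite := hkinf.sdiff hDfin
  -- the points
  have hpt : ∀ c : N, ∃ b : N, c ∈ (k : Set N) \ D → b ∈ k ∧
      ∀ W : ValuationSubring N, Over W G σ b → W.valuation (h - c) < 1 := by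
    intro c
    by_cases hc : c ∈ (k : Set N) \ D
    · have hck : c ∈ k := hc.1
      have h1 : ∃ b ∈ s c, n c b ≠ 0 ∧ b ∉ bad := by
        by_contra hcon
        apply hc.2
        refine ⟨hck, fun b hb hnb => ?_⟩
        by_contra hbb
        exact hcon ⟨b, hb, hnb, hbb⟩
      obtain ⟨b, hb, hnb, hbb⟩ := h1
      have hbk := (hsn c hck).1 b hb
      refine ⟨b, fun _ => ⟨hbk, fun W hW => ?_⟩⟩
      obtain ⟨hU, hhW⟩ := hgood b (hkG hbk) hbb W hW
      have h2 : h - c ∈ W := sub_mem hhW (hW.triv c (hkG hck))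
      rcases lt_or_eq_of_le ((W.valuation_le_one_iff _).2 h2) with h3 | h3
      · exact h3
      · exfalso
        have h4 := hU.fn_unit ℓ _ h3
        rw [(hsn c hck).2, lemX_fn (hW.triv.mono hkG) hbk hU (s c) (hsn c hck).1 (n c) hb] at h4
        exact hnb h4
    · exact ⟨0, fun h => absurd h hc⟩
  choose β hβ using hpt
  have hSinf : {b : N | b ∈ k ∧ ∃ c ∈ k, ∀ W : ValuationSubring N, Over W G σ b →
      W.valuation (h - c) < 1}.Infinite := by
    refine Set.infinite_of_injOn_mapsTo (f := β) ?_ ?_ hinf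
    · intro c hc c' hc' hcc
      obtain ⟨W, hW⟩ := exists_over hσ (hkG (hβ c hc).1)
      have h1 := (hβ c hc).2 W hW
      rw [hcc] at hW
      have h2 := (hβ c' hc').2 W hW
      have h3 : W.valuation (c - c') < 1 := by
        have h4 : c - c' = (h - c') - (h - c) := by ring
        rw [h4]
        exact lt_of_le_of_lt (W.valuation.map_sub _ _) (max_lt h2 h1)
      have h4 := hW.triv.eq_zero (hkG (k.sub_mem hc.1 hc'.1)) h3
      exact sub_eq_zero.1 h4
    · intro c hc
      exact ⟨(hβ c hc).1, c, hc.1, (hβ c hc).2⟩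
  refine rat_descent hkG hσ (lemZ hσ (halg h) (hSinf.mono ?_)) hSinf
  rintro b ⟨hb, c, hc, hW⟩
  exact ⟨hkG hb, c, hkG hc, hW⟩

end Vale.Agent.P019P
end

section

/-!
# The core rationality lemma (perfect version)

`cl_mem_U1_iff`, `rs_aeval_mem`, `aeval_mem_W` are those of the old file.
-/

namespace Vale.Agent.P019P

open Vale.Agent.P019

set_option linter.style.haveILetI false
set_option linter.unusedSectionVars false

open Polynomial Filter

variable {K : Type*} [Field K]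

theorem FG.adj_right [PerfectField K] {k G : Subfield K} (h : FG k G) (s : K) :
    FG k (adj G s) := by
  classical
  obtain ⟨S, hS⟩ := h
  refine ⟨S ∪ {s}, ?_⟩
  have h1 : k ⊔ Subfield.closure (S : Set K) ≤ G := by
    rw [hS]
    exact le_pf _
  rw [Finset.coe_union, Finset.coe_singleton, Subfield.closure_union, ← sup_assoc]
  apply le_antisymm
  · rw [← pf_pf (k ⊔ Subfield.closure (S : Set K) ⊔ Subfield.closure {s})]
    refine pf_mono (sup_le ?_ (le_sup_right.trans (le_pf _)))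
    conv_lhs => rw [hS]
    exact pf_mono le_sup_left
  · exact pf_mono (sup_le_sup_right h1 _)

/-- residues are quotients of values of polynomials at the residue of `θ`. -/
theorem Nice.rs_eq_div {F : Subfield K} {W : ValuationSubring K} {π θ : K}
    (hW : Nice W F π θ) (c : IsLocalRing.ResidueField W) :
    ∃ P Q : F[X], rs W (aeval θ Q) ≠ 0 ∧ c = rs W (aeval θ P) / rs W (aeval θ Q) := by
  obtain ⟨z, hz, rfl⟩ := rs_surj c
  obtain ⟨P, Q, hQ, hPQ⟩ := hW.res z ((W.valuation_le_one_iff _).2 hz)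
  have hP' := aeval_mem_W hW.triv hW.mem P
  have hQ' := aeval_mem_W hW.triv hW.mem Q
  have hQ0 : rs W (aeval θ Q) ≠ 0 := (rs_ne_zero hQ').2 hQ
  refine ⟨P, Q, hQ0, ?_⟩
  rw [eq_div_iff hQ0, ← rs_mul hz hQ']
  exact (rs_eq (mul_mem hz hQ') hP').2 hPQ

/-- finite generation of the residue field. -/
theorem Nice.fg [PerfectField K] {k F : Subfield K} (hkF : k ≤ F) (hfg : FG k F)
    {W : ValuationSubring K} {π θ : K} (hW : Nice W F π θ) (hk : TrivOn W k) :
    FG (bar hk) (⊤ : Subfield (IsLocalRing.ResidueField W)) := by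
  classical
  obtain ⟨S, hS⟩ := hfg
  refine ⟨(insert θ S).image (rs W), ?_⟩
  set R := bar hk ⊔ Subfield.closure (((insert θ S).image (rs W) : Finset _) : Set _) with hR
  have hSR : ∀ z ∈ insert θ S, rs W z ∈ R := by
    intro z hz
    refine (le_sup_right : Subfield.closure _ ≤ R) (Subfield.subset_closure ?_)
    exact Finset.mem_coe.2 (Finset.mem_image_of_mem _ hz)
  have hkSF : k ⊔ Subfield.closure (S : Set K) ≤ F := by
    rw [hS]
    exact le_pf _
  have h1 : bar hW.triv ≤ P019P.pf R := by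
    intro c hc
    obtain ⟨e, he, rfl⟩ := (mem_bar hW.triv).1 hc
    have h3 : k ⊔ Subfield.closure (S : Set K) ≤
        (R.comap (barHom hW.triv)).map F.subtype := by
      refine sup_le ?_ (Subfield.closure_le.2 ?_)
      · intro c hc
        exact ⟨⟨c, hkF hc⟩, (le_sup_left : bar hk ≤ R) (rs_mem_bar hk hc), rfl⟩
      · intro c hc
        have hcF : c ∈ F := hkSF
          ((le_sup_right : Subfield.closure _ ≤ k ⊔ Subfield.closure (S : Set K))
            (Subfield.subset_closure hc))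
        exact ⟨⟨c, hcF⟩, hSR c (Finset.mem_insert_of_mem hc), rfl⟩
    have he' : e ∈ P019P.pf (k ⊔ Subfield.closure (S : Set K)) := by
      rw [← hS]
      exact he
    obtain ⟨n, hn⟩ := mem_pf.1 he'
    obtain ⟨⟨c, hc'⟩, hc'', hce⟩ := h3 hn
    refine mem_pf.2 ⟨n, ?_⟩
    rw [rs_ringExpChar hk, ← rs_pow (hW.triv _ he), ← hce]
    exact hc''
  have hθ : rs W θ ∈ P019P.pf R := le_pf R (hSR θ (Finset.mem_insert_self _ _))
  symm
  rw [eq_top_iff]
  intro c _
  obtain ⟨P, Q, -, rfl⟩ := hW.rs_eq_div c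
  exact div_mem (rs_aeval_mem hW.triv hW.mem h1 hθ P) (rs_aeval_mem hW.triv hW.mem h1 hθ Q)

/-- the residue field is algebraic over the image of `F`. -/
theorem Nice.alg_bar {F : Subfield K} {W : ValuationSubring K} {π θ : K}
    (hW : Nice W F π θ) (c : IsLocalRing.ResidueField W) : IsAlgebraic (bar hW.triv) c := by
  obtain ⟨P, hP, hPW⟩ := hW.alg
  have h1 : IsAlgebraic (bar hW.triv) (rs W θ) := by
    refine ⟨P.map (barEquiv hW.triv).toRingHom, (hP.map _).ne_zero, ?_⟩
    rw [← rs_aeval hW.triv hW.mem]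
    exact (rs_eq_zero (aeval_mem_W hW.triv hW.mem P)).2 hPW
  obtain ⟨P, Q, -, rfl⟩ := hW.rs_eq_div c
  rw [rs_aeval hW.triv hW.mem, rs_aeval hW.triv hW.mem, div_eq_mul_inv]
  exact (isAlgebraic_aeval h1 _).mul (isAlgebraic_aeval h1 _).inv

theorem core [PerfectField K] {ℓ : ℕ} [Fact ℓ.Prime] [NeZero (ℓ : K)] {k G : Subfield K}
    (hk : IsAlgClosed k)
    (hkG : k ≤ G) (hfg : FG k G) {s : K} (hs : ¬ IsAlgebraic G s) {W : ValuationSubring K}
    {π θ : K} (hW : Nice W (adj G s) π θ) {E : Subfield K} (hkE : k ≤ E) (hEW : TrivOn W E)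
    (hV : VS ℓ E ≤ VS ℓ (adj k s) ⊔ U1 ℓ W) :
    ∀ h ∈ E, ∃ e ∈ adj k s, W.valuation (h - e) < 1 := by
  intro h hhE
  by_cases hhk : h ∈ k
  · exact ⟨h, le_adj k s hhk, by rw [sub_self, map_zero]; exact zero_lt_one⟩
  have hF := hW.triv
  have hG : TrivOn W G := hF.mono (le_adj G s)
  have hkW : TrivOn W k := hG.mono hkG
  have hks : TrivOn W (adj k s) := hF.mono (adj_mono hkG s)
  haveI : PerfectField (IsLocalRing.ResidueField W) := rs_perfect hG
  haveI : NeZero (ℓ : IsLocalRing.ResidueField W) := rs_neZero hG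
  haveI : PerfectField G := hfg.perfect
  haveI : PerfectField (bar hG) := bar_perfect hG
  have hk' : IsAlgClosed (bar hkW) := bar_isAlgClosed hkW hk
  have hfg' : FG (bar hkW) (⊤ : Subfield (IsLocalRing.ResidueField W)) :=
    hW.fg (hkG.trans (le_adj G s)) (hfg.adj_right s) hkW
  have hσ : ¬ IsAlgebraic (bar hG) (rs W s) := fun h' => hs (isAlgebraic_of_bar hG hF h')
  have halg : ∀ z : IsLocalRing.ResidueField W, IsAlgebraic (adj (bar hG) (rs W s)) z := by
    intro z
    rw [← bar_adj hG hF]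
    exact hW.alg_bar z
  have hh : rs W h ∉ bar hkW := by
    intro h'
    obtain ⟨c, hc, hc'⟩ := (mem_bar hkW).1 h'
    have := rs_injOn hEW (hkE hc) hhE hc'
    rw [this] at hc
    exact hhk hc
  have hcl : ∀ c ∈ bar hkW, cl ℓ (rs W h - c) ∈ VS ℓ (adj (bar hkW) (rs W s)) := by
    intro c' hc'
    obtain ⟨c, hc, rfl⟩ := (mem_bar hkW).1 hc'
    have hhc : h - c ∈ E := sub_mem hhE (hkE hc)
    have hhc0 : h - c ≠ 0 := by
      intro h0
      rw [sub_eq_zero] at h0
      rw [h0] at hhk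
      exact hhk hc
    obtain ⟨y, ⟨e, he, he0, rfl⟩, z, hz, hyz⟩ := Submodule.mem_sup.1
      (hV (cl_mem_VS (ℓ := ℓ) hhc))
    have h1 : cl ℓ ((h - c) / e) ∈ U1 ℓ W := by
      rw [cl_div ℓ hhc0 he0, ← hyz, add_sub_cancel_left]
      exact hz
    have hWhc : W.valuation (h - c) = 1 := hEW.eq_one hhc hhc0
    have hWe : W.valuation e = 1 := hks.eq_one he he0
    have hWei : W.valuation e⁻¹ = 1 := by rw [map_inv₀, hWe, inv_one]
    have hWd : W.valuation ((h - c) / e) = 1 := by rw [map_div₀, hWhc, hWe, div_one]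
    rw [cl_mem_U1_iff hWd, div_eq_mul_inv, rs_mul (mem_of_val hWhc) (mem_of_val hWei),
      rs_inv hWe, rs_sub (hEW _ hhE) (hEW _ (hkE hc))] at h1
    have hre : rs W e ≠ 0 := (rs_ne_zero (mem_of_val hWe)).2 hWe
    have hrh : rs W h - rs W c ≠ 0 := by
      rw [← rs_sub (hEW _ hhE) (hEW _ (hkE hc))]
      exact (rs_ne_zero (mem_of_val hWhc)).2 hWhc
    rw [← div_eq_mul_inv, cl_div ℓ hrh hre, sub_eq_zero] at h1
    rw [h1, ← bar_adj hkW hks]
    exact cl_mem_VS (rs_mem_bar hks he)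
  have hmem := lemX hk' (bar_mono hkW hG hkG) hfg' hσ halg hh hcl
  rw [← bar_adj hkW hks] at hmem
  obtain ⟨e, he, he'⟩ := (mem_bar hks).1 hmem
  exact ⟨e, he, (rs_eq (hEW _ hhE) (hks _ he)).1 he'.symm⟩

theorem core_rat [PerfectField K] {ℓ : ℕ} [Fact ℓ.Prime] [NeZero (ℓ : K)] {k G : Subfield K}
    (hk : IsAlgClosed k)
    (hkG : k ≤ G) (hfg : FG k G) {s : K} (hs : ¬ IsAlgebraic G s) {W : ValuationSubring K}
    {π θ : K} (hW : Nice W (adj G s) π θ) {E : Subfield K} [PerfectField E] (hkE : k ≤ E)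
    (hEW : TrivOn W E) (hV : VS ℓ E ≤ VS ℓ (adj k s) ⊔ U1 ℓ W) (hE : ¬ E ≤ k) :
    ∃ u ∈ E, E = adj k u := by
  have hF := hW.triv
  have hG : TrivOn W G := hF.mono (le_adj G s)
  have hkW : TrivOn W k := hG.mono hkG
  have hks : TrivOn W (adj k s) := hF.mono (adj_mono hkG s)
  haveI : PerfectField (IsLocalRing.ResidueField W) := rs_perfect hG
  haveI : IsAlgClosed (bar hkW) := bar_isAlgClosed hkW hk
  haveI : PerfectField (bar hEW) := bar_perfect hEW
  have hσ : ¬ IsAlgebraic (bar hkW) (rs W s) := fun h' => hs (isAlgebraic_of_bar hG hF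
    (isAlgebraic_mono (bar_mono hkW hG hkG) h'))
  have h1 : bar hEW ≤ adj (bar hkW) (rs W s) := by
    intro c hc
    obtain ⟨h, hh, rfl⟩ := (mem_bar hEW).1 hc
    obtain ⟨e, he, he'⟩ := core hk hkG hfg hs hW hkE hEW hV h hh
    rw [(rs_eq (hEW _ hh) (hks _ he)).2 he', ← bar_adj hkW hks]
    exact rs_mem_bar hks he
  have h2 : ¬ bar hEW ≤ bar hkW := by
    intro h'
    apply hE
    intro e he
    obtain ⟨c, hc, hc'⟩ := (mem_bar hkW).1 (h' (rs_mem_bar hEW he))
    rw [← rs_injOn hEW (hkE hc) he hc']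
    exact hc
  obtain ⟨u', hu', hEu⟩ := luroth_sub hσ (bar_mono hkW hEW hkE) h1 h2
  obtain ⟨u, hu, rfl⟩ := (mem_bar hEW).1 hu'
  refine ⟨u, hu, le_antisymm ?_ (adj_le hkE hu)⟩
  intro z hz
  have hku : TrivOn W (adj k u) := hEW.mono (adj_le hkE hu)
  have h3 : rs W z ∈ bar hku := by
    rw [bar_adj hkW hku, ← hEu]
    exact rs_mem_bar hEW hz
  obtain ⟨z', hz', hzz⟩ := (mem_bar hku).1 h3
  rw [← rs_injOn hEW (adj_le hkE hu hz') hz hzz]
  exact hz'

end Vale.Agent.P019P
end

section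

/-!
# Finiteness (perfect version)

`rk2_of_finite`, `Rk2.mono`, `finB_cl_neg` are those of the old file.
-/

namespace Vale.Agent.P019P

open Vale.Agent.P019

set_option linter.style.haveILetI false
set_option linter.unusedSectionVars false

open Polynomial Filter

variable {K : Type*} [Field K] [PerfectField K] {ℓ : ℕ} [Fact ℓ.Prime] [NeZero (ℓ : K)]

theorem Nice.finite {k F E : Subfield K} (hk : IsAlgClosed k) (hkF : k ≤ F)
    (hfg : FG k F) {W : ValuationSubring K} {π θ : K} (hW : Nice W F π θ) (hkE : k ≤ E)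
    (hEW : TrivOn W E) :
    ((U1 ℓ W ⊓ VS ℓ E : Submodule (ZMod ℓ) (V ℓ K)) : Set (V ℓ K)).Finite := by
  have hkW : TrivOn W k := hW.triv.mono hkF
  haveI : PerfectField k := inferInstance
  haveI : PerfectField (IsLocalRing.ResidueField W) := rs_perfect hkW
  haveI : NeZero (ℓ : IsLocalRing.ResidueField W) := rs_neZero hkW
  have hfgN : FG (bar hkW) (⊤ : Subfield (IsLocalRing.ResidueField W)) :=
    hW.fg hkF hfg hkW
  have hfgE : FG (bar hEW) (⊤ : Subfield (IsLocalRing.ResidueField W)) :=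
    hfgN.mono (bar_mono hkW hEW hkE) le_top
  obtain ⟨ζ, hζk, hζ⟩ := finK_prim (bar_isAlgClosed hkW hk) ℓ
  obtain ⟨N, hN⟩ := fk ℓ hfgE (bar_mono hkW hEW hkE hζk) hζ
  by_contra hinf
  have hinf' : ((U1 ℓ W ⊓ VS ℓ E : Submodule (ZMod ℓ) (V ℓ K)) : Set (V ℓ K)).Infinite := hinf
  let f := hinf'.natEmbedding
  have hf : ∀ n : ℕ, ∃ e ∈ E, e ≠ 0 ∧ ((f n : V ℓ K)) = cl ℓ e ∧ cl ℓ e ∈ U1 ℓ W := by
    intro n
    obtain ⟨h1, h2⟩ := Submodule.mem_inf.1 (f n).2
    obtain ⟨e, he, he0, h⟩ := mem_VS.1 h2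
    exact ⟨e, he, he0, h, h ▸ h1⟩
  choose e heE he0 hfe heU using hf
  have hval : ∀ n, W.valuation (e n) = 1 := fun n => hEW.eq_one (heE n) (he0 n)
  obtain ⟨i, j, hij, y, hy, hy0, hxy⟩ := hN (fun i => rs W (e i)) (by
    intro i
    have h1 : rs W (e i) ≠ 0 := (rs_ne_zero (hEW _ (heE i))).2 (hval i)
    refine ⟨rs_mem_bar hEW (heE i), h1, ?_⟩
    obtain ⟨w, _, hw⟩ := (cl_eq_zero_iff ℓ h1).1 ((cl_mem_U1_iff (hval i)).1 (heU i))
    exact ⟨w, Subfield.mem_top w, hw⟩)
  obtain ⟨e', he', rfl⟩ := (mem_bar hEW).1 hy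
  have he'0 : e' ≠ 0 := by
    rintro rfl
    exact hy0 rs_zero
  have h1 : e i = e j * e' ^ ℓ := by
    apply rs_injOn hEW (heE i) (E.mul_mem (heE j) (E.pow_mem he' ℓ))
    rw [rs_mul (hEW _ (heE j)) (hEW _ (E.pow_mem he' ℓ)), rs_pow (hEW _ he')]
    exact hxy
  have h2 : cl ℓ (e i) = cl ℓ (e j) := (cl_eq_iff ℓ (he0 i) (he0 j)).2 ⟨e', he'0, h1⟩
  apply hij
  apply Fin.ext
  apply f.injective
  apply Subtype.ext
  rw [hfe, hfe, h2]

theorem VS_infinite {k E : Subfield K} (hk : IsAlgClosed k)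
    (hfg : FG k (⊤ : Subfield K)) (hkE : k ≤ E) (hE : ¬ E ≤ k) :
    ((VS ℓ E : Submodule (ZMod ℓ) (V ℓ K)) : Set (V ℓ K)).Infinite := by
  intro hfin
  obtain ⟨x, hxE, hxk⟩ := SetLike.not_le_iff_exists.1 hE
  have h1 : {c : K | c ∈ k} ⊆ ⋃ v ∈ ((VS ℓ E : Submodule (ZMod ℓ) (V ℓ K)) : Set (V ℓ K)),
      {c : K | c ∈ k ∧ cl ℓ (x - c) = v} := by
    intro c hc
    refine Set.mem_biUnion (cl_mem_VS (E.sub_mem hxE (hkE hc))) ?_
    exact ⟨hc, rfl⟩
  have h2 : {c : K | c ∈ k}.Finite :=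
    (hfin.biUnion fun v _ => dist_top (ℓ := ℓ) hk hfg hxk v).subset h1
  exact infinite_of_isAlgClosed hk h2

theorem exists_nr {k : Subfield K} (hk : IsAlgClosed k) {y : K} (hy : Good k y)
    {U : Submodule (ZMod ℓ) (V ℓ K)}
    (hfin : ((U ⊓ VS ℓ (adj k y) : Submodule (ZMod ℓ) (V ℓ K)) : Set (V ℓ K)).Finite) :
    ∃ g₀ ∈ adj k y, ∀ i j : ZMod ℓ, i • cl ℓ g₀ + j • cl ℓ (1 - g₀) ∈ U → i = 0 ∧ j = 0 := by
  classical
  by_contra hcon
  push Not at hcon
  have hyc : ∀ c ∈ k, y - c ≠ 0 := by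
    intro c hc h0
    apply hy.1
    rw [sub_eq_zero.1 h0]
    exact hc
  -- the relation for a pair of constants
  have key : ∀ b₁ ∈ k, ∀ b₂ ∈ k, b₁ ≠ b₂ → ∃ i j : ZMod ℓ,
      i • cl ℓ (y - b₁) + j • cl ℓ (y - b₂) ∈ U ∧ (i = 0 → j ≠ 0) := by
    intro b₁ h1 b₂ h2 h12
    have hd : b₂ - b₁ ≠ 0 := sub_ne_zero.2 h12.symm
    have hg : (y - b₁) / (b₂ - b₁) ∈ adj k y :=
      (adj k y).div_mem ((adj k y).sub_mem (mem_adj k y) (le_adj k y h1))
        (le_adj k y (k.sub_mem h2 h1))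
    obtain ⟨i, j, hU, hne⟩ := hcon _ hg
    have e1 : cl ℓ ((y - b₁) / (b₂ - b₁)) = cl ℓ (y - b₁) := by
      rw [cl_div ℓ (hyc _ h1) hd, line_cl_const hk (k.sub_mem h2 h1), sub_zero]
    have e2 : cl ℓ (1 - (y - b₁) / (b₂ - b₁)) = cl ℓ (y - b₂) := by
      have h3 : 1 - (y - b₁) / (b₂ - b₁) = (-(y - b₂)) / (b₂ - b₁) := by
        field_simp
        ring
      rw [h3, cl_div ℓ (neg_ne_zero.2 (hyc _ h2)) hd, line_cl_const hk (k.sub_mem h2 h1),
        sub_zero, finB_cl_neg hk]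
    rw [e1, e2] at hU
    exact ⟨i, j, hU, hne⟩
  haveI : Infinite k := Set.infinite_coe_iff.2 (infinite_of_isAlgClosed hk)
  let g : ℕ ↪ k := Infinite.natEmbedding k
  let φ : ℕ ↪ K := ⟨fun n => (g n : K), fun a b h => g.injective (Subtype.ext h)⟩
  have hφ : Function.Injective φ := φ.injective
  have hnat : ∀ n : ℕ, φ n ∈ k := fun n => (g n).2
  have key2 : ∀ n : ℕ, ∃ i j : ZMod ℓ,
      i • cl ℓ (y - φ (2 * n)) + j • cl ℓ (y - φ (2 * n + 1)) ∈ U ∧
        (i = 0 → j ≠ 0) := by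
    intro n
    apply key _ (hnat _) _ (hnat _)
    intro h
    have := hφ h
    omega
  choose a b hab hne using key2
  set w : ℕ → V ℓ K := fun n =>
    a n • cl ℓ (y - φ (2 * n)) + b n • cl ℓ (y - φ (2 * n + 1)) with hw
  have hinj : Function.Injective w := by
    intro n m hnm
    by_contra hne'
    have hrel : ∑ c ∈ ({2 * n, 2 * n + 1, 2 * m, 2 * m + 1} : Finset ℕ).map
        φ,
        (fun c : K => if c = φ (2 * n) then a n else if c = φ (2 * n + 1) then b n
          else if c = φ (2 * m) then - a m else - b m) c • cl ℓ (y - c) = 0 := by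
      rw [Finset.sum_map]
      have d1 : 2 * n ∉ ({2 * n + 1, 2 * m, 2 * m + 1} : Finset ℕ) := by
        simp only [Finset.mem_insert, Finset.mem_singleton]
        omega
      have d2 : 2 * n + 1 ∉ ({2 * m, 2 * m + 1} : Finset ℕ) := by
        simp only [Finset.mem_insert, Finset.mem_singleton]
        omega
      have d3 : 2 * m ∉ ({2 * m + 1} : Finset ℕ) := by
        simp only [Finset.mem_singleton]
        omega
      rw [Finset.sum_insert d1, Finset.sum_insert d2, Finset.sum_insert d3, Finset.sum_singleton]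
      have c1 : (2 * n + 1 = 2 * n) = False := by simp
      have c2 : (2 * m = 2 * n) = False := by
        apply propext
        constructor
        · intro h; omega
        · intro h; exact h.elim
      have c3 : (2 * m = 2 * n + 1) = False := by
        apply propext
        constructor
        · intro h; omega
        · intro h; exact h.elim
      have c4 : (2 * m + 1 = 2 * n) = False := by
        apply propext
        constructor
        · intro h; omega
        · intro h; exact h.elim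
      have c5 : (2 * m + 1 = 2 * n + 1) = False := by
        apply propext
        constructor
        · intro h; omega
        · intro h; exact h.elim
      have c6 : (2 * m + 1 = 2 * m) = False := by simp
      simp only [hφ.eq_iff, if_true, c1, c2, c3, c4, c5, c6,
        if_false]
      have h1 : w n - w m = 0 := sub_eq_zero.2 hnm
      rw [hw] at h1
      simp only at h1
      rw [neg_smul, neg_smul, ← h1]
      abel
    have h0 := good_independent hk hy _ (by
      intro c hc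
      rw [Finset.mem_map] at hc
      obtain ⟨t, _, rfl⟩ := hc
      exact hnat t) _ hrel
    have m1 : φ (2 * n) ∈ ({2 * n, 2 * n + 1, 2 * m, 2 * m + 1} : Finset ℕ).map
        φ :=
      Finset.mem_map.2 ⟨2 * n, by simp, rfl⟩
    have m2 : φ (2 * n + 1) ∈ ({2 * n, 2 * n + 1, 2 * m, 2 * m + 1} : Finset ℕ).map
        φ :=
      Finset.mem_map.2 ⟨2 * n + 1, by simp, rfl⟩
    have r1 := h0 _ m1
    have r2 := h0 _ m2
    have c1 : (2 * n + 1 = 2 * n) = False := by simp
    simp only [hφ.eq_iff, if_true, c1, if_false] at r1 r2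
    exact hne n r1 r2
  refine Set.infinite_of_injective_forall_mem hinj (fun n => ?_) hfin
  refine ⟨hab n, ?_⟩
  exact (VS ℓ (adj k y)).add_mem
    ((VS ℓ (adj k y)).smul_mem _
      (cl_mem_VS ((adj k y).sub_mem (mem_adj k y) (le_adj k y (hnat _)))))
    ((VS ℓ (adj k y)).smul_mem _
      (cl_mem_VS ((adj k y).sub_mem (mem_adj k y) (le_adj k y (hnat _)))))

end Vale.Agent.P019P
end

section

/-!
# Bertini
-/

namespace Vale.Agent.P019P

open Vale.Agent.P019

set_option linter.style.haveILetI false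

open Polynomial

theorem bert_rank {F L : Type*} [Field F] [Field L] [Algebra F L] [Algebra.EssFiniteType F L] :
    Module.Finite F (algebraicClosure F L) := by
  classical
  obtain ⟨S, hS⟩ := exists_isTranscendenceBasis F L
  haveI : Algebra.IsAlgebraic (IntermediateField.adjoin F (Set.range ((↑) : S → L))) L :=
    hS.isAlgebraic_field
  haveI : Algebra.EssFiniteType (IntermediateField.adjoin F (Set.range ((↑) : S → L))) L :=
    Algebra.EssFiniteType.of_comp F _ L
  haveI : Module.Finite (IntermediateField.adjoin F (Set.range ((↑) : S → L))) L :=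
    Algebra.finite_of_essFiniteType_of_isAlgebraic
  have hr : Module.rank F (algebraicClosure F L) ≤
      Module.finrank (IntermediateField.adjoin F (Set.range ((↑) : S → L))) L := by
    refine rank_le (fun s hs => ?_)
    let w : Fin s.card → L := fun i => ((s.equivFin.symm i : algebraicClosure F L) : L)
    have hw : LinearIndependent F w := by
      have h1 := hs.comp (s.equivFin.symm) s.equivFin.symm.injective
      exact h1.map' (algebraicClosure F L).val.toLinearMap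
        (LinearMap.ker_eq_bot.2 (algebraicClosure F L).val.injective)
    have h2 := linearIndependent_adjoin hS.1 (w := w) (fun i =>
      mem_algebraicClosure_iff.1 (s.equivFin.symm i : algebraicClosure F L).2) hw
    have h3 := h2.fintype_card_le_finrank
    rwa [Fintype.card_fin] at h3
  rw [← Module.rank_lt_aleph0_iff]
  exact lt_of_le_of_lt hr (Cardinal.natCast_lt_aleph0)

/-- `q`-powers of linearly independent elements over a perfect field. -/
theorem linearIndependent_pow {K : Type*} [Field K] {F : Subfield K} [PerfectField F]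
    {ι : Type*} [Fintype ι] {w : ι → K} (hw : LinearIndependent F w) (n : ℕ) :
    LinearIndependent F (fun i => w i ^ ringExpChar K ^ n) := by
  rw [Fintype.linearIndependent_iff] at hw ⊢
  intro g hg i
  have h1 : ∀ i, ∃ y : F, (y : K) ^ ringExpChar K ^ n = g i := by
    intro i
    obtain ⟨y, hy, hyy⟩ := exists_root_q F (g i).2 n
    exact ⟨⟨y, hy⟩, hyy⟩
  choose d hd using h1
  have h2 : (∑ i, d i • w i) ^ ringExpChar K ^ n = 0 := by
    have h3 : (∑ i, d i • w i) ^ ringExpChar K ^ n =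
        ∑ i, (d i • w i) ^ ringExpChar K ^ n := by
      have h4 := map_sum (iterateFrobenius K (ringExpChar K) n) (fun i => d i • w i) Finset.univ
      simp only [iterateFrobenius_def] at h4
      exact h4
    rw [h3, ← hg]
    refine Finset.sum_congr rfl (fun i _ => ?_)
    change ((d i : K) * w i) ^ _ = (g i : K) * _
    rw [mul_pow, hd]
  have h3 := hw d (eq_zero_of_pow_eq_zero h2) i
  have h4 : (g i : K) = 0 := by
    rw [← hd i, h3]
    exact zero_pow (qpow_pos K n).ne'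
  exact Subtype.ext h4

/-- the relative algebraic closure of a perfect subfield is finite over it. -/
theorem finite_algebraicClosure {K : Type*} [Field K] {F : Subfield K} [PerfectField F]
    (hfg : FG F (⊤ : Subfield K)) : Module.Finite F (algebraicClosure F K) := by
  classical
  obtain ⟨S, hS⟩ := hfg
  set L₀ := IntermediateField.adjoin F (S : Set K) with hL₀
  haveI : Algebra.EssFiniteType F L₀ := IntermediateField.essFiniteType_iff.2 ⟨S, rfl⟩
  haveI : Module.Finite F (algebraicClosure F L₀) := bert_rank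
  have hr : Module.rank F (algebraicClosure F K) ≤
      Module.finrank F (algebraicClosure F L₀) := by
    refine rank_le (fun s hs => ?_)
    have h1 : ∀ z : K, ∃ n : ℕ, z ^ ringExpChar K ^ n ∈ L₀ := by
      intro z
      have h2 : z ∈ pf (F ⊔ Subfield.closure (S : Set K)) := by rw [← hS]; trivial
      obtain ⟨n, hn⟩ := mem_pf.1 h2
      rw [← finK_sup_eq] at hn
      exact ⟨n, hn⟩
    choose n hn using h1
    obtain ⟨m, hm⟩ : ∃ m, ∀ i : s, n (i.1 : K) ≤ m :=
      ⟨Finset.univ.sup fun i : s => n (i.1 : K),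
        fun i => Finset.le_sup (f := fun i : s => n (i.1 : K)) (Finset.mem_univ i)⟩
    have hn' : ∀ i : s, (i.1 : K) ^ ringExpChar K ^ m ∈ L₀ := by
      intro i
      obtain ⟨j, hj⟩ := Nat.exists_eq_add_of_le (hm i)
      rw [hj, pow_add, pow_mul]
      exact pow_mem (hn i.1) _
    let w : s → K := fun i => (i.1 : K)
    have hw : LinearIndependent F w := by
      exact hs.map' (algebraicClosure F K).val.toLinearMap
        (LinearMap.ker_eq_bot.2 (algebraicClosure F K).val.injective)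
    have hw2 := linearIndependent_pow hw m
    let w' : s → algebraicClosure F L₀ := fun i => ⟨⟨w i ^ ringExpChar K ^ m, hn' i⟩, by
      rw [mem_algebraicClosure_iff]
      have h3 : IsAlgebraic F (w i ^ ringExpChar K ^ m) :=
        (mem_algebraicClosure_iff.1 i.1.2).pow _
      obtain ⟨p, hp0, hp⟩ := h3
      refine ⟨p, hp0, ?_⟩
      apply (algebraMap L₀ K).injective
      rw [map_zero, ← hp]
      exact (aeval_algebraMap_apply K (⟨w i ^ ringExpChar K ^ m, hn' i⟩ : L₀) p).symm⟩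
    have hw3 : LinearIndependent F w' := by
      refine LinearIndependent.of_comp
        (L₀.val.toLinearMap ∘ₗ (algebraicClosure F L₀).val.toLinearMap) ?_
      exact hw2
    have h3 := hw3.fintype_card_le_finrank
    rwa [Fintype.card_coe] at h3
  rw [← Module.rank_lt_aleph0_iff]
  exact lt_of_le_of_lt hr (Cardinal.natCast_lt_aleph0)

/-- the relative algebraic closure of a perfect subfield has only
finitely many intermediate fields. -/
theorem bert_finite {K : Type*} [Field K] {F : Subfield K} [PerfectField F]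
    (hfg : FG F (⊤ : Subfield K)) : Finite (IntermediateField F (algebraicClosure F K)) := by
  haveI := finite_algebraicClosure hfg
  exact Field.finite_intermediateField_of_exists_primitive_element F _
    (Field.exists_primitive_element F _)

/-- S20 Bertini. -/
theorem bertini {K : Type*} [Field K] [PerfectField K] {k : Subfield K} (hk : IsAlgClosed k)
    (hfg : FG k (⊤ : Subfield K)) {x y : K} (hx : x ∉ k) (hy : ¬ IsAlgebraic (adj k x) y) :
    {c : K | c ∈ k ∧ ¬ Good k (x + c * y)}.Finite := by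
  classical
  set F : Subfield K := adj (adj k x) y with hF
  have hkF : k ≤ F := (le_adj k x).trans (le_adj _ y)
  have hxF : x ∈ F := le_adj _ y (mem_adj k x)
  have hyF : y ∈ F := mem_adj _ y
  haveI : PerfectField F := perfect_adj _ _
  haveI : Finite (IntermediateField F (algebraicClosure F K)) :=
    bert_finite (hfg.mono hkF le_top)
  let E : K → Subfield K := fun c => rac (adj k (x + c * y))
  let L : K → IntermediateField F (algebraicClosure F K) := fun c =>
    Subfield.toIntermediateField ((E c ⊔ F).comap (algebraMap (algebraicClosure F K) K))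
      (fun a => by
        rw [Subfield.mem_comap]
        exact (le_sup_right : F ≤ E c ⊔ F) a.2)
  have hnk : ∀ c ∈ k, x + c * y ∉ k := by
    intro c hc h
    by_cases hc0 : c = 0
    · rw [hc0, zero_mul, add_zero] at h; exact hx h
    · apply hy
      refine isAlgebraic_of_mem ?_
      have : y = (x + c * y - x) / c := by field_simp; ring
      rw [this]
      exact (adj k x).div_mem ((adj k x).sub_mem (le_adj k x h) (mem_adj k x)) (le_adj k x hc)
  by_contra hinf
  obtain ⟨c, hc, c', hc', hne, hL⟩ :=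
    Set.Infinite.exists_ne_map_eq_of_mapsTo (f := L) (t := Set.univ) hinf
      (fun _ _ => Set.mem_univ _) (Set.toFinite _)
  obtain ⟨hck, hcb⟩ := hc
  obtain ⟨hck', hcb'⟩ := hc'
  set u : K := x + c * y with hu
  set z : K := x + c' * y with hz
  have huE : u ∈ E c := le_rac _ (mem_adj k u)
  -- every element of `E c'` lies in `E c ⊔ F`
  have hsub : E c' ≤ E c ⊔ F := by
    intro h hh
    have hFz : adj k z ≤ F := adj_le hkF (F.add_mem hxF (F.mul_mem (hkF hck') hyF))
    have halg : IsAlgebraic F h := isAlgebraic_mono hFz (mem_rac.1 hh)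
    let h' : algebraicClosure F K := ⟨h, mem_algebraicClosure_iff.2 halg⟩
    have h1 : h' ∈ L c' := by
      change algebraMap (algebraicClosure F K) K h' ∈ E c' ⊔ F
      exact (le_sup_left : E c' ≤ E c' ⊔ F) hh
    rw [← hL] at h1
    exact h1
  have hcc : c - c' ≠ 0 := sub_ne_zero.2 hne
  have hyeq : y = (u - z) / (c - c') := by rw [hu, hz]; field_simp; ring
  have hFle : E c ⊔ F ≤ adj k z ⊔ E c := by
    refine sup_le le_sup_right ?_
    have hkl : k ≤ adj k z ⊔ E c := (le_adj k z).trans le_sup_left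
    have huz : u ∈ adj k z ⊔ E c := (le_sup_right : E c ≤ adj k z ⊔ E c) huE
    have hzz : z ∈ adj k z ⊔ E c := (le_sup_left : adj k z ≤ adj k z ⊔ E c) (mem_adj k z)
    have hyy : y ∈ adj k z ⊔ E c := by
      rw [hyeq]
      exact (adj k z ⊔ E c).div_mem ((adj k z ⊔ E c).sub_mem huz hzz)
        ((adj k z ⊔ E c).sub_mem (hkl hck) (hkl hck'))
    have hxx : x ∈ adj k z ⊔ E c := by
      have : x = u - c * y := by rw [hu]; ring
      rw [this]
      exact (adj k z ⊔ E c).sub_mem huz ((adj k z ⊔ E c).mul_mem (hkl hck) hyy)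
    exact adj_le (adj_le hkl hxx) hyy
  have hlA : k ≤ adj k z := le_adj k z
  have hlB : k ≤ E c := (le_adj k u).trans (le_rac _)
  -- `u` is not algebraic over `k(z)`
  have hunalg : ¬ IsAlgebraic (adj k z) u := by
    intro hua
    have hmem : ∀ w, w ∈ adj k z → w ∈ rac (adj k z) := fun w hw => le_rac _ hw
    have hyr : y ∈ rac (adj k z) := by
      rw [hyeq]
      exact (rac (adj k z)).div_mem ((rac (adj k z)).sub_mem (mem_rac.2 hua)
        (hmem _ (mem_adj k z))) ((rac (adj k z)).sub_mem (hmem _ (hlA hck)) (hmem _ (hlA hck')))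
    have hxr : x ∈ rac (adj k z) := by
      have : x = u - c * y := by rw [hu]; ring
      rw [this]
      exact (rac (adj k z)).sub_mem (mem_rac.2 hua)
        ((rac (adj k z)).mul_mem (hmem _ (hlA hck)) hyr)
    have hxk : ¬ IsAlgebraic k x := fun h => hx (RAC_of_isAlgClosed k hk x h)
    have h1 : IsAlgebraic (adj k x) z := exchange hxk (mem_rac.1 hxr)
    have h2 : adj k z ≤ rac (adj k x) :=
      adj_le ((le_adj k x).trans (le_rac _)) (mem_rac.2 h1)
    have h3 : IsAlgebraic (rac (adj k x)) y := isAlgebraic_mono h2 (mem_rac.1 hyr)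
    exact hy (isAlgebraic_rac h3)
  apply hcb'
  refine ⟨hnk c' hck', ?_⟩
  intro h hh
  have h1 : h ∈ E c' := mem_rac.2 hh
  have h2 : h ∈ adj k z ⊔ E c := hFle (hsub h1)
  exact rac_sup hk hlA hlB huE hunalg (fun b hb => mem_rac.1 hb) h2 hh

end Vale.Agent.P019P
end

section

/-!
# Intersections of line subspaces
-/

namespace Vale.Agent.P019P

open Vale.Agent.P019

set_option linter.style.haveILetI false
set_option linter.unusedSectionVars false

open Filter Polynomial

section meet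

variable {K : Type*} [Field K] [PerfectField K]

/-- a valuation trivial on `k(t)` is trivial on `k(x)` if `x` is congruent to `α + β t`. -/
theorem triv_of_congr {k : Subfield K} (hk : RAC k) {t : K} (ht : t ∉ k)
    {W : ValuationSubring K} (hW : TrivOn W (adj k t)) {x α β : K} (hα : α ∈ k) (hβ : β ∈ k)
    (hβ0 : β ≠ 0) (hx : W.valuation (x - (α + β * t)) < 1) : TrivOn W (adj k x) := by
  set P := plOf W with hP
  have hA : ∀ y ∈ adj k t, y ∈ P.O := hW
  have hkk : ∀ y ∈ k, y ∈ P.O := fun y hy => hA y (le_adj k t hy)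
  have hmem : α + β * t ∈ adj k t :=
    Subfield.add_mem _ (le_adj k t hα) (Subfield.mul_mem _ (le_adj k t hβ) (mem_adj k t))
  have hxO : x ∈ P.O := by
    have e : x = (x - (α + β * t)) + (α + β * t) := by ring
    rw [e]
    exact P.O.add_mem _ _ (P.mem_of_lt hx) (hA _ hmem)
  have hev : P.ev x = P.ev (α + β * t) := by
    have h1 : P.ev (x - (α + β * t)) = 0 := P.ev_of_lt hx
    rwa [P.ev_sub hxO (hA _ hmem), sub_eq_zero] at h1
  refine Pl.mem_adj_of_transcendental P k hkk hxO ?_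
  rw [hev]
  intro h
  have h1 := P.isAlgebraic_of_im hA (le_adj k t) hmem h
  have h2 := hk _ h1
  apply ht
  have e : t = ((α + β * t) - α) / β := by field_simp; ring
  rw [e]
  exact k.div_mem (k.sub_mem h2 hα) hβ

/-- lines in a pencil meet trivially. -/
theorem meet_ae {ℓ : ℕ} [Fact ℓ.Prime] [NeZero (ℓ : K)] {k : Subfield K} (hk : IsAlgClosed k)
    (hfg : FG k (⊤ : Subfield K)) {h t : K} (hh : h ∉ k) (ht : ¬ IsAlgebraic (adj k h) t) :
    ∀ᶠ c in ae k, VS ℓ (adj k (h + c * t)) ⊓ (VS ℓ (adj k h) ⊔ VS ℓ (adj k t)) = ⊥ := by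
  classical
  have hℓ : ℓ.Prime := Fact.out
  have hrac := RAC_of_isAlgClosed k hk
  have htk : t ∉ k := fun h' => ht (isAlgebraic_of_mem (le_adj _ _ h'))
  have hht : ¬ IsAlgebraic (adj k t) h := by
    intro h'
    exact ht (exchange (fun h1 => hh (hrac _ h1)) h')
  rw [ae_iff]
  by_contra hinf
  have hinf' : ({a : K | a ∈ k ∧ ¬ VS ℓ (adj k (h + a * t)) ⊓ (VS ℓ (adj k h) ⊔ VS ℓ (adj k t)) = ⊥}
      \ {0}).Infinite := Set.Infinite.sdiff hinf (Set.finite_singleton 0)
  let c : ℕ → K := fun n => (hinf'.natEmbedding _ n : K)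
  have hcinj : Function.Injective c := fun i j hij =>
    (hinf'.natEmbedding _).injective (Subtype.ext hij)
  have hck : ∀ n, c n ∈ k := fun n => (hinf'.natEmbedding _ n).2.1.1
  have hc0 : ∀ n, c n ≠ 0 := fun n => (hinf'.natEmbedding _ n).2.2
  have hxk : ∀ n, h + c n * t ∉ k := by
    intro n hn
    apply hht
    have e : h = (h + c n * t) - c n * t := by ring
    rw [e]
    exact isAlgebraic_of_mem (Subfield.sub_mem _ (le_adj _ _ hn)
      (Subfield.mul_mem _ (le_adj _ _ (hck n)) (mem_adj _ _)))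
  have hdata : ∀ n, ∃ (s : Finset K) (m : K → ZMod ℓ) (g g' : K), (∀ e ∈ s, e ∈ k) ∧
      (∃ e ∈ s, m e ≠ 0) ∧ g ∈ adj k h ∧ g ≠ 0 ∧ g' ∈ adj k t ∧ g' ≠ 0 ∧
      cl ℓ (g * g') = ∑ e ∈ s, m e • cl ℓ (h + c n * t - e) := by
    intro n
    have h1 := (hinf'.natEmbedding _ n).2.1.2
    rw [Submodule.eq_bot_iff] at h1
    push Not at h1
    obtain ⟨v, ⟨hv1, hv2⟩, hv0⟩ := h1
    obtain ⟨s, m, hs, hv⟩ := adj_factor hk (hxk n) hv1
    obtain ⟨u, ⟨g, hg, hg0, rfl⟩, u', ⟨g', hg', hg'0, rfl⟩, huv⟩ := Submodule.mem_sup.1 hv2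
    refine ⟨s, m, g, g', hs, ?_, hg, hg0, hg', hg'0, ?_⟩
    · by_contra hcon
      push Not at hcon
      apply hv0
      rw [hv]
      exact Finset.sum_eq_zero (fun e he => by rw [hcon e he, zero_smul])
    · rw [cl_mul ℓ hg0 hg'0, huv, hv]
  choose s m g g' hs hm hg hg0 hg' hg'0 hcl using hdata
  -- representatives
  let f : ℕ → K := fun n => ∏ e ∈ s n, (h + c n * t - e) ^ (m n e).val
  have hfac0 : ∀ n, ∀ e ∈ s n, h + c n * t - e ≠ 0 := by
    intro n e he h0
    rw [sub_eq_zero] at h0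
    exact hxk n (h0 ▸ hs n e he)
  have hf0 : ∀ n, f n ≠ 0 := fun n =>
    Finset.prod_ne_zero_iff.2 (fun e he => pow_ne_zero _ (hfac0 n e he))
  have hclf : ∀ n, cl ℓ (f n) = ∑ e ∈ s n, m n e • cl ℓ (h + c n * t - e) := by
    intro n
    have key : ∀ T : Finset K, T ⊆ s n →
        cl ℓ (∏ e ∈ T, (h + c n * t - e) ^ (m n e).val) =
          ∑ e ∈ T, m n e • cl ℓ (h + c n * t - e) := by
      intro T
      induction T using Finset.induction_on with
      | empty => intro _; simp [cl_one]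
      | insert a T ha ih =>
        intro hT
        rw [Finset.prod_insert ha, Finset.sum_insert ha, cl_mul ℓ
          (pow_ne_zero _ (hfac0 n a (hT (Finset.mem_insert_self a T))))
          (Finset.prod_ne_zero_iff.2 (fun e he => pow_ne_zero _
            (hfac0 n e (hT (Finset.mem_insert_of_mem he))))),
          ih (fun e he => hT (Finset.mem_insert_of_mem he)), cl_pow]
        congr 1
        rw [← Nat.cast_smul_eq_nsmul (ZMod ℓ), ZMod.natCast_zmod_val]
    exact key (s n) (Finset.Subset.refl _)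
  set F : Subfield K := adj (adj k h) t with hF
  have htF : t ∈ F := mem_adj _ _
  have hhF : h ∈ F := le_adj _ _ (mem_adj _ _)
  have hkF : k ≤ F := (le_adj k h).trans (le_adj _ t)
  have hkhF : adj k h ≤ F := le_adj _ _
  have hktF : adj k t ≤ F := adj_le hkF htF
  have hxF : ∀ n, h + c n * t ∈ F := fun n =>
    Subfield.add_mem _ hhF (Subfield.mul_mem _ (hkF (hck n)) htF)
  have hfF : ∀ n, f n ∈ F := by
    intro n
    refine Subfield.prod_mem _ (fun e he => ?_)
    exact Subfield.pow_mem _ (Subfield.sub_mem _ (hxF n) (hkF (hs n e he))) _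
  obtain ⟨ζ, hζk, hζ'⟩ := finK_prim hk ℓ
  have hFG : FG F (⊤ : Subfield K) := hfg.mono hkF le_top
  obtain ⟨n₀, hn₀⟩ := fk ℓ hFG (hkF hζk) hζ'
  obtain ⟨i, j, hij, y, hy, hy0, hxy⟩ := hn₀ (fun i => f i / (g i * g' i)) (by
    intro i
    refine ⟨Subfield.div_mem _ (hfF i) (Subfield.mul_mem _ (hkhF (hg i)) (hktF (hg' i))), ?_, ?_⟩
    · exact div_ne_zero (hf0 i) (mul_ne_zero (hg0 i) (hg'0 i))
    · have h1 : cl ℓ (f i / (g i * g' i)) = 0 := by
        rw [cl_div ℓ (hf0 i) (mul_ne_zero (hg0 i) (hg'0 i)), hcl, hclf, sub_self]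
      obtain ⟨w, -, hw⟩ := (cl_eq_zero_iff ℓ
        (div_ne_zero (hf0 i) (mul_ne_zero (hg0 i) (hg'0 i)))).1 h1
      exact ⟨w, trivial, hw⟩)
  -- the valuation
  obtain ⟨e, he, hme⟩ := hm i
  set π : K := h + c i * t - e with hπdef
  have hπt : Transcendental (adj k t) π := by
    intro h'
    apply hht
    have h1 : h ∈ rac (adj k t) := by
      have e1 : h = (h + c i * t - e) + (e - c i * t) := by ring
      rw [e1]
      refine Subfield.add_mem _ (mem_rac.2 h') (le_rac _ ?_)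
      exact Subfield.sub_mem _ (le_adj _ _ (hs i e he))
        (Subfield.mul_mem _ (le_adj _ _ (hck i)) (mem_adj _ _))
    exact mem_rac.1 h1
  obtain ⟨W, hW, hWπ⟩ := exists_triv (adj k t) π hπt
  have hπ0 : π ≠ 0 := hfac0 i e he
  have hWπ0 : W.valuation π ≠ 0 := (Valuation.ne_zero_iff _).2 hπ0
  have hek : e ∈ k := hs i e he
  have hcij : c j - c i ≠ 0 := sub_ne_zero.2 (fun h' => hij (Fin.ext (hcinj h').symm))
  have hWj : TrivOn W (adj k (h + c j * t)) := by
    refine triv_of_congr hrac htk hW hek (k.sub_mem (hck j) (hck i)) hcij ?_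
    have e1 : h + c j * t - (e + (c j - c i) * t) = π := by rw [hπdef]; ring
    rw [e1]; exact hWπ
  have hWh : TrivOn W (adj k h) := by
    refine triv_of_congr hrac htk hW hek (k.neg_mem (hck i)) (neg_ne_zero.2 (hc0 i)) ?_
    have e1 : h - (e + (-c i) * t) = π := by rw [hπdef]; ring
    rw [e1]; exact hWπ
  have hfj : f j ∈ adj k (h + c j * t) := by
    refine Subfield.prod_mem _ (fun e he => ?_)
    exact Subfield.pow_mem _ (Subfield.sub_mem _ (mem_adj _ _) (le_adj _ _ (hs j e he))) _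
  have hvj : W.valuation (f j) = 1 := hWj.eq_one hfj (hf0 j)
  have hvg : ∀ n, W.valuation (g n * g' n) = 1 := by
    intro n
    rw [map_mul, hWh.eq_one (hg n) (hg0 n), hW.eq_one (hg' n) (hg'0 n), one_mul]
  have hvf : W.valuation (f i) = W.valuation π ^ (m i e).val := by
    change W.valuation (∏ e' ∈ s i, (h + c i * t - e') ^ (m i e').val) = _
    rw [map_prod, Finset.prod_eq_single e]
    · rw [map_pow]
    · intro e' he' hne
      have h1 : W.valuation (e - e') = 1 :=
        hW.eq_one (le_adj _ _ (k.sub_mem hek (hs i e' he'))) (sub_ne_zero.2 hne.symm)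
      have h2 : W.valuation (h + c i * t - e') = 1 := by
        have e1 : h + c i * t - e' = (e - e') + π := by rw [hπdef]; ring
        rw [e1, Valuation.map_add_eq_of_lt_left, h1]
        rw [h1]; exact hWπ
      rw [map_pow, h2, one_pow]
    · intro h'; exact absurd he h'
  have hvy : W.valuation π ^ (m i e).val = W.valuation y ^ ℓ := by
    have h1 : f i = (f j / (g j * g' j)) * y ^ ℓ * (g i * g' i) := by
      rw [← hxy, div_mul_cancel₀ _ (mul_ne_zero (hg0 i) (hg'0 i))]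
    rw [← hvf, h1, map_mul, map_mul, map_div₀, hvj, hvg, hvg, map_pow, div_one, one_mul, mul_one]
  obtain ⟨N, hyπ⟩ : ∃ N : ℕ, y ^ ringExpChar K ^ N ∈ IntermediateField.adjoin (adj k t) {π} := by
    have h1 : F ≤ pf (IntermediateField.adjoin (adj k t) {π}).toSubfield := by
      have hb : ∀ z ∈ adj k t, z ∈ pf (IntermediateField.adjoin (adj k t) {π}).toSubfield := by
        intro z hz
        exact le_pf _ ((IntermediateField.adjoin (adj k t) {π}).algebraMap_mem ⟨z, hz⟩)
      refine adj_le (adj_le ?_ ?_) (hb t (mem_adj _ _))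
      · intro z hz
        exact hb z (le_adj _ _ hz)
      · have e1 : h = (h + c i * t - e) + (e - c i * t) := by ring
        rw [e1]
        refine Subfield.add_mem _ (le_pf _ (IntermediateField.mem_adjoin_simple_self _ π))
          (hb _ ?_)
        exact Subfield.sub_mem _ (le_adj _ _ hek)
          (Subfield.mul_mem _ (le_adj _ _ (hck i)) (mem_adj _ _))
    obtain ⟨N, hN⟩ := mem_pf.1 (h1 hy)
    exact ⟨N, hN⟩
  obtain ⟨n, c', hc', hc'0, hval⟩ := exists_residue hW hWπ hπ0 hyπ (pow_ne_zero _ hy0)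
  have hvu : W.valuation (y ^ ringExpChar K ^ N * π ^ n) = 1 :=
    val_of_sub (hW.eq_one hc' hc'0) hval
  have hyv : W.valuation y ^ ringExpChar K ^ N = W.valuation π ^ (-n) := by
    rw [map_mul, map_zpow₀, map_pow] at hvu
    rw [zpow_neg]
    exact eq_inv_of_mul_eq_one_left hvu
  have hvy' : W.valuation π ^ ((m i e).val * ringExpChar K ^ N) =
      (W.valuation π ^ (-n)) ^ ℓ := by
    rw [pow_mul, hvy, ← pow_mul, mul_comm ℓ, pow_mul, hyv]
  have h1 : W.valuation π ^ ((((m i e).val * ringExpChar K ^ N : ℕ) : ℤ) + n * ℓ) = 1 := by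
    rw [zpow_add₀ hWπ0, zpow_natCast, hvy', ← zpow_natCast, ← zpow_mul, ← zpow_add₀ hWπ0]
    have : -n * (ℓ : ℤ) + n * ℓ = 0 := by ring
    rw [this, zpow_zero]
  have h2 : (((m i e).val * ringExpChar K ^ N : ℕ) : ℤ) + n * ℓ = 0 := by
    have hunif : ∀ r : ℤ, W.valuation π ^ r = 1 → r = 0 := by
      intro r hr
      by_contra hr0
      rcases lt_or_gt_of_ne hr0 with h3 | h3
      · have h4 : W.valuation π ^ (-r) = 1 := by rw [zpow_neg, hr, inv_one]
        obtain ⟨q, hq⟩ := Int.eq_ofNat_of_zero_le (a := -r) (by omega)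
        rw [hq, zpow_natCast] at h4
        exact (pow_lt_one₀ zero_le hWπ (by omega)).ne h4
      · obtain ⟨q, hq⟩ := Int.eq_ofNat_of_zero_le (a := r) (by omega)
        rw [hq, zpow_natCast] at hr
        exact (pow_lt_one₀ zero_le hWπ (by omega)).ne hr
    exact hunif _ h1
  have h3' : (ℓ : ℤ) ∣ ((m i e).val * ringExpChar K ^ N : ℕ) := ⟨-n, by linear_combination h2⟩
  have h3'' : ℓ ∣ (m i e).val * ringExpChar K ^ N := Int.natCast_dvd_natCast.1 h3'
  have h3 : (ℓ : ℤ) ∣ (m i e).val := by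
    rcases hℓ.dvd_mul.1 h3'' with h3 | h3
    · exact Int.natCast_dvd_natCast.2 h3
    · exact absurd ((ZMod.natCast_eq_zero_iff _ _).2 h3) (q_pow_ne_zero ℓ K N)
  have h4 : ℓ ∣ (m i e).val := Int.natCast_dvd_natCast.1 h3
  haveI : NeZero ℓ := ⟨hℓ.ne_zero⟩
  have h5 : (m i e).val = 0 := Nat.eq_zero_of_dvd_of_lt h4 (ZMod.val_lt _)
  exact hme ((ZMod.val_eq_zero _).1 h5)

end meet

end Vale.Agent.P019P
end

section

/-!
# Finite families of constants, closures, independence
-/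

namespace Vale.Agent.P019P

open Vale.Agent.P019

set_option linter.style.haveILetI false

open Polynomial

section indep

variable {L : Type*} [Field L]

/-- S95 -/
theorem clx_snoc {r : ℕ} (N : Subfield L) (y : Fin r → L) (z : L) :
    clx N (Fin.snoc y z : Fin (r + 1) → L) = rac (adj (clx N y) z) := by
  rw [rac_adj]
  exact Vale.Agent.P019.clx_snoc N y z

/-- S96 -/
theorem Mdl.exists_family (M : Mdl L) {N : Subfield L} (hN : M.Sub N) (g : L) :
    ∃ (r : ℕ) (y : Fin r → L), (∀ i, y i ∈ M.k) ∧ g ∈ M.F (clx N y) := by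
  classical
  obtain ⟨T, hT, hg⟩ := exists_finset_mem M.K0 M.k (g := g) (by rw [M.sup]; trivial)
  refine ⟨T.card, fun i => (T.equivFin.symm i : L), fun i => hT (T.equivFin.symm i).2, ?_⟩
  refine (sup_le_sup_left ?_ M.K0 :
    M.K0 ⊔ Subfield.closure (T : Set L) ≤ M.F (clx N _)) hg
  rw [Subfield.closure_le]
  intro z hz
  have h1 := mem_clx N (fun i => (T.equivFin.symm i : L)) (T.equivFin ⟨z, hz⟩)
  simpa using h1

/-- S97 -/
theorem Mdl.map_clx (M : Mdl L) {N : Subfield L} (σ : L ≃+* L) (hσ : ∀ z ∈ M.F N, σ z = z)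
    {ι : Type*} (y : ι → L) {g : L} (hg : g ∈ M.F (clx N y)) : σ g ∈ M.F (clx N (σ ∘ y)) := by
  have h1 : M.F (clx N y) ≤ (M.F (clx N (σ ∘ y))).comap (σ : L →+* L) := by
    refine sup_le ?_ ?_
    · intro z hz
      change σ z ∈ M.F (clx N (σ ∘ y))
      rw [hσ z (K0_le N hz)]
      exact K0_le _ hz
    · have h2 : N ⊔ Subfield.closure (Set.range y) ≤
          (N ⊔ Subfield.closure (Set.range (σ ∘ y))).comap (σ : L →+* L) := by
        refine sup_le ?_ ?_
        · intro z hz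
          change σ z ∈ N ⊔ Subfield.closure (Set.range (σ ∘ y))
          rw [hσ z (Sub.le_F N hz)]
          exact (le_sup_left : N ≤ _) hz
        · rw [Subfield.closure_le]
          rintro _ ⟨i, rfl⟩
          exact (le_sup_right : _ ≤ N ⊔ _) (Subfield.subset_closure ⟨i, rfl⟩)
      intro z hz
      change σ z ∈ M.F _
      refine Sub.le_F (M := M) _ (mem_rac.2 ?_)
      exact Vale.Agent.P019.isAlgebraic_map σ h2 (mem_rac.1 hz)
  exact h1 hg

end indep

end Vale.Agent.P019P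
end

section

/-!
# Transferred valuations (perfect version)

`exists_neg`, `Rk2.map` are those of the old file.
-/

namespace Vale.Agent.P019P

open Vale.Agent.P019

set_option linter.style.haveILetI false
set_option linter.unusedSectionVars false

open Polynomial Filter

variable {K L : Type*} [Field K] [Field L] [PerfectField K] [PerfectField L] {ℓ : ℕ}
  [Fact ℓ.Prime] [NeZero (ℓ : K)] [NeZero (ℓ : L)]
  {k : Subfield K} {l : Subfield L} {Θ : V ℓ K ≃ₗ[ZMod ℓ] V ℓ L}

theorem FG.adj {K : Type*} [Field K] [PerfectField K] {k F : Subfield K} (h : FG k F) (s : K) :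
    FG k (adj F s) := h.adj_right s

/-- existence of transferred valuations. -/
theorem Hyp.exists_tr (H : Hyp ℓ k l Θ) {F : Subfield K} (hkF : k ≤ F) (hfg : FG k F)
    {W : ValuationSubring K} {π θ : K} (hW : Nice W F π θ) {y : K} (hy : Good k y)
    (hyW : TrivOn W (adj k y)) : ∃ O : ValuationSubring L, TrivOn O l ∧ Tr Θ W π O := by
  have hfin := hW.finite (ℓ := ℓ) H.ack hkF hfg (le_adj k y) hyW
  obtain ⟨g₀, -, hg₀⟩ := exists_nr H.ack hy hfin
  obtain ⟨O, hO1, hO2⟩ := transfer H.comp (exists_neg H.ack) (exists_neg H.acl) hW.unif g₀ hg₀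
  refine ⟨O, H.ltr (U1 ℓ W) y hy hfin O ?_, fun _ => hO1, hO2⟩
  intro z hz
  rw [← hO2, LinearEquiv.apply_symm_apply]
  exact cl_mem_U1 hz

/-- the transferred valuation is trivial on curves corresponding to trivially valued ones. -/
theorem Hyp.triv_crv (H : Hyp ℓ k l Θ) {F : Subfield K} (hkF : k ≤ F) (hfg : FG k F)
    {W : ValuationSubring K} {π θ : K} (hW : Nice W F π θ) {O : ValuationSubring L}
    (hOl : TrivOn O l) (hT : Tr Θ W π O) {y : K} (hy : y ∉ k) (hyW : TrivOn W (adj k y))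
    {E : Subfield L} (hE : Crv l E) (hVS : ∀ v ∈ VS ℓ (adj k y), Θ v ∈ VS ℓ E) :
    TrivOn O E := by
  refine triv_of_rk2 (ℓ := ℓ) H.acl hE hOl ?_
  refine Rk2.map (Θ := Θ) (rk2_of_finite (VS_infinite H.ack H.fgk (le_adj k y)
    (fun h => hy (h (mem_adj k y))))
    (hW.finite (ℓ := ℓ) H.ack hkF hfg (le_adj k y) hyW)) hVS (fun v hv => (hT.iff v).1 hv)

theorem Tr.not_triv {W : ValuationSubring K} {π : K} {O : ValuationSubring L}
    (hT : Tr Θ W π O) (hW : IsUnif W π) {E : Subfield L} (h : Θ (cl ℓ π) ∈ VS ℓ E) :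
    ¬ TrivOn O E := by
  intro hO
  obtain ⟨x, hx, hx0, hx1⟩ := h
  have h1 := hT.unit hW x (hO.eq_one hx hx0)
  rw [← hx1, LinearEquiv.symm_apply_apply, hW.fn_self ℓ] at h1
  exact one_ne_zero h1

end Vale.Agent.P019P
end

section

/-!
# Residue fields of transferred valuations: the kernel of the functional
-/

namespace Vale.Agent.P019P

open Vale.Agent.P019

set_option linter.style.haveILetI false
set_option linter.unusedSectionVars false

open Polynomial Filter

section resmap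

variable {K : Type*} [Field K] {ℓ : ℕ} [Fact ℓ.Prime]

theorem resA_ne_zero {W : ValuationSubring K} {z : K} (hz : W.valuation z = 1) : z ≠ 0 := by
  rintro rfl
  rw [map_zero] at hz
  exact zero_ne_one hz

theorem cl_mem_UC {W : ValuationSubring K} {u : K} (hu : W.valuation u = 1) :
    cl ℓ u ∈ UC ℓ W := ⟨u, hu, rfl⟩

/-- `U1` consists of unit classes. -/
theorem U1_le_UC (W : ValuationSubring K) : U1 ℓ W ≤ UC ℓ W := by
  rintro _ ⟨m, hm, rfl⟩
  exact ⟨1 + m, val_one_add hm, rfl⟩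

/-- the class of the residue depends only on the class of the unit. -/
theorem resA_wd {W : ValuationSubring K} {z z' : K} (hz : W.valuation z = 1)
    (hz' : W.valuation z' = 1) (h : cl ℓ z = cl ℓ z') :
    cl ℓ (rs W z) = cl ℓ (rs W z') := by
  have hℓ : ℓ ≠ 0 := (Fact.out : ℓ.Prime).ne_zero
  obtain ⟨w, hw0, hw⟩ := (cl_eq_iff ℓ (resA_ne_zero hz) (resA_ne_zero hz')).1 h
  have h1 : W.valuation w = 1 := by
    have h2 := congrArg W.valuation hw
    rw [hz, map_mul, hz', one_mul, map_pow] at h2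
    exact (pow_eq_one_iff_of_nonneg zero_le hℓ).1 h2.symm
  have h3 : rs W z = rs W z' * rs W w ^ ℓ := by
    rw [hw, rs_mul (mem_of_val hz') (pow_mem (mem_of_val h1) ℓ), rs_pow (mem_of_val h1)]
  have h4 : rs W z' ≠ 0 := (rs_ne_zero (mem_of_val hz')).2 hz'
  have h5 : rs W w ≠ 0 := (rs_ne_zero (mem_of_val h1)).2 h1
  rw [h3, cl_mul ℓ h4 (pow_ne_zero _ h5), cl_pow_self, add_zero]

/-- the residue map on classes of units. -/
theorem exists_resmap (W : ValuationSubring K) :
    ∃ r : UC ℓ W →ₗ[ZMod ℓ] V ℓ (IsLocalRing.ResidueField W),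
      (∀ (u : K) (hu : W.valuation u = 1), r ⟨cl ℓ u, cl_mem_UC hu⟩ = cl ℓ (rs W u)) ∧
      Function.Surjective r ∧ ∀ v : UC ℓ W, r v = 0 ↔ (v : V ℓ K) ∈ U1 ℓ W := by
  classical
  have hex : ∀ v : UC ℓ W, ∃ z : K, W.valuation z = 1 ∧ (v : V ℓ K) = cl ℓ z := fun v => v.2
  choose z hz hzv using hex
  let r0 : UC ℓ W →+ V ℓ (IsLocalRing.ResidueField W) :=
    { toFun := fun v => cl ℓ (rs W (z v))
      map_zero' := by
        have h1 : cl ℓ (z 0) = cl ℓ (1 : K) := by
          rw [← hzv 0, cl_one]; rfl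
        rw [resA_wd (hz 0) (map_one _) h1, rs_one, cl_one]
      map_add' := by
        intro v w
        have hzw : W.valuation (z v * z w) = 1 := by rw [map_mul, hz v, hz w, one_mul]
        have h1 : cl ℓ (z (v + w)) = cl ℓ (z v * z w) := by
          rw [cl_mul ℓ (resA_ne_zero (hz v)) (resA_ne_zero (hz w)), ← hzv, ← hzv, ← hzv]
          rfl
        rw [resA_wd (hz (v + w)) hzw h1, rs_mul (mem_of_val (hz v)) (mem_of_val (hz w)),
          cl_mul ℓ ((rs_ne_zero (mem_of_val (hz v))).2 (hz v))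
            ((rs_ne_zero (mem_of_val (hz w))).2 (hz w))] }
  let r : UC ℓ W →ₗ[ZMod ℓ] V ℓ (IsLocalRing.ResidueField W) :=
    AddMonoidHom.toZModLinearMap ℓ r0
  have hr : ∀ v, r v = cl ℓ (rs W (z v)) := fun v => rfl
  have hr1 : ∀ (u : K) (hu : W.valuation u = 1), r ⟨cl ℓ u, cl_mem_UC hu⟩ = cl ℓ (rs W u) := by
    intro u hu
    rw [hr]
    exact resA_wd (hz _) hu (hzv _).symm
  refine ⟨r, hr1, ?_, ?_⟩
  · intro c
    obtain ⟨d, hd0, rfl⟩ := cl_surj ℓ c
    obtain ⟨u, hu, rfl⟩ := rs_surj d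
    have hu1 : W.valuation u = 1 := (rs_ne_zero hu).1 hd0
    exact ⟨⟨cl ℓ u, cl_mem_UC hu1⟩, hr1 u hu1⟩
  · intro v
    rw [hr, ← cl_mem_U1_iff (hz v), hzv v]

end resmap

section one

variable {F : Type*} [Field F] [PerfectField F] {ℓ : ℕ} [Fact ℓ.Prime] [NeZero (ℓ : F)]

theorem noCtr {k : Subfield F} (hk : IsAlgClosed k) (hfg : FG k (⊤ : Subfield F)) {x : F}
    (hx : x ∉ k) : NoCtr ℓ F := by
  intro h hh
  refine LinearMap.ext fun v => ?_
  obtain ⟨z, hz0, rfl⟩ := cl_surj ℓ v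
  rw [LinearMap.zero_apply]
  by_contra hne
  have hzk : z ∉ k := by
    intro hzk
    apply hne
    rw [line_cl_const hk hzk, map_zero]
  haveI : NeZero ℓ := ⟨(Fact.out : ℓ.Prime).ne_zero⟩
  have key : ∀ c ∈ k, c ≠ 0 → ∃ a : ZMod ℓ, cl ℓ (z - c) = a • cl ℓ z := by
    intro c hc hc0
    have e1 : cl ℓ (z / c) = cl ℓ z := by
      rw [cl_div ℓ hz0 hc0, line_cl_const hk hc, sub_zero]
    have h1 : z / c ≠ 1 := by
      intro h1
      rw [div_eq_one_iff_eq hc0] at h1
      exact hzk (h1 ▸ hc)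
    obtain ⟨a, ha⟩ := hh (z / c) (div_ne_zero hz0 hc0) h1 (by rw [e1]; exact hne)
    refine ⟨a, ?_⟩
    have hzc : z - c ≠ 0 := by
      intro h0
      exact hzk (sub_eq_zero.1 h0 ▸ hc)
    have e2 : 1 - z / c = (-(z - c)) / c := by
      field_simp
      ring
    rw [e2, cl_div ℓ (neg_ne_zero.2 hzc) hc0, line_cl_const hk hc, sub_zero,
      finB_cl_neg hk, e1] at ha
    exact ha
  have h1 : {c : F | c ∈ k} ⊆ {0} ∪ ⋃ a : ZMod ℓ, {c : F | c ∈ k ∧ cl ℓ (z - c) = a • cl ℓ z} := by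
    intro c hc
    by_cases hc0 : c = 0
    · exact Or.inl hc0
    · obtain ⟨a, ha⟩ := key c hc hc0
      exact Or.inr (Set.mem_iUnion.2 ⟨a, hc, ha⟩)
  have h2 : {c : F | c ∈ k}.Finite :=
    ((Set.finite_singleton 0).union (Set.finite_iUnion fun a =>
      dist_top (ℓ := ℓ) hk hfg hzk (a • cl ℓ z))).subset h1
  exact infinite_of_isAlgClosed hk h2

/-- `exists_nr` without goodness. -/
theorem exists_nr' {k : Subfield F} (hk : IsAlgClosed k) (hfg : FG k (⊤ : Subfield F)) {y : F}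
    (hy : y ∉ k) {U : Submodule (ZMod ℓ) (V ℓ F)}
    (hfin : ((U ⊓ VS ℓ (adj k y) : Submodule (ZMod ℓ) (V ℓ F)) : Set (V ℓ F)).Finite) :
    ∃ g₀ ∈ adj k y, ∀ i j : ZMod ℓ, i • cl ℓ g₀ + j • cl ℓ (1 - g₀) ∈ U → i = 0 ∧ j = 0 := by
  haveI : NeZero ℓ := ⟨(Fact.out : ℓ.Prime).ne_zero⟩
  set S : Set (V ℓ F) := ((U ⊓ VS ℓ (adj k y) : Submodule (ZMod ℓ) (V ℓ F)) : Set (V ℓ F))
    with hS
  have hyc : ∀ c ∈ k, y - c ≠ 0 := by
    intro c hc h0
    apply hy
    rw [sub_eq_zero.1 h0]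
    exact hc
  have hcl : ∀ c ∈ k, cl ℓ (y - c) ∈ VS ℓ (adj k y) := fun c hc =>
    cl_mem_VS ((adj k y).sub_mem (mem_adj k y) (le_adj k y hc))
  have hinf : {c : F | c ∈ k}.Infinite := infinite_of_isAlgClosed hk
  -- the point `b`
  obtain ⟨b, hb, hb1⟩ : ∃ b ∈ k, ∀ j : ZMod ℓ, j ≠ 0 → j • cl ℓ (y - b) ∉ S := by
    have hf : (⋃ j : ZMod ℓ, ⋃ s ∈ S, {c : F | c ∈ k ∧ cl ℓ (y - c) = j⁻¹ • s}).Finite :=
      Set.finite_iUnion fun j => hfin.biUnion fun s _ => dist_top (ℓ := ℓ) hk hfg hy _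
    obtain ⟨b, hb, hbn⟩ := (hinf.sdiff hf).nonempty
    refine ⟨b, hb, fun j hj hjS => hbn ?_⟩
    refine Set.mem_iUnion.2 ⟨j, Set.mem_biUnion hjS ⟨hb, ?_⟩⟩
    rw [smul_smul, inv_mul_cancel₀ hj, one_smul]
  obtain ⟨a, ha, hab, ha1⟩ : ∃ a ∈ k, a ≠ b ∧ ∀ i j : ZMod ℓ, i ≠ 0 →
      i • cl ℓ (y - a) + j • cl ℓ (y - b) ∉ S := by
    have hf : ({b} ∪ ⋃ i : ZMod ℓ, ⋃ j : ZMod ℓ, ⋃ s ∈ S,
        {c : F | c ∈ k ∧ cl ℓ (y - c) = i⁻¹ • (s - j • cl ℓ (y - b))}).Finite :=
      (Set.finite_singleton b).union (Set.finite_iUnion fun i => Set.finite_iUnion fun j =>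
        hfin.biUnion fun s _ => dist_top (ℓ := ℓ) hk hfg hy _)
    obtain ⟨a, ha, han⟩ := (hinf.sdiff hf).nonempty
    refine ⟨a, ha, fun h => han (Or.inl h), fun i j hi hijS => han (Or.inr ?_)⟩
    refine Set.mem_iUnion.2 ⟨i, Set.mem_iUnion.2 ⟨j, Set.mem_biUnion hijS ⟨ha, ?_⟩⟩⟩
    rw [add_sub_cancel_right, smul_smul, inv_mul_cancel₀ hi, one_smul]
  have hd : b - a ≠ 0 := sub_ne_zero.2 hab.symm
  have hdk : b - a ∈ k := k.sub_mem hb ha
  have hg : (y - a) / (b - a) ∈ adj k y :=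
    (adj k y).div_mem ((adj k y).sub_mem (mem_adj k y) (le_adj k y ha)) (le_adj k y hdk)
  have e1 : cl ℓ ((y - a) / (b - a)) = cl ℓ (y - a) := by
    rw [cl_div ℓ (hyc _ ha) hd, line_cl_const hk hdk, sub_zero]
  have e2 : cl ℓ (1 - (y - a) / (b - a)) = cl ℓ (y - b) := by
    have h3 : 1 - (y - a) / (b - a) = (-(y - b)) / (b - a) := by
      field_simp
      ring
    rw [h3, cl_div ℓ (neg_ne_zero.2 (hyc _ hb)) hd, line_cl_const hk hdk,
      sub_zero, finB_cl_neg hk]
  refine ⟨_, hg, fun i j hij => ?_⟩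
  rw [e1, e2] at hij
  have hijS : i • cl ℓ (y - a) + j • cl ℓ (y - b) ∈ S :=
    ⟨hij, Submodule.add_mem _ (Submodule.smul_mem _ _ (hcl a ha))
      (Submodule.smul_mem _ _ (hcl b hb))⟩
  by_cases hi : i = 0
  · refine ⟨hi, ?_⟩
    by_contra hj
    rw [hi, zero_smul, zero_add] at hijS
    exact hb1 j hj hijS
  · exact absurd hijS (ha1 i j hi)

/-- a class is a unit class iff the functional vanishes. -/
theorem IsUnif.mem_UC_iff {O : ValuationSubring F} {π : F} (h : IsUnif O π) (v : V ℓ F) :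
    v ∈ UC ℓ O ↔ h.fn ℓ v = 0 := by
  constructor
  · rintro ⟨z, hz, rfl⟩
    exact h.fn_unit ℓ z hz
  · intro hv
    exact h.exists_unit_of_fn ℓ v hv

end one

variable {K L : Type*} [Field K] [Field L] [PerfectField K] [PerfectField L] {ℓ : ℕ}
  [Fact ℓ.Prime] [NeZero (ℓ : K)] [NeZero (ℓ : L)] {Θ : V ℓ K ≃ₗ[ZMod ℓ] V ℓ L}

/-- existence of transferred valuations. -/
theorem exists_tr0 {k : Subfield K} (hk : IsAlgClosed k) (hfgk : FG k (⊤ : Subfield K))
    {l : Subfield L} (hl : IsAlgClosed l) (hΘ : Compatible Θ) {F : Subfield K} (hkF : k ≤ F)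
    (hfg : FG k F) {W : ValuationSubring K} {π θ : K} (hW : Nice W F π θ) {y : K} (hy : y ∉ k)
    (hyW : TrivOn W (adj k y)) : ∃ O : ValuationSubring L, Tr Θ W π O := by
  have hfin := hW.finite (ℓ := ℓ) hk hkF hfg (le_adj k y) hyW
  obtain ⟨g₀, -, hg₀⟩ := exists_nr' hk hfgk hy hfin
  obtain ⟨O, hO1, hO2⟩ := transfer hΘ (exists_neg hk) (exists_neg hl) hW.unif g₀ hg₀
  exact ⟨O, fun _ => hO1, hO2⟩

/-- the kernel of the transferred functional consists of the unit classes. -/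
theorem Tr.uc (hΘ : Compatible Θ) (hnegK : ∃ i : K, i ^ ℓ = -1) (hnegL : ∃ i : L, i ^ ℓ = -1)
    {W : ValuationSubring K} {π : K} {O : ValuationSubring L} (hW : IsUnif W π)
    (hT : Tr Θ W π O) (hNC : NoCtr ℓ (IsLocalRing.ResidueField W)) (v : V ℓ L) :
    v ∈ UC ℓ O ↔ hW.fn ℓ (Θ.symm v) = 0 := by
  constructor
  · rintro ⟨z, hz, rfl⟩
    exact hT.unit hW z hz
  intro hv
  by_contra hvn
  obtain ⟨f', hf'v, hf'U⟩ := Submodule.exists_le_ker_of_notMem hvn
  have hf'1 : ∀ z : L, O.valuation z = 1 → f' (cl ℓ z) = 0 := fun z hz => hf'U (cl_mem_UC hz)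
  set f : V ℓ K →ₗ[ZMod ℓ] ZMod ℓ := f' ∘ₗ Θ.toLinearMap with hf
  have hfU1 : ∀ w ∈ U1 ℓ W, f w = 0 := fun w hw =>
    hf'U (U1_le_UC O ((hT.iff w).2 hw))
  have hpair : ∀ g : V ℓ K →ₗ[ZMod ℓ] ZMod ℓ, (∀ w ∈ U1 ℓ W, g w = 0) → CPair f g := by
    intro g hg
    have h1 : CPair f' (g ∘ₗ Θ.symm.toLinearMap) := by
      refine cpair_of_U1 hnegL O f' _ hf'1 fun w hw => hg _ ?_
      rw [← hT.iff]
      change Θ (Θ.symm w) ∈ _
      rwa [LinearEquiv.apply_symm_apply]
    have h2 := hΘ.cpair h1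
    have h3 : (g ∘ₗ Θ.symm.toLinearMap) ∘ₗ Θ.toLinearMap = g := by
      ext w
      simp
    rwa [h3] at h2
  obtain ⟨r, hr1, hrs, hrk⟩ := exists_resmap (ℓ := ℓ) W
  obtain ⟨s, hs⟩ := LinearMap.exists_rightInverse_of_surjective r (LinearMap.range_eq_top.2 hrs)
  set h : V ℓ (IsLocalRing.ResidueField W) →ₗ[ZMod ℓ] ZMod ℓ :=
    f ∘ₗ (UC ℓ W).subtype ∘ₗ s with hh
  have hhr : ∀ w : UC ℓ W, h (r w) = f w := by
    intro w
    have h1 : r (s (r w) - w) = 0 := by
      rw [map_sub, sub_eq_zero]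
      exact LinearMap.congr_fun hs (r w)
    have h2 := hfU1 _ ((hrk _).1 h1)
    have h3 : f ((s (r w) - w : UC ℓ W) : V ℓ K) = f (s (r w) : V ℓ K) - f (w : V ℓ K) := by
      rw [← map_sub]; rfl
    rw [h3, sub_eq_zero] at h2
    exact h2
  have hh0 : h = 0 := by
    apply hNC
    intro x hx0 hx1 hhx
    obtain ⟨u, hu, rfl⟩ := rs_surj x
    have hu1 : W.valuation u = 1 := (rs_ne_zero hu).1 hx0
    have hu2 : 1 - u ∈ W := sub_mem (one_mem W) hu
    have e1 : rs W (1 - u) = 1 - rs W u := by rw [rs_sub (one_mem W) hu, rs_one]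
    have hu3 : W.valuation (1 - u) = 1 := by
      rw [← rs_ne_zero hu2, e1]
      exact sub_ne_zero.2 (Ne.symm hx1)
    have hfu : f (cl ℓ u) = h (cl ℓ (rs W u)) := by
      rw [← hr1 u hu1, hhr]
    set a : ZMod ℓ := f (cl ℓ (1 - u)) / f (cl ℓ u) with ha
    have hfu0 : f (cl ℓ u) ≠ 0 := by rw [hfu]; exact hhx
    have hw : cl ℓ (1 - u) - a • cl ℓ u ∈ U1 ℓ W := by
      by_contra hwn
      obtain ⟨g, hg1, hg2⟩ := Submodule.exists_le_ker_of_notMem hwn
      apply hg1
      have h4 := hpair g (fun w hw => hg2 hw) u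
      rw [map_sub, map_smul, smul_eq_mul, ha]
      field_simp
      linear_combination h4
    refine ⟨a, ?_⟩
    have h5 := (hrk (⟨cl ℓ (1 - u), cl_mem_UC hu3⟩ - a • ⟨cl ℓ u, cl_mem_UC hu1⟩)).2 hw
    rw [map_sub, map_smul, hr1 _ hu3, hr1 _ hu1, sub_eq_zero, e1] at h5
    exact h5
  have hfunit : ∀ z, W.valuation z = 1 → f (cl ℓ z) = 0 := by
    intro z hz
    have h6 := hhr ⟨cl ℓ z, cl_mem_UC hz⟩
    rw [hh0, LinearMap.zero_apply] at h6
    exact h6.symm
  have h7 := hW.eq_smul_fn ℓ f hfunit (Θ.symm v)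
  rw [hv, mul_zero] at h7
  apply hf'v
  have h8 : f (Θ.symm v) = f' v := by
    rw [hf, LinearMap.comp_apply]
    change f' (Θ (Θ.symm v)) = _
    rw [LinearEquiv.apply_symm_apply]
  rw [← h8, h7]

end Vale.Agent.P019P
end

section

/-!
# Valuations of surfaces
-/

namespace Vale.Agent.P019P

open Vale.Agent.P019

set_option linter.style.haveILetI false
set_option linter.unusedSectionVars false

open Polynomial Filter

section rsb

variable {F : Type*} [Field F]

/-- two terms of equal nonzero value in a vanishing sum. -/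
theorem rsb_two {O : ValuationSubring F} {ι : Type*} [DecidableEq ι] (s : Finset ι) (f : ι → F)
    (h : ∑ i ∈ s, f i = 0) (hne : ∃ i ∈ s, f i ≠ 0) :
    ∃ i ∈ s, ∃ j ∈ s, i ≠ j ∧ f i ≠ 0 ∧ O.valuation (f i) = O.valuation (f j) := by
  obtain ⟨i0, hi0, hf0⟩ := hne
  obtain ⟨i, hi, hmax⟩ := s.exists_max_image (fun i => O.valuation (f i)) ⟨i0, hi0⟩
  have hfi : f i ≠ 0 := by
    intro h0
    have h1 := hmax i0 hi0
    rw [h0, map_zero] at h1
    exact hf0 ((Valuation.zero_iff _).1 (le_antisymm h1 zero_le))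
  by_contra hcon
  push Not at hcon
  have h2 : ∀ j ∈ s.erase i, O.valuation (f j) < O.valuation (f i) := by
    intro j hj
    rw [Finset.mem_erase] at hj
    exact lt_of_le_of_ne (hmax j hj.2) fun h3 => hcon i hi j hj.2 (Ne.symm hj.1) hfi h3.symm
  have h3 := Valuation.map_sum_lt O.valuation ((Valuation.ne_zero_iff _).2 hfi) h2
  rw [← Finset.add_sum_erase _ _ hi] at h
  rw [← neg_eq_of_add_eq_zero_right h, Valuation.map_neg] at h3
  exact lt_irrefl _ h3

variable {E : Subfield F} {O : ValuationSubring F} {X : F}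

/-- the values of `E(X)`. -/
theorem rsb_val (hO : TrivOn O E) (hX0 : X ≠ 0) (hX : O.valuation X < 1) {a : F}
    (ha : a ∈ IntermediateField.adjoin E {X}) (ha0 : a ≠ 0) :
    ∃ r : ℤ, O.valuation a = O.valuation X ^ r := by
  obtain ⟨n, c, hc, hc0, h⟩ := exists_residue hO hX hX0 ha ha0
  have h1 := val_of_sub (hO.eq_one hc hc0) h
  refine ⟨-n, ?_⟩
  rw [map_mul, map_zpow₀] at h1
  rw [zpow_neg]
  exact eq_inv_of_mul_eq_one_left h1

/-- independence of the elements whose residues are independent. -/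
theorem rsb_indep (hO : TrivOn O E) (hX0 : X ≠ 0) (hX : O.valuation X < 1) {ι : Type*}
    [Fintype ι] {z : ι → F} (hz : ∀ i, z i ∈ O)
    (h : LinearIndependent (bar hO) fun i => rs O (z i)) :
    LinearIndependent (IntermediateField.adjoin E {X}) z := by
  rw [Fintype.linearIndependent_iff] at h ⊢
  intro a ha
  by_contra hcon
  push Not at hcon
  obtain ⟨i1, hi1⟩ := hcon
  obtain ⟨i0, -, hmax⟩ := Finset.univ.exists_max_image (fun i => O.valuation (a i : F))
    ⟨i1, Finset.mem_univ _⟩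
  have ha0 : (a i0 : F) ≠ 0 := by
    intro h0
    have h1 := hmax i1 (Finset.mem_univ _)
    rw [h0, map_zero] at h1
    exact hi1 (Subtype.ext ((Valuation.zero_iff _).1 (le_antisymm h1 zero_le)))
  have hv0 : 0 < O.valuation (a i0 : F) := zero_lt_iff.2 ((Valuation.ne_zero_iff _).2 ha0)
  have hb : ∀ i, ∃ c : E, O.valuation ((a i : F) / a i0 - c) < 1 := by
    intro i
    refine exists_residue_of_le hO hX hX0 (div_mem (a i).2 (a i0).2) ?_
    rw [map_div₀]
    exact (div_le_one₀ hv0).2 (hmax i (Finset.mem_univ _))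
  choose c hc using hb
  have hsum : ∑ i, ((a i : F) / a i0) * z i = 0 := by
    have h1 : ∑ i, ((a i : F) / a i0) * z i = (∑ i, (a i : F) * z i) / a i0 := by
      rw [Finset.sum_div]
      exact Finset.sum_congr rfl fun i _ => by ring
    rw [h1]
    have h2 : ∑ i, (a i : F) * z i = 0 := ha
    rw [h2, zero_div]
  have hcz : ∀ i, (c i : F) * z i ∈ O := fun i => mul_mem (hO _ (c i).2) (hz i)
  have hlt : O.valuation (∑ i, (c i : F) * z i) < 1 := by
    have h1 : ∑ i, (c i : F) * z i = -∑ i, ((a i : F) / a i0 - c i) * z i := by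
      have h2 : ∑ i, ((a i : F) / a i0 - c i) * z i =
          ∑ i, ((a i : F) / a i0) * z i - ∑ i, (c i : F) * z i := by
        rw [← Finset.sum_sub_distrib]
        exact Finset.sum_congr rfl fun i _ => by ring
      rw [h2, hsum, zero_sub, neg_neg]
    rw [h1, Valuation.map_neg]
    refine Valuation.map_sum_lt _ one_ne_zero fun i _ => ?_
    rw [map_mul]
    exact lt_of_le_of_lt (mul_le_of_le_one_right' ((O.valuation_le_one_iff _).2 (hz i))) (hc i)
  have hrs : ∀ s : Finset ι, ∑ i ∈ s, (c i : F) * z i ∈ O ∧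
      rs O (∑ i ∈ s, (c i : F) * z i) = ∑ i ∈ s, rs O (c i : F) * rs O (z i) := by
    classical
    intro s
    induction s using Finset.induction_on with
    | empty => simp [rs_zero, zero_mem]
    | insert i s hi ih =>
      rw [Finset.sum_insert hi, Finset.sum_insert hi]
      exact ⟨add_mem (hcz i) ih.1, by
        rw [rs_add (hcz i) ih.1, ih.2, rs_mul (hO _ (c i).2) (hz i)]⟩
  have h0 := (rs_eq_zero (hrs Finset.univ).1).2 hlt
  rw [(hrs Finset.univ).2] at h0
  have h1 := h (fun i => ⟨rs O (c i : F), rs_mem_bar hO (c i).2⟩) h0 i0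
  have h2 : rs O (c i0 : F) = 0 := congrArg Subtype.val h1
  have h3 := hc i0
  rw [div_self ha0, ← rs_eq (one_mem O) (hO _ (c i0).2), rs_one, h2] at h3
  exact one_ne_zero h3

/-- the image of a subfield in the residue field. -/
noncomputable def rsbK (hO : TrivOn O E) {L : Subfield F} (hL : E ≤ L) :
    Subalgebra (bar hO) (IsLocalRing.ResidueField O) where
  carrier := {c | ∃ z ∈ L, z ∈ O ∧ rs O z = c}
  mul_mem' := by
    rintro _ _ ⟨x, hx, hxO, rfl⟩ ⟨y, hy, hyO, rfl⟩
    exact ⟨x * y, mul_mem hx hy, mul_mem hxO hyO, rs_mul hxO hyO⟩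
  add_mem' := by
    rintro _ _ ⟨x, hx, hxO, rfl⟩ ⟨y, hy, hyO, rfl⟩
    exact ⟨x + y, add_mem hx hy, add_mem hxO hyO, rs_add hxO hyO⟩
  algebraMap_mem' := by
    rintro ⟨c, hc⟩
    obtain ⟨e, he, rfl⟩ := (mem_bar hO).1 hc
    exact ⟨e, hL he, hO e he, rfl⟩

/-- the image is finite. -/
theorem rsb_fin (hO : TrivOn O E) (hX0 : X ≠ 0) (hX : O.valuation X < 1)
    (L : IntermediateField (IntermediateField.adjoin E {X}) F)
    [FiniteDimensional (IntermediateField.adjoin E {X}) L] (hL : E ≤ L.toSubfield) :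
    (Subalgebra.toSubmodule (rsbK hO hL)).FG := by
  classical
  have h1 : Module.rank (bar hO) (Subalgebra.toSubmodule (rsbK hO hL)) ≤
      (Module.finrank (IntermediateField.adjoin E {X}) L : ℕ) := by
    refine rank_le fun s hs => ?_
    have hex : ∀ i : s, ∃ z ∈ L, z ∈ O ∧
        rs O z = ((i : Subalgebra.toSubmodule (rsbK hO hL)) : IsLocalRing.ResidueField O) :=
      fun i => (i : Subalgebra.toSubmodule (rsbK hO hL)).2
    choose w hwL hwO hw using hex
    have h2 : LinearIndependent (bar hO) fun i => rs O (w i) := by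
      have h3 := hs.map' (Subalgebra.toSubmodule (rsbK hO hL)).subtype (Submodule.ker_subtype _)
      have h4 : (fun i => rs O (w i)) = (Subalgebra.toSubmodule (rsbK hO hL)).subtype ∘
          fun i : s => (i : Subalgebra.toSubmodule (rsbK hO hL)) := by
        funext i
        exact hw i
      rw [h4]
      exact h3
    have h5 := rsb_indep hO hX0 hX hwO h2
    have h6 : LinearIndependent (IntermediateField.adjoin E {X}) (fun i => (⟨w i, hwL i⟩ : L)) :=
      LinearIndependent.of_comp L.val.toLinearMap h5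
    have h7 := h6.fintype_card_le_finrank
    rwa [Fintype.card_coe] at h7
  have h8 : Module.rank (bar hO) (Subalgebra.toSubmodule (rsbK hO hL)) < Cardinal.aleph0 :=
    lt_of_le_of_lt h1 (Cardinal.natCast_lt_aleph0)
  exact Module.Finite.iff_fg.1 (Module.rank_lt_aleph0_iff.1 h8)

theorem rsb_cancel {x y z : F} (hy : y ≠ 0) (hz : z ≠ 0) {i j : ℕ} (hij : i < j)
    (h : O.valuation (x * z ^ i) = O.valuation (y * z ^ j)) :
    O.valuation z ^ (j - i) = O.valuation (x / y) := by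
  have hy' : O.valuation y ≠ 0 := (Valuation.ne_zero_iff _).2 hy
  have hz' : O.valuation z ≠ 0 := (Valuation.ne_zero_iff _).2 hz
  rw [map_mul, map_mul, map_pow, map_pow] at h
  rw [map_div₀, eq_div_iff hy']
  refine mul_right_cancel₀ (pow_ne_zero i hz') ?_
  rw [h, mul_comm _ (O.valuation y), mul_assoc, ← pow_add, Nat.sub_add_cancel hij.le]

/-- the values of the elements of a finite extension of `E(X)`. -/
theorem rsb_pow (hO : TrivOn O E) (hX0 : X ≠ 0) (hX : O.valuation X < 1)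
    (L : IntermediateField (IntermediateField.adjoin E {X}) F)
    [FiniteDimensional (IntermediateField.adjoin E {X}) L] {z : F} (hz : z ∈ L) (hz0 : z ≠ 0) :
    ∃ r : ℤ, O.valuation z ^ (Module.finrank (IntermediateField.adjoin E {X}) L).factorial =
      O.valuation X ^ r := by
  set P := minpoly (IntermediateField.adjoin E {X}) (⟨z, hz⟩ : L) with hP
  have hint : IsIntegral (IntermediateField.adjoin E {X}) (⟨z, hz⟩ : L) :=
    Algebra.IsIntegral.isIntegral _
  haveI : Module.Free (IntermediateField.adjoin E {X}) L := Module.Free.of_divisionRing _ _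
  have hdeg : P.natDegree ≤ Module.finrank (IntermediateField.adjoin E {X}) L :=
    minpoly.natDegree_le _
  have hmon : P.Monic := minpoly.monic hint
  have hroot : ∑ i ∈ Finset.range (P.natDegree + 1), (P.coeff i : F) * z ^ i = 0 := by
    have h1 : aeval (⟨z, hz⟩ : L) P = 0 := minpoly.aeval _ _
    rw [aeval_eq_sum_range] at h1
    have h2 := congrArg (fun x : L => (x : F)) h1
    simpa [IntermediateField.coe_sum, Algebra.smul_def] using h2
  have key : ∀ i j : ℕ, i < j → j ≤ P.natDegree → (P.coeff i : F) ≠ 0 → (P.coeff j : F) ≠ 0 →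
      O.valuation ((P.coeff i : F) * z ^ i) = O.valuation ((P.coeff j : F) * z ^ j) →
      ∃ r : ℤ, O.valuation z ^ (Module.finrank (IntermediateField.adjoin E {X}) L).factorial =
        O.valuation X ^ r := by
    intro i j hij hj hi0 hj0 h
    have h1 := rsb_cancel hj0 hz0 hij h
    obtain ⟨r, hr⟩ := rsb_val hO hX0 hX (div_mem (P.coeff i).2 (P.coeff j).2)
      (div_ne_zero hi0 hj0)
    have hdvd : j - i ∣ (Module.finrank (IntermediateField.adjoin E {X}) L).factorial :=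
      Nat.dvd_factorial (by omega) (by omega)
    obtain ⟨k, hk⟩ := hdvd
    refine ⟨r * k, ?_⟩
    rw [hk, pow_mul, h1, hr, zpow_mul, zpow_natCast]
  obtain ⟨i, hi, j, hj, hij, hi0, h⟩ := rsb_two (O := O) (Finset.range (P.natDegree + 1))
    (fun i => (P.coeff i : F) * z ^ i) hroot ⟨P.natDegree, Finset.self_mem_range_succ _, by
      rw [hmon.coeff_natDegree]
      exact mul_ne_zero one_ne_zero (pow_ne_zero _ hz0)⟩
  rw [Finset.mem_range, Nat.lt_succ_iff] at hi hj
  have hj0 : (P.coeff j : F) * z ^ j ≠ 0 := by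
    intro h0
    rw [h0, map_zero] at h
    exact hi0 ((Valuation.zero_iff _).1 h)
  have hi1 : (P.coeff i : F) ≠ 0 := left_ne_zero_of_mul hi0
  have hj1 : (P.coeff j : F) ≠ 0 := left_ne_zero_of_mul hj0
  rcases lt_or_gt_of_ne hij with hlt | hgt
  · exact key i j hlt hj hi1 hj1 h
  · exact key j i hgt hi hj1 hi1 h.symm

/-- values are discrete. -/
theorem rsb_unif {L : Subfield F} (hX0 : X ≠ 0) (hX : O.valuation X < 1) (hXL : X ∈ L) {M : ℕ}
    (hM : 0 < M) (h : ∀ z ∈ L, z ≠ 0 → ∃ r : ℤ, O.valuation z ^ M = O.valuation X ^ r) :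
    ∃ π ∈ L, π ≠ 0 ∧ O.valuation π < 1 ∧
      ∀ z ∈ L, z ≠ 0 → ∃ k : ℤ, O.valuation (z * π ^ k) = 1 := by
  have hx0 : O.valuation X ≠ 0 := (Valuation.ne_zero_iff _).2 hX0
  have hxp : 0 < O.valuation X := zero_lt_iff.2 hx0
  let H : AddSubgroup ℤ :=
    { carrier := {r | ∃ z ∈ L, z ≠ 0 ∧ O.valuation z ^ M = O.valuation X ^ r}
      zero_mem' := ⟨1, one_mem _, one_ne_zero, by simp⟩
      add_mem' := by
        rintro a b ⟨z, hz, hz0, hza⟩ ⟨w, hw, hw0, hwb⟩
        exact ⟨z * w, mul_mem hz hw, mul_ne_zero hz0 hw0, by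
          rw [map_mul, mul_pow, hza, hwb, zpow_add₀ hx0]⟩
      neg_mem' := by
        rintro a ⟨z, hz, hz0, hza⟩
        exact ⟨z⁻¹, inv_mem hz, inv_ne_zero hz0, by
          rw [map_inv₀, inv_pow, hza, zpow_neg]⟩ }
  obtain ⟨d, hd⟩ := Int.subgroup_cyclic H
  have hMH : (M : ℤ) ∈ H := ⟨X, hXL, hX0, by rw [zpow_natCast]⟩
  have hmem : ∀ r ∈ H, ∃ k : ℤ, r = k * d := by
    intro r hr
    rw [hd, AddSubgroup.mem_closure_singleton] at hr
    obtain ⟨k, hk⟩ := hr
    exact ⟨k, by rw [← hk, smul_eq_mul]⟩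
  have hdH : d ∈ H := by
    rw [hd]
    exact AddSubgroup.subset_closure rfl
  have hd0 : d ≠ 0 := by
    rintro rfl
    obtain ⟨k, hk⟩ := hmem _ hMH
    rw [mul_zero] at hk
    omega
  obtain ⟨e, he, heH, hme⟩ : ∃ e : ℤ, 0 < e ∧ e ∈ H ∧ ∀ r ∈ H, ∃ k : ℤ, r = k * e := by
    rcases lt_or_gt_of_ne hd0 with hlt | hgt
    · refine ⟨-d, by omega, H.neg_mem hdH, fun r hr => ?_⟩
      obtain ⟨k, hk⟩ := hmem r hr
      exact ⟨-k, by rw [hk]; ring⟩
    · exact ⟨d, hgt, hdH, hmem⟩
  obtain ⟨π, hπL, hπ0, hπ⟩ := heH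
  have hlt1 : O.valuation X ^ e < 1 := by
    obtain ⟨a, rfl⟩ := Int.eq_ofNat_of_zero_le he.le
    rw [zpow_natCast]
    exact pow_lt_one₀ zero_le hX (by rintro rfl; simp at he)
  refine ⟨π, hπL, hπ0, ?_, fun z hz hz0 => ?_⟩
  · by_contra hcon
    have h1 := one_le_pow₀ (n := M) (not_lt.1 hcon)
    rw [hπ] at h1
    exact absurd hlt1 (not_lt.2 h1)
  · obtain ⟨r, hr⟩ := h z hz hz0
    obtain ⟨k, hk⟩ := hme r ⟨z, hz, hz0, hr⟩
    refine ⟨-k, ?_⟩
    have h1 : O.valuation (z * π ^ (-k)) ^ M = 1 := by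
      rw [map_mul, mul_pow, hr, map_zpow₀, ← zpow_natCast (O.valuation π ^ (-k)), ← zpow_mul,
        mul_comm (-k), zpow_mul, zpow_natCast, hπ, ← zpow_mul, ← zpow_add₀ hx0, hk]
      have : k * e + e * -k = 0 := by ring
      rw [this, zpow_zero]
    exact (pow_eq_one_iff_of_nonneg zero_le hM.ne').1 h1

theorem rsb_exists_small (hne : O ≠ ⊤) : ∃ X : F, X ≠ 0 ∧ O.valuation X < 1 := by
  obtain ⟨w, hw⟩ : ∃ w, w ∉ O := by
    by_contra hcon
    push Not at hcon
    exact hne (top_unique fun x _ => hcon x)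
  refine ⟨w⁻¹, inv_ne_zero (by rintro rfl; exact hw O.zero_mem), ?_⟩
  rw [map_inv₀]
  exact inv_lt_one_of_one_lt₀ (not_le.1 fun h => hw ((O.valuation_le_one_iff w).1 h))

/-- every element of small value is a transcendence basis. -/
theorem rsb_alg [PerfectField F] (hO : TrivOn O E) (hX0 : X ≠ 0) (hX : O.valuation X < 1) {y : F}
    (halg : ∀ z : F, IsAlgebraic (adj E y) z) (z : F) :
    IsAlgebraic (IntermediateField.adjoin E {X}) z := by
  have hXE : ¬ IsAlgebraic E X := fun h => by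
    rw [hO.eq_one_of_isAlgebraic h hX0] at hX
    exact lt_irrefl _ hX
  have hyX : IsAlgebraic (adj E X) y := exchange hXE (halg X)
  have h1 : adj E y ≤ rac (adj E X) := adj_le ((le_adj E X).trans (le_rac _)) (mem_rac.2 hyX)
  exact isAlgebraic_adjoin_simple'.2 (isAlgebraic_rac (isAlgebraic_mono h1 (halg z)))

/-- the residue field, from a finite extension of `E(X)`. -/
theorem rsb_res [PerfectField F] (hO : TrivOn O E) (hX0 : X ≠ 0) (hX : O.valuation X < 1)
    (L : IntermediateField (IntermediateField.adjoin E {X}) F)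
    [FiniteDimensional (IntermediateField.adjoin E {X}) L] (hL : E ≤ L.toSubfield)
    (hpow : ∀ z : F, ∃ m : ℕ, z ^ ringExpChar F ^ m ∈ L) :
    (∀ c : IsLocalRing.ResidueField O, IsAlgebraic (bar hO) c) ∧
      FG (bar hO) (⊤ : Subfield (IsLocalRing.ResidueField O)) := by
  have hfin := rsb_fin hO hX0 hX L hL
  have hq : ringExpChar (IsLocalRing.ResidueField O) = ringExpChar F := rs_ringExpChar hO
  have hpow' : ∀ c : IsLocalRing.ResidueField O, ∃ m : ℕ,
      c ^ ringExpChar (IsLocalRing.ResidueField O) ^ m ∈ rsbK hO hL := by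
    intro c
    obtain ⟨z, hz, rfl⟩ := rs_surj c
    obtain ⟨m, hm⟩ := hpow z
    refine ⟨m, z ^ ringExpChar F ^ m, hm, pow_mem hz _, ?_⟩
    rw [rs_pow hz, hq]
  constructor
  · intro c
    obtain ⟨m, hm⟩ := hpow' c
    have h1 : IsIntegral (bar hO) (c ^ ringExpChar (IsLocalRing.ResidueField O) ^ m) :=
      IsIntegral.of_mem_of_fg _ hfin _ hm
    exact IsAlgebraic.of_pow (pow_pos (expChar_pos (IsLocalRing.ResidueField O) _) _) h1.isAlgebraic
  · obtain ⟨T, hT⟩ := hfin
    refine ⟨T, (top_unique ?_).symm⟩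
    intro c _
    obtain ⟨m, hm⟩ := hpow' c
    refine mem_pf.2 ⟨m, ?_⟩
    have h2 : c ^ ringExpChar (IsLocalRing.ResidueField O) ^ m ∈
        Submodule.span (bar hO) (T : Set (IsLocalRing.ResidueField O)) := by
      rw [hT]
      exact hm
    refine Submodule.span_induction ?_ ?_ ?_ ?_ h2
    · intro x hx
      exact (le_sup_right : Subfield.closure _ ≤ _) (Subfield.subset_closure hx)
    · exact zero_mem _
    · intro x y _ _ hx hy
      exact add_mem hx hy
    · intro a x _ hx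
      rw [Algebra.smul_def]
      exact mul_mem ((le_sup_left : bar hO ≤ _) a.2) hx

end rsb

variable {F : Type*} [Field F] [PerfectField F] {ℓ : ℕ} [Fact ℓ.Prime] [NeZero (ℓ : F)]

/-- valuations of a function field of one variable over `E`. -/
theorem val_struct {E : Subfield F} [PerfectField E] (hfg : FG E (⊤ : Subfield F)) {y : F}
    (hy : ¬ IsAlgebraic E y) (halg : ∀ z : F, IsAlgebraic (adj E y) z) {O : ValuationSubring F}
    (hO : TrivOn O E) (hne : O ≠ ⊤) :
    (∃ π, IsUnif O π) ∧ (∀ c : IsLocalRing.ResidueField O, IsAlgebraic (bar hO) c) ∧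
      FG (bar hO) (⊤ : Subfield (IsLocalRing.ResidueField O)) := by
  have _ := hy
  obtain ⟨X, hX0, hX⟩ := rsb_exists_small hne
  have hXalg := fun z => rsb_alg hO hX0 hX halg z
  obtain ⟨S, hS⟩ := hfg
  set L := IntermediateField.adjoin (IntermediateField.adjoin E {X}) (S : Set F) with hLdef
  haveI : FiniteDimensional (IntermediateField.adjoin E {X}) L :=
    IntermediateField.finiteDimensional_adjoin fun x _ => (hXalg x).isIntegral
  have hAL : ∀ z ∈ IntermediateField.adjoin E {X}, z ∈ L := fun z hz =>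
    L.algebraMap_mem (⟨z, hz⟩ : IntermediateField.adjoin E {X})
  have hL : E ≤ L.toSubfield := fun z hz =>
    hAL z ((IntermediateField.adjoin E {X}).algebraMap_mem (⟨z, hz⟩ : E))
  have hXL : X ∈ L := hAL X (IntermediateField.mem_adjoin_simple_self E X)
  have hSL : E ⊔ Subfield.closure (S : Set F) ≤ L.toSubfield :=
    sup_le hL (Subfield.closure_le.2 fun z hz => IntermediateField.subset_adjoin _ _ hz)
  have hpow : ∀ z : F, ∃ m : ℕ, z ^ ringExpChar F ^ m ∈ L := by
    intro z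
    have h1 : z ∈ pf (E ⊔ Subfield.closure (S : Set F)) := hS ▸ Subfield.mem_top z
    obtain ⟨m, hm⟩ := mem_pf.1 h1
    exact ⟨m, hSL hm⟩
  refine ⟨?_, rsb_res hO hX0 hX L hL hpow⟩
  obtain ⟨π, hπL, hπ0, hπ, hrep⟩ := rsb_unif (L := L.toSubfield) hX0 hX hXL
    (Nat.factorial_pos (Module.finrank (IntermediateField.adjoin E {X}) L))
    (fun z hz hz0 => rsb_pow hO hX0 hX L hz hz0)
  refine ⟨π, hπ0, hπ, fun z hz0 => ?_⟩
  obtain ⟨m, hm⟩ := hpow z
  obtain ⟨k, hk⟩ := hrep _ hm (pow_ne_zero _ hz0)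
  exact ⟨m, k, hk⟩

/-- the residue fields of places of a curve. -/
theorem Cv.place {k : Subfield F} (h : Cv k) {O : ValuationSubring F} (hO : O ∈ Plc k) :
    (∃ π, IsUnif O π) ∧ ∀ c : IsLocalRing.ResidueField O, c ∈ bar hO.1 := by
  haveI := h.ac
  obtain ⟨x, hx, hxalg⟩ := h.ex
  have hx' : ¬ IsAlgebraic k x := fun h' => hx (RAC_of_isAlgClosed k h.ac x h')
  obtain ⟨h1, h2, -⟩ := val_struct h.fg hx' hxalg hO.1 hO.2
  exact ⟨h1, fun c => RAC_of_isAlgClosed _ (bar_isAlgClosed hO.1 h.ac) c (h2 c)⟩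

section rk1

/-- valuation rings with a uniformizer have rank one. -/
theorem rsb_rank {O : ValuationSubring F} {π : F} (h : IsUnif O π) {O' : ValuationSubring F}
    (hle : O ≤ O') : O' = O ∨ O' = ⊤ := by
  by_cases hOO : O' ≤ O
  · exact Or.inl (le_antisymm hOO hle)
  right
  obtain ⟨w, hwO', hwO⟩ := Set.not_subset.1 hOO
  have hw0 : w ≠ 0 := by rintro rfl; exact hwO O.zero_mem
  have hπ : O.valuation π ≠ 0 := (Valuation.ne_zero_iff _).2 h.ne
  have hπp : 0 < O.valuation π := zero_lt_iff.2 hπ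
  -- the inverse of the uniformizer
  have hunit : ∀ u : F, O.valuation u = 1 → u ∈ O' := fun u hu => hle (mem_of_val hu)
  have hπO : π ∈ O' := hle ((O.valuation_le_one_iff π).1 h.lt.le)
  have hπinv : π⁻¹ ∈ O' := by
    obtain ⟨m, n, hmn⟩ := h.rep w hw0
    have hvw : 1 < O.valuation w := not_le.1 fun h' => hwO ((O.valuation_le_one_iff w).1 h')
    have hn : 0 < n := by
      by_contra hcon
      have h1 : 1 < O.valuation w ^ ringExpChar F ^ m := one_lt_pow₀ hvw (qpow_pos F m).ne'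
      have h2 : 1 ≤ O.valuation π ^ n := by
        obtain ⟨a, ha⟩ := Int.eq_ofNat_of_zero_le (show 0 ≤ -n by omega)
        have : n = -(a : ℤ) := by omega
        rw [this, zpow_neg, zpow_natCast]
        exact (one_le_inv₀ (pow_pos hπp a)).2 (pow_le_one₀ zero_le h.lt.le)
      rw [map_mul, map_pow, map_zpow₀] at hmn
      have h3 : 1 < O.valuation w ^ ringExpChar F ^ m * O.valuation π ^ n :=
        one_lt_mul_of_lt_of_le h1 h2
      exact absurd hmn h3.ne'
    obtain ⟨a, rfl⟩ := Int.eq_ofNat_of_zero_le hn.le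
    have ha : a ≠ 0 := by rintro rfl; simp at hn
    rw [zpow_natCast] at hmn
    have h4 : (w ^ ringExpChar F ^ m * π ^ a)⁻¹ ∈ O' := hunit _ (by rw [map_inv₀, hmn, inv_one])
    have h5 : π⁻¹ = (w ^ ringExpChar F ^ m * π ^ a)⁻¹ * w ^ ringExpChar F ^ m * π ^ (a - 1) := by
      have h6 : π ^ a = π ^ (a - 1) * π := by
        rw [← pow_succ, Nat.sub_add_cancel (Nat.pos_of_ne_zero ha)]
      have h7 : w ^ ringExpChar F ^ m ≠ 0 := pow_ne_zero _ hw0
      have h8 : π ^ (a - 1) ≠ 0 := pow_ne_zero _ h.ne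
      have h9 := h.ne
      rw [h6]
      field_simp
    rw [h5]
    exact mul_mem (mul_mem h4 (pow_mem hwO' _)) (pow_mem hπO _)
  have hπz : ∀ n : ℤ, π ^ n ∈ O' := by
    intro n
    cases n with
    | ofNat a => rw [Int.ofNat_eq_natCast, zpow_natCast]; exact pow_mem hπO a
    | negSucc a => rw [zpow_negSucc, ← inv_pow]; exact pow_mem hπinv _
  refine top_unique fun u _ => ?_
  by_cases hu0 : u = 0
  · rw [hu0]; exact O'.zero_mem
  obtain ⟨m, n, hmn⟩ := h.rep u hu0
  have h1 : u ^ ringExpChar F ^ m ∈ O' := by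
    have h2 : u ^ ringExpChar F ^ m = (u ^ ringExpChar F ^ m * π ^ n) * π ^ (-n) := by
      rw [mul_assoc, ← zpow_add₀ h.ne, add_neg_cancel, zpow_zero, mul_one]
    rw [h2]
    exact mul_mem (hunit _ hmn) (hπz _)
  rw [← O'.valuation_le_one_iff, map_pow] at h1
  exact (O'.valuation_le_one_iff u).1
    ((pow_le_one_iff_of_nonneg zero_le (qpow_pos F m).ne').1 h1)

/-- `O` is trivial on `k(y)` if the residue of `y` is transcendental. -/
theorem rsb_triv {k : Subfield F} {O : ValuationSubring F} (hO : TrivOn O k) {y : F} (hy : y ∈ O)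
    (htr : ¬ IsAlgebraic (bar hO) (rs O y)) : TrivOn O (adj k y) := by
  have hplain : ∀ z ∈ Vale.Agent.P019.adj k y, z ∈ O := by
    intro z hz
    obtain ⟨P, Q, hPQ⟩ := (IntermediateField.mem_adjoin_simple_iff _ _).1 (mem_adjoin_simple.2 hz)
    by_cases hQ : Q = 0
    · rw [hQ, map_zero, div_zero] at hPQ
      rw [hPQ]
      exact O.zero_mem
    have hQO := aeval_mem_W hO hy Q
    have hPO := aeval_mem_W hO hy P
    have h1 : rs O (aeval y Q) ≠ 0 := by
      rw [rs_aeval hO hy]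
      intro h0
      exact htr ⟨Q.map (barEquiv hO).toRingHom, by
        rwa [Ne, Polynomial.map_eq_zero_iff (RingEquiv.injective _)], h0⟩
    have h2 := (rs_ne_zero hQO).1 h1
    rw [hPQ, ← O.valuation_le_one_iff, map_div₀, h2, div_one, O.valuation_le_one_iff]
    exact hPO
  intro z hz
  obtain ⟨n, hn⟩ := mem_adj_iff.1 hz
  have h1 := hplain _ hn
  rw [← O.valuation_le_one_iff, map_pow] at h1
  exact (O.valuation_le_one_iff z).1
    ((pow_le_one_iff_of_nonneg zero_le (qpow_pos F n).ne').1 h1)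

theorem rsb_alg_le {K : Type*} [Field K] {A B : Subfield K} (h : A ≤ rac B) {z : K}
    (hz : IsAlgebraic A z) : IsAlgebraic B z := isAlgebraic_rac (isAlgebraic_mono h hz)

/-- exchange for surfaces. -/
theorem rsb_exch {k : Subfield F} {t s : F} (hS : Srf k t s) {y : F}
    (hy : ¬ IsAlgebraic k y) :
    ∃ y' : F, ¬ IsAlgebraic (adj k y) y' ∧ ∀ z : F, IsAlgebraic (adj (adj k y) y') z := by
  by_cases h1 : IsAlgebraic (adj k s) y
  · have h2 : IsAlgebraic (adj k y) s := exchange hy h1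
    have h3 : adj k y ≤ rac (adj k s) := adj_le ((le_adj k s).trans (le_rac _)) (mem_rac.2 h1)
    have h4 : adj k s ≤ rac (adj k y) := adj_le ((le_adj k y).trans (le_rac _)) (mem_rac.2 h2)
    refine ⟨t, fun h => hS.tt (rsb_alg_le h3 h), fun z => rsb_alg_le ?_ (hS.alg z)⟩
    refine adj_le (h4.trans (rac_mono (le_adj _ _))) (le_rac _ (mem_adj _ _))
  · have h2 : IsAlgebraic (adj (adj k s) y) t := exchange h1 (hS.alg y)
    refine ⟨s, fun h => h1 (exchange hS.ss h), fun z => rsb_alg_le ?_ (hS.alg z)⟩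
    rw [adj_comm] at h2
    refine adj_le (adj_le (((le_adj k y).trans (le_adj _ _)).trans (le_rac _))
      (le_rac _ (mem_adj _ _))) (mem_rac.2 h2)

end rk1

/-- valuations of rank one with residue field of transcendence degree one on surfaces. -/
theorem Srf.val {k : Subfield F} (hk : IsAlgClosed k) (hfg : FG k (⊤ : Subfield F)) {t s : F}
    (hS : Srf k t s) {O : ValuationSubring F} (hO : TrivOn O k) (hne : O ≠ ⊤)
    (hr : ∃ c : IsLocalRing.ResidueField O, c ∉ bar hO) :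
    (∃ π, IsUnif O π) ∧ Cv (bar hO) ∧ ∀ O' : ValuationSubring F, O ≤ O' → O' = O ∨ O' = ⊤ := by
  obtain ⟨c, hc⟩ := hr
  obtain ⟨y, hyO, rfl⟩ := rs_surj c
  have hac := bar_isAlgClosed hO hk
  have htr : ¬ IsAlgebraic (bar hO) (rs O y) := fun h => hc (RAC_of_isAlgClosed _ hac _ h)
  have hyk : ¬ IsAlgebraic k y := fun h => htr (isAlgebraic_bar hO hyO h)
  have hE : TrivOn O (adj k y) := rsb_triv hO hyO htr
  obtain ⟨y', hy', halg⟩ := rsb_exch hS hyk
  haveI : PerfectField (adj k y) := perfect_adj _ _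
  obtain ⟨h1, h2, h3⟩ := val_struct (hfg.mono (le_adj k y) le_top) hy' halg hE hne
  haveI : PerfectField (IsLocalRing.ResidueField O) := rs_perfect hO
  obtain ⟨π, hπ⟩ := h1
  have hbar := bar_adj hO hE
  refine ⟨⟨π, hπ⟩, ⟨hac, ?_, rs O y, hc, fun z => ?_⟩, fun O' h => rsb_rank hπ h⟩
  · rw [hbar] at h3
    refine FG.trans ?_ h3
    have h4 : FG (bar hO) (bar hO) := ⟨∅, by
      haveI : IsAlgClosed (bar hO) := hac
      rw [Finset.coe_empty, Subfield.closure_empty, sup_bot_eq, pf_eq]⟩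
    exact h4.adj_right _
  · rw [← hbar]
    exact h2 z

/-- the valuations over `t = b`, for almost all `b`. -/
theorem Srf.over {k : Subfield F} (hk : IsAlgClosed k) (hfg : FG k (⊤ : Subfield F)) {t s : F}
    (hS : Srf k t s) : ∀ᶠ b in ae k, ∀ W : ValuationSubring F, Over W (adj k s) t b →
      IsUnif W (t - b) ∧ ∃ hW : TrivOn W k, Cv (bar hW) ∧ rs W s ∉ bar hW := by
  obtain ⟨θ, hθ⟩ := Frame.nice hS hfg
  filter_upwards [ae_mono (le_adj k s) hθ] with b hb W hW
  have hN := hb W hW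
  have hWk : TrivOn W k := hW.triv.mono (le_adj k s)
  have hs : rs W s ∉ bar hWk := by
    intro h
    obtain ⟨e, he, hes⟩ := (mem_bar hWk).1 h
    have h1 : e = s := rs_injOn hW.triv (le_adj k s he) (mem_adj k s) hes
    exact hS.ss (isAlgebraic_of_mem (h1 ▸ he))
  have hne : W ≠ ⊤ := by
    rintro rfl
    have h1 : (t - b)⁻¹ ∈ (⊤ : ValuationSubring F) := ValuationSubring.mem_top _
    have h2 := hN.unif.lt
    rw [← ValuationSubring.valuation_le_one_iff, map_inv₀] at h1
    have h3 : 0 < (⊤ : ValuationSubring F).valuation (t - b) :=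
      zero_lt_iff.2 ((Valuation.ne_zero_iff _).2 hN.unif.ne)
    exact absurd ((inv_le_one₀ h3).1 h1) (not_le.2 h2)
  exact ⟨hN.unif, hWk, (Srf.val hk hfg hS hWk hne ⟨_, hs⟩).2.1, hs⟩

end Vale.Agent.P019P
end

section

/-!
# The isomorphism of the residue fields
-/

namespace Vale.Agent.P019P

open Vale.Agent.P019

set_option linter.all false
set_option linter.style.haveILetI false
set_option linter.unusedSectionVars false

open Polynomial Filter
open scoped TensorProduct

section resmap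

variable {F : Type*} [Field F] {ℓ : ℕ}

theorem rc_ne {O : ValuationSubring F} {z : F} (h : O.valuation z = 1) : z ≠ 0 := by
  rintro rfl
  rw [map_zero] at h
  exact zero_ne_one h

theorem rc_rs_ne {O : ValuationSubring F} {z : F} (h : O.valuation z = 1) : rs O z ≠ 0 :=
  (rs_ne_zero (mem_of_val h)).2 h

/-- the class of the residue only depends on the class of the unit. -/
theorem rc_well {O : ValuationSubring F} (hℓ : ℓ ≠ 0) {x y : F} (hx : O.valuation x = 1)
    (hy : O.valuation y = 1) (h : cl ℓ x = cl ℓ y) : cl ℓ (rs O x) = cl ℓ (rs O y) := by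
  obtain ⟨w, hw, hxy⟩ := (cl_eq_iff ℓ (rc_ne hx) (rc_ne hy)).1 h
  have h1 : O.valuation w ^ ℓ = 1 := by
    rw [hxy, map_mul, hy, one_mul, map_pow] at hx
    exact hx
  have hw1 : O.valuation w = 1 := (pow_eq_one_iff_of_nonneg zero_le hℓ).1 h1
  have hwm := mem_of_val hw1
  have h2 : rs O x = rs O y * rs O w ^ ℓ := by
    rw [hxy, rs_mul (mem_of_val hy) (pow_mem hwm ℓ), rs_pow hwm]
  exact (cl_eq_iff ℓ (rc_rs_ne hx) (rc_rs_ne hy)).2 ⟨rs O w, rc_rs_ne hw1, h2⟩

/-- the residue map on the unit classes. -/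
theorem exists_rc (hℓ : ℓ ≠ 0) (O : ValuationSubring F) :
    ∃ r : UC ℓ O →ₗ[ZMod ℓ] V ℓ (IsLocalRing.ResidueField O),
      (∀ (z : F) (hz : O.valuation z = 1) (v : UC ℓ O), (v : V ℓ F) = cl ℓ z →
        r v = cl ℓ (rs O z)) ∧ Function.Surjective r ∧
      ∀ v : UC ℓ O, r v = 0 ↔ (v : V ℓ F) ∈ U1 ℓ O := by
  classical
  have hex : ∀ v : UC ℓ O, ∃ z : F, O.valuation z = 1 ∧ (v : V ℓ F) = cl ℓ z := fun v =>
    mem_UC.1 v.2
  choose f hf1 hf2 using hex
  have key : ∀ (z : F) (hz : O.valuation z = 1) (v : UC ℓ O), (v : V ℓ F) = cl ℓ z →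
      cl ℓ (rs O (f v)) = cl ℓ (rs O z) := fun z hz v hv =>
    rc_well hℓ (hf1 v) hz (by rw [← hf2 v, hv])
  let r₀ : UC ℓ O →+ V ℓ (IsLocalRing.ResidueField O) :=
    { toFun := fun v => cl ℓ (rs O (f v))
      map_zero' := by
        rw [key 1 (map_one _) 0 (cl_one ℓ).symm, rs_one, cl_one]
      map_add' := by
        intro v w
        have h1 : O.valuation (f v * f w) = 1 := by rw [map_mul, hf1, hf1, one_mul]
        rw [key (f v * f w) h1 (v + w) (by
          rw [cl_mul ℓ (rc_ne (hf1 v)) (rc_ne (hf1 w)), ← hf2 v, ← hf2 w]; rfl),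
          rs_mul (mem_of_val (hf1 v)) (mem_of_val (hf1 w)),
          cl_mul ℓ (rc_rs_ne (hf1 v)) (rc_rs_ne (hf1 w))] }
  refine ⟨AddMonoidHom.toZModLinearMap ℓ r₀, fun z hz v hv => key z hz v hv, ?_, ?_⟩
  · intro c
    obtain ⟨a, ha, rfl⟩ := cl_surj ℓ c
    obtain ⟨z, hz, rfl⟩ := rs_surj a
    have hz1 : O.valuation z = 1 := (rs_ne_zero hz).1 ha
    exact ⟨⟨cl ℓ z, mem_UC.2 ⟨z, hz1, rfl⟩⟩, key z hz1 _ rfl⟩
  · intro v
    change cl ℓ (rs O (f v)) = 0 ↔ _
    constructor
    · intro h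
      obtain ⟨c, hc, hcv⟩ := (cl_eq_zero_iff ℓ (rc_rs_ne (hf1 v))).1 h
      obtain ⟨w, hw, rfl⟩ := rs_surj c
      have hw1 : O.valuation w = 1 := (rs_ne_zero hw).1 hc
      have hwl : O.valuation (w ^ ℓ) = 1 := by rw [map_pow, hw1, one_pow]
      have h1 : O.valuation (f v - w ^ ℓ) < 1 := by
        rw [← rs_eq (mem_of_val (hf1 v)) (mem_of_val hwl), rs_pow hw, hcv]
      have h2 := cl_sub_cl_mem_U1 (ℓ := ℓ) hwl h1
      rw [cl_pow_self, sub_zero, ← hf2 v] at h2
      exact h2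
    · intro h
      obtain ⟨m, hm, hv⟩ := mem_U1.1 h
      rw [key (1 + m) (val_one_add hm) v hv]
      have h1 : rs O (1 + m) = rs O 1 := by
        rw [rs_eq (mem_of_val (val_one_add hm)) (one_mem O), add_sub_cancel_left]
        exact hm
      rw [h1, rs_one, cl_one]

theorem rc_orth_self (hneg : ∃ i : F, i ^ ℓ = -1) (x : F) : Orth (cl ℓ x) (cl ℓ x) := by
  by_cases hx : x = 0
  · rw [hx, cl_zero]
    exact orth_zero_left _
  by_cases hx1 : x = 1
  · rw [hx1, cl_one]
    exact orth_zero_left _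
  have hxi : x⁻¹ ≠ 0 := inv_ne_zero hx
  have h1 : 1 - x ≠ 0 := sub_ne_zero.2 (Ne.symm hx1)
  have h2 : 1 - x⁻¹ ≠ 0 := by
    intro h
    have h3 : x⁻¹ = 1 := (sub_eq_zero.1 h).symm
    exact hx1 (by rw [← inv_inv x, h3, inv_one])
  have h4 : (1 - x) = (-x) * (1 - x⁻¹) := by
    field_simp
    ring
  have h5 : cl ℓ (1 - x) = cl ℓ x + cl ℓ (1 - x⁻¹) := by
    rw [h4, cl_mul ℓ (neg_ne_zero.2 hx) h2, cl_neg ℓ hneg]
  have h6 : cl ℓ x = cl ℓ (1 - x) - cl ℓ (1 - x⁻¹) := by rw [h5]; abel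
  have a1 : Orth (cl ℓ x) (cl ℓ (1 - x)) := orth_one_sub x
  have a2 : Orth (cl ℓ x) (cl ℓ (1 - x⁻¹)) := by
    have := (orth_one_sub (ℓ := ℓ) x⁻¹).neg_left
    rwa [cl_inv, neg_neg] at this
  have h7 := a1.sub_right a2
  rwa [← h6] at h7

theorem rc_neg {O : ValuationSubring F} (hneg : ∃ i : F, i ^ ℓ = -1) (hℓ : ℓ ≠ 0) :
    ∃ i : IsLocalRing.ResidueField O, i ^ ℓ = -1 := by
  obtain ⟨i, hi⟩ := hneg
  have h1 : O.valuation i = 1 := by
    have : O.valuation i ^ ℓ = 1 := by rw [← map_pow, hi, Valuation.map_neg, map_one]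
    exact (pow_eq_one_iff_of_nonneg zero_le hℓ).1 this
  refine ⟨rs O i, ?_⟩
  rw [← rs_pow (mem_of_val h1), hi, rs_neg (one_mem O), rs_one]

/-- a linear map which respects the Steinberg relations respects orthogonality. -/
theorem rc_orth {F' : Type*} [Field F'] {g : V ℓ F →ₗ[ZMod ℓ] V ℓ F'}
    (hg : ∀ x : F, Orth (g (cl ℓ x)) (g (cl ℓ (1 - x)))) {u w : V ℓ F} (h : Orth u w) :
    Orth (g u) (g w) := by
  have key : R ℓ F ≤ (R ℓ F').comap (TensorProduct.map g g) := by
    unfold R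
    rw [Submodule.span_le]
    rintro _ ⟨x, y, hxy, rfl⟩
    have hy : (y : F) = 1 - x := by rw [← hxy]; ring
    have h1 := hg (x : F)
    rw [← hy, cl_unit, cl_unit] at h1
    rw [SetLike.mem_coe, Submodule.mem_comap, TensorProduct.map_tmul]
    exact h1
  have h2 := key h
  rwa [Submodule.mem_comap, TensorProduct.map_tmul] at h2

/-- the specialization map. -/
theorem exists_sp (hneg : ∃ i : F, i ^ ℓ = -1) (hℓ : ℓ ≠ 0) (O : ValuationSubring F)
    (φ : V ℓ F →ₗ[ZMod ℓ] ZMod ℓ) (hφ : ∀ v, v ∈ UC ℓ O ↔ φ v = 0) (v₀ : V ℓ F)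
    (h₀ : φ v₀ = 1) :
    ∃ sp : V ℓ F →ₗ[ZMod ℓ] V ℓ (IsLocalRing.ResidueField O),
      (∀ z, O.valuation z = 1 → sp (cl ℓ z) = cl ℓ (rs O z)) ∧
      ∀ u w, Orth u w → Orth (sp u) (sp w) := by
  obtain ⟨r, hr1, -, hr3⟩ := exists_rc hℓ O
  let pr : V ℓ F →ₗ[ZMod ℓ] UC ℓ O :=
    LinearMap.codRestrict (UC ℓ O) (LinearMap.id - φ.smulRight v₀) (fun v => by
      rw [hφ, LinearMap.sub_apply, LinearMap.id_apply, LinearMap.smulRight_apply, map_sub,
        map_smul, h₀, smul_eq_mul, mul_one, sub_self])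
  have hpr : ∀ v, φ v = 0 → ((pr v : UC ℓ O) : V ℓ F) = v := by
    intro v hv
    change v - φ v • v₀ = v
    rw [hv, zero_smul, sub_zero]
  have hunit : ∀ z, O.valuation z = 1 → φ (cl ℓ z) = 0 := fun z hz =>
    (hφ _).1 (mem_UC.2 ⟨z, hz, rfl⟩)
  have h1 : ∀ z, O.valuation z = 1 → (r ∘ₗ pr) (cl ℓ z) = cl ℓ (rs O z) := fun z hz =>
    hr1 z hz _ (hpr _ (hunit z hz))
  have h2 : ∀ m, O.valuation m < 1 → (r ∘ₗ pr) (cl ℓ (1 + m)) = 0 := by
    intro m hm
    have h3 := hunit _ (val_one_add hm)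
    change r (pr (cl ℓ (1 + m))) = 0
    rw [hr3, hpr _ h3]
    exact cl_mem_U1 hm
  refine ⟨r ∘ₗ pr, h1, fun u w huw => rc_orth (fun x => ?_) huw⟩
  set sp := r ∘ₗ pr with hsp
  by_cases hx0 : x = 0
  · rw [hx0, cl_zero, map_zero]
    exact orth_zero_left _
  rcases lt_trichotomy (O.valuation x) 1 with h | h | h
  · have h4 : sp (cl ℓ (1 - x)) = 0 := by
      rw [sub_eq_add_neg]
      exact h2 _ (by rwa [Valuation.map_neg])
    rw [h4]
    exact orth_zero_right _
  · have h4 : O.valuation (1 - x) ≤ 1 := by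
      refine le_trans (O.valuation.map_sub _ _) ?_
      rw [map_one, h]
      simp
    rcases h4.lt_or_eq with h5 | h5
    · have h6 : sp (cl ℓ x) = 0 := by
        have e : x = 1 + (-(1 - x)) := by ring
        rw [e]
        exact h2 _ (by rwa [Valuation.map_neg])
      rw [h6]
      exact orth_zero_left _
    · rw [h1 x h, h1 _ h5, rs_sub (one_mem O) (mem_of_val h), rs_one]
      exact orth_one_sub _
  · have hinv : O.valuation x⁻¹ < 1 := by
      rw [map_inv₀]
      exact inv_lt_one_of_one_lt₀ h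
    have e1 : (1 - x) = (-x) * (1 + -x⁻¹) := by field_simp; ring
    have hm : O.valuation (-x⁻¹) < 1 := by rwa [Valuation.map_neg]
    have e2 : cl ℓ (1 - x) = cl ℓ x + cl ℓ (1 + -x⁻¹) := by
      rw [e1, cl_mul ℓ (neg_ne_zero.2 hx0) (one_add_ne_zero hm), cl_neg ℓ hneg]
    rw [e2, map_add, h2 _ hm, add_zero]
    obtain ⟨c, -, hc⟩ := cl_surj ℓ (sp (cl ℓ x))
    rw [← hc]
    exact rc_orth_self (rc_neg hneg hℓ) c

end resmap

/-- induced isomorphisms. -/
theorem exists_induced {R M N A B : Type*} [Ring R] [AddCommGroup M] [AddCommGroup N]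
    [AddCommGroup A] [AddCommGroup B] [Module R M] [Module R N] [Module R A] [Module R B]
    (f : M →ₗ[R] A) (hf : Function.Surjective f) (g : N →ₗ[R] B) (hg : Function.Surjective g)
    (e : M ≃ₗ[R] N) (h : ∀ v, g (e v) = 0 ↔ f v = 0) :
    ∃ T : A ≃ₗ[R] B, ∀ v, T (f v) = g (e v) := by
  have hk : (LinearMap.ker f).map (e : M →ₗ[R] N) = LinearMap.ker g := by
    ext w
    constructor
    · rintro ⟨v, hv, rfl⟩
      exact (h v).2 hv
    · intro hw
      refine ⟨e.symm w, ?_, by simp⟩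
      have := (h (e.symm w)).1 (by rw [LinearEquiv.apply_symm_apply]; exact hw)
      exact this
  refine ⟨(f.quotKerEquivOfSurjective hf).symm.trans
    ((Submodule.Quotient.equiv _ _ e hk).trans (g.quotKerEquivOfSurjective hg)), fun v => ?_⟩
  have h1 : (f.quotKerEquivOfSurjective hf).symm (f v) = Submodule.Quotient.mk v := by
    rw [LinearEquiv.symm_apply_eq]
    rfl
  rw [LinearEquiv.trans_apply, h1]
  rfl

/-- compatibility from the Steinberg relations on both sides. -/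
theorem compatible_of {K L : Type*} [Field K] [Field L] {ℓ : ℕ} {Θ : V ℓ K ≃ₗ[ZMod ℓ] V ℓ L}
    (h1 : ∀ x : K, Orth (Θ (cl ℓ x)) (Θ (cl ℓ (1 - x))))
    (h2 : ∀ x : L, Orth (Θ.symm (cl ℓ x)) (Θ.symm (cl ℓ (1 - x)))) : Compatible Θ := by
  unfold Compatible
  apply le_antisymm
  · rw [Submodule.map_le_iff_le_comap]
    conv_lhs => unfold R
    rw [Submodule.span_le]
    rintro _ ⟨x, y, hxy, rfl⟩
    have hy : (y : K) = 1 - x := by rw [← hxy]; ring
    have h := h1 (x : K)
    rw [← hy, cl_unit, cl_unit] at h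
    rw [SetLike.mem_coe, Submodule.mem_comap, TensorProduct.map_tmul]
    exact h
  · conv_lhs => unfold R
    rw [Submodule.span_le]
    rintro _ ⟨x, y, hxy, rfl⟩
    have hy : (y : L) = 1 - x := by rw [← hxy]; ring
    have h := h2 (x : L)
    rw [← hy, cl_unit, cl_unit] at h
    refine ⟨_, h, ?_⟩
    rw [TensorProduct.map_tmul]
    simp

variable {K L : Type*} [Field K] [Field L] [PerfectField K] [PerfectField L] {ℓ : ℕ}
  [Fact ℓ.Prime] [NeZero (ℓ : K)] [NeZero (ℓ : L)] {Θ : V ℓ K ≃ₗ[ZMod ℓ] V ℓ L}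

/-- `Θ'` is induced by `Θ` on the residue fields. -/
def ResMap (ℓ : ℕ) {K L : Type*} [Field K] [Field L] (Θ : V ℓ K ≃ₗ[ZMod ℓ] V ℓ L)
    (W : ValuationSubring K) (O : ValuationSubring L)
    (Θ' : V ℓ (IsLocalRing.ResidueField W) ≃ₗ[ZMod ℓ] V ℓ (IsLocalRing.ResidueField O)) : Prop :=
  ∀ (z : K) (z' : L), W.valuation z = 1 → O.valuation z' = 1 → Θ (cl ℓ z) = cl ℓ z' →
    Θ' (cl ℓ (rs W z)) = cl ℓ (rs O z')

/-- the isomorphism of the residue fields. -/
theorem Tr.res (hΘ : Compatible Θ) (hnegK : ∃ i : K, i ^ ℓ = -1) (hnegL : ∃ i : L, i ^ ℓ = -1)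
    {W : ValuationSubring K} {π : K} {O : ValuationSubring L} (hW : IsUnif W π)
    (hT : Tr Θ W π O) (hNC : NoCtr ℓ (IsLocalRing.ResidueField W)) :
    ∃ Θ' : V ℓ (IsLocalRing.ResidueField W) ≃ₗ[ZMod ℓ] V ℓ (IsLocalRing.ResidueField O),
      Compatible Θ' ∧ ResMap ℓ Θ W O Θ' := by
  have hℓ : ℓ ≠ 0 := (Fact.out : ℓ.Prime).ne_zero
  have hUC : ∀ v, Θ v ∈ UC ℓ O ↔ v ∈ UC ℓ W := by
    intro v
    rw [hT.uc hΘ hnegK hnegL hW hNC, LinearEquiv.symm_apply_apply, hW.mem_UC_iff]
  have hmap : (UC ℓ W).map (Θ : V ℓ K →ₗ[ZMod ℓ] V ℓ L) = UC ℓ O := by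
    ext w
    constructor
    · rintro ⟨v, hv, rfl⟩
      exact (hUC v).2 hv
    · intro hw
      refine ⟨Θ.symm w, ?_, by simp⟩
      exact (hUC _).1 (by rw [LinearEquiv.apply_symm_apply]; exact hw)
  obtain ⟨rW, rW1, rW2, rW3⟩ := exists_rc hℓ W
  obtain ⟨rO, rO1, rO2, rO3⟩ := exists_rc hℓ O
  let e : UC ℓ W ≃ₗ[ZMod ℓ] UC ℓ O := Θ.ofSubmodules (UC ℓ W) (UC ℓ O) hmap
  have he : ∀ v : UC ℓ W, ((e v : UC ℓ O) : V ℓ L) = Θ v := fun v => rfl
  obtain ⟨Θ', hΘ'⟩ := exists_induced rW rW2 rO rO2 e fun v => by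
    rw [rW3, rO3, he]
    exact hT.iff v
  have hres : ResMap ℓ Θ W O Θ' := by
    intro z z' hz hz' hzz
    have h1 := hΘ' ⟨cl ℓ z, mem_UC.2 ⟨z, hz, rfl⟩⟩
    rw [rW1 z hz _ rfl] at h1
    rw [h1]
    exact rO1 z' hz' _ (by rw [he]; exact hzz)
  refine ⟨Θ', ?_, hres⟩
  obtain ⟨spO, so1, so2⟩ := exists_sp hnegL hℓ O ((hW.fn ℓ) ∘ₗ (Θ.symm : V ℓ L →ₗ[ZMod ℓ] V ℓ K))
    (fun v => hT.uc hΘ hnegK hnegL hW hNC v) (Θ (cl ℓ π)) (by
      rw [LinearMap.comp_apply, LinearEquiv.coe_coe, LinearEquiv.symm_apply_apply]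
      exact hW.fn_self ℓ)
  obtain ⟨spW, sw1, sw2⟩ := exists_sp hnegK hℓ W (hW.fn ℓ) (fun v => hW.mem_UC_iff v) (cl ℓ π)
    (hW.fn_self ℓ)
  refine compatible_of (fun a => ?_) fun a => ?_
  · by_cases ha0 : a = 0
    · rw [ha0, cl_zero, map_zero]
      exact orth_zero_left _
    by_cases ha1 : 1 - a = 0
    · rw [ha1, cl_zero, map_zero]
      exact orth_zero_right _
    obtain ⟨x, hx, rfl⟩ := rs_surj a
    have hx1 : W.valuation x = 1 := (rs_ne_zero hx).1 ha0
    have e1 : rs W (1 - x) = 1 - rs W x := by rw [rs_sub (one_mem W) hx, rs_one]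
    have hx2 : W.valuation (1 - x) = 1 :=
      (rs_ne_zero (sub_mem (one_mem W) hx)).1 (by rw [e1]; exact ha1)
    have key : ∀ y : K, W.valuation y = 1 → Θ' (cl ℓ (rs W y)) = spO (Θ (cl ℓ y)) := by
      intro y hy
      obtain ⟨y', hy', hyy⟩ := mem_UC.1 ((hUC (cl ℓ y)).2 (mem_UC.2 ⟨y, hy, rfl⟩))
      rw [hres y y' hy hy' hyy, hyy, so1 y' hy']
    rw [← e1, key x hx1, key _ hx2]
    exact so2 _ _ (hΘ.orth (orth_one_sub x))
  · by_cases ha0 : a = 0
    · rw [ha0, cl_zero, map_zero]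
      exact orth_zero_left _
    by_cases ha1 : 1 - a = 0
    · rw [ha1, cl_zero, map_zero]
      exact orth_zero_right _
    obtain ⟨x, hx, rfl⟩ := rs_surj a
    have hx1 : O.valuation x = 1 := (rs_ne_zero hx).1 ha0
    have e1 : rs O (1 - x) = 1 - rs O x := by rw [rs_sub (one_mem O) hx, rs_one]
    have hx2 : O.valuation (1 - x) = 1 :=
      (rs_ne_zero (sub_mem (one_mem O) hx)).1 (by rw [e1]; exact ha1)
    have key : ∀ y : L, O.valuation y = 1 →
        Θ'.symm (cl ℓ (rs O y)) = spW (Θ.symm (cl ℓ y)) := by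
      intro y hy
      have h3 : Θ.symm (cl ℓ y) ∈ UC ℓ W := (hUC _).1 (by
        rw [LinearEquiv.apply_symm_apply]
        exact mem_UC.2 ⟨y, hy, rfl⟩)
      obtain ⟨z, hz, hzy⟩ := mem_UC.1 h3
      have h4 : Θ (cl ℓ z) = cl ℓ y := by rw [← hzy, LinearEquiv.apply_symm_apply]
      rw [hzy, sw1 z hz, LinearEquiv.symm_apply_eq]
      exact (hres z y hz hy h4).symm
    rw [← e1, key x hx1, key _ hx2]
    exact sw2 _ _ (hΘ.symm.orth (orth_one_sub x))

end Vale.Agent.P019P
end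

section

/-!
# Purely transcendental extensions
-/

namespace Vale.Agent.P019P

open Vale.Agent.P019

set_option linter.style.haveILetI false
set_option linter.unusedSectionVars false

open Polynomial Filter

/-- `F` is the perfect closure of a purely transcendental extension of `k`. -/
inductive RatF {K : Type*} [Field K] (k : Subfield K) : Subfield K → Prop
  | base : RatF k k
  | step {F : Subfield K} {y : K} : RatF k F → ¬ IsAlgebraic F y → RatF k (adj F y)

theorem RatF.le {K : Type*} [Field K] {k F : Subfield K} (h : RatF k F) : k ≤ F := by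
  induction h with
  | base => exact le_rfl
  | step _ _ ih => exact ih.trans (le_adj _ _)

theorem RatF.fg {K : Type*} [Field K] [PerfectField K] {k F : Subfield K} [PerfectField k]
    (h : RatF k F) : FG k F := by
  induction h with
  | base => exact ⟨∅, by rw [Finset.coe_empty, Subfield.closure_empty, sup_bot_eq, pf_eq]⟩
  | step _ _ ih => exact ih.adj_right _

theorem RatF.perfect {K : Type*} [Field K] [PerfectField K] {k F : Subfield K} [PerfectField k]
    (h : RatF k F) : PerfectField F := h.fg.perfect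

end Vale.Agent.P019P
end

section

/-!
# Ultrapowers of a field
-/

namespace Vale.Agent.P019P

open Vale.Agent.P019

set_option linter.style.haveILetI false
set_option linter.unusedSectionVars false

open Polynomial Filter

section ger

variable {I : Type*} (U : Ultrafilter I) {L : Type*} [Field L]

/-- the ultrapower. -/
abbrev Gm (U : Ultrafilter I) (L : Type*) := (U : Filter I).Germ L

/-- the class of a family. -/
noncomputable def gm : (I → L) →+* Gm U L := Filter.Germ.coeRingHom (U : Filter I)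

theorem gm_surj (z : Gm U L) : ∃ f : I → L, gm U f = z := by
  induction z using Filter.Germ.inductionOn with
  | h f => exact ⟨f, rfl⟩

variable {U}

theorem gm_eq {f g : I → L} : gm U f = gm U g ↔ ∀ᶠ i in U, f i = g i :=
  Filter.Germ.coe_eq

theorem gm_ne {f g : I → L} : gm U f ≠ gm U g ↔ ∀ᶠ i in U, f i ≠ g i := by
  rw [Ne, gm_eq, Ultrafilter.eventually_not]

theorem gm_eq_zero {f : I → L} : gm U f = 0 ↔ ∀ᶠ i in U, f i = 0 := by
  rw [← map_zero (gm U), gm_eq]; rfl

theorem gm_inv (f : I → L) : gm U (fun i => (f i)⁻¹) = (gm U f)⁻¹ :=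
  Filter.Germ.coe_inv f

theorem gm_mul (f g : I → L) : gm U (fun i => f i * g i) = gm U f * gm U g :=
  map_mul (gm U) f g

theorem gm_add (f g : I → L) : gm U (fun i => f i + g i) = gm U f + gm U g :=
  map_add (gm U) f g

theorem gm_neg (f : I → L) : gm U (fun i => - f i) = - gm U f :=
  map_neg (gm U) f

theorem gm_sub (f g : I → L) : gm U (fun i => f i - g i) = gm U f - gm U g :=
  map_sub (gm U) f g

theorem gm_pow (f : I → L) (n : ℕ) : gm U (fun i => f i ^ n) = gm U f ^ n :=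
  map_pow (gm U) f n

theorem gm_sum {ι : Type*} (s : Finset ι) (f : ι → I → L) :
    gm U (fun i => ∑ j ∈ s, f j i) = ∑ j ∈ s, gm U (f j) := by
  rw [← map_sum]
  congr 1
  ext i
  rw [Finset.sum_apply]

variable (U)

/-- the constants. -/
noncomputable def gc : L →+* Gm U L := (gm U).comp (Pi.constRingHom I L)

variable {U}

theorem gc_apply (z : L) : gc U z = gm U (fun _ => z) := rfl

theorem ringExpChar_gm : ringExpChar (Gm U L) = ringExpChar L :=
  (ringExpChar_eq_of_hom (gc U : L →+* Gm U L)).symm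

instance perfect_gm [PerfectField L] : PerfectField (Gm U L) := by
  haveI : PerfectRing (Gm U L) (ringExpChar (Gm U L)) := PerfectRing.ofSurjective _ _ fun z => by
    obtain ⟨f, rfl⟩ := gm_surj U z
    have h : ∀ i, ∃ y : L, y ^ ringExpChar L = f i := by
      intro i
      obtain ⟨y, -, hy⟩ := exists_root_q (⊤ : Subfield L) (Subfield.mem_top (f i)) 1
      exact ⟨y, by rwa [pow_one] at hy⟩
    choose y hy using h
    refine ⟨gm U y, ?_⟩
    rw [frobenius_def, ringExpChar_gm, ← gm_pow]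
    exact congrArg _ (funext hy)
  exact PerfectRing.toPerfectField (Gm U L) (ringExpChar (Gm U L))

/-- ultraproducts of subfields. -/
def uSub (U : Ultrafilter I) (E : I → Subfield L) : Subfield (Gm U L) where
  carrier := {z | ∃ f : I → L, gm U f = z ∧ ∀ i, f i ∈ E i}
  mul_mem' := by
    rintro _ _ ⟨f, rfl, hf⟩ ⟨g, rfl, hg⟩
    exact ⟨fun i => f i * g i, gm_mul f g, fun i => (E i).mul_mem (hf i) (hg i)⟩
  one_mem' := ⟨1, map_one _, fun i => (E i).one_mem⟩
  add_mem' := by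
    rintro _ _ ⟨f, rfl, hf⟩ ⟨g, rfl, hg⟩
    exact ⟨fun i => f i + g i, gm_add f g, fun i => (E i).add_mem (hf i) (hg i)⟩
  zero_mem' := ⟨0, map_zero _, fun i => (E i).zero_mem⟩
  neg_mem' := by
    rintro _ ⟨f, rfl, hf⟩
    exact ⟨fun i => - f i, gm_neg f, fun i => (E i).neg_mem (hf i)⟩
  inv_mem' := by
    rintro _ ⟨f, rfl, hf⟩
    exact ⟨fun i => (f i)⁻¹, gm_inv f, fun i => (E i).inv_mem (hf i)⟩

theorem gm_mem_uSub {E : I → Subfield L} {f : I → L} :
    gm U f ∈ uSub U E ↔ ∀ᶠ i in U, f i ∈ E i := by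
  classical
  constructor
  · rintro ⟨g, hg, hgE⟩
    exact (gm_eq.1 hg).mono fun i hi => hi ▸ hgE i
  · intro h
    refine ⟨fun i => if f i ∈ E i then f i else 0, ?_, fun i => ?_⟩
    · exact gm_eq.2 (h.mono fun i hi => if_pos hi)
    · dsimp only
      split_ifs with hi
      · exact hi
      · exact (E i).zero_mem

/-- ultraproducts of valuation subrings. -/
noncomputable def uVal (U : Ultrafilter I) (O : I → ValuationSubring L) :
    ValuationSubring (Gm U L) where
  carrier := {z | ∃ f : I → L, gm U f = z ∧ ∀ i, f i ∈ O i}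
  mul_mem' := by
    rintro _ _ ⟨f, rfl, hf⟩ ⟨g, rfl, hg⟩
    exact ⟨fun i => f i * g i, gm_mul f g, fun i => (O i).mul_mem _ _ (hf i) (hg i)⟩
  one_mem' := ⟨1, map_one _, fun i => (O i).one_mem⟩
  add_mem' := by
    rintro _ _ ⟨f, rfl, hf⟩ ⟨g, rfl, hg⟩
    exact ⟨fun i => f i + g i, gm_add f g, fun i => (O i).add_mem _ _ (hf i) (hg i)⟩
  zero_mem' := ⟨0, map_zero _, fun i => (O i).zero_mem⟩
  neg_mem' := by
    rintro _ ⟨f, rfl, hf⟩
    exact ⟨fun i => - f i, gm_neg f, fun i => (O i).neg_mem _ (hf i)⟩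
  mem_or_inv_mem' := by
    classical
    intro z
    obtain ⟨f, rfl⟩ := gm_surj U z
    rcases U.em (fun i => f i ∈ O i) with h | h
    · left
      refine ⟨fun i => if f i ∈ O i then f i else 0, ?_, fun i => ?_⟩
      · exact gm_eq.2 (h.mono fun i hi => if_pos hi)
      · dsimp only
        split_ifs with hi
        · exact hi
        · exact (O i).zero_mem
    · right
      refine ⟨fun i => if f i ∈ O i then 0 else (f i)⁻¹, ?_, fun i => ?_⟩
      · rw [← gm_inv]
        exact gm_eq.2 (h.mono fun i hi => if_neg hi)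
      · dsimp only
        split_ifs with hi
        · exact (O i).zero_mem
        · exact ((O i).mem_or_inv_mem (f i)).resolve_left hi

theorem gm_mem_uVal {O : I → ValuationSubring L} {f : I → L} :
    gm U f ∈ uVal U O ↔ ∀ᶠ i in U, f i ∈ O i := by
  classical
  constructor
  · rintro ⟨g, hg, hgE⟩
    exact (gm_eq.1 hg).mono fun i hi => hi ▸ hgE i
  · intro h
    refine ⟨fun i => if f i ∈ O i then f i else 0, ?_, fun i => ?_⟩
    · exact gm_eq.2 (h.mono fun i hi => if_pos hi)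
    · dsimp only
      split_ifs with hi
      · exact hi
      · exact (O i).zero_mem

theorem uVal_le_one {O : I → ValuationSubring L} {f : I → L} :
    (uVal U O).valuation (gm U f) ≤ 1 ↔ ∀ᶠ i in U, (O i).valuation (f i) ≤ 1 := by
  rw [ValuationSubring.valuation_le_one_iff, gm_mem_uVal]
  simp only [ValuationSubring.valuation_le_one_iff]

theorem one_lt_uVal {O : I → ValuationSubring L} {f : I → L} :
    1 < (uVal U O).valuation (gm U f) ↔ ∀ᶠ i in U, 1 < (O i).valuation (f i) := by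
  rw [← not_le, uVal_le_one, ← Ultrafilter.eventually_not]
  simp only [not_le]

theorem uVal_lt_one {O : I → ValuationSubring L} {f : I → L} :
    (uVal U O).valuation (gm U f) < 1 ↔ ∀ᶠ i in U, (O i).valuation (f i) < 1 := by
  have key : ∀ {F : Type _} [Field F] (A : ValuationSubring F) (z : F),
      A.valuation z < 1 ↔ z = 0 ∨ 1 < A.valuation z⁻¹ := by
    intro F _ A z
    by_cases hz : z = 0
    · simp [hz]
    · rw [map_inv₀, one_lt_inv₀ ((Valuation.pos_iff _).2 hz)]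
      simp [hz]
  have key' : ∀ (A : ValuationSubring L) (z : L),
      A.valuation z < 1 ↔ z = 0 ∨ 1 < A.valuation z⁻¹ := by
    intro A z
    by_cases hz : z = 0
    · simp [hz]
    · rw [map_inv₀, one_lt_inv₀ ((Valuation.pos_iff _).2 hz)]
      simp [hz]
  rw [key, ← gm_inv, one_lt_uVal, gm_eq_zero, ← Ultrafilter.eventually_or]
  simp only [key']

theorem uVal_eq_one {O : I → ValuationSubring L} {f : I → L} :
    (uVal U O).valuation (gm U f) = 1 ↔ ∀ᶠ i in U, (O i).valuation (f i) = 1 := by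
  rw [le_antisymm_iff, ← not_lt (a := (uVal U O).valuation (gm U f)), uVal_lt_one,
    ← Ultrafilter.eventually_not, uVal_le_one, ← Filter.eventually_and]
  simp only [not_lt, ← le_antisymm_iff]

theorem isAlgClosed_uSub {E : I → Subfield L} (h : ∀ i, IsAlgClosed (E i)) :
    IsAlgClosed (uSub U E) := by
  refine IsAlgClosed.of_exists_root _ ?_
  intro p hmon hirr
  -- lifts of the coefficients
  have h1 : ∀ j, ∃ f : I → L, gm U f = ((p.coeff j : uSub U E) : Gm U L) ∧ ∀ i, f i ∈ E i :=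
    fun j => (p.coeff j).2
  choose f hf hfE using h1
  set n := p.natDegree with hn
  have hn0 : 0 < n := hirr.natDegree_pos
  have h2 : ∀ i, ∃ x : E i, ((x : L)) ^ n + ∑ j ∈ Finset.range n, f j i * (x : L) ^ j = 0 := by
    intro i
    haveI := h i
    let P : (E i)[X] := X ^ n + ∑ j ∈ Finset.range n, C ⟨f j i, hfE j i⟩ * X ^ j
    have hdeg : P.degree = (n : WithBot ℕ) := by
      have h3 : (∑ j ∈ Finset.range n, C (⟨f j i, hfE j i⟩ : E i) * X ^ j).degree <
          (n : WithBot ℕ) := by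
        refine (degree_sum_le _ _).trans_lt ?_
        rw [Finset.sup_lt_iff (by exact_mod_cast WithBot.bot_lt_coe n)]
        intro j hj
        refine (degree_C_mul_X_pow_le _ _).trans_lt ?_
        exact_mod_cast Finset.mem_range.1 hj
      change (X ^ n + ∑ j ∈ Finset.range n, C (⟨f j i, hfE j i⟩ : E i) * X ^ j).degree =
        (n : WithBot ℕ)
      rw [degree_add_eq_left_of_degree_lt]
      · rw [degree_X_pow]
      · rw [degree_X_pow]; exact h3
    obtain ⟨x, hx⟩ := IsAlgClosed.exists_root P (by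
      rw [hdeg]; exact_mod_cast hn0.ne')
    refine ⟨x, ?_⟩
    have h4 : eval x P = 0 := hx
    have h5 := congrArg (Subfield.subtype (E i)) h4
    simp only [P, eval_add, eval_pow, eval_X, eval_finsetSum, eval_mul, eval_C, map_add, map_pow,
      map_sum, map_mul, map_zero, Subfield.subtype_apply] at h5
    exact h5
  choose x hx using h2
  refine ⟨⟨gm U (fun i => (x i : L)), ⟨_, rfl, fun i => (x i).2⟩⟩, ?_⟩
  apply Subtype.ext
  have h6 : ((eval (⟨gm U (fun i => (x i : L)), ⟨_, rfl, fun i => (x i).2⟩⟩ : uSub U E) p :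
      uSub U E) : Gm U L) =
      gm U (fun i => ((x i : L)) ^ n + ∑ j ∈ Finset.range n, f j i * (x i : L) ^ j) := by
    rw [gm_add, gm_pow, gm_sum]
    conv_lhs => rw [hmon.as_sum]
    rw [eval_add, eval_pow, eval_X, eval_finsetSum]
    simp only [eval_mul, eval_C, eval_pow, eval_X, Subfield.coe_add, SubmonoidClass.coe_pow,
      AddSubmonoidClass.coe_finsetSum, Subfield.coe_mul, gm_mul, gm_pow, hf]
    rfl
  change ((eval (⟨gm U (fun i => (x i : L)), ⟨_, rfl, fun i => (x i).2⟩⟩ : uSub U E) p :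
      uSub U E) : Gm U L) = 0
  rw [h6]
  refine (congrArg (gm U) (funext hx)).trans ?_
  exact map_zero (gm U)

end ger

end Vale.Agent.P019P
end

section

/-!
# Rational functions in an ultrapower
-/

namespace Vale.Agent.P019P

open Vale.Agent.P019

set_option linter.style.haveILetI false
set_option linter.unusedSectionVars false

open Polynomial Filter

section rat

/-- simple roots in the perfect closure. -/
theorem mem_of_simple_root {K : Type*} [Field K] {F : Subfield K} {ρ : K} (hρ : ρ ∈ pf F)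
    {p : F[X]} (h0 : aeval ρ p = 0) (h1 : aeval ρ (derivative p) ≠ 0) : ρ ∈ F := by
  have hp0 : p ≠ 0 := by
    rintro rfl
    rw [derivative_zero, map_zero] at h1
    exact h1 rfl
  have hint : IsIntegral F ρ := IsAlgebraic.isIntegral ⟨p, hp0, h0⟩
  obtain ⟨s, hs⟩ := minpoly.dvd F ρ h0
  have hder : derivative (minpoly F ρ) ≠ 0 := by
    intro h
    apply h1
    rw [hs, derivative_mul, h, zero_mul, zero_add, map_mul, minpoly.aeval, zero_mul]
  have hsep : (minpoly F ρ).Separable :=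
    (separable_iff_derivative_ne_zero (minpoly.irreducible hint)).2 hder
  have h2 : (minpoly F ρ).natSepDegree = 1 := by
    rw [minpoly.natSepDegree_eq_one_iff_pow_mem (ringExpChar K)]
    obtain ⟨n, hn⟩ := mem_pf.1 hρ
    exact ⟨n, ⟨⟨_, hn⟩, rfl⟩⟩
  rw [hsep.natSepDegree_eq_natDegree] at h2
  rw [minpoly.natDegree_eq_one_iff] at h2
  obtain ⟨y, hy⟩ := h2
  rw [← hy]
  exact y.2

theorem aeval_mem_adj0 {K : Type*} [Field K] {E : Subfield K} (g : K) (A : E[X]) :
    aeval g A ∈ Vale.Agent.P019.adj E g := by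
  rw [aeval_eq_sum_range]
  refine sum_mem fun i _ => ?_
  rw [Algebra.smul_def]
  exact mul_mem (Vale.Agent.P019.le_adj E g (A.coeff i).2)
    (pow_mem (Vale.Agent.P019.mem_adj E g) i)

theorem aeval_ne_of_transc {K : Type*} [Field K] {E : Subfield K} {g : K}
    (hg : ¬ IsAlgebraic E g) {p : E[X]} (hp : p ≠ 0) : aeval g p ≠ 0 := fun h => hg ⟨p, hp, h⟩

theorem coprime_rep {K : Type*} [Field K] {E : Subfield K} {g : K} (hg : ¬ IsAlgebraic E g)
    {z : K} (hz : z ∈ Vale.Agent.P019.adj E g) :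
    ∃ p q : E[X], IsCoprime p q ∧ q ≠ 0 ∧ z = aeval g p / aeval g q := by
  classical
  obtain ⟨p, q, rfl⟩ := finK_mem_adj.1 hz
  by_cases hq : q = 0
  · refine ⟨0, 1, isCoprime_one_right, one_ne_zero, ?_⟩
    rw [hq]
    simp
  · set d := EuclideanDomain.gcd p q with hd
    have hd0 : d ≠ 0 := by
      intro h
      exact hq (EuclideanDomain.gcd_eq_zero_iff.1 h).2
    have h1 : p = d * (p / d) := (EuclideanDomain.mul_div_cancel' hd0
      (EuclideanDomain.gcd_dvd_left p q)).symm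
    have h2 : q = d * (q / d) := (EuclideanDomain.mul_div_cancel' hd0
      (EuclideanDomain.gcd_dvd_right p q)).symm
    refine ⟨p / d, q / d, ?_, ?_, ?_⟩
    · obtain ⟨u, v, h3⟩ : ∃ u v, d = p * u + q * v :=
        ⟨_, _, EuclideanDomain.gcd_eq_gcd_ab p q⟩
      refine ⟨u, v, mul_left_cancel₀ hd0 ?_⟩
      calc d * (u * (p / d) + v * (q / d)) = (d * (p / d)) * u + (d * (q / d)) * v := by ring
        _ = p * u + q * v := by rw [← h1, ← h2]
        _ = d * 1 := by rw [← h3, mul_one]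
    · intro h
      rw [h, mul_zero] at h2
      exact hq h2
    · have h3 : aeval g d ≠ 0 := aeval_ne_of_transc hg hd0
      conv_lhs => rw [h1, h2]
      rw [map_mul, map_mul, mul_div_mul_left _ _ h3]

/-- the rational root theorem. -/
theorem rat_root {K : Type*} [Field K] {E : Subfield K} {g : K} (hg : ¬ IsAlgebraic E g) {ρ : K}
    (hρ : ρ ∈ adj E g) {n H : ℕ} (A : ℕ → E[X]) (hA : ∀ i, (A i).natDegree ≤ H) (hA0 : A 0 ≠ 0)
    (hAn : A n ≠ 0) (h0 : ∑ i ∈ Finset.range (n + 1), aeval g (A i) * ρ ^ i = 0)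
    (h1 : ∑ i ∈ Finset.range (n + 1), aeval g (A i) * ((i : K) * ρ ^ (i - 1)) ≠ 0) :
    ∃ u v : E[X], u.natDegree ≤ H ∧ v.natDegree ≤ H ∧ v ≠ 0 ∧
      ρ * aeval g v = aeval g u := by
  have hρ0 : ρ ∈ Vale.Agent.P019.adj E g := by
    let p : (Vale.Agent.P019.adj E g)[X] := ∑ i ∈ Finset.range (n + 1),
      C ⟨aeval g (A i), aeval_mem_adj0 g (A i)⟩ * X ^ i
    refine mem_of_simple_root (F := Vale.Agent.P019.adj E g) (p := p) hρ ?_ ?_
    · rw [← h0, map_sum]
      refine Finset.sum_congr rfl fun i _ => ?_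
      rw [map_mul, map_pow, aeval_X, aeval_C]
      rfl
    · convert h1 using 1
      simp only [p, map_sum]
      refine Finset.sum_congr rfl fun i _ => ?_
      rw [derivative_C_mul, derivative_X_pow, map_mul, map_mul, map_pow, aeval_X, aeval_C, aeval_C,
        map_natCast]
      rfl
  obtain ⟨a, b, hab, hb, hρab⟩ := coprime_rep hg hρ0
  have hbg : aeval g b ≠ 0 := aeval_ne_of_transc hg hb
  have key : ∑ i ∈ Finset.range (n + 1), A i * a ^ i * b ^ (n - i) = 0 := by
    by_contra hne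
    apply aeval_ne_of_transc hg hne
    have e1 : aeval g (∑ i ∈ Finset.range (n + 1), A i * a ^ i * b ^ (n - i)) =
        aeval g b ^ n * ∑ i ∈ Finset.range (n + 1), aeval g (A i) * ρ ^ i := by
      rw [map_sum, Finset.mul_sum]
      refine Finset.sum_congr rfl fun i hi => ?_
      have hi' : i ≤ n := Nat.lt_succ_iff.1 (Finset.mem_range.1 hi)
      rw [map_mul, map_mul, map_pow, map_pow, hρab, div_pow]
      have e2 : aeval g b ^ n = aeval g b ^ (n - i) * aeval g b ^ i := by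
        rw [← pow_add, Nat.sub_add_cancel hi']
      rw [e2]
      have e3 := pow_ne_zero i hbg
      field_simp
    rw [e1, h0, mul_zero]
  have hbA : b ∣ A n := by
    rw [Finset.sum_range_succ] at key
    simp only [Nat.sub_self, pow_zero, mul_one] at key
    have h2 : b ∣ A n * a ^ n := by
      have h3 : b ∣ ∑ i ∈ Finset.range n, A i * a ^ i * b ^ (n - i) := by
        refine Finset.dvd_sum fun i hi => ?_
        have hi' : n - i ≠ 0 := Nat.sub_ne_zero_of_lt (Finset.mem_range.1 hi)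
        exact Dvd.dvd.mul_left (dvd_pow_self b hi') _
      have h4 : A n * a ^ n = -∑ i ∈ Finset.range n, A i * a ^ i * b ^ (n - i) := by
        rw [eq_neg_iff_add_eq_zero, add_comm]
        exact key
      rw [h4]
      exact (dvd_neg).2 h3
    exact (hab.symm.pow_right).dvd_of_dvd_mul_right h2
  have haA : a ∣ A 0 := by
    rw [Finset.sum_range_succ'] at key
    simp only [pow_zero, mul_one, Nat.sub_zero] at key
    have h2 : a ∣ A 0 * b ^ n := by
      have h3 : a ∣ ∑ i ∈ Finset.range n, A (i + 1) * a ^ (i + 1) * b ^ (n - (i + 1)) := by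
        refine Finset.dvd_sum fun i hi => ?_
        exact Dvd.dvd.mul_right (Dvd.dvd.mul_left (dvd_pow_self a (Nat.succ_ne_zero i)) _) _
      have h4 : A 0 * b ^ n =
          -∑ i ∈ Finset.range n, A (i + 1) * a ^ (i + 1) * b ^ (n - (i + 1)) := by
        rw [eq_neg_iff_add_eq_zero, add_comm]
        exact key
      rw [h4]
      exact (dvd_neg).2 h3
    exact (hab.pow_right).dvd_of_dvd_mul_right h2
  refine ⟨a, b, (natDegree_le_of_dvd haA hA0).trans (hA 0),
    (natDegree_le_of_dvd hbA hAn).trans (hA n), hb, ?_⟩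
  rw [hρab]
  field_simp

/-- common denominators. -/
theorem common_den {K : Type*} [Field K] {E : Subfield K} {g : K} (hg : ¬ IsAlgebraic E g)
    (c : ℕ → K) (s : Finset ℕ) (hc : ∀ i ∈ s, c i ∈ Vale.Agent.P019.adj E g) :
    ∃ D : E[X], D ≠ 0 ∧ ∀ i ∈ s, ∃ A : E[X], aeval g A = aeval g D * c i := by
  classical
  induction s using Finset.induction_on with
  | empty => exact ⟨1, one_ne_zero, fun i hi => absurd hi (Finset.notMem_empty i)⟩
  | insert a s ha ih =>
    obtain ⟨D, hD, hDA⟩ := ih (fun i hi => hc i (Finset.mem_insert_of_mem hi))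
    obtain ⟨p, q, -, hq, hpq⟩ := coprime_rep hg (hc a (Finset.mem_insert_self a s))
    have hqg : aeval g q ≠ 0 := aeval_ne_of_transc hg hq
    refine ⟨D * q, mul_ne_zero hD hq, ?_⟩
    intro i hi
    rcases Finset.mem_insert.1 hi with rfl | hi
    · refine ⟨D * p, ?_⟩
      rw [map_mul, map_mul, hpq]
      field_simp
    · obtain ⟨A, hA⟩ := hDA i hi
      refine ⟨A * q, ?_⟩
      rw [map_mul, map_mul, hA]
      ring

variable {I : Type*} {U : Ultrafilter I} {L : Type*} [Field L]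

/-- lifts of polynomials. -/
theorem exists_lift_coeff {E : I → Subfield L} (A : (uSub U E)[X]) :
    ∃ α : ℕ → I → L, (∀ j, gm U (α j) = ((A.coeff j : uSub U E) : Gm U L)) ∧
      ∀ j i, α j i ∈ E i := by
  have h1 : ∀ j, ∃ f : I → L, gm U f = ((A.coeff j : uSub U E) : Gm U L) ∧ ∀ i, f i ∈ E i :=
    fun j => (A.coeff j).2
  choose f hf hfE using h1
  exact ⟨f, hf, hfE⟩

/-- the polynomial with given coefficients. -/
noncomputable def mkPol {K : Type*} [Field K] (E : Subfield K) (H : ℕ) (α : ℕ → K)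
    (hα : ∀ j, α j ∈ E) : E[X] := ∑ j ∈ Finset.range (H + 1), C ⟨α j, hα j⟩ * X ^ j

theorem aeval_mkPol {K : Type*} [Field K] {E : Subfield K} {H : ℕ} {α : ℕ → K}
    {hα : ∀ j, α j ∈ E} (g : K) :
    aeval g (mkPol E H α hα) = ∑ j ∈ Finset.range (H + 1), α j * g ^ j := by
  rw [mkPol, map_sum]
  refine Finset.sum_congr rfl fun j _ => ?_
  rw [map_mul, map_pow, aeval_X, aeval_C]
  rfl

theorem coeff_mkPol {K : Type*} [Field K] {E : Subfield K} {H : ℕ} {α : ℕ → K}
    {hα : ∀ j, α j ∈ E} {j : ℕ} (hj : j ≤ H) :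
    (mkPol E H α hα).coeff j = ⟨α j, hα j⟩ := by
  rw [mkPol, finsetSum_coeff]
  simp only [coeff_C_mul, coeff_X_pow, mul_ite, mul_one, mul_zero]
  rw [Finset.sum_eq_single j]
  · rw [if_pos rfl]
  · intro b _ hb
    rw [if_neg (Ne.symm hb)]
  · intro h
    exact absurd (Finset.mem_range.2 (Nat.lt_succ_of_le hj)) h

theorem natDegree_mkPol {K : Type*} [Field K] {E : Subfield K} {H : ℕ} {α : ℕ → K}
    {hα : ∀ j, α j ∈ E} : (mkPol E H α hα).natDegree ≤ H := by
  refine natDegree_sum_le_of_forall_le _ _ fun j hj => ?_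
  exact (natDegree_C_mul_X_pow_le _ _).trans (Nat.lt_succ_iff.1 (Finset.mem_range.1 hj))

theorem aeval_eq_sum_le {K : Type*} [Field K] {E : Subfield K} {A : E[X]} {H : ℕ}
    (hA : A.natDegree ≤ H) (g : K) :
    aeval g A = ∑ j ∈ Finset.range (H + 1), ((A.coeff j : E) : K) * g ^ j := by
  rw [aeval_eq_sum_range' (Nat.lt_succ_of_le hA)]
  rfl

/-- transcendence in the ultrapower. -/
theorem gm_transc {E : I → Subfield L} {g : I → L} (hg : ∀ᶠ i in U, ¬ IsAlgebraic (E i) (g i)) :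
    ¬ IsAlgebraic (uSub U E) (gm U g) := by
  rintro ⟨A, hA0, hA⟩
  obtain ⟨α, hα, hαE⟩ := exists_lift_coeff A
  obtain ⟨j, hj⟩ : ∃ j, A.coeff j ≠ 0 := by
    by_contra hcon
    push Not at hcon
    exact hA0 (Polynomial.ext fun j => by rw [hcon j, coeff_zero])
  have hjd : j ≤ A.natDegree := le_natDegree_of_ne_zero hj
  have h1 : ∀ᶠ i in U, α j i ≠ 0 := by
    have h2 : gm U (α j) ≠ 0 := by
      rw [hα]
      intro h
      exact hj (Subtype.ext h)
    rw [← map_zero (gm U)] at h2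
    exact gm_ne.1 h2
  have h3 : ∀ᶠ i in U, ∑ j ∈ Finset.range (A.natDegree + 1), α j i * g i ^ j = 0 := by
    rw [← gm_eq_zero, ← hA, aeval_eq_sum_le le_rfl, gm_sum]
    refine Finset.sum_congr rfl fun j _ => ?_
    rw [gm_mul, gm_pow, hα]
  obtain ⟨i, hi1, hi2, hi3⟩ := (h1.and (h3.and hg)).exists
  refine hi3 ⟨mkPol (E i) A.natDegree (fun j => α j i) (fun j => hαE j i), ?_, ?_⟩
  · intro h
    have h4 := congrArg (fun p => ((p.coeff j : E i) : L)) h
    simp only [coeff_zero] at h4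
    rw [coeff_mkPol hjd] at h4
    exact hi1 h4
  · rw [aeval_mkPol]
    exact hi2

/-- rational functions are relatively algebraically closed in the ultraproduct. -/
theorem rat_gm [PerfectField L] {E : I → Subfield L} {g : I → L}
    (hg : ∀ᶠ i in U, ¬ IsAlgebraic (E i) (g i)) {r : Gm U L}
    (hr : r ∈ uSub U (fun i => adj (E i) (g i)))
    (halg : IsAlgebraic (adj (uSub U E) (gm U g)) r) : r ∈ adj (uSub U E) (gm U g) := by
  classical
  have hgt : ¬ IsAlgebraic (uSub U E) (gm U g) := gm_transc hg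
  by_cases hr0 : r = 0
  · rw [hr0]; exact Subfield.zero_mem _
  obtain ⟨f, rfl, hf⟩ := hr
  set F := adj (uSub U E) (gm U g) with hF
  set F0 := Vale.Agent.P019.adj (uSub U E) (gm U g) with hF0
  set r : Gm U L := gm U f with hrdef
  set m := minpoly F r with hm
  have hint : IsIntegral F r := halg.isIntegral
  have hsep : m.Separable := PerfectField.separable_of_irreducible (minpoly.irreducible hint)
  set n := m.natDegree with hn
  -- common exponent
  have hN : ∃ N : ℕ, ∀ i ∈ Finset.range (n + 1),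
      ((m.coeff i : F) : Gm U L) ^ (ringExpChar L) ^ N ∈ F0 := by
    have h1 : ∀ i, ∃ N : ℕ, ((m.coeff i : F) : Gm U L) ^ (ringExpChar L) ^ N ∈ F0 := by
      intro i
      have h2 := mem_pf.1 (m.coeff i).2
      rw [ringExpChar_gm] at h2
      exact h2
    choose N hN using h1
    refine ⟨(Finset.range (n + 1)).sup N, fun i hi => ?_⟩
    obtain ⟨k, hk⟩ := Nat.exists_eq_add_of_le (Finset.le_sup (f := N) hi)
    rw [hk, pow_add, pow_mul]
    exact Subfield.pow_mem _ (hN i) _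
  obtain ⟨N, hN⟩ := hN
  haveI : ExpChar (Gm U L) (ringExpChar L) := by
    rw [← ringExpChar_gm (U := U) (L := L)]
    infer_instance
  let φ : Gm U L →+* Gm U L := iterateFrobenius (Gm U L) (ringExpChar L) N
  have hφ : ∀ z, φ z = z ^ (ringExpChar L) ^ N := fun z => iterateFrobenius_def _ _ _
  let c : ℕ → Gm U L := fun i => φ ((m.coeff i : F) : Gm U L)
  have hcF : ∀ i ∈ Finset.range (n + 1), c i ∈ F0 := by
    intro i hi
    change φ _ ∈ F0
    rw [hφ]
    exact hN i hi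
  set ρ := φ r with hρ
  have hsum0 : ∑ i ∈ Finset.range (n + 1), c i * ρ ^ i = 0 := by
    have h1 : aeval r m = 0 := minpoly.aeval F r
    rw [aeval_eq_sum_le le_rfl] at h1
    have h2 := congrArg φ h1
    rw [map_sum, map_zero] at h2
    rw [← h2]
    refine Finset.sum_congr rfl fun i _ => ?_
    rw [map_mul, map_pow]
  have hsum1 : ∑ i ∈ Finset.range (n + 1), c i * ((i : Gm U L) * ρ ^ (i - 1)) ≠ 0 := by
    have h1 : aeval r (derivative m) ≠ 0 := by
      intro h
      obtain ⟨a, b, hab⟩ := hsep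
      have h2 := congrArg (aeval r) hab
      rw [map_add, map_mul, map_mul, minpoly.aeval, h, mul_zero, mul_zero, add_zero, map_one] at h2
      exact zero_ne_one h2
    intro h2
    apply h1
    apply φ.injective
    rw [map_zero, ← h2]
    conv_lhs => rw [m.as_sum_range]
    rw [derivative_sum, map_sum, map_sum]
    refine Finset.sum_congr rfl fun i _ => ?_
    rw [derivative_monomial, aeval_monomial, map_mul, map_pow, map_mul, map_mul, map_natCast,
      map_natCast]
    change c i * _ * _ = _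
    ring
  obtain ⟨D, hD0, hDA⟩ := common_den hgt c (Finset.range (n + 1)) hcF
  have hDg : aeval (gm U g) D ≠ 0 := aeval_ne_of_transc hgt hD0
  choose! A hA using hDA
  -- extend by zero
  have hcn : c n ≠ 0 := by
    change φ _ ≠ 0
    rw [hn, hm, coeff_natDegree, (minpoly.monic hint).leadingCoeff]
    rw [show (((1 : F) : F) : Gm U L) = 1 from rfl, map_one]
    exact one_ne_zero
  have hc0 : c 0 ≠ 0 := by
    change φ _ ≠ 0
    rw [Ne, map_eq_zero]
    intro h
    exact minpoly.coeff_zero_ne_zero hint hr0 (Subtype.ext h)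
  have hAne : ∀ i ∈ Finset.range (n + 1), c i ≠ 0 → A i ≠ 0 := by
    intro i hi hci h
    have h1 := hA i hi
    rw [h, map_zero] at h1
    exact mul_ne_zero hDg hci h1.symm
  set H := (Finset.range (n + 1)).sup (fun i => (A i).natDegree) with hH
  have hAH : ∀ i ∈ Finset.range (n + 1), (A i).natDegree ≤ H := fun i hi =>
    Finset.le_sup (f := fun i => (A i).natDegree) hi
  have hlift : ∀ i, ∃ α : ℕ → I → L, (∀ j, gm U (α j) = (((A i).coeff j : uSub U E) : Gm U L)) ∧
      ∀ j ι, α j ι ∈ E ι := fun i => exists_lift_coeff (A i)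
  choose α hα hαE using hlift
  have hev : ∀ i ∈ Finset.range (n + 1), aeval (gm U g) (A i) =
      gm U (fun ι => ∑ j ∈ Finset.range (H + 1), α i j ι * g ι ^ j) := by
    intro i hi
    rw [aeval_eq_sum_le (hAH i hi), gm_sum]
    refine Finset.sum_congr rfl fun j _ => ?_
    rw [gm_mul, gm_pow, hα]
  have hρg : ρ = gm U (fun ι => f ι ^ (ringExpChar L) ^ N) := by
    rw [hρ, hφ, gm_pow]
  have hne : ∀ i ∈ Finset.range (n + 1), A i ≠ 0 →
      ∀ᶠ ι in U, mkPol (E ι) H (fun j => α i j ι) (fun j => hαE i j ι) ≠ 0 := by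
    intro i hi hAi
    obtain ⟨j, hj⟩ : ∃ j, (A i).coeff j ≠ 0 := by
      by_contra hcon
      push Not at hcon
      exact hAi (Polynomial.ext fun j => by rw [hcon j, coeff_zero])
    have hjd : j ≤ H := (le_natDegree_of_ne_zero hj).trans (hAH i hi)
    have h1 : ∀ᶠ ι in U, α i j ι ≠ 0 := by
      have h2 : gm U (α i j) ≠ 0 := by
        rw [hα]
        intro h
        exact hj (Subtype.ext h)
      rw [← map_zero (gm U)] at h2
      exact gm_ne.1 h2
    refine h1.mono fun ι hι h => hι ?_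
    have h4 := congrArg (fun p => ((p.coeff j : E ι) : L)) h
    simp only [coeff_zero] at h4
    rw [coeff_mkPol hjd] at h4
    exact h4
  have e0 : ∀ᶠ ι in U, ∑ i ∈ Finset.range (n + 1),
      (∑ j ∈ Finset.range (H + 1), α i j ι * g ι ^ j) *
        (f ι ^ (ringExpChar L) ^ N) ^ i = 0 := by
    rw [← gm_eq_zero, gm_sum]
    have h1 : ∑ i ∈ Finset.range (n + 1), gm U (fun ι =>
        (∑ j ∈ Finset.range (H + 1), α i j ι * g ι ^ j) * (f ι ^ (ringExpChar L) ^ N) ^ i) =
        aeval (gm U g) D * ∑ i ∈ Finset.range (n + 1), c i * ρ ^ i := by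
      rw [Finset.mul_sum]
      refine Finset.sum_congr rfl fun i hi => ?_
      rw [gm_mul, ← hev i hi, hA i hi, gm_pow, ← hρg]
      ring
    rw [h1, hsum0, mul_zero]
  have e1 : ∀ᶠ ι in U, ∑ i ∈ Finset.range (n + 1),
      (∑ j ∈ Finset.range (H + 1), α i j ι * g ι ^ j) *
        ((i : L) * (f ι ^ (ringExpChar L) ^ N) ^ (i - 1)) ≠ 0 := by
    have h2 : gm U (fun ι => ∑ i ∈ Finset.range (n + 1),
      (∑ j ∈ Finset.range (H + 1), α i j ι * g ι ^ j) *
        ((i : L) * (f ι ^ (ringExpChar L) ^ N) ^ (i - 1))) ≠ gm U 0 := by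
      rw [map_zero, gm_sum]
      have h1 : ∑ i ∈ Finset.range (n + 1), gm U (fun ι =>
          (∑ j ∈ Finset.range (H + 1), α i j ι * g ι ^ j) *
            ((i : L) * (f ι ^ (ringExpChar L) ^ N) ^ (i - 1))) =
          aeval (gm U g) D * ∑ i ∈ Finset.range (n + 1), c i * ((i : Gm U L) * ρ ^ (i - 1)) := by
        rw [Finset.mul_sum]
        refine Finset.sum_congr rfl fun i hi => ?_
        rw [gm_mul, ← hev i hi, hA i hi, gm_mul, gm_pow, ← hρg]
        have h3 : gm U (fun _ : I => (i : L)) = (i : Gm U L) := map_natCast (gm U) i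
        rw [h3]
        ring
      rw [h1]
      exact mul_ne_zero hDg hsum1
    exact gm_ne.1 h2
  have h0n : (0 : ℕ) ∈ Finset.range (n + 1) := Finset.mem_range.2 (Nat.succ_pos n)
  have hnn : n ∈ Finset.range (n + 1) := Finset.mem_range.2 (Nat.lt_succ_self n)
  have hfin : ∀ᶠ ι in U, ∃ u v : (E ι)[X], u.natDegree ≤ H ∧ v.natDegree ≤ H ∧ v ≠ 0 ∧
      (f ι ^ (ringExpChar L) ^ N) * aeval (g ι) v = aeval (g ι) u := by
    filter_upwards [hg, e0, e1, hne 0 h0n (hAne 0 h0n hc0), hne n hnn (hAne n hnn hcn)]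
      with ι h1 h2 h3 h4 h5
    refine rat_root h1 (Subfield.pow_mem _ (hf ι) _) (n := n)
      (fun i => mkPol (E ι) H (fun j => α i j ι) (fun j => hαE i j ι))
      (fun i => natDegree_mkPol) h4 h5 ?_ ?_
    · simp only [aeval_mkPol]
      exact h2
    · simp only [aeval_mkPol]
      exact h3
  have hex : ∀ ι, ∃ u v : (E ι)[X], ((∃ u v : (E ι)[X], u.natDegree ≤ H ∧ v.natDegree ≤ H ∧
      v ≠ 0 ∧ (f ι ^ (ringExpChar L) ^ N) * aeval (g ι) v = aeval (g ι) u) →
      u.natDegree ≤ H ∧ v.natDegree ≤ H ∧ v ≠ 0 ∧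
      (f ι ^ (ringExpChar L) ^ N) * aeval (g ι) v = aeval (g ι) u) := by
    intro ι
    by_cases h : ∃ u v : (E ι)[X], u.natDegree ≤ H ∧ v.natDegree ≤ H ∧
      v ≠ 0 ∧ (f ι ^ (ringExpChar L) ^ N) * aeval (g ι) v = aeval (g ι) u
    · obtain ⟨u, v, huv⟩ := h
      exact ⟨u, v, fun _ => huv⟩
    · exact ⟨0, 0, fun h' => absurd h' h⟩
  choose u v huv using hex
  have hmem : ∀ w : (ι : I) → (E ι)[X],
      gm U (fun ι => ∑ j ∈ Finset.range (H + 1), (((w ι).coeff j : E ι) : L) * g ι ^ j) ∈ F0 := by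
    intro w
    rw [gm_sum]
    refine sum_mem fun j _ => ?_
    rw [gm_mul, gm_pow]
    refine mul_mem (Vale.Agent.P019.le_adj _ _ ?_)
      (pow_mem (Vale.Agent.P019.mem_adj _ _) j)
    exact ⟨_, rfl, fun ι => ((w ι).coeff j).2⟩
  have hv0 : gm U (fun ι => ∑ j ∈ Finset.range (H + 1), (((v ι).coeff j : E ι) : L) * g ι ^ j) ≠
      gm U 0 := by
    rw [gm_ne]
    filter_upwards [hfin, hg] with ι h1 h2
    obtain ⟨-, h3, h4, -⟩ := huv ι h1
    rw [← aeval_eq_sum_le h3]
    exact aeval_ne_of_transc h2 h4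
  rw [map_zero] at hv0
  have hρv : ρ * gm U (fun ι => ∑ j ∈ Finset.range (H + 1), (((v ι).coeff j : E ι) : L) * g ι ^ j) =
      gm U (fun ι => ∑ j ∈ Finset.range (H + 1), (((u ι).coeff j : E ι) : L) * g ι ^ j) := by
    rw [hρg, ← gm_mul, gm_eq]
    filter_upwards [hfin] with ι h1
    obtain ⟨h5, h3, h4, h6⟩ := huv ι h1
    rw [← aeval_eq_sum_le h3, ← aeval_eq_sum_le h5]
    exact h6
  have hρF : ρ ∈ F0 := by
    rw [← eq_div_iff hv0] at hρv
    rw [hρv]
    exact Subfield.div_mem _ (hmem u) (hmem v)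
  rw [hρ, hφ] at hρF
  refine mem_pf.2 ⟨N, ?_⟩
  rw [ringExpChar_gm]
  exact hρF

end rat

end Vale.Agent.P019P
end

section

/-!
# Relative algebraic closedness: adding a variable
-/

namespace Vale.Agent.P019P

open Vale.Agent.P019

set_option linter.style.haveILetI false
set_option linter.unusedSectionVars false

open Polynomial

section uvar

variable {K : Type*} [Field K]

/-- the rational root theorem with divisibilities. -/
theorem uvar_rat_root {E : Subfield K} {g : K} (hg : ¬ IsAlgebraic E g) {ρ : K}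
    (hρ : ρ ∈ adj E g) {n : ℕ} (A : ℕ → E[X])
    (h0 : ∑ i ∈ Finset.range (n + 1), aeval g (A i) * ρ ^ i = 0)
    (h1 : ∑ i ∈ Finset.range (n + 1), aeval g (A i) * ((i : K) * ρ ^ (i - 1)) ≠ 0) :
    ∃ u v : E[X], u ∣ A 0 ∧ v ∣ A n ∧ v ≠ 0 ∧ ρ = aeval g u / aeval g v := by
  have hρ0 : ρ ∈ Vale.Agent.P019.adj E g := by
    let p : (Vale.Agent.P019.adj E g)[X] := ∑ i ∈ Finset.range (n + 1),
      C ⟨aeval g (A i), aeval_mem_adj0 g (A i)⟩ * X ^ i
    refine mem_of_simple_root (F := Vale.Agent.P019.adj E g) (p := p) hρ ?_ ?_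
    · rw [← h0, map_sum]
      refine Finset.sum_congr rfl fun i _ => ?_
      rw [map_mul, map_pow, aeval_X, aeval_C]
      rfl
    · convert h1 using 1
      simp only [p, map_sum]
      refine Finset.sum_congr rfl fun i _ => ?_
      rw [derivative_C_mul, derivative_X_pow, map_mul, map_mul, map_pow, aeval_X, aeval_C, aeval_C,
        map_natCast]
      rfl
  obtain ⟨a, b, hab, hb, hρab⟩ := coprime_rep hg hρ0
  have hbg : aeval g b ≠ 0 := aeval_ne_of_transc hg hb
  have key : ∑ i ∈ Finset.range (n + 1), A i * a ^ i * b ^ (n - i) = 0 := by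
    by_contra hne
    apply aeval_ne_of_transc hg hne
    have e1 : aeval g (∑ i ∈ Finset.range (n + 1), A i * a ^ i * b ^ (n - i)) =
        aeval g b ^ n * ∑ i ∈ Finset.range (n + 1), aeval g (A i) * ρ ^ i := by
      rw [map_sum, Finset.mul_sum]
      refine Finset.sum_congr rfl fun i hi => ?_
      have hi' : i ≤ n := Nat.lt_succ_iff.1 (Finset.mem_range.1 hi)
      rw [map_mul, map_mul, map_pow, map_pow, hρab, div_pow]
      have e2 : aeval g b ^ n = aeval g b ^ (n - i) * aeval g b ^ i := by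
        rw [← pow_add, Nat.sub_add_cancel hi']
      rw [e2]
      have e3 := pow_ne_zero i hbg
      field_simp
    rw [e1, h0, mul_zero]
  have hbA : b ∣ A n := by
    rw [Finset.sum_range_succ] at key
    simp only [Nat.sub_self, pow_zero, mul_one] at key
    have h2 : b ∣ A n * a ^ n := by
      have h3 : b ∣ ∑ i ∈ Finset.range n, A i * a ^ i * b ^ (n - i) := by
        refine Finset.dvd_sum fun i hi => ?_
        have hi' : n - i ≠ 0 := Nat.sub_ne_zero_of_lt (Finset.mem_range.1 hi)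
        exact Dvd.dvd.mul_left (dvd_pow_self b hi') _
      have h4 : A n * a ^ n = -∑ i ∈ Finset.range n, A i * a ^ i * b ^ (n - i) := by
        rw [eq_neg_iff_add_eq_zero, add_comm]
        exact key
      rw [h4]
      exact (dvd_neg).2 h3
    exact (hab.symm.pow_right).dvd_of_dvd_mul_right h2
  have haA : a ∣ A 0 := by
    rw [Finset.sum_range_succ'] at key
    simp only [pow_zero, mul_one, Nat.sub_zero] at key
    have h2 : a ∣ A 0 * b ^ n := by
      have h3 : a ∣ ∑ i ∈ Finset.range n, A (i + 1) * a ^ (i + 1) * b ^ (n - (i + 1)) := by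
        refine Finset.dvd_sum fun i hi => ?_
        exact Dvd.dvd.mul_right (Dvd.dvd.mul_left (dvd_pow_self a (Nat.succ_ne_zero i)) _) _
      have h4 : A 0 * b ^ n =
          -∑ i ∈ Finset.range n, A (i + 1) * a ^ (i + 1) * b ^ (n - (i + 1)) := by
        rw [eq_neg_iff_add_eq_zero, add_comm]
        exact key
      rw [h4]
      exact (dvd_neg).2 h3
    exact (hab.pow_right).dvd_of_dvd_mul_right h2
  exact ⟨a, b, haA, hbA, hb, hρab⟩

/-- a factor in `B[X]` of a polynomial with coefficients in `A` is a constant times a polynomial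
with coefficients in `A`. -/
theorem uvar_factor {A B : Subfield K} (hAB : A ≤ B)
    (hrac : ∀ z ∈ B, IsAlgebraic A z → z ∈ A) {Q : A[X]} (hQ : Q ≠ 0) {u : B[X]} (hu0 : u ≠ 0)
    (hu : u ∣ Q.map (Subfield.inclusion hAB)) {y : K} (hy : ¬ IsAlgebraic B y) :
    ∃ w ∈ Vale.Agent.P019.adj A y, ∃ a ∈ B, w ≠ 0 ∧ aeval y u = a * w := by
  set u1 : B[X] := u * C (u.leadingCoeff)⁻¹ with hu1
  have hm : u1.Monic := monic_mul_leadingCoeff_inv hu0
  have hlc : u.leadingCoeff ≠ 0 := leadingCoeff_ne_zero.2 hu0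
  have huu : u = u1 * C u.leadingCoeff := by
    rw [hu1, mul_assoc, ← C_mul, inv_mul_cancel₀ hlc, C_1, mul_one]
  set Q1 : A[X] := Q * C (Q.leadingCoeff)⁻¹ with hQ1
  have hQm : Q1.Monic := monic_mul_leadingCoeff_inv hQ
  have hdvd : u1 ∣ Q1.map (Subfield.inclusion hAB) := by
    have h1 : u1 ∣ u := ⟨_, huu⟩
    have h2 : Q.map (Subfield.inclusion hAB) ∣ Q1.map (Subfield.inclusion hAB) := by
      rw [hQ1, Polynomial.map_mul]
      exact dvd_mul_right _ _
    exact (h1.trans hu).trans h2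
  have hdvd2 : u1.map B.subtype ∣ Q1.map (algebraMap A K) := by
    have h1 := map_dvd (mapRingHom B.subtype) hdvd
    have h2 : (Q1.map (Subfield.inclusion hAB)).map B.subtype = Q1.map (algebraMap A K) := by
      rw [Polynomial.map_map]
      rfl
    rw [← h2]
    exact h1
  have hint : ∀ i, ((u1.coeff i : B) : K) ∈ A := by
    intro i
    apply hrac _ (u1.coeff i).2
    have h1 := isIntegral_coeff_of_dvd Q1 (u1.map B.subtype) hQm (hm.map _) hdvd2 i
    rw [coeff_map] at h1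
    exact h1.isAlgebraic
  refine ⟨aeval y u1, ?_, (u.leadingCoeff : K), (u.leadingCoeff).2,
    aeval_ne_of_transc hy hm.ne_zero, ?_⟩
  · rw [aeval_eq_sum_range]
    refine sum_mem fun i _ => ?_
    rw [Algebra.smul_def]
    exact mul_mem (Vale.Agent.P019.le_adj A y (hint i))
      (pow_mem (Vale.Agent.P019.mem_adj A y) i)
  · conv_lhs => rw [huu]
    rw [map_mul, aeval_C, mul_comm]
    rfl

theorem uvar_aeval_map {A B : Subfield K} (hAB : A ≤ B) (Q : A[X]) (y : K) :
    aeval y (Q.map (Subfield.inclusion hAB)) = aeval y Q := by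
  rw [aeval_def, aeval_def, eval₂_map]
  rfl

end uvar

/-- if `A` is relatively algebraically closed in `B` and `y` is transcendental over `B`, then
`A(y)` is relatively algebraically closed in `B(y)` (perfect closures). -/
theorem var_rac {K : Type*} [Field K] [PerfectField K] {A B : Subfield K} [PerfectField A]
    [PerfectField B] (hAB : A ≤ B) (hrac : ∀ z ∈ B, IsAlgebraic A z → z ∈ A) {y : K}
    (hy : ¬ IsAlgebraic B y) {r : K} (hr : r ∈ adj B y) (halg : IsAlgebraic (adj A y) r) :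
    r ∈ adj A y := by
  classical
  have hyA : ¬ IsAlgebraic A y := fun h => hy (isAlgebraic_mono hAB h)
  by_cases hr0 : r = 0
  · rw [hr0]; exact Subfield.zero_mem _
  set F := adj A y with hF
  set F0 := Vale.Agent.P019.adj A y with hF0
  set m := minpoly F r with hm
  have hint : IsIntegral F r := halg.isIntegral
  have hsep : m.Separable := PerfectField.separable_of_irreducible (minpoly.irreducible hint)
  set n := m.natDegree with hn
  -- common exponent
  have hN : ∃ N : ℕ, ∀ i ∈ Finset.range (n + 1),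
      ((m.coeff i : F) : K) ^ (ringExpChar K) ^ N ∈ F0 := by
    have h1 : ∀ i, ∃ N : ℕ, ((m.coeff i : F) : K) ^ (ringExpChar K) ^ N ∈ F0 := fun i =>
      mem_pf.1 (m.coeff i).2
    choose N hN using h1
    refine ⟨(Finset.range (n + 1)).sup N, fun i hi => ?_⟩
    obtain ⟨k, hk⟩ := Nat.exists_eq_add_of_le (Finset.le_sup (f := N) hi)
    rw [hk, pow_add, pow_mul]
    exact Subfield.pow_mem _ (hN i) _
  obtain ⟨N, hN⟩ := hN
  let φ : K →+* K := iterateFrobenius K (ringExpChar K) N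
  have hφ : ∀ z, φ z = z ^ (ringExpChar K) ^ N := fun z => iterateFrobenius_def _ _ _
  let c : ℕ → K := fun i => φ ((m.coeff i : F) : K)
  have hcF : ∀ i ∈ Finset.range (n + 1), c i ∈ F0 := by
    intro i hi
    change φ _ ∈ F0
    rw [hφ]
    exact hN i hi
  set ρ := φ r with hρ
  have hsum0 : ∑ i ∈ Finset.range (n + 1), c i * ρ ^ i = 0 := by
    have h1 : aeval r m = 0 := minpoly.aeval F r
    rw [aeval_eq_sum_le le_rfl] at h1
    have h2 := congrArg φ h1
    rw [map_sum, map_zero] at h2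
    rw [← h2]
    refine Finset.sum_congr rfl fun i _ => ?_
    rw [map_mul, map_pow]
  have hsum1 : ∑ i ∈ Finset.range (n + 1), c i * ((i : K) * ρ ^ (i - 1)) ≠ 0 := by
    have h1 : aeval r (derivative m) ≠ 0 := by
      intro h
      obtain ⟨a, b, hab⟩ := hsep
      have h2 := congrArg (aeval r) hab
      rw [map_add, map_mul, map_mul, minpoly.aeval, h, mul_zero, mul_zero, add_zero, map_one] at h2
      exact zero_ne_one h2
    intro h2
    apply h1
    apply φ.injective
    rw [map_zero, ← h2]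
    conv_lhs => rw [m.as_sum_range]
    rw [derivative_sum, map_sum, map_sum]
    refine Finset.sum_congr rfl fun i _ => ?_
    rw [derivative_monomial, aeval_monomial, map_mul, map_pow, map_mul, map_mul, map_natCast,
      map_natCast]
    change c i * _ * _ = _
    ring
  obtain ⟨D, hD0, hDA⟩ := common_den hyA c (Finset.range (n + 1)) hcF
  have hDg : aeval y D ≠ 0 := aeval_ne_of_transc hyA hD0
  choose! G hG using hDA
  have hcn : c n ≠ 0 := by
    change φ _ ≠ 0
    rw [hn, hm, coeff_natDegree, (minpoly.monic hint).leadingCoeff]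
    rw [show (((1 : F) : F) : K) = 1 from rfl, map_one]
    exact one_ne_zero
  have hc0 : c 0 ≠ 0 := by
    change φ _ ≠ 0
    rw [Ne, map_eq_zero]
    intro h
    exact minpoly.coeff_zero_ne_zero hint hr0 (Subtype.ext h)
  have hGne : ∀ i ∈ Finset.range (n + 1), c i ≠ 0 → G i ≠ 0 := by
    intro i hi hci h
    have h1 := hG i hi
    rw [h, map_zero] at h1
    exact mul_ne_zero hDg hci h1.symm
  have h0n : (0 : ℕ) ∈ Finset.range (n + 1) := Finset.mem_range.2 (Nat.succ_pos n)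
  have hnn : n ∈ Finset.range (n + 1) := Finset.mem_range.2 (Nat.lt_succ_self n)
  have hρB : ρ ∈ adj B y := by
    rw [hρ, hφ]
    exact Subfield.pow_mem _ hr _
  obtain ⟨u, v, hu, hv, hv0, hρuv⟩ := uvar_rat_root hy hρB (n := n)
    (fun i => (G i).map (Subfield.inclusion hAB))
    (by
      have h1 : ∑ i ∈ Finset.range (n + 1),
          aeval y ((G i).map (Subfield.inclusion hAB)) * ρ ^ i =
          aeval y D * ∑ i ∈ Finset.range (n + 1), c i * ρ ^ i := by
        rw [Finset.mul_sum]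
        refine Finset.sum_congr rfl fun i hi => ?_
        rw [uvar_aeval_map, hG i hi]
        ring
      rw [h1, hsum0, mul_zero])
    (by
      have h1 : ∑ i ∈ Finset.range (n + 1),
          aeval y ((G i).map (Subfield.inclusion hAB)) * ((i : K) * ρ ^ (i - 1)) =
          aeval y D * ∑ i ∈ Finset.range (n + 1), c i * ((i : K) * ρ ^ (i - 1)) := by
        rw [Finset.mul_sum]
        refine Finset.sum_congr rfl fun i hi => ?_
        rw [uvar_aeval_map, hG i hi]
        ring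
      rw [h1]
      exact mul_ne_zero hDg hsum1)
  have hu0 : u ≠ 0 := by
    rintro rfl
    rw [zero_dvd_iff, Polynomial.map_eq_zero] at hu
    exact hGne 0 h0n hc0 hu
  obtain ⟨w1, hw1, a, ha, hw10, hua⟩ := uvar_factor hAB hrac (hGne 0 h0n hc0) hu0 hu hy
  obtain ⟨w2, hw2, b, hb, hw20, hvb⟩ := uvar_factor hAB hrac (hGne n hnn hcn) hv0 hv hy
  -- the constant
  have hρab : ρ = a / b * (w1 / w2) := by
    rw [hρuv, hua, hvb]
    rw [mul_div_mul_comm]
  have hrho : IsAlgebraic F ρ := by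
    rw [hρ, hφ]
    exact halg.pow _
  have hw1F : w1 ∈ F := adj0_le_adj A y hw1
  have hw2F : w2 ∈ F := adj0_le_adj A y hw2
  have hcalg : IsAlgebraic F (a / b) := by
    have h1 : a / b = ρ * (w2 / w1) := by
      rw [hρab]
      field_simp
    rw [h1]
    exact hrho.mul (isAlgebraic_of_mem (Subfield.div_mem _ hw2F hw1F))
  have habB : a / b ∈ B := Subfield.div_mem _ ha hb
  have hcA : a / b ∈ A := by
    apply hrac _ habB
    by_contra hc
    have h1 := exchange hc hcalg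
    exact hy (isAlgebraic_mono (adj_le hAB habB) h1)
  have hρF : ρ ∈ F0 := by
    rw [hρab]
    exact Subfield.mul_mem _ (Vale.Agent.P019.le_adj A y hcA) (Subfield.div_mem _ hw1 hw2)
  rw [hρ, hφ] at hρF
  exact mem_pf.2 ⟨N, hρF⟩

end Vale.Agent.P019P
end

section

/-!
# Bounded representation of residues
-/

namespace Vale.Agent.P019P

open Vale.Agent.P019

set_option linter.style.haveILetI false
set_option linter.unusedSectionVars false

open Polynomial Filter

/-- elements of a simple algebraic extension as polynomials of small degree. -/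
theorem repr_lt {κ : Type*} [Field κ] {E : Subfield κ} {θ : κ} {n : ℕ} {p : E[X]} (hp : p ≠ 0)
    (hpn : p.natDegree ≤ n) (hθ : aeval θ p = 0) {x : κ}
    (hx : ∃ P Q : E[X], x = aeval θ P / aeval θ Q) :
    ∃ c : ℕ → κ, (∀ j, c j ∈ E) ∧ x = ∑ j ∈ Finset.range n, c j * θ ^ j := by
  have hint : IsIntegral E θ := IsAlgebraic.isIntegral ⟨p, hp, hθ⟩
  obtain ⟨P, Q, rfl⟩ := hx
  have hmem : aeval θ P / aeval θ Q ∈ IntermediateField.adjoin E {θ} := by
    rw [IntermediateField.mem_adjoin_simple_iff]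
    exact ⟨P, Q, rfl⟩
  have h1 : aeval θ P / aeval θ Q ∈ Algebra.adjoin E {θ} := by
    rw [← IntermediateField.adjoin_simple_toSubalgebra_of_isAlgebraic hint.isAlgebraic]
    exact hmem
  rw [Algebra.adjoin_singleton_eq_range_aeval] at h1
  obtain ⟨R, hR⟩ := h1
  have hR' : aeval θ R = aeval θ P / aeval θ Q := hR
  set R' := R %ₘ minpoly E θ with hR'def
  have h2 : aeval θ R' = aeval θ P / aeval θ Q := by
    rw [← hR', hR'def]
    conv_rhs => rw [← modByMonic_add_div R (minpoly E θ)]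
    rw [map_add, map_mul, minpoly.aeval, zero_mul, add_zero]
  have hdeg : (minpoly E θ).natDegree ≤ n :=
    (natDegree_le_of_dvd (minpoly.dvd E θ hθ) hp).trans hpn
  have h3 : R'.degree < n := by
    refine (degree_modByMonic_lt R (minpoly.monic hint)).trans_le ?_
    rw [degree_eq_natDegree (minpoly.ne_zero hint)]
    exact_mod_cast hdeg
  refine ⟨fun j => ((R'.coeff j : E) : κ), fun j => (R'.coeff j).2, ?_⟩
  rw [← h2]
  by_cases hn : n = 0
  · subst hn
    have h4 : R' = 0 := by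
      rw [Nat.cast_zero] at h3
      exact degree_eq_bot.1 (Nat.WithBot.lt_zero_iff.1 h3)
    rw [h4, map_zero, Finset.range_zero, Finset.sum_empty]
  have h4 : R'.natDegree < n := by
    by_cases h0 : R' = 0
    · rw [h0, natDegree_zero]; exact Nat.pos_of_ne_zero hn
    · rwa [degree_eq_natDegree h0, Nat.cast_lt] at h3
  rw [aeval_eq_sum_range' h4]
  refine Finset.sum_congr rfl fun j _ => ?_
  rw [Algebra.smul_def]
  rfl

variable {K : Type*} [Field K] [PerfectField K]

/-- a polynomial relation over the base for almost all points. -/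
theorem ae_relation {F : Subfield K} {e θ : K} (he : ¬ IsAlgebraic F e)
    (hθ : IsAlgebraic (Vale.Agent.P019.adj F e) θ) :
    ∃ n : ℕ, ∀ᶠ a in ae F, ∀ W : ValuationSubring K, Over W F e a → θ ∈ W →
      ∃ p : F[X], p ≠ 0 ∧ p.natDegree ≤ n ∧ W.valuation (aeval θ p) < 1 := by
  classical
  obtain ⟨Q, hQ0, hQ⟩ := hθ
  set n := Q.natDegree with hn
  obtain ⟨D, hD0, hDA⟩ := common_den he (fun i => ((Q.coeff i : Vale.Agent.P019.adj F e) : K))
    (Finset.range (n + 1)) (fun i _ => (Q.coeff i).2)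
  choose! A hA using hDA
  have hDe : aeval e D ≠ 0 := aeval_ne_of_transc he hD0
  have hsum : ∑ i ∈ Finset.range (n + 1), aeval e (A i) * θ ^ i = 0 := by
    have h1 : ∑ i ∈ Finset.range (n + 1), aeval e (A i) * θ ^ i =
        aeval e D * ∑ i ∈ Finset.range (n + 1),
          ((Q.coeff i : Vale.Agent.P019.adj F e) : K) * θ ^ i := by
      rw [Finset.mul_sum]
      refine Finset.sum_congr rfl fun i hi => ?_
      rw [hA i hi]; ring
    rw [h1, ← aeval_eq_sum_le le_rfl θ, hQ, mul_zero]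
  have hAn : A n ≠ 0 := by
    intro h0
    have h1 := hA n (Finset.mem_range.2 (Nat.lt_succ_self n))
    rw [h0, map_zero] at h1
    have h2 : ((Q.coeff n : Vale.Agent.P019.adj F e) : K) ≠ 0 := by
      intro h3
      rw [hn, coeff_natDegree] at h3
      exact hQ0 (leadingCoeff_eq_zero.1 (Subtype.ext h3))
    exact mul_ne_zero hDe h2 h1.symm
  refine ⟨n, ?_⟩
  rw [ae_iff]
  refine Set.Finite.subset (((A n).rootSet_finite K)) ?_
  rintro a ⟨haF, ha⟩
  by_contra hroot
  apply ha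
  intro W hW hθW
  have hne : (A n).eval (⟨a, haF⟩ : F) ≠ 0 := by
    intro h0
    apply hroot
    rw [mem_rootSet]
    refine ⟨hAn, ?_⟩
    have h1 : aeval a (A n) = algebraMap F K ((A n).eval (⟨a, haF⟩ : F)) := by
      rw [← aeval_algebraMap_apply_eq_algebraMap_eval]
      rfl
    rw [h1, h0, map_zero]
  refine ⟨∑ i ∈ Finset.range (n + 1), C ((A i).eval (⟨a, haF⟩ : F)) * X ^ i, ?_, ?_, ?_⟩
  · intro h0
    have h1 := congrArg (fun p => p.coeff n) h0
    simp only [finsetSum_coeff, coeff_C_mul, coeff_X_pow, mul_ite, mul_one, mul_zero,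
      coeff_zero] at h1
    rw [Finset.sum_ite_eq, if_pos (Finset.mem_range.2 (Nat.lt_succ_self n))] at h1
    exact hne h1
  · refine natDegree_sum_le_of_forall_le _ _ fun i hi => ?_
    exact (natDegree_C_mul_X_pow_le _ _).trans (Nat.lt_succ_iff.1 (Finset.mem_range.1 hi))
  · have h1 : aeval θ (∑ i ∈ Finset.range (n + 1), C ((A i).eval (⟨a, haF⟩ : F)) * X ^ i) =
        ∑ i ∈ Finset.range (n + 1), (aeval a (A i) - aeval e (A i)) * θ ^ i := by
      have h2 : ∑ i ∈ Finset.range (n + 1), (aeval a (A i) - aeval e (A i)) * θ ^ i =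
          ∑ i ∈ Finset.range (n + 1), aeval a (A i) * θ ^ i := by
        simp only [sub_mul, Finset.sum_sub_distrib, hsum, sub_zero]
      rw [h2, map_sum]
      refine Finset.sum_congr rfl fun i _ => ?_
      rw [map_mul, map_pow, aeval_X, aeval_C]
      congr 1
      rw [← aeval_algebraMap_apply_eq_algebraMap_eval]
      rfl
    rw [h1]
    have hlt : ∀ B : F[X], W.valuation (aeval a B - aeval e B) < 1 := by
      intro B
      have heW : e ∈ W := hW.mem haF
      have haW : a ∈ W := hW.triv a haF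
      have h3 : (X - C (⟨a, haF⟩ : F)) ∣ (B - C (B.eval ⟨a, haF⟩)) := by
        rw [dvd_iff_isRoot]
        simp
      obtain ⟨S, hS⟩ := h3
      have h4 := congrArg (aeval e) hS
      rw [map_sub, map_mul, map_sub, aeval_X, aeval_C, aeval_C] at h4
      have h5 : aeval a B = algebraMap F K (B.eval ⟨a, haF⟩) := by
        rw [← aeval_algebraMap_apply_eq_algebraMap_eval]
        rfl
      have h6 : aeval a B - aeval e B = -((e - a) * aeval e S) := by
        rw [h5]
        have h7 : algebraMap F K (⟨a, haF⟩ : F) = a := rfl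
        rw [h7] at h4
        rw [← h4]; ring
      rw [h6, Valuation.map_neg, map_mul]
      refine mul_lt_one_of_lt_of_le hW.lt ?_
      have h8 : aeval e S ∈ W := by
        rw [aeval_eq_sum_le le_rfl e]
        refine sum_mem fun i _ => mul_mem (hW.triv _ (S.coeff i).2) (pow_mem heW i)
      exact (W.valuation_le_one_iff _).2 h8
    refine Valuation.map_sum_lt _ one_ne_zero fun i _ => ?_
    rw [map_mul, map_pow]
    exact mul_lt_one_of_lt_of_le (hlt (A i))
      (pow_le_one₀ zero_le ((W.valuation_le_one_iff _).2 hθW))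

/-- bounded representation of residues. -/
theorem Frame.repr {k G : Subfield K} {e s : K} (h : Frame k G e s)
    (hfg : FG k (⊤ : Subfield K)) :
    ∃ (θ : K) (n : ℕ), ∀ᶠ a in ae (adj G s), ∀ W : ValuationSubring K,
      Over W (adj G s) e a → θ ∈ W ∧ ∀ z ∈ W, ∃ c : ℕ → K, (∀ j, c j ∈ adj G s) ∧
        W.valuation (z - ∑ j ∈ Finset.range n, c j * θ ^ j) < 1 := by
  obtain ⟨θ, hθ⟩ := h.nice hfg
  obtain ⟨n, hn⟩ := ae_relation h.tt (isAlgebraic_adj.1 (h.alg θ))
  refine ⟨θ, n, ?_⟩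
  filter_upwards [hθ, hn] with a h1 h2 W hW
  have hN := h1 W hW
  refine ⟨hN.mem, fun z hz => ?_⟩
  obtain ⟨p, hp0, hpn, hpv⟩ := h2 W hW hN.mem
  obtain ⟨P, Q, hQ, hPQ⟩ := hN.rs_eq_div (rs W z)
  -- the image of the base field
  have e1 := rs_aeval hN.triv hN.mem
  obtain ⟨c, hc, hcz⟩ := repr_lt (κ := IsLocalRing.ResidueField W) (E := bar hN.triv)
    (θ := rs W θ) (n := n) (p := p.map (barEquiv hN.triv).toRingHom) (by
      rw [Ne, Polynomial.map_eq_zero]
      exact hp0) (natDegree_map_le.trans hpn) (by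
      rw [← e1 p, rs_eq_zero]
      · exact hpv
      · exact (W.valuation_le_one_iff _).1 hpv.le) (x := rs W z) (by
      refine ⟨P.map (barEquiv hN.triv).toRingHom,
        Q.map (barEquiv hN.triv).toRingHom, ?_⟩
      rw [hPQ, e1 P, e1 Q])
  choose c' hc' hcc using fun j => (mem_bar hN.triv).1 (hc j)
  refine ⟨c', hc', ?_⟩
  have hmem : ∀ j, c' j ∈ W := fun j => hN.triv _ (hc' j)
  have hmem2 : ∀ j, c' j * θ ^ j ∈ W := fun j => mul_mem (hmem j) (pow_mem hN.mem j)
  have hsum : ∀ T : Finset ℕ, rs W (∑ j ∈ T, c' j * θ ^ j) =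
      ∑ j ∈ T, rs W (c' j) * rs W θ ^ j := by
    classical
    intro T
    induction T using Finset.induction_on with
    | empty => rw [Finset.sum_empty, Finset.sum_empty, rs_zero]
    | insert a T ha ih =>
      rw [Finset.sum_insert ha, Finset.sum_insert ha, rs_add (hmem2 a)
        (sum_mem fun j _ => hmem2 j), ih, rs_mul (hmem a) (pow_mem hN.mem a), rs_pow hN.mem]
  rw [← rs_eq_zero (sub_mem hz (sum_mem fun j _ => hmem2 j)),
    rs_sub hz (sum_mem fun j _ => hmem2 j), hsum, hcz, sub_eq_zero]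
  refine Finset.sum_congr rfl fun j _ => ?_
  rw [hcc]

end Vale.Agent.P019P
end

section

/-!
# Rationality of the corresponding curves (perfect version)

`Rk2.mono`, `ne_ae` are those of the old file.
-/

namespace Vale.Agent.P019P

open Vale.Agent.P019

set_option linter.style.haveILetI false
set_option linter.unusedSectionVars false

open Polynomial Filter

section shift

variable {K : Type*} [Field K] {ℓ : ℕ} [Fact ℓ.Prime] {k : Subfield K}

theorem cl_shift {O : ValuationSubring K} {y z : K} (hyk : y ∉ k) (hy : TrivOn O (adj k y))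
    (hz : O.valuation (z - y) < 1) {b : K} (hb : b ∈ k) :
    cl ℓ (y - b) - cl ℓ (z - b) ∈ U1 ℓ O := by
  have hyb : y - b ∈ adj k y := sub_mem (mem_adj k y) (le_adj k y hb)
  have hyb0 : y - b ≠ 0 := by
    intro h
    rw [sub_eq_zero] at h
    exact hyk (h ▸ hb)
  rw [← neg_mem_iff, neg_sub]
  refine cl_sub_cl_mem_U1 (hy.eq_one hyb hyb0) ?_
  have : z - b - (y - b) = z - y := by ring
  rwa [this]

theorem VS_le_of_shift [PerfectField K] [NeZero (ℓ : K)] (hk : IsAlgClosed k) {y z : K}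
    (hy : y ∉ k)
    {U : Submodule (ZMod ℓ) (V ℓ K)} (m : K → K) (hm : ∀ b ∈ k, m b ∈ k)
    (h : ∀ b ∈ k, cl ℓ (y - b) - cl ℓ (z - m b) ∈ U) :
    VS ℓ (adj k y) ≤ VS ℓ (adj k z) ⊔ U := by
  intro v hv
  obtain ⟨s, n, hs, rfl⟩ := adj_factor hk hy hv
  refine sum_mem fun c hc => Submodule.smul_mem _ _ ?_
  have h1 : cl ℓ (y - c) = cl ℓ (z - m c) + (cl ℓ (y - c) - cl ℓ (z - m c)) := by abel
  rw [h1]
  exact Submodule.add_mem_sup (cl_mem_VS (sub_mem (mem_adj k z) (le_adj k z (hm c (hs c hc)))))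
    (h c (hs c hc))

end shift

variable {K L : Type*} [Field K] [Field L] [PerfectField K] [PerfectField L] {ℓ : ℕ}
  [Fact ℓ.Prime] [NeZero (ℓ : K)] [NeZero (ℓ : L)]
  {k : Subfield K} {l : Subfield L} {Θ : V ℓ K ≃ₗ[ZMod ℓ] V ℓ L}

/-- the situation in which the core lemma applies. -/
theorem Hyp.rat_of (H : Hyp ℓ k l Θ) {G : Subfield K} (hkG : k ≤ G) (hfg : FG k G) {s : K}
    {W : ValuationSubring K} {π θ : K}
    (hW : Nice W (adj G s) π θ) {O : ValuationSubring L} (hT : Tr Θ W π O) {y z : L}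
    (hy : y ∉ l) (h1 : VS ℓ (adj l z) ≤ VS ℓ (adj l y) ⊔ U1 ℓ O)
    (h2 : VS ℓ (adj l y) ≤ VS ℓ (adj l z) ⊔ U1 ℓ O)
    (hys : ∀ v ∈ VS ℓ (adj l y), Θ.symm v ∈ VS ℓ (adj k s)) {E : Subfield K} (hE : Crv k E)
    (hEz : ∀ v, Θ.symm v ∈ VS ℓ E ↔ v ∈ VS ℓ (adj l z)) :
    TrivOn W E ∧ VS ℓ E ≤ VS ℓ (adj k s) ⊔ U1 ℓ W := by
  have hWG : TrivOn W (adj G s) := hW.triv
  have hWs : TrivOn W (adj k s) := hWG.mono (adj_mono hkG s)
  have hWk : TrivOn W k := hWs.mono (le_adj k s)
  constructor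
  · refine triv_of_rk2 (ℓ := ℓ) H.ack hE hWk ?_
    have hfin : ((U1 ℓ O ⊓ VS ℓ (adj l y) : Submodule (ZMod ℓ) (V ℓ L)) :
        Set (V ℓ L)).Finite := by
      refine Set.Finite.of_finite_image (f := Θ.symm) ((hW.finite (ℓ := ℓ) H.ack
        (hkG.trans (le_adj G s)) (hfg.adj s) (le_adj k s) hWs).subset ?_)
        (Θ.symm.injective.injOn)
      rintro _ ⟨v, ⟨hv1, hv2⟩, rfl⟩
      refine ⟨?_, hys v hv2⟩
      refine (hT.iff _).1 ?_
      rwa [LinearEquiv.apply_symm_apply]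
    have h3 : Rk2 (VS ℓ (adj l y)) (U1 ℓ O) :=
      rk2_of_finite (VS_infinite H.acl H.fgl (le_adj l y) (fun h => hy (h (mem_adj l y)))) hfin
    refine Rk2.map (Θ := Θ.symm) (h3.mono h2) (fun v hv => (hEz v).2 hv) ?_
    intro v hv
    have := (hT.iff (Θ.symm v)).2 hv
    rwa [LinearEquiv.apply_symm_apply] at this
  · intro w hw
    have h3 : Θ w ∈ VS ℓ (adj l z) := (hEz _).1 (by rwa [LinearEquiv.symm_apply_apply])
    obtain ⟨a, ha, b, hb, hab⟩ := Submodule.mem_sup.1 (h1 h3)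
    have h4 : w = Θ.symm a + Θ.symm b := by
      rw [← map_add, hab, LinearEquiv.symm_apply_apply]
    rw [h4]
    refine Submodule.add_mem_sup (hys a ha) ((hT.iff _).1 ?_)
    rwa [LinearEquiv.apply_symm_apply]

/-- curves of alg. independent good elements are different. -/
theorem Hyp.crv_ne (H : Hyp ℓ k l Θ) {t s : K} (hs : s ∉ k) (ht : ¬ IsAlgebraic (adj k s) t)
    {E₁ E₂ : Subfield L} (h₁ : ∀ v, Θ v ∈ VS ℓ E₁ ↔ v ∈ VS ℓ (adj k t))
    (h₂ : ∀ v, Θ v ∈ VS ℓ E₂ ↔ v ∈ VS ℓ (adj k s)) : E₁ ≠ E₂ := by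
  rintro rfl
  have h3 : VS ℓ (adj k s) = VS ℓ (adj k t) := by
    ext v
    rw [← h₁, ← h₂]
  have hfin := int_top (ℓ := ℓ) H.ack H.fgk (le_adj k s) (le_adj k t) (mem_adj k t) ht
    (fun z hz => isAlgebraic_of_mem hz)
  rw [← h3, inf_idem] at hfin
  exact VS_infinite H.ack H.fgk (le_adj k s) (fun h => hs (h (mem_adj k s))) hfin

/-- there are two alg. independent good elements. -/
theorem Hyp.exists_good_pair (H : Hyp ℓ k l Θ) :
    ∃ t s, Good k t ∧ Good k s ∧ ¬ IsAlgebraic (adj k s) t := by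
  obtain ⟨x, y, hx, hy⟩ := H.trk
  have := ae_neBot_of_isAlgClosed H.ack
  have h1 := H.bert x y hx hy
  obtain ⟨c₁, hc₁, hg₁⟩ := ((ae_mem k).and h1).exists
  have h2 : ∀ᶠ c in ae k, c ≠ c₁ := by
    rw [ae_iff]
    refine (Set.finite_singleton c₁).subset ?_
    rintro c ⟨-, hc⟩
    rw [not_not] at hc
    exact hc
  obtain ⟨c₂, ⟨hc₂, hg₂⟩, hne⟩ := (((ae_mem k).and h1).and h2).exists
  refine ⟨x + c₁ * y, x + c₂ * y, hg₁, hg₂, fun halg => ?_⟩
  set s := x + c₂ * y with hs
  have hk : RAC k := RAC_of_isAlgClosed k H.ack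
  have hcr : Crv k (adj k s) := Crv.of_good hg₂
  have ht : x + c₁ * y ∈ adj k s := hcr.rac _ halg
  have hkc : c₂ - c₁ ∈ adj k s := hcr.le (k.sub_mem hc₂ hc₁)
  have hne' : c₂ - c₁ ≠ 0 := sub_ne_zero.2 hne
  have hym : y ∈ adj k s := by
    have : y = (s - (x + c₁ * y)) / (c₂ - c₁) := by
      rw [hs]; field_simp; ring
    rw [this]
    exact div_mem (sub_mem (mem_adj k s) ht) hkc
  have hxm : x ∈ adj k s := by
    have : x = s - c₂ * y := by rw [hs]; ring
    rw [this]
    exact sub_mem (mem_adj k s) (mul_mem (hcr.le hc₂) hym)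
  exact hy (hcr.alg hk hxm hx y hym)

theorem adj_mul_const {k : Subfield K} {y c : K} (hc : c ∈ k) (hc0 : c ≠ 0) :
    adj k (c * y) = adj k y := by
  apply le_antisymm
  · exact adj_le (le_adj k y) (mul_mem (le_adj k y hc) (mem_adj k y))
  · refine adj_le (le_adj k _) ?_
    have h1 : c⁻¹ * (c * y) ∈ adj k (c * y) :=
      mul_mem (le_adj k _ (k.inv_mem hc)) (mem_adj k _)
    rwa [inv_mul_cancel_left₀ hc0] at h1

/-- from the core lemma to a rational coordinate. -/
theorem Hyp.rt_of (H : Hyp ℓ k l Θ) {G : Subfield K} (hkG : k ≤ G) (hfg : FG k G) {s : K}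
    (hs : ¬ IsAlgebraic G s) {W : ValuationSubring K} {π θ : K}
    (hW : Nice W (adj G s) π θ) {O : ValuationSubring L} (hT : Tr Θ W π O) {y z : L}
    (hy : y ∉ l) (hz : Good l z) (h1 : VS ℓ (adj l z) ≤ VS ℓ (adj l y) ⊔ U1 ℓ O)
    (h2 : VS ℓ (adj l y) ≤ VS ℓ (adj l z) ⊔ U1 ℓ O)
    (hys : ∀ v ∈ VS ℓ (adj l y), Θ.symm v ∈ VS ℓ (adj k s)) : ∃ u, Rt k l Θ u z := by
  obtain ⟨E, hE, hEz⟩ := H.stepA' z hz
  obtain ⟨hWE, hV⟩ := H.rat_of hkG hfg hW hT hy h1 h2 hys hE hEz
  have hEk : ¬ E ≤ k := by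
    obtain ⟨y₀, hy₀, hy₀k, -⟩ := hE.ex
    exact fun h => hy₀k (h hy₀)
  haveI : PerfectField E := hE.perfect
  haveI : IsAlgClosed k := H.ack
  obtain ⟨u, hu, rfl⟩ := core_rat H.ack hkG hfg hs hW hE.le hWE hV hEk
  refine ⟨u, ⟨fun huk => hEk (adj_le le_rfl huk), hE.rac⟩, hz, fun v => ?_⟩
  rw [← hEz, LinearEquiv.symm_apply_apply]

theorem Hyp.exists_rt (H : Hyp ℓ k l Θ) : ∃ s s', Rt k l Θ s s' := by
  obtain ⟨t, s, ht, hs, hts⟩ := H.exists_good_pair
  have hk : RAC k := RAC_of_isAlgClosed k H.ack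
  have hl : RAC l := RAC_of_isAlgClosed l H.acl
  obtain ⟨Et, hEt, hEt'⟩ := H.stepA t ht
  obtain ⟨Es, hEs, hEs'⟩ := H.stepA s hs
  haveI : PerfectField Et := hEt.perfect
  haveI : PerfectField Es := hEs.perfect
  have hne := H.crv_ne hs.1 hts hEt' hEs'
  obtain ⟨G, hG⟩ := exists_frame H.fgk (fun h => hs.1 (hk s h)) hts
  obtain ⟨θ, hθ⟩ := hG.nice H.fgk
  have := ae_neBot_of_isAlgClosed H.ack
  have hkF : k ≤ adj G s := hG.le.trans (le_adj G s)
  obtain ⟨a, hak, ha⟩ := ((ae_mem k).and (hθ.filter_mono (ae_mono hkF))).exists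
  obtain ⟨W, hWo⟩ := exists_over hG.tt (hkF hak)
  have hW := ha W hWo
  have hWs : TrivOn W (adj k s) := hW.triv.mono (adj_mono hG.le s)
  obtain ⟨O, hOl, hT⟩ := H.exists_tr hkF (hG.fg.adj s) hW hs hWs
  have hOs : TrivOn O Es := H.triv_crv hkF (hG.fg.adj s) hW hOl hT hs.1 hWs hEs
    (fun v hv => (hEs' v).2 hv)
  have hOt : ¬ TrivOn O Et := hT.not_triv hW.unif ((hEt' _).2
    (cl_mem_VS (sub_mem (mem_adj k t) (le_adj k t hak))))
  obtain ⟨x₀, hx₀, hx₀O⟩ : ∃ c ∈ Et, c ∉ O := by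
    by_contra hcon
    push Not at hcon
    exact hOt hcon
  have hx₀0 : x₀ ≠ 0 := by rintro rfl; exact hx₀O (zero_mem O)
  set x := x₀⁻¹ with hx
  have hxE : x ∈ Et := Et.inv_mem hx₀
  have hxO : O.valuation x < 1 := by
    rw [hx, map_inv₀]
    have h1 : 1 < O.valuation x₀ := by
      rw [← not_le, O.valuation_le_one_iff]; exact hx₀O
    exact inv_lt_one_of_one_lt₀ h1
  have hx0 : x ≠ 0 := inv_ne_zero hx₀0
  have hxl : x ∉ l := by
    intro h
    exact hx0 (hOl.eq_zero h hxO)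
  obtain ⟨y, hyE, hyl, -⟩ := hEs.ex
  have hxy : ¬ IsAlgebraic (adj l x) y := by
    intro h
    have hyt : y ∈ Et := hEt.rac y (isAlgebraic_mono (adj_le hEt.le hxE) h)
    exact hne (Crv.eq hl hEt hEs hyt hyE hyl)
  have := ae_neBot_of_isAlgClosed H.acl
  obtain ⟨c, ⟨hcl, hc0⟩, hgood⟩ := (((ae_mem l).and (ne_ae l 0)).and (H.bert' x y hxl hxy)).exists
  have hadj : adj l (c * y) = adj l y := adj_mul_const hcl hc0
  have hcyl : c * y ∉ l := by
    intro h
    apply hyl
    have : y = c⁻¹ * (c * y) := by field_simp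
    rw [this]
    exact l.mul_mem (l.inv_mem hcl) h
  have hadjE : adj l (c * y) ≤ Es := by rw [hadj]; exact adj_le hEs.le hyE
  have hOy : TrivOn O (adj l (c * y)) := hOs.mono hadjE
  have hval : O.valuation (x + c * y - c * y) < 1 := by
    rw [add_sub_cancel_right]; exact hxO
  have hsh : ∀ b ∈ l, cl ℓ (c * y - b) - cl ℓ (x + c * y - b) ∈ U1 ℓ O := fun b hb =>
    cl_shift hcyl hOy hval hb
  obtain ⟨u, hu⟩ := H.rt_of hG.le hG.fg hG.ss hW hT hcyl hgood
    (VS_le_of_shift H.acl hgood.1 (fun b => b) (fun b hb => hb) (fun b hb => by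
      rw [← neg_mem_iff, neg_sub]; exact hsh b hb))
    (VS_le_of_shift H.acl hcyl (fun b => b) (fun b hb => hb) hsh)
    (fun v hv => by
      rw [← hEs', LinearEquiv.apply_symm_apply]
      exact VS_mono hadjE hv)
  exact ⟨u, _, hu⟩

theorem fn_U1 {W : ValuationSubring K} {π : K} (hW : IsUnif W π) {v : V ℓ K}
    (hv : v ∈ U1 ℓ W) : hW.fn ℓ v = 0 := by
  obtain ⟨m, hm, rfl⟩ := hv
  exact hW.fn_unit ℓ _ (val_one_add hm)

omit [PerfectField K] [PerfectField L] [NeZero (ℓ : K)] [NeZero (ℓ : L)] in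
/-- classes at infinity. -/
theorem cl_at_infty {O : ValuationSubring K} (hOk : TrivOn O k) {t : K}
    (ht : 1 < O.valuation t) {b : K} (hb : b ∈ k) : cl ℓ (t - b) - cl ℓ t ∈ U1 ℓ O := by
  have ht0 : t ≠ 0 := by
    rintro rfl
    rw [map_zero] at ht
    exact not_lt_zero ht
  have hm : O.valuation (-(b / t)) < 1 := by
    rw [Valuation.map_neg, map_div₀]
    have hpos : 0 < O.valuation t := lt_trans zero_lt_one ht
    rw [div_lt_one₀ hpos]
    exact lt_of_le_of_lt (hOk.le_one hb) ht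
  have hb0 : t - b ≠ 0 := by
    intro h
    rw [sub_eq_zero] at h
    rw [h] at ht
    exact absurd (hOk.le_one hb) (not_le.2 ht)
  rw [← cl_div ℓ hb0 ht0]
  have : (t - b) / t = 1 + -(b / t) := by field_simp; ring
  rw [this]
  exact cl_mem_U1 hm

/-- at most one fibre has its centre at infinity. -/
theorem two_infty {l : Subfield L} (hk : IsAlgClosed k) (hl : IsAlgClosed l)
    {t : K} {x : L} {c₁ c₂ : L}
    (htk : t ∉ k) (hc₁ : c₁ ∈ l) (hc₂ : c₂ ∈ l) (hne : c₁ ≠ c₂)
    {W₁ W₂ : ValuationSubring L} {O₁ O₂ : ValuationSubring K} (hW₁ : IsUnif W₁ (x - c₁))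
    (hW₂ : IsUnif W₂ (x - c₂)) (hT₁ : Tr Θ.symm W₁ (x - c₁) O₁) (hT₂ : Tr Θ.symm W₂ (x - c₂) O₂)
    (hWl : TrivOn W₂ l)
    (hO₁ : TrivOn O₁ k) (hO₂ : TrivOn O₂ k) (hx₁ : Θ.symm (cl ℓ (x - c₁)) ∈ VS ℓ (adj k t))
    (hx₂ : Θ.symm (cl ℓ (x - c₂)) ∈ VS ℓ (adj k t)) (h₁ : 1 < O₁.valuation t)
    (h₂ : 1 < O₂.valuation t) : False := by
  obtain ⟨S, n, hS, hv⟩ := adj_factor hk htk hx₁
  -- modulo `U1` every class of `k(t)` is a multiple of `cl t`
  have key : ∀ O : ValuationSubring K, TrivOn O k → 1 < O.valuation t →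
      ∑ c ∈ S, n c • cl ℓ (t - c) - (∑ c ∈ S, n c) • cl ℓ t ∈ U1 ℓ O := by
    intro O hO ht
    rw [Finset.sum_smul, ← Finset.sum_sub_distrib]
    refine sum_mem fun c hc => ?_
    rw [← smul_sub]
    exact Submodule.smul_mem _ _ (cl_at_infty hO ht (hS c hc))
  -- `x - c₁` is a constant modulo `W₂`
  have h3 : cl ℓ (x - c₁) ∈ U1 ℓ W₂ := by
    have hc : c₂ - c₁ ∈ l := l.sub_mem hc₂ hc₁
    have hc0 : c₂ - c₁ ≠ 0 := sub_ne_zero.2 hne.symm
    have h4 := cl_sub_cl_mem_U1 (ℓ := ℓ) (x := x - c₁) (hWl.eq_one hc hc0) (by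
      have : x - c₁ - (c₂ - c₁) = x - c₂ := by ring
      rw [this]
      exact hW₂.lt)
    rwa [line_cl_const hl hc, sub_zero] at h4
  have h4 : ∑ c ∈ S, n c • cl ℓ (t - c) ∈ U1 ℓ O₂ := by
    rw [← hv]
    exact (hT₂.iff _).2 h3
  have h5 : (∑ c ∈ S, n c) • cl ℓ t ∈ U1 ℓ O₂ := by
    have := Submodule.sub_mem _ h4 (key O₂ hO₂ h₂)
    rwa [sub_sub_cancel] at this
  by_cases hN : ∑ c ∈ S, n c = 0
  · -- then `cl (x - c₁)` is in `U1 W₁`
    have h6 := key O₁ hO₁ h₁
    rw [hN, zero_smul, sub_zero, ← hv] at h6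
    have h7 := (hT₁.iff _).1 h6
    have h8 := fn_U1 hW₁ h7
    rw [hW₁.fn_self ℓ] at h8
    exact one_ne_zero h8
  · have h6 : cl ℓ t ∈ U1 ℓ O₂ := by
      have h7 := Submodule.smul_mem (U1 ℓ O₂) (∑ c ∈ S, n c)⁻¹ h5
      rwa [smul_smul, inv_mul_cancel₀ hN, one_smul] at h7
    have h7 : ∀ b ∈ k, cl ℓ (t - b) ∈ U1 ℓ O₂ := by
      intro b hb
      have h8 := Submodule.add_mem _ (cl_at_infty (ℓ := ℓ) hO₂ h₂ hb) h6
      rwa [sub_add_cancel] at h8
    obtain ⟨S', n', hS', hv'⟩ := adj_factor hk htk hx₂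
    have h8 : Θ.symm (cl ℓ (x - c₂)) ∈ U1 ℓ O₂ := by
      rw [hv']
      exact sum_mem fun c hc => Submodule.smul_mem _ _ (h7 c (hS' c hc))
    have h9 := fn_U1 hW₂ ((hT₂.iff _).1 h8)
    rw [hW₂.fn_self ℓ] at h9
    exact one_ne_zero h9

theorem Hyp.rt_add (H : Hyp ℓ k l Θ) {s : K} {s' : L} (h : Rt k l Θ s s') {t : K}
    (ht : Good k t) (hts : ¬ IsAlgebraic (adj k s) t) (hg : Good k (t + s)) :
    ∃ z', Rt k l Θ (t + s) z' := by
  have hk : RAC k := RAC_of_isAlgClosed k H.ack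
  have hl : RAC l := RAC_of_isAlgClosed l H.acl
  obtain ⟨Et, hEt, hEt'⟩ := H.stepA t ht
  have hne := H.crv_ne h.good.1 hts hEt' h.map
  have hcs : Crv l (adj l s') := Crv.of_good h.good'
  obtain ⟨x, hxE, hxl, -⟩ := hEt.ex
  have hxs : ¬ IsAlgebraic (adj l s') x := by
    intro h1
    have hx : x ∈ adj l s' := hcs.rac x h1
    exact hne (Crv.eq hl hEt hcs hxE hx hxl)
  obtain ⟨G, hG⟩ := exists_frame H.fgl (fun h1 => h.good'.1 (hl s' h1)) hxs
  obtain ⟨θ, hθ⟩ := hG.nice H.fgl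
  have := ae_neBot_of_isAlgClosed H.acl
  have hlF : l ≤ adj G s' := hG.le.trans (le_adj G s')
  -- for almost all `c` there are `W, O`
  have hex : ∀ᶠ c in ae l, ∃ (W : ValuationSubring L) (O : ValuationSubring K),
      Nice W (adj G s') (x - c) θ ∧ TrivOn O k ∧ Tr Θ.symm W (x - c) O := by
    filter_upwards [ae_mem l, hθ.filter_mono (ae_mono hlF)] with c hcl hc
    obtain ⟨W, hWo⟩ := exists_over hG.tt (hlF hcl)
    have hW := hc W hWo
    obtain ⟨O, hO1, hO2⟩ := H.symm.exists_tr hlF (hG.fg.adj s') hW h.good'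
      (hW.triv.mono (adj_mono hG.le s'))
    exact ⟨W, O, hW, hO1, hO2⟩
  have hmem : ∀ c ∈ l, Θ.symm (cl ℓ (x - c)) ∈ VS ℓ (adj k t) := by
    intro c hc
    rw [← hEt', LinearEquiv.apply_symm_apply]
    exact cl_mem_VS (sub_mem hxE (hEt.le hc))
  -- one of them is centred at a finite point
  obtain ⟨c, hcl, W, O, hW, hOk, hT, a, ha, hta⟩ : ∃ c ∈ l, ∃ (W : ValuationSubring L)
      (O : ValuationSubring K), Nice W (adj G s') (x - c) θ ∧ TrivOn O k ∧
      Tr Θ.symm W (x - c) O ∧ ∃ a ∈ k, O.valuation (t - a) < 1 := by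
    obtain ⟨c₁, hc₁, W₁, O₁, hW₁, hO₁, hT₁⟩ := ((ae_mem l).and hex).exists
    have hn₁ : ¬ TrivOn O₁ (adj k t) := hT₁.not_triv hW₁.unif (hmem c₁ hc₁)
    rcases exists_centre H.ack ht hO₁ hn₁ with ⟨a, ha, hta⟩ | hinf₁
    · exact ⟨c₁, hc₁, W₁, O₁, hW₁, hO₁, hT₁, a, ha, hta⟩
    obtain ⟨c₂, ⟨hc₂, hne₂⟩, W₂, O₂, hW₂, hO₂, hT₂⟩ :=
      (((ae_mem l).and (ne_ae l c₁)).and hex).exists
    have hn₂ : ¬ TrivOn O₂ (adj k t) := hT₂.not_triv hW₂.unif (hmem c₂ hc₂)
    rcases exists_centre H.ack ht hO₂ hn₂ with ⟨a, ha, hta⟩ | hinf₂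
    · exact ⟨c₂, hc₂, W₂, O₂, hW₂, hO₂, hT₂, a, ha, hta⟩
    exact (two_infty H.ack H.acl ht.1 hc₁ hc₂ hne₂.symm hW₁.unif hW₂.unif hT₁ hT₂
      (hW₂.triv.mono hlF) hO₁ hO₂ (hmem c₁ hc₁) (hmem c₂ hc₂) hinf₁ hinf₂).elim
  have hWs : TrivOn W (adj l s') := hW.triv.mono (adj_mono hG.le s')
  have hOs : TrivOn O (adj k s) := H.symm.triv_crv hlF (hG.fg.adj s') hW hOk hT h.good'.1 hWs
    (Crv.of_good h.good) (fun v hv => by
      rw [← h.map, LinearEquiv.apply_symm_apply]; exact hv)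
  have hval : O.valuation (t + s - a - s) < 1 := by
    have : t + s - a - s = t - a := by ring
    rw [this]; exact hta
  have hsh : ∀ b ∈ k, cl ℓ (s - b) - cl ℓ (t + s - (a + b)) ∈ U1 ℓ O := by
    intro b hb
    have h1 := cl_shift (ℓ := ℓ) h.good.1 hOs hval hb
    have : t + s - a - b = t + s - (a + b) := by ring
    rwa [this] at h1
  obtain ⟨u, hu⟩ := H.symm.rt_of hG.le hG.fg hG.ss hW hT h.good.1 hg
    (VS_le_of_shift H.ack hg.1 (fun b => b - a) (fun b hb => k.sub_mem hb ha) (fun b hb => by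
      have h1 := hsh (b - a) (k.sub_mem hb ha)
      rw [add_sub_cancel] at h1
      rw [← neg_mem_iff, neg_sub]
      exact h1))
    (VS_le_of_shift H.ack h.good.1 (fun b => a + b) (fun b hb => k.add_mem ha hb) hsh)
    (fun v hv => by
      rw [LinearEquiv.symm_symm, h.map]; exact hv)
  refine ⟨u, hg, hu.good, fun v => ?_⟩
  have h1 := hu.map (Θ v)
  rw [LinearEquiv.symm_apply_apply] at h1
  exact h1.symm

theorem Hyp.rt_all (H : Hyp ℓ k l Θ) {t : K} (ht : Good k t) : ∃ t', Rt k l Θ t t' := by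
  have hk : RAC k := RAC_of_isAlgClosed k H.ack
  obtain ⟨s, s', h⟩ := H.exists_rt
  by_cases hts : IsAlgebraic (adj k s) t
  · have hadj : adj k t = adj k s :=
      Crv.eq hk (Crv.of_good ht) (Crv.of_good h.good) (mem_adj k t)
        (h.good.2 t hts) ht.1
    exact ⟨s', ht, h.good', fun v => by rw [hadj]; exact h.map v⟩
  · have hst : ¬ IsAlgebraic (adj k t) s := by
      intro h1
      have hadj : adj k s = adj k t :=
        Crv.eq hk (Crv.of_good h.good) (Crv.of_good ht) (mem_adj k s) (ht.2 s h1) h.good.1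
      apply hts
      rw [hadj]
      exact isAlgebraic_of_mem (mem_adj k t)
    have := ae_neBot_of_isAlgClosed H.ack
    obtain ⟨c, ⟨hck, hc0⟩, hgood⟩ :=
      (((ae_mem k).and (ne_ae k 0)).and (H.bert t s ht.1 hst)).exists
    have hnc : -c ∈ k := k.neg_mem hck
    have hnc0 : -c ≠ 0 := neg_ne_zero.2 hc0
    have hadj : adj k (-c * s) = adj k s := adj_mul_const hnc hnc0
    have hcs : -c * s ∉ k := by
      intro h1
      apply h.good.1
      have : s = (-c)⁻¹ * (-c * s) := by field_simp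
      rw [this]
      exact k.mul_mem (k.inv_mem hnc) h1
    have hR : Rt k l Θ (-c * s) s' := by
      refine ⟨⟨hcs, ?_⟩, h.good', fun v => ?_⟩
      · rw [hadj]; exact h.good.2
      · rw [hadj]; exact h.map v
    have e : t + c * s + -c * s = t := by ring
    obtain ⟨z', hz'⟩ := H.rt_add hR (t := t + c * s) hgood (by
      rw [hadj]
      intro h1
      apply hts
      have h2 : t + c * s ∈ adj k s := h.good.2 _ h1
      have : t = (t + c * s) - c * s := by ring
      rw [this]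
      exact isAlgebraic_of_mem (sub_mem h2 (mul_mem (le_adj k s hck) (mem_adj k s))))
      (by rw [e]; exact ht)
    rw [e] at hz'
    exact ⟨z', hz'⟩

end Vale.Agent.P019P
end

section

/-!
# The correspondence of points on rational curves
-/

set_option linter.unusedSectionVars false
set_option linter.unusedVariables false

namespace Vale.Agent.P019P

open Vale.Agent.P019

set_option linter.style.haveILetI false
set_option linter.unusedSectionVars false

open Polynomial Filter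

variable {K L : Type*} [Field K] [Field L] [PerfectField K] [PerfectField L] {ℓ : ℕ}
  [Fact ℓ.Prime] [NeZero (ℓ : K)] [NeZero (ℓ : L)]
  {k : Subfield K} {l : Subfield L} {Θ : V ℓ K ≃ₗ[ZMod ℓ] V ℓ L}

theorem Rt.symm {s : K} {s' : L} (h : Rt k l Θ s s') : Rt l k Θ.symm s' s where
  good := h.good'
  good' := h.good
  map := by
    intro v
    rw [← h.map, LinearEquiv.apply_symm_apply]

theorem Cor.symm {s : K} {s' : L} (hR : Rt k l Θ s s') {e : ZMod ℓ} (he : e ≠ 0) {b : K} {β : L}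
    (h : Cor k l Θ s s' e b β) : Cor l k Θ.symm s' s e⁻¹ β b := by
  intro v hv
  have h1 : Θ.symm v ∈ VS ℓ (adj k s) := (hR.symm.map v).2 hv
  rw [h _ h1, LinearEquiv.apply_symm_apply, inv_mul_cancel_left₀ he]

/-- the corresponding point and the coefficient are unique. -/
theorem Cor.unique (hk : IsAlgClosed k) (hl : IsAlgClosed l) {s : K} {s' : L}
    (hR : Rt k l Θ s s') {e e' : ZMod ℓ} (he : e ≠ 0) {b : K} (hb : b ∈ k) {β β' : L}
    (hβ : β ∈ l) (hβ' : β' ∈ l) (h : Cor k l Θ s s' e b β) (h' : Cor k l Θ s s' e' b β') :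
    β = β' ∧ e = e' := by
  have hv : cl ℓ (s' - β) ∈ VS ℓ (adj l s') :=
    cl_mem_VS ((adj l s').sub_mem (mem_adj l s') (le_adj l s' hβ))
  have h1 : Θ.symm (cl ℓ (s' - β)) ∈ VS ℓ (adj k s) := (hR.symm.map _).2 hv
  have h2 := h _ h1
  have h3 := h' _ h1
  rw [LinearEquiv.apply_symm_apply] at h2 h3
  rw [del_self hl hR.good' hβ, mul_one] at h2
  by_cases hβ1 : β = β'
  · subst hβ1
    rw [del_self hl hR.good' hβ, mul_one] at h3
    exact ⟨rfl, h2.symm.trans h3⟩
  · rw [del_ne hl hR.good' hβ' hβ hβ1, mul_zero] at h3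
    exact absurd (h2.symm.trans h3) he

/-- correspondence is injective. -/
theorem Cor.inj (hk : IsAlgClosed k) (hl : IsAlgClosed l) {s : K} {s' : L}
    (hR : Rt k l Θ s s') {e e' : ZMod ℓ} (he : e ≠ 0) (he' : e' ≠ 0) {b b' : K} (hb : b ∈ k)
    (hb' : b' ∈ k) {β : L} (hβ : β ∈ l) (h : Cor k l Θ s s' e b β)
    (h' : Cor k l Θ s s' e' b' β) : b = b' := by
  have hv : cl ℓ (s - b) ∈ VS ℓ (adj k s) :=
    cl_mem_VS ((adj k s).sub_mem (mem_adj k s) (le_adj k s hb))
  have h2 := h _ hv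
  have h3 := h' _ hv
  rw [del_self hk hR.good hb] at h2
  by_contra hne
  rw [del_ne hk hR.good hb' hb hne] at h3
  have h4 : del ℓ l s' β (Θ (cl ℓ (s - b))) ≠ 0 := by
    intro h0
    rw [h0, mul_zero] at h2
    exact one_ne_zero h2
  exact (mul_ne_zero he' h4) h3.symm

/-- a good element independent of a given one. -/
theorem Hyp.exists_indep (H : Hyp ℓ k l Θ) {s : K} (hs : Good k s) :
    ∃ t, Good k t ∧ ¬ IsAlgebraic (adj k s) t := by
  have hRAC := RAC_of_isAlgClosed k H.ack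
  have hsk : ¬ IsAlgebraic k s := fun h => hs.1 (hRAC s h)
  obtain ⟨x, y, hx, hxy⟩ := H.trk
  have hex : ∃ w : K, ¬ IsAlgebraic (adj k s) w := by
    by_contra hcon
    push Not at hcon
    have h1 : ¬ IsAlgebraic k x := fun h => hx (hRAC x h)
    have h2 : IsAlgebraic (adj k x) s := exchange h1 (hcon x)
    have h3 : adj k s ≤ rac (adj k x) :=
      adj_le ((le_adj k x).trans (le_rac _)) (mem_rac.2 h2)
    exact hxy (mem_rac.1 ((RAC_rac (adj k x)).le h3 (mem_rac.2 (hcon y))))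
  obtain ⟨w, hw⟩ := hex
  have hwk : w ∉ k := fun h => hw (isAlgebraic_of_mem (le_adj k s h))
  have hws : ¬ IsAlgebraic (adj k w) s := fun h => hw (exchange hsk h)
  have hne := ae_neBot_of_isAlgClosed H.ack
  obtain ⟨c, hc, hck⟩ := ((H.bert w s hwk hws).and (ae_mem k)).exists
  refine ⟨w + c * s, hc, fun h => hw ?_⟩
  have h1 : w + c * s ∈ rac (adj k s) := mem_rac.2 h
  have h2 : c * s ∈ rac (adj k s) :=
    le_rac _ ((adj k s).mul_mem (le_adj k s hck) (mem_adj k s))
  have h3 := (rac (adj k s)).sub_mem h1 h2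
  rw [add_sub_cancel_right] at h3
  exact mem_rac.1 h3

/-- the functionals of the points corresponding to a pole. -/
def PoleAt (k : Subfield K) (l : Subfield L) (Θ : V ℓ K ≃ₗ[ZMod ℓ] V ℓ L) (s : K) (s' : L)
    (b : K) : Prop :=
  ∃ f : V ℓ L →ₗ[ZMod ℓ] ZMod ℓ, (∀ v ∈ VS ℓ (adj k s), del ℓ k s b v = f (Θ v)) ∧
    ∀ c ∈ l, f (cl ℓ (s' - c)) = f (cl ℓ s')

theorem PoleAt.prop (hl : IsAlgClosed l) {s' : L} (hs' : Good l s')
    {f : V ℓ L →ₗ[ZMod ℓ] ZMod ℓ} (hf : ∀ c ∈ l, f (cl ℓ (s' - c)) = f (cl ℓ s'))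
    {g : V ℓ L →ₗ[ZMod ℓ] ZMod ℓ} (hg : ∀ c ∈ l, g (cl ℓ (s' - c)) = g (cl ℓ s'))
    {w : V ℓ L} (hw : w ∈ VS ℓ (adj l s')) : f w * g (cl ℓ s') = g w * f (cl ℓ s') := by
  classical
  obtain ⟨T, n, hT, rfl⟩ := adj_factor hl hs'.1 hw
  have key : ∀ {h : V ℓ L →ₗ[ZMod ℓ] ZMod ℓ}, (∀ c ∈ l, h (cl ℓ (s' - c)) = h (cl ℓ s')) →
      h (∑ c ∈ T, n c • cl ℓ (s' - c)) = (∑ c ∈ T, n c) * h (cl ℓ s') := by
    intro h hh
    rw [map_sum, Finset.sum_mul]
    refine Finset.sum_congr rfl fun c hc => ?_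
    rw [map_smul, hh c (hT c hc), smul_eq_mul]
  rw [key hf, key hg]
  ring

theorem PoleAt.unique (hk : IsAlgClosed k) (hl : IsAlgClosed l) {s : K} {s' : L}
    (hR : Rt k l Θ s s') {b₁ b₂ : K} (h₁ : b₁ ∈ k) (h₂ : b₂ ∈ k) (hp₁ : PoleAt k l Θ s s' b₁)
    (hp₂ : PoleAt k l Θ s s' b₂) : b₁ = b₂ := by
  by_contra hne
  obtain ⟨f₁, hf₁, hf₁'⟩ := hp₁
  obtain ⟨f₂, hf₂, hf₂'⟩ := hp₂
  have hv₁ : cl ℓ (s - b₁) ∈ VS ℓ (adj k s) :=
    cl_mem_VS ((adj k s).sub_mem (mem_adj k s) (le_adj k s h₁))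
  have hv₂ : cl ℓ (s - b₂) ∈ VS ℓ (adj k s) :=
    cl_mem_VS ((adj k s).sub_mem (mem_adj k s) (le_adj k s h₂))
  have a11 := hf₁ _ hv₁
  have a21 := hf₂ _ hv₁
  have a12 := hf₁ _ hv₂
  have a22 := hf₂ _ hv₂
  rw [del_self hk hR.good h₁] at a11
  rw [del_ne hk hR.good h₂ h₁ hne] at a21
  rw [del_ne hk hR.good h₁ h₂ (Ne.symm hne)] at a12
  rw [del_self hk hR.good h₂] at a22
  have k1 := PoleAt.prop hl hR.good' hf₁' hf₂' ((hR.map _).2 hv₁)
  have k2 := PoleAt.prop hl hR.good' hf₁' hf₂' ((hR.map _).2 hv₂)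
  rw [← a11, ← a21, one_mul, zero_mul] at k1
  rw [← a12, ← a22, one_mul, zero_mul] at k2
  -- both constants vanish
  obtain ⟨T, n, hT, hw⟩ := adj_factor hl hR.good'.1 ((hR.map _).2 hv₁)
  rw [hw, map_sum] at a11
  rw [Finset.sum_eq_zero] at a11
  · exact one_ne_zero a11
  · intro c hc
    rw [map_smul, hf₁' c (hT c hc), ← k2, smul_zero]

/-- almost all points have a corresponding point. -/
theorem Hyp.exists_cor (H : Hyp ℓ k l Θ) {s : K} {s' : L} (hR : Rt k l Θ s s') :
    ∀ᶠ b in ae k, ∃ β ∈ l, ∃ e : ZMod ℓ, e ≠ 0 ∧ Cor k l Θ s s' e b β := by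
  obtain ⟨t, ht, hst⟩ := H.exists_indep hR.good
  have hRAC := RAC_of_isAlgClosed k H.ack
  have htk : ¬ IsAlgebraic k t := fun h => ht.1 (hRAC t h)
  have hsk : ¬ IsAlgebraic k s := fun h => hR.good.1 (hRAC s h)
  have hts : ¬ IsAlgebraic (adj k t) s := fun h => hst (exchange hsk h)
  obtain ⟨G, hG⟩ := exists_frame H.fgk htk hts
  obtain ⟨θ, hθ⟩ := hG.nice H.fgk
  have hkF : k ≤ adj G t := hG.le.trans (le_adj G t)
  have hθ' := (ae_mono hkF) hθ
  have hmain : ∀ᶠ b in ae k, (∃ β ∈ l, ∃ e : ZMod ℓ, e ≠ 0 ∧ Cor k l Θ s s' e b β) ∨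
      PoleAt k l Θ s s' b := by
    filter_upwards [hθ', ae_mem k] with b hb hbk
    obtain ⟨W, hW⟩ := exists_over hG.tt (hkF hbk)
    have hN := hb W hW
    have hWt : TrivOn W (adj k t) := hN.triv.mono (adj_mono hG.le t)
    have hWk : TrivOn W k := hN.triv.mono hkF
    obtain ⟨O, hOl, hT⟩ := H.exists_tr hkF (hG.fg.adj t) hN ht hWt
    have hsb : cl ℓ (s - b) ∈ VS ℓ (adj k s) :=
      cl_mem_VS ((adj k s).sub_mem (mem_adj k s) (le_adj k s hbk))
    have hnt : ¬ TrivOn O (adj l s') := hT.not_triv hN.unif ((hR.map _).2 hsb)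
    set f : V ℓ L →ₗ[ZMod ℓ] ZMod ℓ := (hN.unif.fn ℓ) ∘ₗ Θ.symm.toLinearMap with hf
    have hfu : ∀ z, O.valuation z = 1 → f (cl ℓ z) = 0 := fun z hz => hT.unit hN.unif z hz
    have hdel : ∀ v ∈ VS ℓ (adj k s), del ℓ k s b v = f (Θ v) := by
      intro v hv
      have h1 := del_of_kills H.ack hR.good hWk hbk hW.lt (hN.unif.fn ℓ)
        (fun z hz => hN.unif.fn_unit ℓ z hz) hv
      rw [hN.unif.fn_self ℓ, one_mul] at h1
      rw [← h1]
      change _ = hN.unif.fn ℓ (Θ.symm (Θ v))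
      rw [LinearEquiv.symm_apply_apply]
    rcases exists_centre H.acl hR.good' hOl hnt with ⟨β, hβ, hβ1⟩ | hinf
    · left
      have hcor : ∀ v ∈ VS ℓ (adj k s),
          del ℓ k s b v = f (cl ℓ (s' - β)) * del ℓ l s' β (Θ v) := by
        intro v hv
        rw [hdel v hv]
        exact del_of_kills H.acl hR.good' hOl hβ hβ1 f hfu ((hR.map v).2 hv)
      refine ⟨β, hβ, f (cl ℓ (s' - β)), ?_, hcor⟩
      intro h0
      have h1 := hcor _ hsb
      rw [h0, zero_mul, del_self H.ack hR.good hbk] at h1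
      exact one_ne_zero h1
    · right
      refine ⟨f, hdel, fun c hc => ?_⟩
      have hs0 : s' ≠ 0 := by
        rintro rfl
        rw [map_zero] at hinf
        exact absurd hinf (not_lt.2 zero_le_one)
      have hcle : O.valuation c < O.valuation s' := (hOl.le_one hc).trans_lt hinf
      have hval : O.valuation (s' - c) = O.valuation s' :=
        Valuation.map_sub_eq_of_lt_left _ hcle
      have hsc0 : s' - c ≠ 0 := by
        intro h
        rw [h, map_zero] at hval
        exact (Valuation.ne_zero_iff O.valuation).2 hs0 hval.symm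
      have h1 : O.valuation ((s' - c) / s') = 1 := by
        rw [map_div₀, hval, div_self ((Valuation.ne_zero_iff O.valuation).2 hs0)]
      have h2 := hfu _ h1
      rw [cl_div ℓ hsc0 hs0, map_sub, sub_eq_zero] at h2
      exact h2
  have hpole : ∀ᶠ b in ae k, ¬ PoleAt k l Θ s s' b := by
    rw [ae_iff]
    refine Set.Subsingleton.finite ?_
    rintro b₁ ⟨h₁, hp₁⟩ b₂ ⟨h₂, hp₂⟩
    rw [not_not] at hp₁ hp₂
    exact PoleAt.unique H.ack H.acl hR h₁ h₂ hp₁ hp₂
  filter_upwards [hmain, hpole] with b h1 h2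
  exact h1.resolve_right h2

/-- the correspondence as a map. -/
structure Psi (k : Subfield K) (l : Subfield L) (Θ : V ℓ K ≃ₗ[ZMod ℓ] V ℓ L) (s : K) (s' : L)
    (ψ : K → L) (e : K → ZMod ℓ) : Prop where
  cor : ∀ᶠ b in ae k, ψ b ∈ l ∧ e b ≠ 0 ∧ Cor k l Θ s s' (e b) b (ψ b)
  surj : ∀ᶠ β in ae l, ∃ b ∈ k, ψ b = β ∧ e b ≠ 0 ∧ Cor k l Θ s s' (e b) b (ψ b)

theorem Hyp.exists_psi (H : Hyp ℓ k l Θ) {s : K} {s' : L} (hR : Rt k l Θ s s') :
    ∃ ψ e, Psi k l Θ s s' ψ e := by
  classical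
  have hex : ∃ (ψ : K → L) (e : K → ZMod ℓ), ∀ b, (∃ β ∈ l, ∃ e : ZMod ℓ, e ≠ 0 ∧
      Cor k l Θ s s' e b β) → ψ b ∈ l ∧ e b ≠ 0 ∧ Cor k l Θ s s' (e b) b (ψ b) := by
    refine ⟨fun b => if h : ∃ β ∈ l, ∃ e : ZMod ℓ, e ≠ 0 ∧ Cor k l Θ s s' e b β then h.choose
      else 0, fun b => if h : ∃ β ∈ l, ∃ e : ZMod ℓ, e ≠ 0 ∧ Cor k l Θ s s' e b β then
        h.choose_spec.2.choose else 0, fun b h => ?_⟩
    simp only [dif_pos h]
    exact ⟨h.choose_spec.1, h.choose_spec.2.choose_spec.1, h.choose_spec.2.choose_spec.2⟩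
  obtain ⟨ψ, e, hψ⟩ := hex
  have hcor : ∀ᶠ b in ae k, ψ b ∈ l ∧ e b ≠ 0 ∧ Cor k l Θ s s' (e b) b (ψ b) := by
    filter_upwards [H.exists_cor hR] with b hb
    exact hψ b hb
  refine ⟨ψ, e, hcor, ?_⟩
  have h1 := H.symm.exists_cor hR.symm
  rw [ae_iff] at hcor
  rw [ae_iff] at h1 ⊢
  have h2 : (⋃ b ∈ {a : K | a ∈ k ∧ ¬ (ψ a ∈ l ∧ e a ≠ 0 ∧ Cor k l Θ s s' (e a) a (ψ a))},
      {β : L | β ∈ l ∧ ∃ e : ZMod ℓ, e ≠ 0 ∧ Cor k l Θ s s' e b β}).Finite := by
    refine hcor.biUnion fun b hb => Set.Subsingleton.finite ?_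
    rintro β ⟨hβ, e₁, he₁, hc₁⟩ β' ⟨hβ', e₂, he₂, hc₂⟩
    exact (Cor.unique H.ack H.acl hR he₁ hb.1 hβ hβ' hc₁ hc₂).1
  refine (h1.union h2).subset ?_
  rintro β ⟨hβ, hno⟩
  by_cases hQ : ∃ b ∈ k, ∃ e : ZMod ℓ, e ≠ 0 ∧ Cor l k Θ.symm s' s e β b
  · right
    obtain ⟨b, hb, e', he', hc⟩ := hQ
    have hc' : Cor k l Θ s s' e'⁻¹ b β := Cor.symm hR.symm he' hc
    rw [Set.mem_iUnion₂]
    refine ⟨b, ⟨hb, fun hgood => hno ?_⟩, hβ, e'⁻¹, inv_ne_zero he', hc'⟩
    exact ⟨b, hb, (Cor.unique H.ack H.acl hR hgood.2.1 hb hgood.1 hβ hgood.2.2 hc').1,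
      hgood.2.1, hgood.2.2⟩
  · left
    exact ⟨hβ, hQ⟩

end Vale.Agent.P019P
end

section

/-!
# Injective rational functions, twisted Moebius transformations
-/

namespace Vale.Agent.P019P

open Vale.Agent.P019

set_option linter.style.haveILetI false
set_option linter.unusedSectionVars false

open Polynomial Filter

theorem mob_nc_of_wronskian {l : Type*} [Field l] {P Q : l[X]} (hw : wronskian P Q ≠ 0) :
    P.natDegree ≠ 0 ∨ Q.natDegree ≠ 0 := by
  by_contra hcon
  push Not at hcon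
  obtain ⟨hP, hQ⟩ := hcon
  apply hw
  rw [eq_C_of_natDegree_eq_zero hP, eq_C_of_natDegree_eq_zero hQ]
  simp [wronskian]

/-- multiplicities of generic fibres are one, for separable rational functions. -/
theorem rootMultiplicity_fibre {l : Type*} [Field l] [IsAlgClosed l] (P Q : l[X])
    (hcop : IsCoprime P Q) (hw : wronskian P Q ≠ 0) :
    {c : l | ∃ x, (P - C c * Q).eval x = 0 ∧ (P - C c * Q).rootMultiplicity x ≠ 1}.Finite := by
  classical
  have hnc := mob_nc_of_wronskian hw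
  refine ((wronskian P Q).roots.toFinset.finite_toSet.image
    (fun x => P.eval x / Q.eval x)).subset ?_
  rintro c ⟨x, hx, hm⟩
  refine ⟨x, ?_, (mob_value hcop hx).2⟩
  have hne := mob_fibre_ne_zero hcop hnc c
  have hpos : 0 < (P - C c * Q).rootMultiplicity x :=
    (rootMultiplicity_pos hne).mpr hx
  have h2 : 1 < (P - C c * Q).rootMultiplicity x := by omega
  have hd : (derivative (P - C c * Q)).IsRoot x :=
    ((one_lt_rootMultiplicity_iff_isRoot hne).mp h2).2
  have hd' : (derivative P).eval x = c * (derivative Q).eval x := by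
    have h3 : (derivative P).eval x - c * (derivative Q).eval x = 0 := by
      have := hd
      simpa [IsRoot, derivative_sub, derivative_C_mul] using this
    linear_combination h3
  have hP : P.eval x = c * Q.eval x := by
    have h3 : P.eval x - c * Q.eval x = 0 := by simpa using hx
    linear_combination h3
  have hw0 : (wronskian P Q).eval x = 0 := by
    simp only [wronskian, eval_sub, eval_mul, hP, hd']
    ring
  simp only [Finset.mem_coe, Multiset.mem_toFinset]
  rw [mem_roots hw]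
  exact hw0

/-- injective separable rational functions are Moebius transformations. -/
theorem mob_of_inj_sep {l : Type*} [Field l] [IsAlgClosed l] (P Q : l[X])
    (hcop : IsCoprime P Q) (hw : wronskian P Q ≠ 0) (S : Set l) (hS : Sᶜ.Finite)
    (hinj : ∀ x ∈ S, ∀ y ∈ S, P.eval x * Q.eval y = P.eval y * Q.eval x → x = y) :
    ∃ A B C' D : l, A * D - B * C' ≠ 0 ∧ P = C A * X + C B ∧ Q = C C' * X + C D := by
  classical
  have : Infinite l := IsAlgClosed.instInfinite
  have hnc := mob_nc_of_wronskian hw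
  set d := max P.natDegree Q.natDegree with hd
  have hdpos : 0 < d := by
    rcases hnc with h | h
    · exact lt_of_lt_of_le (Nat.pos_of_ne_zero h) (le_max_left _ _)
    · exact lt_of_lt_of_le (Nat.pos_of_ne_zero h) (le_max_right _ _)
  -- bad values
  have hB1 := rootMultiplicity_fibre P Q hcop hw
  have hB2 : ((fun x => P.eval x / Q.eval x) '' Sᶜ).Finite := hS.image _
  have hB3 : {c : l | P.coeff d = c * Q.coeff d}.Finite := by
    refine (Set.finite_singleton (P.coeff d / Q.coeff d)).subset ?_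
    intro c hc
    simp only [Set.mem_ofPred_eq] at hc
    have hQd : Q.coeff d ≠ 0 := by
      intro h0
      have hPd : P.coeff d = 0 := by rw [hc, h0, mul_zero]
      rcases le_total P.natDegree Q.natDegree with h | h
      · have hdq : d = Q.natDegree := max_eq_right h
        rw [hdq] at h0
        have hQz : Q = 0 := leadingCoeff_eq_zero.mp h0
        have : Q.natDegree = 0 := by rw [hQz]; simp
        omega
      · have hdp : d = P.natDegree := max_eq_left h
        rw [hdp] at hPd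
        have hPz : P = 0 := leadingCoeff_eq_zero.mp hPd
        have : P.natDegree = 0 := by rw [hPz]; simp
        omega
    simp only [Set.mem_singleton_iff]
    rw [hc]
    field_simp
  obtain ⟨c, hc⟩ := ((hB1.union hB2).union hB3).infinite_compl.nonempty
  simp only [Set.mem_compl_iff, Set.mem_union, not_or] at hc
  obtain ⟨⟨hc1, hc2⟩, hc3⟩ := hc
  set R := P - C c * Q with hR
  have hRne : R ≠ 0 := mob_fibre_ne_zero hcop hnc c
  have hRd : R.natDegree = d := by
    apply le_antisymm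
    · refine (natDegree_sub_le _ _).trans ?_
      exact max_le_max le_rfl (natDegree_C_mul_le c Q)
    · apply le_natDegree_of_ne_zero
      intro h0
      apply hc3
      have : P.coeff d - c * Q.coeff d = 0 := by simpa [hR] using h0
      simp only [Set.mem_ofPred_eq]
      linear_combination this
  have hcount : ∀ x ∈ R.roots, R.roots.count x = 1 := by
    intro x hx
    rw [count_roots]
    by_contra hne
    exact hc1 ⟨x, (mem_roots hRne).mp hx, hne⟩
  have hnodup : R.roots.Nodup := by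
    rw [Multiset.nodup_iff_count_eq_one]
    exact hcount
  have hcard : R.roots.card = d := by
    rw [← hRd]
    exact (splits_iff_card_roots.mp (IsAlgClosed.splits R))
  have hrootS : ∀ x ∈ R.roots, x ∈ S := by
    intro x hx
    by_contra hxS
    exact hc2 ⟨x, hxS, (mob_value hcop ((mem_roots hRne).mp hx)).2⟩
  have hle : d ≤ 1 := by
    rw [← hcard]
    by_contra hlt
    push Not at hlt
    have hfc : R.roots.toFinset.card = R.roots.card := Multiset.toFinset_card_of_nodup hnodup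
    rw [← hfc] at hlt
    obtain ⟨x, hx, y, hy, hxy⟩ := Finset.one_lt_card.mp hlt
    rw [Multiset.mem_toFinset] at hx hy
    apply hxy
    apply hinj x (hrootS x hx) y (hrootS y hy)
    have h1 := mob_value hcop ((mem_roots hRne).mp hx)
    have h2 := mob_value hcop ((mem_roots hRne).mp hy)
    have h3 : P.eval x = c * Q.eval x := by
      rw [← h1.2]; field_simp [h1.1]
    have h4 : P.eval y = c * Q.eval y := by
      rw [← h2.2]; field_simp [h2.1]
    rw [h3, h4]; ring
  have hPd : P.natDegree ≤ 1 := (le_max_left _ _).trans hle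
  have hQd : Q.natDegree ≤ 1 := (le_max_right _ _).trans hle
  have hPe : P = C (P.coeff 1) * X + C (P.coeff 0) := eq_X_add_C_of_natDegree_le_one hPd
  have hQe : Q = C (Q.coeff 1) * X + C (Q.coeff 0) := eq_X_add_C_of_natDegree_le_one hQd
  refine ⟨P.coeff 1, P.coeff 0, Q.coeff 1, Q.coeff 0, ?_, hPe, hQe⟩
  intro hdet
  have hPev : ∀ x, P.eval x = P.coeff 1 * x + P.coeff 0 := by
    intro x
    conv_lhs => rw [hPe]
    simp
  have hQev : ∀ x, Q.eval x = Q.coeff 1 * x + Q.coeff 0 := by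
    intro x
    conv_lhs => rw [hQe]
    simp
  by_cases hC : Q.coeff 1 = 0
  · have hA : P.coeff 1 ≠ 0 := by
      intro hA
      rcases hnc with h | h
      · apply h
        rw [hPe, hA]; simp
      · apply h
        rw [hQe, hC]; simp
    have hD : Q.coeff 0 = 0 := by
      rw [hC, mul_zero, sub_zero] at hdet
      exact (mul_eq_zero.mp hdet).resolve_left hA
    have hQ0 : Q.eval (-(P.coeff 0) / P.coeff 1) = 0 := by rw [hQev, hC, hD]; simp
    apply mob_not_both_root hcop hQ0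
    rw [hPev]
    field_simp
    ring
  · have hQ0 : Q.eval (-(Q.coeff 0) / Q.coeff 1) = 0 := by
      rw [hQev]
      field_simp
      ring
    apply mob_not_both_root hcop hQ0
    rw [hPev]
    field_simp
    linear_combination -hdet

theorem mob_nc_of_inj {l : Type*} [Field l] [IsAlgClosed l] {P Q : l[X]} {S : Set l}
    (hS : Sᶜ.Finite)
    (hinj : ∀ x ∈ S, ∀ y ∈ S, P.eval x * Q.eval y = P.eval y * Q.eval x → x = y) :
    P.natDegree ≠ 0 ∨ Q.natDegree ≠ 0 := by
  have : Infinite l := IsAlgClosed.instInfinite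
  have hSinf : S.Infinite := by
    intro hfin
    have : (Set.univ : Set l).Finite := by
      rw [← Set.union_compl_self S]
      exact hfin.union hS
    exact Set.infinite_univ this
  by_contra hcon
  push Not at hcon
  obtain ⟨hP, hQ⟩ := hcon
  obtain ⟨x, hx, y, hy, hxy⟩ := hSinf.nontrivial
  apply hxy
  apply hinj x hx y hy
  rw [eq_C_of_natDegree_eq_zero hP, eq_C_of_natDegree_eq_zero hQ]
  simp

/-- injective rational functions are Moebius transformations up to Frobenius. -/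
theorem mob_of_inj {l : Type*} [Field l] [IsAlgClosed l] (P Q : l[X])
    (hcop : IsCoprime P Q) (S : Set l) (hS : Sᶜ.Finite)
    (hinj : ∀ x ∈ S, ∀ y ∈ S, P.eval x * Q.eval y = P.eval y * Q.eval x → x = y) :
    ∃ (j : ℕ) (A B C' D : l), A * D - B * C' ≠ 0 ∧
      P = C A * X ^ (ringExpChar l) ^ j + C B ∧ Q = C C' * X ^ (ringExpChar l) ^ j + C D := by
  obtain ⟨p, hp⟩ := ExpChar.exists l
  rw [ringExpChar.eq l p]
  rcases hp with _ | hprime
  · -- characteristic zero
    have hnc := mob_nc_of_inj hS hinj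
    obtain ⟨A, B, C', D, h1, h2, h3⟩ :=
      mob_of_inj_sep P Q hcop (mob_wronskian hcop hnc) S hS hinj
    exact ⟨0, A, B, C', D, h1, by simpa using h2, by simpa using h3⟩
  · -- characteristic p
    rename_i hchar
    have hp0 : p ≠ 0 := hprime.ne_zero
    haveI : Fact p.Prime := ⟨hprime⟩
    haveI : ExpChar l p := ExpChar.prime hprime
    haveI : PerfectField l := IsAlgClosed.perfectField l
    haveI : PerfectRing l p := PerfectField.toPerfectRing p
    have key : ∀ (n : ℕ) (P Q : l[X]) (S : Set l), P.natDegree + Q.natDegree ≤ n →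
        IsCoprime P Q → Sᶜ.Finite →
        (∀ x ∈ S, ∀ y ∈ S, P.eval x * Q.eval y = P.eval y * Q.eval x → x = y) →
        ∃ (j : ℕ) (A B C' D : l), A * D - B * C' ≠ 0 ∧
          P = C A * X ^ p ^ j + C B ∧ Q = C C' * X ^ p ^ j + C D := by
      intro n
      induction n with
      | zero =>
        intro P Q S hn hcop hS hinj
        exfalso
        rcases mob_nc_of_inj hS hinj with h | h <;> omega
      | succ n ih =>
        intro P Q S hn hcop hS hinj
        have hnc := mob_nc_of_inj hS hinj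
        by_cases hw : wronskian P Q = 0
        · rw [hcop.wronskian_eq_zero_iff] at hw
          have hPe := expand_contract p hw.1 hp0
          have hQe := expand_contract p hw.2 hp0
          set P1 := contract p P with hP1
          set Q1 := contract p Q with hQ1
          have hcop1 : IsCoprime P1 Q1 := by
            rw [← isCoprime_expand hp0, hPe, hQe]
            exact hcop
          have hdP : P.natDegree = P1.natDegree * p := by
            rw [← hPe]
            exact natDegree_expand p P1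
          have hdQ : Q.natDegree = Q1.natDegree * p := by
            rw [← hQe]
            exact natDegree_expand p Q1
          have hdeg : P1.natDegree + Q1.natDegree ≤ n := by
            have h2 := hprime.two_le
            have h3 : 2 * P1.natDegree ≤ P.natDegree := by rw [hdP]; nlinarith
            have h4 : 2 * Q1.natDegree ≤ Q.natDegree := by rw [hdQ]; nlinarith
            rcases hnc with h | h <;> omega
          have hbij : Function.Bijective (frobenius l p) := bijective_frobenius l p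
          have hS1 : ((frobenius l p) '' S)ᶜ.Finite := by
            rw [← Set.image_compl_eq hbij]
            exact hS.image _
          obtain ⟨j, A, B, C', D, h1, h2, h3⟩ := ih P1 Q1 ((frobenius l p) '' S) hdeg hcop1 hS1 (by
            rintro _ ⟨x, hx, rfl⟩ _ ⟨y, hy, rfl⟩ hxy
            have : x = y := by
              apply hinj x hx y hy
              rw [← hPe, ← hQe, expand_eval, expand_eval, expand_eval, expand_eval]
              simpa [frobenius_def] using hxy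
            rw [this])
          refine ⟨j + 1, A, B, C', D, h1, ?_, ?_⟩
          · rw [← hPe, h2, map_add, map_mul, map_pow, expand_C, expand_C, expand_X, ← pow_mul,
              pow_succ, mul_comm p]
          · rw [← hQe, h3, map_add, map_mul, map_pow, expand_C, expand_C, expand_X, ← pow_mul,
              pow_succ, mul_comm p]
        · obtain ⟨A, B, C', D, h1, h2, h3⟩ := mob_of_inj_sep P Q hcop hw S hS hinj
          exact ⟨0, A, B, C', D, h1, by simpa using h2, by simpa using h3⟩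
    exact key _ P Q S le_rfl hcop hS hinj

/-- uniqueness of twisted Moebius transformations. -/
theorem twist_mob {L : Type*} [Field L] {i j : ℕ} {u v A B C D : L} (hu : u ≠ 0)
    (hdet : A * D - B * C ≠ 0)
    (h : {x : L | (u * x ^ (ringExpChar L) ^ i + v) * (C * x ^ (ringExpChar L) ^ j + D) =
      A * x ^ (ringExpChar L) ^ j + B}.Infinite) :
    (ringExpChar L) ^ i = (ringExpChar L) ^ j ∧ C = 0 ∧ A = u * D ∧ B = v * D := by
  have hq : 0 < ringExpChar L := by
    obtain ⟨p, hp⟩ := ExpChar.exists L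
    rw [ringExpChar.eq L p]
    exact expChar_pos L p
  set a := (ringExpChar L) ^ i with ha
  set b := (ringExpChar L) ^ j with hb
  have ha0 : 0 < a := pow_pos hq i
  have hb0 : 0 < b := pow_pos hq j
  have hpoly : (Polynomial.C u * X ^ a + Polynomial.C v) * (Polynomial.C C * X ^ b +
      Polynomial.C D) = Polynomial.C A * X ^ b + Polynomial.C B := by
    apply eq_of_infinite_eval_eq
    refine h.mono ?_
    intro x hx
    simpa using hx
  have hexp : Polynomial.C (u * C) * X ^ (a + b) + Polynomial.C (u * D) * X ^ a +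
      Polynomial.C (v * C) * X ^ b + Polynomial.C (v * D) =
      Polynomial.C A * X ^ b + Polynomial.C B := by
    rw [← hpoly]
    simp only [map_mul, pow_add]
    ring
  have c1 := congrArg (fun P => Polynomial.coeff P (a + b)) hexp
  have c2 := congrArg (fun P => Polynomial.coeff P 0) hexp
  have n1 : a + b ≠ a := by omega
  have n2 : a + b ≠ b := by omega
  have n3 : a + b ≠ 0 := by omega
  have n4 : (0 : ℕ) ≠ a := by omega
  have n5 : (0 : ℕ) ≠ b := by omega
  have n6 : (0 : ℕ) ≠ a + b := by omega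
  simp only [coeff_add, coeff_C_mul, coeff_X_pow, coeff_C, n1, n2, n3, if_true, if_false,
    mul_one, mul_zero, add_zero] at c1
  simp only [coeff_add, coeff_C_mul, coeff_X_pow, coeff_C, n4, n5, n6, if_true, if_false,
    mul_zero, zero_add] at c2
  have hC : C = 0 := (mul_eq_zero.mp c1).resolve_left hu
  have hAD : A * D ≠ 0 := by simpa [hC] using hdet
  have hD : D ≠ 0 := right_ne_zero_of_mul hAD
  have c3 := congrArg (fun P => Polynomial.coeff P a) hexp
  have n7 : a ≠ a + b := by omega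
  have n8 : a ≠ 0 := by omega
  by_cases hab : a = b
  · simp only [coeff_add, coeff_C_mul, coeff_X_pow, coeff_C, n8, if_true, if_false,
      mul_one, mul_zero, zero_mul, add_zero, zero_add, hC, ← hab] at c3
    exact ⟨hab, hC, c3.symm, c2.symm⟩
  · exfalso
    simp only [coeff_add, coeff_C_mul, coeff_X_pow, coeff_C, n7, n8, if_true, if_false,
      mul_one, mul_zero, add_zero, zero_add, hC, hab] at c3
    exact mul_ne_zero hu hD c3

end Vale.Agent.P019P
end

section

/-!
# Shifts on fibres and centres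
-/

namespace Vale.Agent.P019P

open Vale.Agent.P019

set_option linter.all false

open Polynomial Filter

section shift

variable {K : Type*} [Field K] [PerfectField K] {ℓ : ℕ} [Fact ℓ.Prime] [NeZero (ℓ : K)]
  {k : Subfield K}

theorem del_aeval (hk : IsAlgClosed k) {s : K} (hs : Good k s) {b : k} {F : k[X]} (hF : F ≠ 0) :
    del ℓ k s b (cl ℓ (aeval s F)) = (F.rootMultiplicity b : ZMod ℓ) := by
  classical
  have hsub : ∀ c : k, s - (c : K) ≠ 0 := by
    intro c h
    apply hs.1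
    rw [sub_eq_zero] at h
    rw [h]
    exact c.2
  have key : ∀ m : Multiset k, del ℓ k s b (cl ℓ (aeval s ((m.map fun a => X - C a).prod : k[X])))
      = (m.count b : ZMod ℓ) ∧ aeval s ((m.map fun a => X - C a).prod : k[X]) ≠ 0 := by
    intro m
    induction m using Multiset.induction_on with
    | empty => simp [cl_one]
    | cons a m ih =>
      have e : aeval s (((a ::ₘ m).map fun a => X - C a).prod : k[X]) =
          (s - (a : K)) * aeval s ((m.map fun a => X - C a).prod : k[X]) := by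
        rw [Multiset.map_cons, Multiset.prod_cons, map_mul, map_sub, aeval_X, aeval_C]
        rfl
      rw [e]
      refine ⟨?_, mul_ne_zero (hsub a) ih.2⟩
      rw [cl_mul ℓ (hsub a) ih.2, map_add, ih.1, Multiset.count_cons]
      by_cases hab : b = a
      · subst hab
        rw [del_self hk hs b.2, if_pos rfl]
        push_cast
        ring
      · rw [del_ne hk hs b.2 a.2 (fun h => hab (Subtype.ext h.symm)), if_neg hab]
        simp
  have h1 : F = C F.leadingCoeff * (F.roots.map fun a => X - C a).prod :=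
    (IsAlgClosed.splits F).eq_prod_roots
  have h2 : aeval s F = ((F.leadingCoeff : k) : K) *
      aeval s ((F.roots.map fun a => X - C a).prod : k[X]) := by
    conv_lhs => rw [h1]
    rw [map_mul, aeval_C]
    rfl
  have h3 : ((F.leadingCoeff : k) : K) ≠ 0 := by
    intro h
    exact hF (leadingCoeff_eq_zero.1 (Subtype.ext h))
  rw [h2, cl_mul ℓ h3 (key F.roots).2, line_cl_const hk (F.leadingCoeff).2, zero_add,
    (key F.roots).1, count_roots]

/-- on the fibres of `t`, the function `z` is a shift of `s`. -/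
structure Shift (ℓ : ℕ) (k : Subfield K) (t s z : K) (m : K → K → K) : Prop where
  mem : ∀ a ∈ k, ∀ b ∈ k, m a b ∈ k
  ev : ∀ᶠ a in ae k, (∀ b ∈ k, ∀ b' ∈ k, m a b = m a b' → b = b') ∧
    (∀ c ∈ k, ∃ b ∈ k, m a b = c) ∧
    ∀ O : ValuationSubring K, TrivOn O (adj k s) → O.valuation (t - a) < 1 →
      ∀ b ∈ k, cl ℓ (s - b) - cl ℓ (z - m a b) ∈ U1 ℓ O

theorem shift_add (hk : IsAlgClosed k) {s : K} (hs : s ∉ k) (t : K) :
    Shift ℓ k t s (t + s) (fun a b => a + b) := by
  refine ⟨fun a ha b hb => add_mem ha hb, ?_⟩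
  filter_upwards [ae_mem k] with a ha
  refine ⟨fun b _ b' _ h => add_left_cancel h, fun c hc => ⟨c - a, sub_mem hc ha, by ring⟩, ?_⟩
  intro O hO hta b hb
  have hsb : s - b ∈ adj k s := sub_mem (mem_adj k s) (le_adj k s hb)
  have hsb0 : s - b ≠ 0 := by
    intro h
    rw [sub_eq_zero] at h
    exact hs (h ▸ hb)
  rw [← neg_mem_iff, neg_sub]
  refine cl_sub_cl_mem_U1 (hO.eq_one hsb hsb0) ?_
  have : t + s - (a + b) - (s - b) = t - a := by ring
  rwa [this]

theorem shift_mul (hk : IsAlgClosed k) {s : K} (hs : s ∉ k) (t : K) :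
    Shift ℓ k t s (t * s) (fun a b => a * b) := by
  refine ⟨fun a ha b hb => mul_mem ha hb, ?_⟩
  have h0 : ∀ᶠ a in ae k, a ≠ 0 := by
    rw [ae_iff]
    refine (Set.finite_singleton (0 : K)).subset ?_
    rintro a ⟨_, ha⟩
    exact not_not.1 ha
  filter_upwards [ae_mem k, h0] with a ha ha0
  refine ⟨fun b _ b' _ h => mul_left_cancel₀ ha0 h,
    fun c hc => ⟨c / a, div_mem hc ha, by field_simp⟩, ?_⟩
  intro O hO hta b hb
  have hsb : s - b ∈ adj k s := sub_mem (mem_adj k s) (le_adj k s hb)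
  have hsb0 : s - b ≠ 0 := by
    intro h
    rw [sub_eq_zero] at h
    exact hs (h ▸ hb)
  have hs0 : s ≠ 0 := by
    rintro rfl
    exact hs (zero_mem k)
  have hasb : a * (s - b) ∈ adj k s := mul_mem (le_adj k s ha) hsb
  have e1 : cl ℓ (a * (s - b)) = cl ℓ (s - b) := by
    rw [cl_mul ℓ ha0 hsb0, line_cl_const hk ha, zero_add]
  rw [← neg_mem_iff, neg_sub, ← e1]
  refine cl_sub_cl_mem_U1 (hO.eq_one hasb (mul_ne_zero ha0 hsb0)) ?_
  have : t * s - a * b - a * (s - b) = (t - a) * s := by ring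
  rw [this, map_mul, hO.eq_one (mem_adj k s) hs0, mul_one]
  exact hta

end shift

variable {K L : Type*} [Field K] [Field L] [PerfectField K] [PerfectField L] {ℓ : ℕ}
  [Fact ℓ.Prime] [NeZero (ℓ : K)] [NeZero (ℓ : L)]
  {k : Subfield K} {l : Subfield L} {Θ : V ℓ K ≃ₗ[ZMod ℓ] V ℓ L}

/-- the transferred valuation is centred at the corresponding point. -/
theorem Hyp.centre (H : Hyp ℓ k l Θ) {t : K} {t' : L} (hR : Rt k l Θ t t') {a : K} (ha : a ∈ k)
    {α : L} (hα : α ∈ l) {e : ZMod ℓ} (he : e ≠ 0) (hc : Cor k l Θ t t' e a α)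
    {W : ValuationSubring L} (hWl : TrivOn W l) (hW : IsUnif W (t' - α)) {O : ValuationSubring K}
    (hOk : TrivOn O k) (hT : Tr Θ.symm W (t' - α) O) : O.valuation (t - a) < 1 := by
  set f : V ℓ K →ₗ[ZMod ℓ] ZMod ℓ := (hW.fn ℓ) ∘ₗ Θ.toLinearMap with hfdef
  have hf : ∀ z, O.valuation z = 1 → f (cl ℓ z) = 0 := by
    intro z hz
    have := hT.unit hW z hz
    rwa [LinearEquiv.symm_symm] at this
  have hfv : ∀ v ∈ VS ℓ (adj k t), del ℓ k t a v = e * f v := by
    intro v hv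
    have h1 : Θ v ∈ VS ℓ (adj l t') := (hR.map v).2 hv
    have h2 := del_of_kills (ℓ := ℓ) H.acl hR.good' hWl hα hW.lt (hW.fn ℓ) (hW.fn_unit ℓ) h1
    have hself : hW.fn ℓ (cl ℓ (t' - α)) = 1 := hW.fn_self ℓ
    rw [hself, one_mul] at h2
    rw [hc v hv, ← h2]
    rfl
  have hmem : ∀ b ∈ k, cl ℓ (t - b) ∈ VS ℓ (adj k t) := fun b hb =>
    cl_mem_VS (sub_mem (mem_adj k t) (le_adj k t hb))
  have hta : e * f (cl ℓ (t - a)) = 1 := by
    rw [← hfv _ (hmem a ha), del_self H.ack hR.good ha]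
  have hne : f (cl ℓ (t - a)) ≠ 0 := by
    intro h
    rw [h, mul_zero] at hta
    exact zero_ne_one hta
  have hnt : ¬ TrivOn O (adj k t) := by
    refine hT.not_triv hW ?_
    rw [← hR.map, LinearEquiv.apply_symm_apply]
    exact cl_mem_VS (sub_mem (mem_adj l t') (le_adj l t' hα))
  rcases exists_centre H.ack hR.good hOk hnt with ⟨b, hb, hbt⟩ | hbig
  · have h1 := del_of_kills (ℓ := ℓ) H.ack hR.good hOk hb hbt f hf (hmem a ha)
    have h2 : a = b := by
      by_contra hab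
      rw [del_ne H.ack hR.good hb ha hab, mul_zero] at h1
      exact hne h1
    rw [h2]
    exact hbt
  · exfalso
    have ha' : a + 1 ∈ k := add_mem ha (one_mem k)
    have hval : ∀ b ∈ k, O.valuation (t - b) = O.valuation t := by
      intro b hb
      rw [Valuation.map_sub_eq_of_lt_left]
      exact lt_of_le_of_lt (hOk.le_one hb) hbig
    have hsub : ∀ b ∈ k, t - b ≠ 0 := by
      intro b hb h
      rw [sub_eq_zero] at h
      exact hR.good.1 (h ▸ hb)
    have ht0 : O.valuation t ≠ 0 := by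
      intro h
      rw [h] at hbig
      exact absurd hbig (not_lt.2 zero_le_one)
    have h1 : O.valuation ((t - a) / (t - (a + 1))) = 1 := by
      rw [map_div₀, hval a ha, hval _ ha', div_self ht0]
    have h2 := hf _ h1
    rw [cl_div ℓ (hsub a ha) (hsub _ ha'), map_sub, sub_eq_zero] at h2
    have h3 := hfv _ (hmem _ ha')
    rw [del_ne H.ack hR.good ha ha' (by simp)] at h3
    rcases mul_eq_zero.1 h3.symm with h4 | h4
    · exact he h4
    · exact hne (h2.trans h4)

end Vale.Agent.P019P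
end

section

/-!
# Twisting the coordinates by Frobenius
-/

namespace Vale.Agent.P019P

open Vale.Agent.P019

set_option linter.style.haveILetI false
set_option linter.unusedSectionVars false

open Polynomial Filter

variable {K L : Type*} [Field K] [Field L] [PerfectField K] [PerfectField L] {ℓ : ℕ}
  [Fact ℓ.Prime] [NeZero (ℓ : K)] [NeZero (ℓ : L)]
  {k : Subfield K} {l : Subfield L} {Θ : V ℓ K ≃ₗ[ZMod ℓ] V ℓ L}

theorem Rt.root (hl : IsAlgClosed l) {s : K} {s' y : L} (h : Rt k l Θ s s') {n : ℕ}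
    (hy : y ^ (ringExpChar L) ^ n = s') : Rt k l Θ s y := by
  haveI : IsAlgClosed l := hl
  haveI : PerfectField l := inferInstance
  subst hy
  refine ⟨h.good, good_pow.1 h.good', fun v => ?_⟩
  have h1 := h.map v
  rwa [adj_pow] at h1

theorem Rt.pow (hl : IsAlgClosed l) {s : K} {s' : L} (h : Rt k l Θ s s') (n : ℕ) :
    Rt k l Θ s (s' ^ (ringExpChar L) ^ n) := by
  haveI : IsAlgClosed l := hl
  haveI : PerfectField l := inferInstance
  refine ⟨h.good, good_pow.2 h.good', fun v => ?_⟩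
  rw [adj_pow]
  exact h.map v

theorem Cor.root (hk : IsAlgClosed k) (hl : IsAlgClosed l) {s : K} {s' y : L}
    (h : Rt k l Θ s s') {n : ℕ}
    (hy : y ^ (ringExpChar L) ^ n = s') {e : ZMod ℓ} {b : K} {β γ : L} (hγ : γ ∈ l)
    (hβ : γ ^ (ringExpChar L) ^ n = β) (hc : Cor k l Θ s s' e b β) :
    Cor k l Θ s y (e * (((ringExpChar L) ^ n : ℕ) : ZMod ℓ)⁻¹) b γ := by
  intro v hv
  have h1 : Rt k l Θ s y := h.root hl hy
  have h2 := del_pow hl h1.good' hγ n ((h1.map v).2 hv)
  have h3 := hc v hv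
  have h4 := q_pow_ne_zero ℓ L n
  rw [hy, hβ] at h2
  rw [h3, ← h2, mul_assoc, inv_mul_cancel_left₀ h4]

theorem Cor.pow (hk : IsAlgClosed k) (hl : IsAlgClosed l) {s : K} {s' : L}
    (h : Rt k l Θ s s') (n : ℕ) {e : ZMod ℓ} {b : K} {β : L} (hβ : β ∈ l)
    (hc : Cor k l Θ s s' e b β) :
    Cor k l Θ s (s' ^ (ringExpChar L) ^ n) (e * (((ringExpChar L) ^ n : ℕ) : ZMod ℓ)) b
      (β ^ (ringExpChar L) ^ n) := by
  intro v hv
  have h2 := del_pow hl h.good' hβ n ((h.map v).2 hv)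
  rw [hc v hv, ← h2, mul_assoc]

/-- the twisted correspondence. -/
theorem Psi.root (hk : IsAlgClosed k) (hl : IsAlgClosed l) {s : K} {s' y : L}
    (h : Rt k l Θ s s') {n : ℕ} (hy : y ^ (ringExpChar L) ^ n = s') {ψ : K → L}
    {e : K → ZMod ℓ} (p : Psi k l Θ s s' ψ e) :
    ∃ ψ' : K → L, (∀ b, ψ' b ^ (ringExpChar L) ^ n = ψ b) ∧
      Psi k l Θ s y ψ' (fun b => e b * (((ringExpChar L) ^ n : ℕ) : ZMod ℓ)⁻¹) := by
  haveI : IsAlgClosed l := hl
  haveI : PerfectField l := inferInstance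
  choose ψ' hψ using fun b => exists_root (ψ b) n
  have h4 := q_pow_ne_zero ℓ L n
  refine ⟨ψ', hψ, ⟨?_, ?_⟩⟩
  · filter_upwards [p.cor] with b hb
    have h5 : ψ' b ∈ l := mem_of_pow_q (n := n) (by rw [hψ b]; exact hb.1)
    exact ⟨h5, mul_ne_zero hb.2.1 (inv_ne_zero h4),
      Cor.root hk hl h hy h5 (hψ b) hb.2.2⟩
  · have h6 : ∀ᶠ γ in ae l, ∃ b ∈ k, ψ b = γ ^ (ringExpChar L) ^ n ∧ e b ≠ 0 ∧
        Cor k l Θ s s' (e b) b (ψ b) := by
      refine relb_comap (k := l) (l := l) (f := fun γ => γ ^ (ringExpChar L) ^ n)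
        (G := fun _ => True) (Eventually.of_forall fun _ => trivial)
        (fun a ha _ => l.pow_mem ha _) (fun a _ _ b _ _ hab => pow_q_inj hab) p.surj
    have h7 : ∀ᶠ γ in ae l, γ ∈ l := by
      rw [ae_iff]
      convert Set.finite_empty
      ext x
      simp
    filter_upwards [h6, h7] with γ h8 h9
    obtain ⟨b, hb, h10, h11, h12⟩ := h8
    have h13 : ψ' b = γ := pow_q_inj (n := n) (by rw [hψ b, h10])
    refine ⟨b, hb, h13, mul_ne_zero h11 (inv_ne_zero h4), ?_⟩
    rw [h13]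
    exact Cor.root hk hl h hy h9 h10.symm h12

end Vale.Agent.P019P
end

section

/-!
# The Moebius relation on the fibres (perfect version)

`relb_comap` is that of the old file.
-/

namespace Vale.Agent.P019P

open Vale.Agent.P019

set_option linter.style.haveILetI false
set_option linter.unusedSectionVars false

open Polynomial Filter

theorem relb_coprime {K : Type*} [Field K] [PerfectField K] {k : Subfield K}
    (hk : IsAlgClosed k) {x z : K} (hx : x ∉ k) (hz : z ∈ adj k x) :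
    ∃ (n : ℕ) (y : K) (p q : k[X]), y ^ (ringExpChar K) ^ n = x ∧ IsCoprime p q ∧ q ≠ 0 ∧
      z = aeval y p / aeval y q := by
  haveI := hk
  obtain ⟨n, y, hy, hzy⟩ := mem_adj_root.1 hz
  have hyk : y ∉ k := by
    intro h
    apply hx
    rw [← hy]
    exact k.pow_mem h _
  obtain ⟨p, q, h1, h2, h3⟩ := Vale.Agent.P019.relb_coprime hk hyk hzy
  exact ⟨n, y, p, q, hy, h1, h2, h3⟩

section relb_psi

variable {K L : Type*} [Field K] [Field L] [PerfectField K] [PerfectField L] {ℓ : ℕ}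
  [Fact ℓ.Prime] [NeZero (ℓ : K)] [NeZero (ℓ : L)]
  {k : Subfield K} {l : Subfield L} {Θ : V ℓ K ≃ₗ[ZMod ℓ] V ℓ L}

/-- the correspondence is generically injective. -/
theorem Psi.relb_pull (hk : IsAlgClosed k) (hl : IsAlgClosed l) {s : K} {s' : L}
    (hR : Rt k l Θ s s') {ψ : K → L} {e : K → ZMod ℓ} (p : Psi k l Θ s s' ψ e) {P : L → Prop}
    (hP : ∀ᶠ β in ae l, P β) : ∀ᶠ b in ae k, P (ψ b) := by
  refine relb_comap p.cor (fun a _ h => h.1) ?_ hP
  intro a ha h b hb h' hab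
  refine Cor.inj hk hl hR h.2.1 h'.2.1 ha hb h.1 h.2.2 ?_
  rw [hab]
  exact h'.2.2

/-- value of the functional at the corresponding point. -/
theorem Cor.relb_theta (hk : IsAlgClosed k) {s : K} {s' : L} (hR : Rt k l Θ s s')
    {e : ZMod ℓ} {b : K} (hb : b ∈ k) {β : L} (h : Cor k l Θ s s' e b β) :
    del ℓ l s' β (Θ (cl ℓ (s - b))) = e⁻¹ := by
  have h1 := h (cl ℓ (s - b)) (cl_mem_VS (sub_mem (mem_adj k s) (le_adj k s hb)))
  rw [del_self hk hR.good hb] at h1
  exact eq_inv_of_mul_eq_one_right h1.symm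

theorem Cor.relb_theta_ne (hk : IsAlgClosed k) {s : K} {s' : L} (hR : Rt k l Θ s s')
    {e : ZMod ℓ} (he : e ≠ 0) {b c : K} (hb : b ∈ k) (hc : c ∈ k) (hcb : c ≠ b) {β : L}
    (h : Cor k l Θ s s' e b β) : del ℓ l s' β (Θ (cl ℓ (s - c))) = 0 := by
  have h1 := h (cl ℓ (s - c)) (cl_mem_VS (sub_mem (mem_adj k s) (le_adj k s hc)))
  rw [del_ne hk hR.good hb hc hcb] at h1
  exact (mul_eq_zero.1 h1.symm).resolve_left he

theorem Psi.relb_sum (hk : IsAlgClosed k) (hl : IsAlgClosed l) {s : K} {s' : L}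
    (hR : Rt k l Θ s s') {ψ : K → L} {e : K → ZMod ℓ} {X : Finset L} (hX : ∀ x ∈ X, x ∈ l)
    (hX' : ∀ β ∈ l, β ∉ X → ∃ b ∈ k, ψ b = β ∧ e b ≠ 0 ∧ Cor k l Θ s s' (e b) b (ψ b))
    {b : K} (hb : b ∈ k) (hψ : ψ b ∈ l) [DecidableEq L] :
    Θ (cl ℓ (s - b)) = ∑ x ∈ insert (ψ b) X,
      del ℓ l s' x (Θ (cl ℓ (s - b))) • cl ℓ (s' - x) := by
  have hmem : Θ (cl ℓ (s - b)) ∈ VS ℓ (adj l s') :=
    (hR.map _).2 (cl_mem_VS (sub_mem (mem_adj k s) (le_adj k s hb)))
  refine del_sum hl hR.good' hmem _ ?_ ?_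
  · intro x hx
    rcases Finset.mem_insert.1 hx with rfl | hx
    · exact hψ
    · exact hX x hx
  · intro x hx hxS
    rw [Finset.mem_insert, not_or] at hxS
    obtain ⟨b₁, hb₁, h1, h2, h3⟩ := hX' x hx hxS.2
    rw [h1] at h3
    refine Cor.relb_theta_ne hk hR h2 hb₁ hb ?_ h3
    rintro rfl
    exact hxS.1 h1.symm

end relb_psi

section relb_poly

variable {L : Type*} [Field L] [PerfectField L] {ℓ : ℕ} [Fact ℓ.Prime] [NeZero (ℓ : L)]
  {l : Subfield L}

theorem relb_aeval_mem {k : Subfield L} (x : L) (F : k[X]) : aeval x F ∈ adj k x :=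
  adj0_le_adj k x (Vale.Agent.P019.relb_aeval_mem x F)

theorem relbF_of_mem (P Q : l[X]) {x : L} (hx : x ∈ l) :
    relbF P Q x = P - C (⟨x, hx⟩ : l) * Q := by
  unfold relbF
  rw [dif_pos hx]

theorem relbF_aeval (P Q : l[X]) {x : L} (hx : x ∈ l) (s : L) :
    aeval s (relbF P Q x) = aeval s P - x * aeval s Q := by
  rw [relbF_of_mem P Q hx, map_sub, map_mul, aeval_C]
  rfl

variable (hl : IsAlgClosed l) {s' z' R : L} (hs' : s' ∉ l) (hz' : z' ∉ l)
  {W : ValuationSubring L} (hWs : TrivOn W (adj l s')) (hWz : TrivOn W (adj l z'))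
  {P Q : l[X]} (hQ : Q ≠ 0) (hR : R = aeval s' P / aeval s' Q) (hW : W.valuation (z' - R) < 1)

include hWz hz' hW in
theorem relb_ne {x : L} (hx : x ∈ l) : R ≠ x := by
  rintro rfl
  have h1 : z' - R ∈ adj l z' := sub_mem (mem_adj l z') (le_adj l z' hx)
  have h2 := hWz.eq_zero h1 hW
  rw [sub_eq_zero] at h2
  rw [h2] at hz'
  exact hz' hx

include hl hs' hWz hz' hQ hR hW in
theorem relbF_ne {x : L} (hx : x ∈ l) : relbF P Q x ≠ 0 := by
  intro h
  have h1 := relbF_aeval P Q hx s'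
  rw [h, map_zero] at h1
  have h2 : aeval s' Q ≠ 0 := line_aeval_ne hl hs' hQ
  apply relb_ne hz' hWz hW hx
  rw [hR, div_eq_iff h2]
  exact (sub_eq_zero.1 h1.symm)

include hl hs' hWz hz' hQ hR hW in
theorem relb_U1 {x : L} (hx : x ∈ l) :
    cl ℓ (z' - x) - (cl ℓ (aeval s' (relbF P Q x)) - cl ℓ (aeval s' Q)) ∈ U1 ℓ W := by
  have h2 : aeval s' Q ≠ 0 := line_aeval_ne hl hs' hQ
  have h3 : aeval s' (relbF P Q x) ≠ 0 :=
    line_aeval_ne hl hs' (relbF_ne hl hs' hz' hWz hQ hR hW hx)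
  have h4 : R - x = aeval s' (relbF P Q x) / aeval s' Q := by
    rw [relbF_aeval P Q hx, hR]
    field_simp
  have h5 : z' - x ≠ 0 := by
    intro h
    rw [sub_eq_zero] at h
    rw [h] at hz'
    exact hz' hx
  have h6 : W.valuation (z' - x) = 1 :=
    hWz.eq_one (sub_mem (mem_adj l z') (le_adj l z' hx)) h5
  rw [← cl_div ℓ h3 h2, ← h4, ← neg_mem_iff, neg_sub]
  refine cl_sub_cl_mem_U1 h6 ?_
  have : R - x - (z' - x) = -(z' - R) := by ring
  rw [this, Valuation.map_neg]
  exact hW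

include hl hs' hWz hz' hQ hR hW in
/-- the congruence for sums. -/
theorem relb_sum_U1 (S : Finset L) (hS : ∀ x ∈ S, x ∈ l) (n : L → ZMod ℓ) :
    ∑ x ∈ S, n x • cl ℓ (z' - x) -
      ∑ x ∈ S, n x • (cl ℓ (aeval s' (relbF P Q x)) - cl ℓ (aeval s' Q)) ∈ U1 ℓ W := by
  rw [← Finset.sum_sub_distrib]
  refine sum_mem fun x hx => ?_
  rw [← smul_sub]
  exact Submodule.smul_mem _ _ (relb_U1 hl hs' hz' hWz hQ hR hW (hS x hx))

theorem relb_sum_VS (S : Finset L) (n : L → ZMod ℓ) (P Q : l[X]) (s' : L) :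
    ∑ x ∈ S, n x • (cl ℓ (aeval s' (relbF P Q x)) - cl ℓ (aeval s' Q)) ∈ VS ℓ (adj l s') :=
  sum_mem fun _ _ => Submodule.smul_mem _ _ (sub_mem (cl_mem_VS (relb_aeval_mem s' _))
    (cl_mem_VS (relb_aeval_mem s' _)))

include hl hs' hWz hz' hQ hR hW in
/-- value of the functionals. -/
theorem relb_del (hg : Good l s') {β : L} (hβ : β ∈ l) {x : L} (hx : x ∈ l) :
    del ℓ l s' β (cl ℓ (aeval s' (relbF P Q x)) - cl ℓ (aeval s' Q)) =
      ((relbF P Q x).rootMultiplicity ⟨β, hβ⟩ : ZMod ℓ) -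
        (Q.rootMultiplicity ⟨β, hβ⟩ : ZMod ℓ) := by
  rw [map_sub]
  have h1 := del_aeval (ℓ := ℓ) hl hg (b := ⟨β, hβ⟩)
    (relbF_ne hl hs' hz' hWz hQ hR hW hx)
  have h2 := del_aeval (ℓ := ℓ) hl hg (b := ⟨β, hβ⟩) hQ
  rw [← h1, ← h2]

/-- almost all points are not roots of a given polynomial. -/
theorem relb_root_ae {F : l[X]} (hF : F ≠ 0) :
    ∀ᶠ β in ae l, ∀ h : β ∈ l, F.rootMultiplicity ⟨β, h⟩ = 0 ∧ F.eval ⟨β, h⟩ ≠ 0 := by
  classical
  rw [ae_iff]
  refine ((F.roots.toFinset.finite_toSet).image (Subtype.val : l → L)).subset ?_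
  rintro β ⟨hβ, h⟩
  refine ⟨⟨β, hβ⟩, ?_, rfl⟩
  rw [Finset.mem_coe, Multiset.mem_toFinset, mem_roots hF]
  by_contra hcon
  apply h
  intro _
  exact ⟨rootMultiplicity_eq_zero hcon, hcon⟩

end relb_poly

/-- multiplicity of the root of a twisted linear polynomial. -/
theorem relb_mult {l : Type*} [Field l] {j : ℕ} {a b c : l} (ha : a ≠ 0)
    (h : (C a * X ^ (ringExpChar l) ^ j + C b : l[X]).eval c = 0) :
    (C a * X ^ (ringExpChar l) ^ j + C b : l[X]).rootMultiplicity c = (ringExpChar l) ^ j := by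
  have h1 : b = -(a * c ^ (ringExpChar l) ^ j) := by
    simp only [eval_add, eval_mul, eval_C, eval_pow, eval_X] at h
    linear_combination h
  haveI : ExpChar l[X] (ringExpChar l) := expChar_of_injective_ringHom (C_injective (R := l)) _
  have h2 : (C a * X ^ (ringExpChar l) ^ j + C b : l[X]) =
      C a * (X - C c) ^ (ringExpChar l) ^ j := by
    rw [sub_pow_expChar_pow, h1, mul_sub, C_neg, C_mul, C_pow]
    ring
  have h3 : (C a * (X - C c) ^ (ringExpChar l) ^ j : l[X]) ≠ 0 :=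
    mul_ne_zero (C_ne_zero.2 ha) (pow_ne_zero _ (X_sub_C_ne_zero c))
  rw [h2, rootMultiplicity_mul h3, rootMultiplicity_C, zero_add, rootMultiplicity_X_sub_C_pow]

variable {K L : Type*} [Field K] [Field L] [PerfectField K] [PerfectField L] {ℓ : ℕ}
  [Fact ℓ.Prime] [NeZero (ℓ : K)] [NeZero (ℓ : L)]
  {k : Subfield K} {l : Subfield L} {Θ : V ℓ K ≃ₗ[ZMod ℓ] V ℓ L}

/-- one generic point. -/
theorem relb_point (hk : IsAlgClosed k) (hl : IsAlgClosed l) {s z : K} {s' z' : L}
    (hs : Rt k l Θ s s') (hz : Rt k l Θ z z') {ψz : K → L} {ez : K → ZMod ℓ}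
    {W : ValuationSubring L} (hWz : TrivOn W (adj l z'))
    {P Q : l[X]} {R : L} (hQ : Q ≠ 0) (hR : R = aeval s' P / aeval s' Q)
    (hW : W.valuation (z' - R) < 1) {Xz : Finset L} (hXz : ∀ x ∈ Xz, x ∈ l)
    (hXz' : ∀ β ∈ l, β ∉ Xz → ∃ b ∈ k, ψz b = β ∧ ez b ≠ 0 ∧ Cor k l Θ z z' (ez b) b (ψz b))
    {b c : K} (hb : b ∈ k) (hc : c ∈ k)
    (hU : Θ (cl ℓ (s - b)) - Θ (cl ℓ (z - c)) ∈ U1 ℓ W)
    {e : ZMod ℓ} {β : L} (hβ : β ∈ l) (hcor : Cor k l Θ s s' e b β)
    (hβ' : ψz c ∈ l) (hcor' : Cor k l Θ z z' (ez c) c (ψz c))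
    (h1 : ∀ y ∈ (U1 ℓ W ⊓ VS ℓ (adj l s') : Submodule (ZMod ℓ) (V ℓ L)), del ℓ l s' β y = 0)
    (h2 : Q.rootMultiplicity ⟨β, hβ⟩ = 0)
    (h3 : ∀ x ∈ Xz, (relbF P Q x).rootMultiplicity ⟨β, hβ⟩ = 0) :
    e⁻¹ = (ez c)⁻¹ * ((relbF P Q (ψz c)).rootMultiplicity ⟨β, hβ⟩ : ZMod ℓ) := by
  classical
  have hs'l : s' ∉ l := hs.good'.1
  have hz'l : z' ∉ l := hz.good'.1
  set n : L → ZMod ℓ := fun x => del ℓ l z' x (Θ (cl ℓ (z - c))) with hn
  have hw : Θ (cl ℓ (z - c)) = ∑ x ∈ insert (ψz c) Xz, n x • cl ℓ (z' - x) :=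
    Psi.relb_sum hk hl hz hXz hXz' hc hβ'
  have hSl : ∀ x ∈ insert (ψz c) Xz, x ∈ l := by
    intro x hx
    rcases Finset.mem_insert.1 hx with rfl | hx
    · exact hβ'
    · exact hXz x hx
  have h4 := relb_sum_U1 (ℓ := ℓ) hl hs'l hz'l hWz hQ hR hW _ hSl n
  rw [← hw] at h4
  have h5 := add_mem hU h4
  rw [sub_add_sub_cancel] at h5
  have h6 : Θ (cl ℓ (s - b)) - ∑ x ∈ insert (ψz c) Xz,
      n x • (cl ℓ (aeval s' (relbF P Q x)) - cl ℓ (aeval s' Q)) ∈ VS ℓ (adj l s') :=
    sub_mem ((hs.map _).2 (cl_mem_VS (sub_mem (mem_adj k s) (le_adj k s hb))))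
      (relb_sum_VS _ n P Q s')
  have h7 := h1 _ ⟨h5, h6⟩
  rw [map_sub, Cor.relb_theta hk hs hb hcor, map_sum, sub_eq_zero] at h7
  rw [h7, Finset.sum_eq_single (ψz c)]
  · rw [map_smul, relb_del hl hs'l hz'l hWz hQ hR hW hs.good' hβ hβ', h2, Nat.cast_zero,
      sub_zero, smul_eq_mul]
    congr 1
    exact Cor.relb_theta hk hz hc hcor'
  · intro x hx hxc
    have hxX : x ∈ Xz := (Finset.mem_insert.1 hx).resolve_left hxc
    rw [map_smul, relb_del hl hs'l hz'l hWz hQ hR hW hs.good' hβ (hXz x hxX), h2, h3 x hxX]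
    simp
  · intro h
    exact absurd (Finset.mem_insert_self _ _) h

/-- the relation on one fibre, for a coordinate of which `z'` is a rational function. -/
theorem Hyp.relb_at0 (H : Hyp ℓ k l Θ) {s z : K} {s' z' : L} (hs : Rt k l Θ s s')
    (hz : Rt k l Θ z z') {ψs ψz : K → L} {es ez : K → ZMod ℓ} (ps : Psi k l Θ s s' ψs es)
    (pz : Psi k l Θ z z' ψz ez) {μ : K → K} (hμ : ∀ b ∈ k, μ b ∈ k)
    (hμi : ∀ b ∈ k, ∀ b' ∈ k, μ b = μ b' → b = b')
    {W : ValuationSubring L} (hWs : TrivOn W (adj l s')) (hWz : TrivOn W (adj l z'))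
    (hfin : ((U1 ℓ W ⊓ VS ℓ (adj l s') : Submodule (ZMod ℓ) (V ℓ L)) : Set (V ℓ L)).Finite)
    {R : L} (hWR : W.valuation (z' - R) < 1) {P Q : l[X]} (hcop : IsCoprime P Q) (hQ0 : Q ≠ 0)
    (hR : R = aeval s' P / aeval s' Q)
    (hU : ∀ b ∈ k, Θ (cl ℓ (s - b)) - Θ (cl ℓ (z - μ b)) ∈ U1 ℓ W) :
    ∃ j : ℕ, ∃ A ∈ l, ∃ B ∈ l, ∃ C ∈ l, ∃ D ∈ l, A * D - B * C ≠ 0 ∧
      (∀ᶠ b in ae k, ψz (μ b) * (C * ψs b ^ (ringExpChar L) ^ j + D) =
          A * ψs b ^ (ringExpChar L) ^ j + B ∧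
        ez (μ b) = (((ringExpChar L) ^ j : ℕ) : ZMod ℓ) * es b) ∧
      W.valuation (z' * (C * s' ^ (ringExpChar L) ^ j + D) -
        (A * s' ^ (ringExpChar L) ^ j + B)) < 1 := by
  classical
  have hk := H.ack
  have hl := H.acl
  have hs'l : s' ∉ l := hs.good'.1
  have hz'l : z' ∉ l := hz.good'.1
  -- the exceptional points
  set Xz : Finset L := (ae_iff.1 pz.surj).toFinset with hXzd
  have hXz : ∀ x ∈ Xz, x ∈ l := fun x hx => ((Set.Finite.mem_toFinset _).1 hx).1
  have hXz' : ∀ β ∈ l, β ∉ Xz →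
      ∃ b ∈ k, ψz b = β ∧ ez b ≠ 0 ∧ Cor k l Θ z z' (ez b) b (ψz b) := by
    intro β hβ h
    by_contra hcon
    exact h ((Set.Finite.mem_toFinset _).2 ⟨hβ, hcon⟩)
  have c1 : ∀ᶠ β in ae l, ∀ y ∈ ((U1 ℓ W ⊓ VS ℓ (adj l s') : Submodule (ZMod ℓ) (V ℓ L)) :
      Set (V ℓ L)), del ℓ l s' β y = 0 :=
    (eventually_all_finite hfin).2 fun y hy => del_ae hl hs.good' hy.2
  have c2 := relb_root_ae hQ0
  have c3 : ∀ᶠ β in ae l, ∀ x ∈ Xz, ∀ h : β ∈ l,
      (relbF P Q x).rootMultiplicity ⟨β, h⟩ = 0 ∧ (relbF P Q x).eval ⟨β, h⟩ ≠ 0 :=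
    (eventually_all_finset Xz).2 fun x hx =>
      relb_root_ae (relbF_ne hl hs'l hz'l hWz hQ0 hR hWR (hXz x hx))
  have c5 : ∀ᶠ b in ae k, ψz (μ b) ∈ l ∧ ez (μ b) ≠ 0 ∧
      Cor k l Θ z z' (ez (μ b)) (μ b) (ψz (μ b)) :=
    relb_comap (l := k) (f := μ) (G := fun _ => True) (Eventually.of_forall fun _ => trivial)
      (fun a ha _ => hμ a ha) (fun a ha _ b hb _ h => hμi a ha b hb h) pz.cor
  -- the generic points
  have key : ∀ᶠ b in ae k, b ∈ k ∧ (es b ≠ 0 ∧ Cor k l Θ s s' (es b) b (ψs b)) ∧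
      (ez (μ b) ≠ 0 ∧ Cor k l Θ z z' (ez (μ b)) (μ b) (ψz (μ b))) ∧
      ∃ (h : ψs b ∈ l) (h' : ψz (μ b) ∈ l), P.eval ⟨ψs b, h⟩ =
        ⟨ψz (μ b), h'⟩ * Q.eval ⟨ψs b, h⟩ ∧ Q.eval ⟨ψs b, h⟩ ≠ 0 ∧
        (es b)⁻¹ = (ez (μ b))⁻¹ *
          ((relbF P Q (ψz (μ b))).rootMultiplicity ⟨ψs b, h⟩ : ZMod ℓ) := by
    filter_upwards [ae_mem k, ps.cor, Psi.relb_pull hk hl hs ps (c1.and (c2.and c3)), c5]
      with b hb hcor hgen hz5
    obtain ⟨hβ, hes, hcs⟩ := hcor
    obtain ⟨g1, g2, g3⟩ := hgen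
    obtain ⟨hβ', hez, hcz⟩ := hz5
    refine ⟨hb, ⟨hes, hcs⟩, ⟨hez, hcz⟩, hβ, hβ', ?_⟩
    have h1 := relb_point hk hl hs hz hWz hQ0 hR hWR hXz hXz' hb (hμ b hb) (hU b hb) hβ
      hcs hβ' hcz g1 (g2 hβ).1 (fun x hx => (g3 x hx hβ).1)
    have h2 : (relbF P Q (ψz (μ b))).rootMultiplicity ⟨ψs b, hβ⟩ ≠ 0 := by
      intro h
      rw [h, Nat.cast_zero, mul_zero] at h1
      exact inv_ne_zero hes h1
    have h3 : (relbF P Q (ψz (μ b))).eval ⟨ψs b, hβ⟩ = 0 := by
      have h4 := (rootMultiplicity_pos (relbF_ne hl hs'l hz'l hWz hQ0 hR hWR hβ')).1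
        (Nat.pos_of_ne_zero h2)
      exact h4
    refine ⟨?_, (g2 hβ).2, h1⟩
    rw [relbF_of_mem P Q hβ', eval_sub, eval_mul, eval_C, sub_eq_zero] at h3
    exact h3
  -- the set of generic points is cofinite
  set S : Set l := {x | ∃ b ∈ k, (es b ≠ 0 ∧ Cor k l Θ s s' (es b) b (ψs b)) ∧
      (ez (μ b) ≠ 0 ∧ Cor k l Θ z z' (ez (μ b)) (μ b) (ψz (μ b))) ∧ ψs b = x ∧
      ∃ (h : ψs b ∈ l) (h' : ψz (μ b) ∈ l), P.eval ⟨ψs b, h⟩ =
        ⟨ψz (μ b), h'⟩ * Q.eval ⟨ψs b, h⟩ ∧ Q.eval ⟨ψs b, h⟩ ≠ 0} with hSd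
  have hSfin : Sᶜ.Finite := by
    have f1 := ae_iff.1 ps.surj
    have f2 := ae_iff.1 key
    refine Set.Finite.of_finite_image (f := (Subtype.val : l → L))
      ((f1.union (f2.image ψs)).subset ?_) Subtype.val_injective.injOn
    rintro _ ⟨x, hx, rfl⟩
    by_contra hcon
    rw [Set.mem_union, not_or] at hcon
    obtain ⟨n1, n2⟩ := hcon
    have n3 : ∃ b ∈ k, ψs b = x ∧ es b ≠ 0 ∧ Cor k l Θ s s' (es b) b (ψs b) := by
      by_contra h
      exact n1 ⟨x.2, h⟩
    obtain ⟨b, hb, hbx, -, -⟩ := n3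
    have n4 : b ∈ k ∧ (es b ≠ 0 ∧ Cor k l Θ s s' (es b) b (ψs b)) ∧
      (ez (μ b) ≠ 0 ∧ Cor k l Θ z z' (ez (μ b)) (μ b) (ψz (μ b))) ∧
      ∃ (h : ψs b ∈ l) (h' : ψz (μ b) ∈ l), P.eval ⟨ψs b, h⟩ =
        ⟨ψz (μ b), h'⟩ * Q.eval ⟨ψs b, h⟩ ∧ Q.eval ⟨ψs b, h⟩ ≠ 0 ∧
        (es b)⁻¹ = (ez (μ b))⁻¹ *
          ((relbF P Q (ψz (μ b))).rootMultiplicity ⟨ψs b, h⟩ : ZMod ℓ) := by
      by_contra h
      exact n2 ⟨b, ⟨hb, h⟩, hbx⟩
    obtain ⟨-, m1, m2, h, h', m3, m4, -⟩ := n4
    exact hx ⟨b, hb, m1, m2, hbx, h, h', m3, m4⟩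
  have hinj : ∀ x ∈ S, ∀ y ∈ S, P.eval x * Q.eval y = P.eval y * Q.eval x → x = y := by
    rintro x ⟨b, hb, u1, u2, hbx, h, h', u3, u4⟩ y ⟨b', hb', v1, v2, hby, i, i', v3, v4⟩ hxy
    have hx : x = ⟨ψs b, h⟩ := Subtype.ext hbx.symm
    have hy : y = ⟨ψs b', i⟩ := Subtype.ext hby.symm
    rw [hx, hy, u3, v3] at hxy
    have w1 : (⟨ψz (μ b), h'⟩ : l) = ⟨ψz (μ b'), i'⟩ := by
      have w2 : (⟨ψz (μ b), h'⟩ : l) * (Q.eval ⟨ψs b, h⟩ * Q.eval ⟨ψs b', i⟩) =
          ⟨ψz (μ b'), i'⟩ * (Q.eval ⟨ψs b, h⟩ * Q.eval ⟨ψs b', i⟩) := by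
        linear_combination hxy
      exact mul_right_cancel₀ (mul_ne_zero u4 v4) w2
    have w3 : ψz (μ b) = ψz (μ b') := congrArg Subtype.val w1
    have w4 : μ b = μ b' := by
      refine Cor.inj hk hl hz u2.1 v2.1 (hμ b hb) (hμ b' hb') h' u2.2 ?_
      rw [w3]
      exact v2.2
    rw [hx, hy]
    rw [Subtype.mk.injEq, hμi b hb b' hb' w4]
  haveI : IsAlgClosed l := hl
  have hq : ringExpChar l = ringExpChar L := ringExpChar.eq l (ringExpChar L)
  obtain ⟨j, A, B, C', D, hdet, hP, hQ⟩ := mob_of_inj P Q hcop S hSfin hinj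
  have eP : ∀ x : L, ∀ hx : x ∈ l, ((P.eval ⟨x, hx⟩ : l) : L) =
      A * x ^ (ringExpChar L) ^ j + B := by
    intro x hx
    rw [hP, hq]
    simp
  have eQ : ∀ x : L, ∀ hx : x ∈ l, ((Q.eval ⟨x, hx⟩ : l) : L) =
      C' * x ^ (ringExpChar L) ^ j + D := by
    intro x hx
    rw [hQ, hq]
    simp
  have aP : aeval s' P = A * s' ^ (ringExpChar L) ^ j + B := by
    rw [hP, hq, map_add, map_mul, aeval_C, aeval_C, map_pow, aeval_X]
    rfl
  have aQ : aeval s' Q = C' * s' ^ (ringExpChar L) ^ j + D := by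
    rw [hQ, hq, map_add, map_mul, aeval_C, aeval_C, map_pow, aeval_X]
    rfl
  refine ⟨j, A, A.2, B, B.2, C', C'.2, D, D.2, ?_, ?_, ?_⟩
  · intro h
    apply hdet
    apply Subtype.ext
    exact h
  · filter_upwards [key] with b hb
    obtain ⟨-, hes, hez, h, h', m3, -, m5⟩ := hb
    constructor
    · have m6 := congrArg (Subtype.val : l → L) m3
      rw [eP] at m6
      rw [m6]
      change _ = (ψz (μ b)) * ((Q.eval ⟨ψs b, h⟩ : l) : L)
      rw [eQ]
    · have hF : relbF P Q (ψz (μ b)) = Polynomial.C (A - ⟨ψz (μ b), h'⟩ * C') *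
          X ^ (ringExpChar l) ^ j + Polynomial.C (B - ⟨ψz (μ b), h'⟩ * D) := by
        rw [relbF_of_mem P Q h', hP, hQ]
        simp only [map_sub, map_mul]
        ring
      have hF0 := relbF_ne hl hs'l hz'l hWz hQ0 hR hWR h'
      have hFe : (relbF P Q (ψz (μ b))).eval ⟨ψs b, h⟩ = 0 := by
        rw [relbF_of_mem P Q h', eval_sub, eval_mul, eval_C, sub_eq_zero]
        exact m3
      have ha : A - ⟨ψz (μ b), h'⟩ * C' ≠ 0 := by
        intro ha
        rw [hF, ha, map_zero, zero_mul, zero_add] at hFe hF0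
        rw [eval_C] at hFe
        rw [hFe, map_zero] at hF0
        exact hF0 rfl
      rw [hF] at hFe
      have hm := relb_mult ha hFe
      rw [hF, hm, hq] at m5
      have n1 := hes.1
      have n2 := hez.1
      field_simp at m5
      rw [m5]
      ring
  · have hQs : aeval s' Q ≠ 0 := line_aeval_ne hl hs'l hQ0
    have h1 : z' * (C' * s' ^ (ringExpChar L) ^ j + D) -
        (A * s' ^ (ringExpChar L) ^ j + B) = aeval s' Q * (z' - R) := by
      rw [← aP, ← aQ, hR]
      field_simp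
    rw [h1, map_mul, hWs.eq_one (relb_aeval_mem s' Q) hQs, one_mul]
    exact hWR

/-- the relation on one fibre. -/
theorem Hyp.relb_at (H : Hyp ℓ k l Θ) {s z : K} {s' z' : L} (hs : Rt k l Θ s s')
    (hz : Rt k l Θ z z') {ψs ψz : K → L} {es ez : K → ZMod ℓ} (ps : Psi k l Θ s s' ψs es)
    (pz : Psi k l Θ z z' ψz ez) {μ : K → K} (hμ : ∀ b ∈ k, μ b ∈ k)
    (hμi : ∀ b ∈ k, ∀ b' ∈ k, μ b = μ b' → b = b') {G' : Subfield L} (hlG : l ≤ G')
    (hfg : FG l G') (hss : ¬ IsAlgebraic G' s') {W : ValuationSubring L} {π θ : L}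
    (hW : Nice W (adj G' s') π θ) (hWz : TrivOn W (adj l z'))
    (hV : VS ℓ (adj l z') ≤ VS ℓ (adj l s') ⊔ U1 ℓ W)
    (hU : ∀ b ∈ k, Θ (cl ℓ (s - b)) - Θ (cl ℓ (z - μ b)) ∈ U1 ℓ W) :
    ∃ i j : ℕ, ∃ A ∈ l, ∃ B ∈ l, ∃ C ∈ l, ∃ D ∈ l, A * D - B * C ≠ 0 ∧
      (∀ᶠ b in ae k, ψz (μ b) ^ (ringExpChar L) ^ i * (C * ψs b ^ (ringExpChar L) ^ j + D) =
          A * ψs b ^ (ringExpChar L) ^ j + B ∧
        (((ringExpChar L) ^ i : ℕ) : ZMod ℓ) * ez (μ b) =
          (((ringExpChar L) ^ j : ℕ) : ZMod ℓ) * es b) ∧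
      W.valuation (z' ^ (ringExpChar L) ^ i * (C * s' ^ (ringExpChar L) ^ j + D) -
        (A * s' ^ (ringExpChar L) ^ j + B)) < 1 := by
  have hk := H.ack
  have hl := H.acl
  have hs'l : s' ∉ l := hs.good'.1
  have hWs : TrivOn W (adj l s') := hW.triv.mono (adj_mono hlG s')
  obtain ⟨R, hRmem, hWR⟩ := core hl hlG hfg hss hW (le_adj l z') hWz hV z' (mem_adj l z')
  obtain ⟨n, y, P, Q, hy, hcop, hQ0, hR⟩ := relb_coprime hl hs'l hRmem
  have hfin : ((U1 ℓ W ⊓ VS ℓ (adj l s') : Submodule (ZMod ℓ) (V ℓ L)) : Set (V ℓ L)).Finite :=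
    hW.finite hl (hlG.trans (le_adj G' s')) (hfg.adj s') (le_adj l s') hWs
  have hadj : adj l s' = adj l y := by rw [← hy, adj_pow]
  rw [hadj] at hWs hfin
  obtain ⟨ψ', hψ', ps'⟩ := ps.root hk hl hs hy
  obtain ⟨j, A, hA, B, hB, C', hC, D, hD, hdet, hgen, hval⟩ := H.relb_at0 (hs.root hl hy) hz ps'
    pz hμ hμi hWs hWz hfin hWR hcop hQ0 hR hU
  have hq := q_pow_ne_zero ℓ L n
  have hcomm : ∀ x : L, (x ^ (ringExpChar L) ^ j) ^ (ringExpChar L) ^ n =
      (x ^ (ringExpChar L) ^ n) ^ (ringExpChar L) ^ j := by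
    intro x
    rw [← pow_mul, ← pow_mul, mul_comm]
  refine ⟨n, j, A ^ (ringExpChar L) ^ n, l.pow_mem hA _, B ^ (ringExpChar L) ^ n,
    l.pow_mem hB _, C' ^ (ringExpChar L) ^ n, l.pow_mem hC _, D ^ (ringExpChar L) ^ n,
    l.pow_mem hD _, ?_, ?_, ?_⟩
  · rw [← mul_pow, ← mul_pow, ← sub_pow_q]
    exact pow_ne_zero _ hdet
  · filter_upwards [hgen] with b hb
    obtain ⟨h1, h2⟩ := hb
    constructor
    · have h3 := congrArg (fun x => x ^ (ringExpChar L) ^ n) h1
      simp only [mul_pow, add_pow_q, hcomm, hψ'] at h3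
      exact h3
    · rw [h2]
      field_simp
  · have h3 : z' ^ (ringExpChar L) ^ n *
        (C' ^ (ringExpChar L) ^ n * s' ^ (ringExpChar L) ^ j + D ^ (ringExpChar L) ^ n) -
        (A ^ (ringExpChar L) ^ n * s' ^ (ringExpChar L) ^ j + B ^ (ringExpChar L) ^ n) =
        (z' * (C' * y ^ (ringExpChar L) ^ j + D) -
          (A * y ^ (ringExpChar L) ^ j + B)) ^ (ringExpChar L) ^ n := by
      simp only [sub_pow_q, mul_pow, add_pow_q, hcomm, hy]
    rw [h3, map_pow]
    exact pow_lt_one₀ zero_le hval (pow_pos (expChar_pos L _) n).ne'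

/-- the Moebius relation on the fibres. -/
theorem Hyp.rel (H : Hyp ℓ k l Θ) {t s z : K} {t' s' z' : L}
    (hts : ¬ IsAlgebraic (adj k s) t) (ht : Rt k l Θ t t') (hs : Rt k l Θ s s')
    (hz : Rt k l Θ z z') {m : K → K → K} (hm : Shift ℓ k t s z m) {ψt ψs ψz : K → L}
    {et es ez : K → ZMod ℓ} (pt : Psi k l Θ t t' ψt et) (ps : Psi k l Θ s s' ψs es)
    (pz : Psi k l Θ z z' ψz ez) :
    ∃ G' : Subfield L, Frame l G' t' s' ∧ ∀ᶠ a in ae k,
      ∃ i j : ℕ, ∃ A ∈ l, ∃ B ∈ l, ∃ C ∈ l, ∃ D ∈ l, A * D - B * C ≠ 0 ∧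
        (∀ᶠ b in ae k,
          ψz (m a b) ^ (ringExpChar L) ^ i * (C * ψs b ^ (ringExpChar L) ^ j + D) =
            A * ψs b ^ (ringExpChar L) ^ j + B ∧
          (((ringExpChar L) ^ i : ℕ) : ZMod ℓ) * ez (m a b) =
            (((ringExpChar L) ^ j : ℕ) : ZMod ℓ) * es b) ∧
        ∃ W : ValuationSubring L, Over W (adj G' s') t' (ψt a) ∧
          W.valuation (z' ^ (ringExpChar L) ^ i * (C * s' ^ (ringExpChar L) ^ j + D) -
            (A * s' ^ (ringExpChar L) ^ j + B)) < 1 := by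
  have hk := H.ack
  have hl := H.acl
  have hRl : RAC l := RAC_of_isAlgClosed l hl
  have hs'l : s' ∉ l := hs.good'.1
  have ht'l : t' ∉ l := ht.good'.1
  -- `t'` and `s'` are independent
  have ht's' : ¬ IsAlgebraic (adj l s') t' := by
    intro h
    have h1 : t' ∈ adj l s' := hs.good'.2 t' h
    have h2 : adj l t' = adj l s' :=
      Crv.eq hRl (Crv.of_good ht.good') (Crv.of_good hs.good') (mem_adj l t') h1 ht'l
    exact H.crv_ne hs.good.1 hts ht.map hs.map h2
  obtain ⟨G', hfr⟩ := exists_frame H.fgl (fun h => hs'l (hRl _ h)) ht's'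
  refine ⟨G', hfr, ?_⟩
  obtain ⟨θ, hθ⟩ := hfr.nice H.fgl
  have hlF : l ≤ adj G' s' := hfr.le.trans (le_adj G' s')
  have hθ' := (ae_mono hlF) hθ
  filter_upwards [ae_mem k, pt.cor, Psi.relb_pull hk hl ht pt hθ', hm.ev] with a ha hcor hnice hev
  obtain ⟨hα, he, hc⟩ := hcor
  obtain ⟨hinj, hsurj, hO⟩ := hev
  obtain ⟨W, hWo⟩ := exists_over hfr.tt (hlF hα)
  have hW : Nice W (adj G' s') (t' - ψt a) θ := hnice W hWo
  have hfgF : FG l (adj G' s') := hfr.fg.adj s'
  have hWs : TrivOn W (adj l s') := hW.triv.mono (adj_mono hfr.le s')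
  have hWl : TrivOn W l := hW.triv.mono hlF
  obtain ⟨O, hOk, hT⟩ := H.symm.exists_tr hlF hfgF hW hs.good' hWs
  have hys : ∀ v ∈ VS ℓ (adj l s'), Θ.symm v ∈ VS ℓ (adj k s) := by
    intro v hv
    refine (hs.map _).1 ?_
    rwa [LinearEquiv.apply_symm_apply]
  have hOs : TrivOn O (adj k s) :=
    H.symm.triv_crv hlF hfgF hW hOk hT hs'l hWs (Crv.of_good hs.good) hys
  have hcen : O.valuation (t - a) < 1 := H.centre ht ha hα he hc hWl hW.unif hOk hT
  have hU := hO O hOs hcen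
  have hUL : ∀ b ∈ k, Θ (cl ℓ (s - b)) - Θ (cl ℓ (z - m a b)) ∈ U1 ℓ W := by
    intro b hb
    rw [← map_sub]
    refine (hT.iff _).1 ?_
    rw [LinearEquiv.symm_apply_apply]
    exact hU b hb
  have hV1 : VS ℓ (adj k s) ≤ VS ℓ (adj k z) ⊔ U1 ℓ O :=
    VS_le_of_shift hk hs.good.1 (m a) (fun b hb => hm.mem a ha b hb) hU
  have hV2 : VS ℓ (adj k z) ≤ VS ℓ (adj k s) ⊔ U1 ℓ O := by
    have h1 : ∀ c : K, ∃ b : K, c ∈ k → b ∈ k ∧ m a b = c := by
      intro c
      by_cases hc : c ∈ k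
      · obtain ⟨b, hb, h⟩ := hsurj c hc
        exact ⟨b, fun _ => ⟨hb, h⟩⟩
      · exact ⟨0, fun h => absurd h hc⟩
    choose m' hm' using h1
    refine VS_le_of_shift hk hz.good.1 m' (fun c hc => (hm' c hc).1) ?_
    intro c hc
    have h2 := hU (m' c) (hm' c hc).1
    rw [(hm' c hc).2] at h2
    rw [← neg_mem_iff, neg_sub]
    exact h2
  obtain ⟨hWz, hV⟩ := H.symm.rat_of hfr.le hfr.fg hW hT hs.good.1 hV2 hV1
    (fun v hv => (hs.map v).2 hv) (Crv.of_good hz.good') hz.map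
  obtain ⟨i, j, A, hA, B, hB, C', hC, D, hD, hdet, hgen, hval⟩ := H.relb_at hs hz ps pz
    (μ := m a) (fun b hb => hm.mem a ha b hb) hinj hfr.le hfr.fg hfr.ss hW hWz hV hUL
  exact ⟨i, j, A, hA, B, hB, C', hC, D, hD, hdet, hgen, W, hWo, hval⟩

end Vale.Agent.P019P
end

section

/-!
# Restriction of a map to the constants
-/

namespace Vale.Agent.P019P

open Vale.Agent.P019

set_option linter.style.haveILetI false
set_option linter.unusedSectionVars false

open Polynomial Filter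

/-- `rst_eq` without hypotheses on the fields. -/
theorem sigb_rst_eq {K L : Type*} [Field K] [Field L] {k : Subfield K} {l : Subfield L}
    {ψ : K → L} {b : k} (h : ψ b ∈ l) : (rst k l ψ b : L) = ψ b := by
  unfold rst
  rw [dif_pos h]

/-- almost all values of an isomorphism are in any given infinite set of conditions. -/
theorem sigb_infinite {K L : Type*} [Field K] [Field L] {k : Subfield K} {l : Subfield L}
    (hk : IsAlgClosed k) {σ : K → L} (hσ : IsoOn k l σ) {P : L → Prop}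
    (h : ∀ᶠ b in ae k, P (σ b)) : {x : L | P x}.Infinite := by
  intro hfin
  rw [ae_iff] at h
  apply infinite_of_isAlgClosed hk
  have h1 : {b : K | b ∈ k ∧ P (σ b)}.Finite := by
    refine Set.Finite.of_finite_image (f := σ) (hfin.subset ?_) ?_
    · rintro _ ⟨b, hb, rfl⟩
      exact hb.2
    · intro a ha b hb hab
      exact hσ.inj ha.1 hb.1 hab
  refine (h1.union h).subset ?_
  intro b hb
  by_cases hP : P (σ b)
  · exact Or.inl ⟨hb, hP⟩
  · exact Or.inr ⟨hb, hP⟩

end Vale.Agent.P019P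
end

section

/-!
# Generic good elements
-/

namespace Vale.Agent.P019P

open Vale.Agent.P019

set_option linter.style.haveILetI false
set_option linter.unusedSectionVars false

open Polynomial Filter

variable {K : Type*} [Field K] [PerfectField K] {k : Subfield K}

/-- algebraic independence of a pair. -/
def Ind (k : Subfield K) (x y : K) : Prop := x ∉ k ∧ ¬ IsAlgebraic (adj k x) y

theorem Ind.symm (hk : IsAlgClosed k) {x y : K} (h : Ind k x y) : Ind k y x := by
  have hxk : ¬ IsAlgebraic k x := fun h' => h.1 (RAC_of_isAlgClosed k hk x h')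
  refine ⟨fun hy => h.2 (isAlgebraic_of_mem (le_adj k x hy)), fun h' => h.2 (exchange hxk h')⟩

/-- an affine line over `k` meets a subfield containing `k` in at most one point, unless it is
contained in it. -/
theorem gen_one {F : Subfield K} (hkF : k ≤ F) {u v : K} (h : u ∈ F → v ∉ F) :
    ∀ᶠ c in ae k, u + c * v ∉ F := by
  rw [ae_iff]
  apply Set.Subsingleton.finite
  rintro c ⟨hc, hc1⟩ c' ⟨hc', hc1'⟩
  rw [not_not] at hc1 hc1'
  by_contra hne
  have hd : c - c' ≠ 0 := sub_ne_zero.2 hne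
  have hv : v ∈ F := by
    have : v = ((u + c * v) - (u + c' * v)) / (c - c') := by field_simp; ring
    rw [this]
    exact F.div_mem (F.sub_mem hc1 hc1') (F.sub_mem (hkF hc) (hkF hc'))
  have hu : u ∈ F := by
    have : u = (u + c * v) - c * v := by ring
    rw [this]
    exact F.sub_mem hc1 (F.mul_mem (hkF hc) hv)
  exact h hu hv

theorem gen_avoid (hk : (k : Set K).Infinite) {ι : Type*} [DecidableEq ι] (s : Finset ι) (E : ι → Subfield K) (t : ι → K)
    (hE : ∀ i ∈ s, k ≤ E i) (ht : ∀ i ∈ s, t i ≠ 0) (hz : ∀ i ∈ s, ∃ z, z ∉ E i) :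
    ∃ y, ∀ i ∈ s, y * t i ∉ E i := by
  induction s using Finset.induction_on with
  | empty => exact ⟨0, by simp⟩
  | insert j s hj ih =>
    obtain ⟨y, hy⟩ := ih (fun i hi => hE i (Finset.mem_insert_of_mem hi))
      (fun i hi => ht i (Finset.mem_insert_of_mem hi))
      (fun i hi => hz i (Finset.mem_insert_of_mem hi))
    obtain ⟨z₀, hz₀⟩ := hz j (Finset.mem_insert_self j s)
    set z : K := z₀ / t j with hzdef
    have hzt : z * t j ∉ E j := by
      rw [hzdef, div_mul_cancel₀ _ (ht j (Finset.mem_insert_self j s))]; exact hz₀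
    have h1 : ∀ᶠ c in ae k, ∀ i ∈ insert j s, y * t i + c * (z * t i) ∉ E i := by
      rw [Filter.eventually_all_finset]
      intro i hi
      refine gen_one (hE i hi) (fun hu => ?_)
      rcases Finset.mem_insert.1 hi with rfl | hi'
      · exact hzt
      · exact absurd hu (hy i hi')
    have := ae_neBot hk
    obtain ⟨c, hc⟩ := h1.exists
    refine ⟨y + c * z, fun i hi => ?_⟩
    have := hc i hi
    rwa [← mul_assoc, ← add_mul] at this

/-- the algebraic closure of a simple extension is proper. -/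
theorem gen_proper (hk : IsAlgClosed k)
    (htr : ∃ x y : K, x ∉ k ∧ ¬ IsAlgebraic (adj k x) y) (a : K) :
    ∃ z, z ∉ rac (adj k a) := by
  obtain ⟨x, y, hx, hy⟩ := htr
  by_contra hcon
  push Not at hcon
  have hxk : ¬ IsAlgebraic k x := fun h' => hx (RAC_of_isAlgClosed k hk x h')
  have h1 : IsAlgebraic (adj k x) a := exchange hxk (mem_rac.1 (hcon x))
  have h2 : adj k a ≤ rac (adj k x) :=
    adj_le ((le_adj k x).trans (le_rac _)) (mem_rac.2 h1)
  exact hy (isAlgebraic_rac (isAlgebraic_mono h2 (mem_rac.1 (hcon y))))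

theorem gen_bert (hk : IsAlgClosed k) (hfg : FG k (⊤ : Subfield K)) {x y : K} (hx : x ∉ k)
    (hy : y ∉ rac (adj k x)) : ∀ᶠ c in ae k, Good k (x + c * y) := by
  rw [ae_iff]
  exact bertini hk hfg hx (fun h => hy (mem_rac.2 h))

theorem gen_ind (hk : IsAlgClosed k) {b s : K} (hb : b ∉ k) (hs : s ∉ rac (adj k b)) :
    Ind k s b :=
  Ind.symm hk ⟨hb, fun h => hs (mem_rac.2 h)⟩

theorem exists_gen_add (hk : IsAlgClosed k) (hfg : FG k (⊤ : Subfield K))
    (htr : ∃ x y : K, x ∉ k ∧ ¬ IsAlgebraic (adj k x) y) (A B : Finset K)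
    (hB : ∀ b ∈ B, Good k b) :
    ∃ t, ∀ a ∈ A, Good k (a + t) ∧ ∀ b ∈ B, Ind k (a + t) b := by
  classical
  have hki := infinite_of_isAlgClosed hk
  have := ae_neBot hki
  obtain ⟨x, y, hx, hy⟩ := id htr
  obtain ⟨x₀, hx₀⟩ : ∃ x₀ : K, ∀ a ∈ A, a + x₀ ∉ k := by
    have h1 : ∀ᶠ c in ae k, ∀ a ∈ A, a + c * x ∉ k := by
      rw [Filter.eventually_all_finset]
      exact fun a _ => gen_one le_rfl (fun _ => hx)
    obtain ⟨c, hc⟩ := h1.exists
    exact ⟨c * x, hc⟩
  obtain ⟨y₀, hy₀⟩ := gen_avoid hki ((A.image fun a => a + x₀) ∪ B)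
    (fun a => rac (adj k a)) (fun _ => 1)
    (fun a _ => (le_adj k a).trans (le_rac _)) (fun _ _ => one_ne_zero)
    (fun a _ => gen_proper hk htr a)
  simp only [mul_one] at hy₀
  have h1 : ∀ᶠ c in ae k, ∀ a ∈ A, Good k (a + x₀ + c * y₀) := by
    rw [Filter.eventually_all_finset]
    intro a ha
    refine gen_bert hk hfg (hx₀ a ha) (hy₀ _ ?_)
    exact Finset.mem_union_left _ (Finset.mem_image_of_mem _ ha)
  have h2 : ∀ᶠ c in ae k, ∀ a ∈ A, ∀ b ∈ B, a + x₀ + c * y₀ ∉ rac (adj k b) := by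
    rw [Filter.eventually_all_finset]
    intro a _
    rw [Filter.eventually_all_finset]
    intro b hb
    exact gen_one ((le_adj k b).trans (le_rac _))
      (fun _ => hy₀ b (Finset.mem_union_right _ hb))
  obtain ⟨c, hc1, hc2⟩ := (h1.and h2).exists
  refine ⟨x₀ + c * y₀, fun a ha => ?_⟩
  rw [← add_assoc]
  exact ⟨hc1 a ha, fun b hb => gen_ind hk (hB b hb).1 (hc2 a ha b hb)⟩

theorem exists_gen_mul (hk : IsAlgClosed k) (hfg : FG k (⊤ : Subfield K))
    (htr : ∃ x y : K, x ∉ k ∧ ¬ IsAlgebraic (adj k x) y) (h t : K) (ht : Good k t) :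
    ∃ s, Good k s ∧ Good k (h + s) ∧ Good k (s * t) ∧ Good k ((h + s) * t) ∧ Ind k s t ∧
      Ind k (h + s) t := by
  classical
  have hki := infinite_of_isAlgClosed hk
  have := ae_neBot hki
  have ht0 : t ≠ 0 := fun h0 => ht.1 (h0 ▸ k.zero_mem)
  obtain ⟨x, hx⟩ : ∃ x : K, x ∉ k := ⟨t, ht.1⟩
  -- the element `x₁` with `x₁` and `x₁ t` not in `k`
  obtain ⟨x₁, hx₁⟩ := gen_avoid hki (Finset.univ : Finset Bool) (fun _ => k)
    (fun b => if b then t else 1) (fun _ _ => le_rfl)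
    (fun b _ => by cases b <;> simp [ht0]) (fun _ _ => ⟨x, hx⟩)
  have hx₁1 : x₁ ∉ k := by simpa using hx₁ false (Finset.mem_univ _)
  have hx₁t : x₁ * t ∉ k := by simpa using hx₁ true (Finset.mem_univ _)
  obtain ⟨x₀, hx₀1, hx₀2, hx₀3, hx₀4⟩ :
      ∃ x₀ : K, x₀ ∉ k ∧ h + x₀ ∉ k ∧ x₀ * t ∉ k ∧ (h + x₀) * t ∉ k := by
    have h1 : ∀ᶠ c in ae k, 0 + c * x₁ ∉ k := gen_one le_rfl (fun _ => hx₁1)
    have h2 : ∀ᶠ c in ae k, h + c * x₁ ∉ k := gen_one le_rfl (fun _ => hx₁1)
    have h3 : ∀ᶠ c in ae k, 0 + c * (x₁ * t) ∉ k := gen_one le_rfl (fun _ => hx₁t)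
    have h4 : ∀ᶠ c in ae k, h * t + c * (x₁ * t) ∉ k := gen_one le_rfl (fun _ => hx₁t)
    obtain ⟨c, ⟨⟨hc1, hc2⟩, hc3⟩, hc4⟩ := (((h1.and h2).and h3).and h4).exists
    refine ⟨c * x₁, by rwa [zero_add] at hc1, hc2, ?_, ?_⟩
    · rw [zero_add, ← mul_assoc] at hc3; exact hc3
    · have : (h + c * x₁) * t = h * t + c * (x₁ * t) := by ring
      rw [this]; exact hc4
  -- the direction
  obtain ⟨y₀, hy₀⟩ := gen_avoid hki
    ({(x₀, 1), (h + x₀, 1), (x₀ * t, t), ((h + x₀) * t, t), (t, 1)} : Finset (K × K))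
    (fun i => rac (adj k i.1)) (fun i => i.2)
    (fun i _ => (le_adj k i.1).trans (le_rac _))
    (fun i hi => by
      simp only [Finset.mem_insert, Finset.mem_singleton] at hi
      rcases hi with rfl | rfl | rfl | rfl | rfl <;> simp [ht0])
    (fun i _ => gen_proper hk htr i.1)
  have hy1 : y₀ ∉ rac (adj k x₀) := by simpa using hy₀ (x₀, 1) (by simp)
  have hy2 : y₀ ∉ rac (adj k (h + x₀)) := by simpa using hy₀ (h + x₀, 1) (by simp)
  have hy3 : y₀ * t ∉ rac (adj k (x₀ * t)) := hy₀ (x₀ * t, t) (by simp)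
  have hy4 : y₀ * t ∉ rac (adj k ((h + x₀) * t)) := hy₀ ((h + x₀) * t, t) (by simp)
  have hy5 : y₀ ∉ rac (adj k t) := by simpa using hy₀ (t, 1) (by simp)
  have g1 := gen_bert hk hfg hx₀1 hy1
  have g2 := gen_bert hk hfg hx₀2 hy2
  have g3 := gen_bert hk hfg hx₀3 hy3
  have g4 := gen_bert hk hfg hx₀4 hy4
  have g5 : ∀ᶠ c in ae k, x₀ + c * y₀ ∉ rac (adj k t) :=
    gen_one ((le_adj k t).trans (le_rac _)) (fun _ => hy5)
  have g6 : ∀ᶠ c in ae k, (h + x₀) + c * y₀ ∉ rac (adj k t) :=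
    gen_one ((le_adj k t).trans (le_rac _)) (fun _ => hy5)
  obtain ⟨c, ⟨⟨⟨⟨⟨c1, c2⟩, c3⟩, c4⟩, c5⟩, c6⟩⟩ :=
    (((((g1.and g2).and g3).and g4).and g5).and g6).exists
  refine ⟨x₀ + c * y₀, c1, ?_, ?_, ?_, gen_ind hk ht.1 c5, ?_⟩
  · rw [← add_assoc]; exact c2
  · have : (x₀ + c * y₀) * t = x₀ * t + c * (y₀ * t) := by ring
    rw [this]; exact c3
  · have : (h + (x₀ + c * y₀)) * t = (h + x₀) * t + c * (y₀ * t) := by ring
    rw [this]; exact c4
  · rw [← add_assoc]; exact gen_ind hk ht.1 c6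

end Vale.Agent.P019P
end

section

/-!
# One-endedness (any characteristic)

`const_of_ae_aux`, `exists_countable_infinite`, `const_of_shift` are those of the old file.
-/

namespace Vale.Agent.P019P

open Vale.Agent.P019

set_option linter.style.haveILetI false
set_option linter.unusedSectionVars false

open Filter

end Vale.Agent.P019P
end

section

/-!
# Removal of the Frobenius twist
-/

namespace Vale.Agent.P019P

open Vale.Agent.P019

set_option linter.style.haveILetI false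
set_option linter.unusedSectionVars false

open Filter

section sg1

variable {k l : Type*} [Field k] [Field l]

theorem sg1_comp {A B C D A' B' C' D' x y z : l} (h1 : MobRel A B C D x y)
    (h2 : MobRel A' B' C' D' y z) :
    MobRel (A' * A + B' * C) (A' * B + B' * D) (C' * A + D' * C) (C' * B + D' * D) x z := by
  unfold MobRel at *
  linear_combination (C * x + D) * h2 - (z * C' - A') * h1

theorem sg1_comp_det {A B C D A' B' C' D' : l} (h1 : A * D - B * C ≠ 0)
    (h2 : A' * D' - B' * C' ≠ 0) :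
    (A' * A + B' * C) * (C' * B + D' * D) - (A' * B + B' * D) * (C' * A + D' * C) ≠ 0 := by
  have : (A' * A + B' * C) * (C' * B + D' * D) - (A' * B + B' * D) * (C' * A + D' * C) =
      (A * D - B * C) * (A' * D' - B' * C') := by ring
  rw [this]
  exact mul_ne_zero h1 h2

theorem sg1_inv {A B C D x y : l} (h1 : MobRel A B C D x y) : MobRel D (-B) (-C) A y x := by
  unfold MobRel at *
  linear_combination -h1

theorem sg1_inv_det {A B C D : l} (h1 : A * D - B * C ≠ 0) : D * A - (-B) * (-C) ≠ 0 := by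
  have : D * A - (-B) * (-C) = A * D - B * C := by ring
  rwa [this]

theorem sg1_det_pow (A B C D : l) (n : ℕ) :
    A ^ (ringExpChar l) ^ n * D ^ (ringExpChar l) ^ n -
      B ^ (ringExpChar l) ^ n * C ^ (ringExpChar l) ^ n =
      (A * D - B * C) ^ (ringExpChar l) ^ n := by
  rw [sub_pow_q, mul_pow, mul_pow]

theorem sg1_pow {A B C D x y : l} (n : ℕ) (h : MobRel A B C D x y) :
    MobRel (A ^ (ringExpChar l) ^ n) (B ^ (ringExpChar l) ^ n) (C ^ (ringExpChar l) ^ n)
      (D ^ (ringExpChar l) ^ n) (x ^ (ringExpChar l) ^ n) (y ^ (ringExpChar l) ^ n) := by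
  unfold MobRel at *
  have h1 := congrArg (fun z : l => z ^ (ringExpChar l) ^ n) h
  simp only [mul_pow, add_pow_q] at h1
  exact h1

theorem sg1_unpow {A B C D x y : l} (n : ℕ)
    (h : MobRel (A ^ (ringExpChar l) ^ n) (B ^ (ringExpChar l) ^ n) (C ^ (ringExpChar l) ^ n)
      (D ^ (ringExpChar l) ^ n) (x ^ (ringExpChar l) ^ n) (y ^ (ringExpChar l) ^ n)) :
    MobRel A B C D x y := by
  unfold MobRel at *
  apply pow_q_inj (n := n)
  simp only [mul_pow, add_pow_q]
  exact h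

/-- the twisted relation between `ψ b` and `ψ' b`. -/
def Sg1R (ψ ψ' : k → l) (i j : ℕ) : Prop :=
  ∃ A B C D : l, A * D - B * C ≠ 0 ∧ ∀ᶠ b in cofinite,
    MobRel A B C D (ψ b ^ (ringExpChar l) ^ j) (ψ' b ^ (ringExpChar l) ^ i)

theorem Sg1R.raise {ψ ψ' : k → l} {i j : ℕ} (h : Sg1R ψ ψ' i j) (n : ℕ) :
    Sg1R ψ ψ' (i + n) (j + n) := by
  obtain ⟨A, B, C, D, hd, h⟩ := h
  refine ⟨A ^ (ringExpChar l) ^ n, B ^ (ringExpChar l) ^ n, C ^ (ringExpChar l) ^ n,
    D ^ (ringExpChar l) ^ n, ?_, ?_⟩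
  · rw [sg1_det_pow]
    exact pow_ne_zero _ hd
  · filter_upwards [h] with b hb
    have h1 := sg1_pow n hb
    rwa [← pow_mul, ← pow_mul, ← pow_add, ← pow_add] at h1

theorem Sg1R.symm {ψ ψ' : k → l} {i j : ℕ} (h : Sg1R ψ ψ' i j) : Sg1R ψ' ψ j i := by
  obtain ⟨A, B, C, D, hd, h⟩ := h
  exact ⟨D, -B, -C, A, sg1_inv_det hd, h.mono fun b hb => sg1_inv hb⟩

/-- composition with matching exponents. -/
theorem Sg1R.comp0 {ψ ψ' ψ'' : k → l} {i j m : ℕ} (h : Sg1R ψ ψ' i j) (h' : Sg1R ψ' ψ'' m i) :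
    Sg1R ψ ψ'' m j := by
  obtain ⟨A, B, C, D, hd, h⟩ := h
  obtain ⟨A', B', C', D', hd', h'⟩ := h'
  refine ⟨_, _, _, _, sg1_comp_det hd hd', ?_⟩
  filter_upwards [h, h'] with b hb hb'
  exact sg1_comp hb hb'

theorem Sg1R.comp {ψ ψ' ψ'' : k → l} {i j i' j' : ℕ} (h : Sg1R ψ ψ' i j)
    (h' : Sg1R ψ' ψ'' i' j') : Sg1R ψ ψ'' (i + i') (j + j') := by
  have h1 := h.raise j'
  have h2 := h'.raise i
  rw [add_comm j' i, add_comm i' i] at h2
  exact h1.comp0 h2

theorem Sg1R.pull {ψ ψ' : k → l} {i j : ℕ} (h : Sg1R ψ ψ' i j) {τ : k → k}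
    (hτ : Function.Injective τ) : Sg1R (ψ ∘ τ) (ψ' ∘ τ) i j := by
  obtain ⟨A, B, C, D, hd, h⟩ := h
  exact ⟨A, B, C, D, hd, hτ.tendsto_cofinite.eventually h⟩

theorem Sg1R.refl (ψ : k → l) : Sg1R ψ ψ 0 0 :=
  ⟨1, 0, 0, 1, by simp, Eventually.of_forall fun b => by simp [MobRel]⟩

theorem Sg1R.descend [IsAlgClosed l] {ψ ψ' : k → l} {i : ℕ} (h : Sg1R ψ ψ' i i) :
    ∃ A B C D : l, A * D - B * C ≠ 0 ∧ ∀ᶠ b in cofinite, MobRel A B C D (ψ b) (ψ' b) := by
  obtain ⟨A, B, C, D, hd, h⟩ := h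
  obtain ⟨A', rfl⟩ := exists_root A i
  obtain ⟨B', rfl⟩ := exists_root B i
  obtain ⟨C', rfl⟩ := exists_root C i
  obtain ⟨D', rfl⟩ := exists_root D i
  refine ⟨A', B', C', D', ?_, ?_⟩
  · intro h0
    apply hd
    rw [sg1_det_pow, h0]
    exact zero_pow (qn_ne_zero l i)
  · filter_upwards [h] with b hb
    exact sg1_unpow i hb

/-- a property which holds for almost all `b` in terms of `ψ b` holds for infinitely many `x`. -/
theorem sg1_infinite [Infinite k] {ψ : k → l}
    (hinj : ∃ S : Set k, S.Finite ∧ Set.InjOn ψ Sᶜ) {P : l → Prop}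
    (h : ∀ᶠ b in cofinite, P (ψ b)) : {x : l | P x}.Infinite := by
  obtain ⟨S, hS, hinj⟩ := hinj
  have h1 : {b : k | b ∈ Sᶜ ∧ P (ψ b)}.Infinite := by
    have h2 : {b : k | b ∈ Sᶜ ∧ P (ψ b)}ᶜ.Finite := by
      have h3 : ∀ᶠ b in cofinite, b ∈ Sᶜ ∧ P (ψ b) := by
        refine Filter.Eventually.and ?_ h
        exact hS.compl_mem_cofinite
      exact h3
    exact (Set.Finite.infinite_compl h2).mono (by rw [compl_compl])
  have h4 : (ψ '' {b : k | b ∈ Sᶜ ∧ P (ψ b)}).Infinite :=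
    h1.image (hinj.mono fun b hb => hb.1)
  refine h4.mono ?_
  rintro x ⟨b, hb, rfl⟩
  exact hb.2

/-- the exponent is unique. -/
theorem Sg1R.uniq0 [Infinite k] {ψ : k → l}
    (hinj : ∃ S : Set k, S.Finite ∧ Set.InjOn ψ Sᶜ) {i j : ℕ} (h : Sg1R ψ ψ i j) :
    (ringExpChar l) ^ i = (ringExpChar l) ^ j := by
  obtain ⟨A, B, C, D, hd, h⟩ := h
  have h1 : {x : l | ((1 : l) * x ^ (ringExpChar l) ^ i + 0) * (C * x ^ (ringExpChar l) ^ j + D) =
      A * x ^ (ringExpChar l) ^ j + B}.Infinite := by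
    refine sg1_infinite hinj (P := fun x => ((1 : l) * x ^ (ringExpChar l) ^ i + 0) *
      (C * x ^ (ringExpChar l) ^ j + D) = A * x ^ (ringExpChar l) ^ j + B) ?_
    filter_upwards [h] with b hb
    unfold MobRel at hb
    rw [one_mul, add_zero]
    exact hb
  exact (twist_mob one_ne_zero hd h1).1

/-- the abstract untwisting lemma. -/
theorem sg1_main [Infinite k] [IsAlgClosed l] {G : Type*} (ψ : k → l)
    (hinj : ∃ S : Set k, S.Finite ∧ Set.InjOn ψ Sᶜ) (τ : G → k → k)
    (hτ : ∀ c, Function.Injective (τ c)) (h : ∀ c, ∃ i j, Sg1R ψ (ψ ∘ τ c) i j) (c : G)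
    (hdiv : (∀ m : ℕ, 0 < m → ∃ d : G, τ c = (τ d)^[m]) ∨ ∃ m : ℕ, 0 < m ∧ (τ c)^[m] = id) :
    ∃ A B C D : l, A * D - B * C ≠ 0 ∧ ∀ᶠ b in cofinite, MobRel A B C D (ψ b) (ψ (τ c b)) := by
  obtain ⟨i, j, hij⟩ := h c
  -- iterates
  have hiter : ∀ (d : G) (i j : ℕ), Sg1R ψ (ψ ∘ τ d) i j → ∀ m : ℕ,
      Sg1R ψ (ψ ∘ (τ d)^[m]) (m * i) (m * j) := by
    intro d i j hd m
    induction m with
    | zero => simpa using Sg1R.refl ψ
    | succ m ih =>
      have h1 := hd.comp (ih.pull (hτ d))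
      rw [Function.iterate_succ]
      have e1 : (m + 1) * i = i + m * i := by ring
      have e2 : (m + 1) * j = j + m * j := by ring
      rw [e1, e2]
      exact h1
  suffices hq : (ringExpChar l) ^ i = (ringExpChar l) ^ j by
    have h2 : Sg1R ψ (ψ ∘ τ c) i i := by
      obtain ⟨A, B, C, D, hd, h3⟩ := hij
      refine ⟨A, B, C, D, hd, ?_⟩
      rw [← hq] at h3
      exact h3
    exact h2.descend
  by_cases hq1 : ringExpChar l = 1
  · rw [hq1]; simp
  have hq2 : 1 < ringExpChar l := by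
    have := expChar_pos l (ringExpChar l)
    omega
  suffices hij' : i = j by rw [hij']
  rcases hdiv with hdiv | ⟨m, hm, hmid⟩
  · -- divisible case
    by_contra hne
    obtain ⟨d, hd⟩ := hdiv (i + j + 1) (by omega)
    obtain ⟨i', j', hd'⟩ := h d
    have h1 := hiter d i' j' hd' (i + j + 1)
    rw [← hd] at h1
    have h2 := Sg1R.uniq0 hinj (h1.comp hij.symm)
    have h3 : (i + j + 1) * i' + j = (i + j + 1) * j' + i := Nat.pow_right_injective hq2 h2
    rcases lt_trichotomy i' j' with hlt | heq | hgt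
    · obtain ⟨t, rfl⟩ := Nat.exists_eq_add_of_lt hlt
      have h4 : (i + j + 1) * (i' + t + 1) = (i + j + 1) * i' + (i + j + 1) * t + (i + j + 1) := by
        ring
      rw [h4] at h3
      have h5 : 0 ≤ (i + j + 1) * t := Nat.zero_le _
      omega
    · rw [heq] at h3
      exact hne (by omega)
    · obtain ⟨t, rfl⟩ := Nat.exists_eq_add_of_lt hgt
      have h4 : (i + j + 1) * (j' + t + 1) = (i + j + 1) * j' + (i + j + 1) * t + (i + j + 1) := by
        ring
      rw [h4] at h3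
      have h5 : 0 ≤ (i + j + 1) * t := Nat.zero_le _
      omega
  · have h1 := hiter c i j hij m
    rw [hmid] at h1
    have h2 := Sg1R.uniq0 hinj h1
    have h3 : m * i = m * j := Nat.pow_right_injective hq2 h2
    exact Nat.eq_of_mul_eq_mul_left hm h3

theorem untwist_mul [IsAlgClosed k] [IsAlgClosed l] (ψ₁ ψ₃ : k → l)
    (hinj₁ : ∃ S : Set k, S.Finite ∧ Set.InjOn ψ₁ Sᶜ) (hsurj₁ : (Set.range ψ₁)ᶜ.Finite)
    (hmul : ∀ᶠ a in cofinite, ∃ (i j : ℕ) (A B C D : l), A * D - B * C ≠ 0 ∧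
      ∀ᶠ b in cofinite, MobRel A B C D (ψ₁ b ^ (ringExpChar l) ^ j)
        (ψ₃ (a * b) ^ (ringExpChar l) ^ i)) :
    ∀ c : k, c ≠ 0 → ∃ A B C D : l, A * D - B * C ≠ 0 ∧
      ∀ᶠ b in cofinite, MobRel A B C D (ψ₁ b) (ψ₁ (c * b)) := by
  intro c hc
  have hτ : ∀ c : kˣ, Function.Injective fun b : k => (c : k) * b :=
    fun c => mul_right_injective₀ c.ne_zero
  have hit : ∀ (c : k) (m : ℕ), (fun b : k => c * b)^[m] = fun b => c ^ m * b := by
    intro c m
    induction m with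
    | zero => funext b; simp
    | succ m ih =>
      rw [Function.iterate_succ, ih]
      funext b
      simp only [Function.comp]
      ring
  refine sg1_main ψ₁ hinj₁ (fun (c : kˣ) (b : k) => (c : k) * b) hτ ?_ (Units.mk0 c hc) ?_
  · intro c
    have hmul2 : ∀ᶠ a in cofinite, ∃ (i j : ℕ) (A B C D : l), A * D - B * C ≠ 0 ∧
      ∀ᶠ b in cofinite, MobRel A B C D (ψ₁ b ^ (ringExpChar l) ^ j)
        (ψ₃ ((c : k) * a * b) ^ (ringExpChar l) ^ i) := Sg.ae_mul c.ne_zero hmul
    obtain ⟨a, ⟨i, j, h1⟩, ⟨i', j', h2⟩⟩ := (hmul.and hmul2).exists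
    have h1' : Sg1R ψ₁ (ψ₃ ∘ fun b => a * b) i j := h1
    have h2' : Sg1R ψ₁ (ψ₃ ∘ fun b => (c : k) * a * b) i' j' := h2
    have h3 := h1'.pull (hτ c)
    have h4 : ((ψ₃ ∘ fun b => a * b) ∘ fun b => (c : k) * b) =
        (ψ₃ ∘ fun b => (c : k) * a * b) := by
      funext b
      simp only [Function.comp]
      congr 1
      ring
    rw [h4] at h3
    exact ⟨_, _, h2'.comp h3.symm⟩
  · left
    intro m hm
    obtain ⟨d, hd⟩ := IsAlgClosed.exists_pow_nat_eq c hm
    have hd0 : d ≠ 0 := by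
      rintro rfl
      apply hc
      rw [← hd, zero_pow (by omega)]
    refine ⟨Units.mk0 d hd0, ?_⟩
    simp only [Units.val_mk0]
    rw [hit, hd]

end sg1

end Vale.Agent.P019P
end

section

/-!
# The existence of a common fixed point on the projective line, any characteristic
-/

namespace Vale.Agent.P019P

open Vale.Agent.P019

set_option linter.style.haveILetI false
set_option linter.unusedSectionVars false

open Filter

section alg

variable {k l : Type*} [Field k] [Field l]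

open Sg in
/-- the existence of a common fixed point on the projective line, any characteristic. -/
theorem exists_common [IsAlgClosed k] [IsAlgClosed l] (φ : k → l)
    (hinj : ∃ S : Set k, S.Finite ∧ Set.InjOn φ Sᶜ)
    (g h : k → ((l × l) ≃ₗ[l] (l × l)))
    (hg : ∀ c, ∀ᶠ b in cofinite, Act (g c) (φ b) (φ (b + c)))
    (hh : ∀ c, c ≠ 0 → ∀ᶠ b in cofinite, Act (h c) (φ b) (φ (c * b))) :
    ∃ v : l × l, v ≠ 0 ∧ (∀ c, ∃ s : l, g c v = s • v) ∧
      ∀ c, c ≠ 0 → ∃ s : l, h c v = s • v := by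
  -- multiplicativity up to scalars
  have gmul : ∀ c c', ∃ u : l, u ≠ 0 ∧ ∀ v, g c (g c' v) = u • g (c + c') v := by
    intro c c'
    have h1 : ∀ᶠ b in cofinite, Act ((g c').trans (g c)) (φ b) (φ (b + (c + c'))) := by
      filter_upwards [hg c', ae_add c' (hg c)] with b e1 e2
      have := e1.comp e2
      rwa [add_assoc, add_comm c' c] at this
    exact unique_ae hinj h1 (hg (c + c'))
  have hmul : ∀ c c', c ≠ 0 → c' ≠ 0 → ∃ u : l, u ≠ 0 ∧ ∀ v, h c (h c' v) = u • h (c * c') v := by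
    intro c c' hc hc'
    have h1 : ∀ᶠ b in cofinite, Act ((h c').trans (h c)) (φ b) (φ ((c * c') * b)) := by
      filter_upwards [hh c' hc', ae_mul hc' (hh c hc)] with b e1 e2
      have := e1.comp e2
      rwa [← mul_assoc] at this
    exact unique_ae hinj h1 (hh (c * c') (mul_ne_zero hc hc'))
  have hconj : ∀ m c, m ≠ 0 → ∃ u : l, u ≠ 0 ∧ ∀ v, h m (g c v) = u • g (m * c) (h m v) := by
    intro m c hm
    have h1 : ∀ᶠ b in cofinite, Act ((g c).trans (h m)) (φ b) (φ (m * (b + c))) := by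
      filter_upwards [hg c, ae_add c (hh m hm)] with b e1 e2
      exact e1.comp e2
    have h2 : ∀ᶠ b in cofinite, Act ((h m).trans (g (m * c))) (φ b) (φ (m * (b + c))) := by
      filter_upwards [hh m hm, ae_mul hm (hg (m * c))] with b e1 e2
      have := e1.comp e2
      rwa [← mul_add] at this
    exact unique_ae hinj h1 h2
  -- the translations commute
  have hcomm0 : ∀ c c', ∃ u : l, u ^ 2 = 1 ∧ ∀ v, g c (g c' v) = u • g c' (g c v) := by
    intro c c'
    obtain ⟨u1, hu1, e1⟩ := gmul c c'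
    obtain ⟨u2, hu2, e2⟩ := gmul c' c
    have e3 : ∀ v, g c (g c' v) = (u1 * u2⁻¹) • g c' (g c v) := by
      intro v
      rw [e1, e2, add_comm c' c, smul_smul, mul_assoc, inv_mul_cancel₀ hu2, mul_one]
    refine ⟨u1 * u2⁻¹, ?_, e3⟩
    have e4 : (g c).toLinearMap ∘ₗ (g c').toLinearMap =
        (u1 * u2⁻¹) • ((g c').toLinearMap ∘ₗ (g c).toLinearMap) := by
      apply LinearMap.ext
      intro v
      exact e3 v
    have e5 := congrArg LinearMap.det e4
    rw [LinearMap.det_smul, LinearMap.det_comp, LinearMap.det_comp] at e5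
    have e6 : Module.finrank l (l × l) = 2 := by simp
    rw [e6] at e5
    have e7 : LinearMap.det (g c).toLinearMap ≠ 0 := (LinearEquiv.isUnit_det' (g c)).ne_zero
    have e8 : LinearMap.det (g c').toLinearMap ≠ 0 := (LinearEquiv.isUnit_det' (g c')).ne_zero
    have e9 : (u1 * u2⁻¹) ^ 2 * (LinearMap.det (g c').toLinearMap *
        LinearMap.det (g c).toLinearMap) = 1 * (LinearMap.det (g c').toLinearMap *
        LinearMap.det (g c).toLinearMap) := by
      rw [← e5]; ring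
    exact mul_right_cancel₀ (mul_ne_zero e8 e7) e9
  have hcomm : ∀ c c' v, g c (g c' v) = g c' (g c v) := by
    choose μ hμ2 hμ using hcomm0
    have hne : ∀ c (v : l × l), v ≠ 0 → g c v ≠ 0 := fun c v hv h0 =>
      hv ((LinearEquiv.map_eq_zero_iff _).1 h0)
    have hv1 : ((1, 1) : l × l) ≠ 0 := fun h0 => one_ne_zero (congrArg Prod.fst h0)
    have hμu : ∀ c c' u, (∀ v, g c (g c' v) = u • g c' (g c v)) → μ c c' = u := by
      intro c c' u hu
      have e1 := hμ c c' (1, 1)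
      rw [hu] at e1
      exact (smul_left_injective l (hne _ _ (hne _ _ hv1)) e1).symm
    have hμ0 : ∀ c c', μ c c' ≠ 0 := fun c c' h0 => by
      have := hμ2 c c'
      rw [h0] at this
      simp at this
    -- it is enough to prove `μ = 1`
    suffices hone : ∀ c c', μ c c' = 1 by
      intro c c' v
      rw [hμ c c' v, hone, one_smul]
    -- bimultiplicativity
    have hadd' : ∀ x y y', μ x (y + y') = μ x y * μ x y' := by
      intro x y y'
      apply hμu
      intro v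
      obtain ⟨u, hu, e⟩ := gmul y y'
      have h1 : u • g x (g (y + y') v) = u • ((μ x y * μ x y') • g (y + y') (g x v)) := by
        rw [← map_smul, ← e, hμ x y, hμ x y', map_smul, e, smul_smul, smul_comm]
      exact smul_right_injective _ hu h1
    have hsym : ∀ x y, μ y x = μ x y := by
      intro x y
      apply hμu
      intro v
      rw [hμ x y v, smul_smul, ← pow_two, hμ2, one_smul]
    have hself : ∀ x, μ x x = 1 := fun x => hμu x x 1 fun v => by rw [one_smul]
    have hdil : ∀ m x y, m ≠ 0 → μ (m * x) (m * y) = μ x y := by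
      intro m x y hm
      apply hμu
      intro v
      obtain ⟨w, rfl⟩ := (h m).surjective v
      obtain ⟨u1, hu1, e1⟩ := hconj m x hm
      obtain ⟨u2, hu2, e2⟩ := hconj m y hm
      have h1 : (u1 * u2) • g (m * x) (g (m * y) (h m w)) =
          (u1 * u2) • (μ x y • g (m * y) (g (m * x) (h m w))) := by
        have a1 : h m (g x (g y w)) = (u1 * u2) • g (m * x) (g (m * y) (h m w)) := by
          rw [e1, e2, map_smul, smul_smul]
        have a2 : h m (g y (g x w)) = (u1 * u2) • g (m * y) (g (m * x) (h m w)) := by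
          rw [e2, e1, map_smul, smul_smul, mul_comm u2 u1]
        rw [← a1, smul_comm, ← a2, hμ x y w, map_smul]
      exact smul_right_injective _ (mul_ne_zero hu1 hu2) h1
    by_cases hl2 : (2 : l) = 0
    · -- characteristic two
      intro c c'
      have h1 : (μ c c' - 1) ^ 2 = 0 := by
        linear_combination hμ2 c c' - (μ c c' - 1) * hl2
      exact sub_eq_zero.1 (pow_eq_zero_iff (two_ne_zero)|>.1 h1)
    by_cases hk2 : (2 : k) = 0
    swap
    · intro c c'
      have h1 : μ c' c = μ c' (c / 2) * μ c' (c / 2) := by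
        rw [← hadd']
        congr 1
        field_simp
        ring
      rw [hsym c' c, h1, ← pow_two, hμ2]
    -- characteristic two in `k`
    have hμz : ∀ x, μ x 0 = 1 := by
      intro x
      have h1 := hadd' x 0 0
      rw [add_zero] at h1
      have h2 : μ x 0 * 1 = μ x 0 * μ x 0 := by rw [mul_one]; exact h1
      exact (mul_left_cancel₀ (hμ0 x 0) h2).symm
    have hinv : ∀ y, y ≠ 0 → μ 1 y⁻¹ = μ 1 y := by
      intro y hy
      have h1 := hdil y⁻¹ 1 y (inv_ne_zero hy)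
      rw [mul_one, inv_mul_cancel₀ hy, hsym] at h1
      exact h1
    have hβ : ∀ y, μ 1 y = 1 := by
      intro y
      by_cases hy : y = 0
      · rw [hy, hμz]
      obtain ⟨x, hx⟩ : ∃ x : k, x ^ 2 + x = y := by
        have hdeg : (Polynomial.X ^ 2 + Polynomial.X - Polynomial.C y : Polynomial k).degree ≠ 0 := by
          have : (Polynomial.X ^ 2 + Polynomial.X - Polynomial.C y : Polynomial k).degree = 2 := by
            compute_degree!
          rw [this]
          decide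
        obtain ⟨x, hx⟩ := IsAlgClosed.exists_root _ hdeg
        refine ⟨x, ?_⟩
        simp only [Polynomial.IsRoot.def, Polynomial.eval_sub, Polynomial.eval_add,
          Polynomial.eval_pow, Polynomial.eval_X, Polynomial.eval_C] at hx
        exact sub_eq_zero.1 hx
      have hx0 : x ≠ 0 := by
        rintro rfl
        exact hy (by rw [← hx]; ring)
      have hx1 : x + 1 ≠ 0 := by
        intro h0
        exact hy (by rw [← hx]; linear_combination x * h0)
      have h1 : y⁻¹ = x⁻¹ + (x + 1)⁻¹ := by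
        rw [← hx] at hy ⊢
        field_simp
        linear_combination (-x) * hk2
      rw [← hinv y hy, h1, hadd', hinv x hx0, hinv _ hx1, hadd', hself, mul_one, ← pow_two, hμ2]
    intro c c'
    by_cases hc : c = 0
    · rw [hc, ← hsym, hμz]
    · have h1 := hdil c 1 (c' / c) hc
      rw [mul_one, mul_div_cancel₀ c' hc, hβ] at h1
      exact h1
  -- `g 1` is not scalar
  have hns : ∀ a : l, ¬ (∀ u, g 1 u = a • u) := by
    intro a ha
    obtain ⟨b₁, b₂, b₃, ⟨p1, q1⟩, -⟩ := three_pts hinj ((hg 1).and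
      (show ∀ᶠ b in cofinite, φ b ≠ φ (b + 1) by
        obtain ⟨S, hS, hinj'⟩ := hinj
        have h1 : ∀ᶠ b in cofinite, b ∈ Sᶜ := hS.compl_mem_cofinite
        filter_upwards [h1, ae_add 1 h1] with b h2 h3 h4
        have := hinj' h2 h3 h4
        simp at this))
    apply q1
    obtain ⟨t, ht, e⟩ := p1
    rw [ha] at e
    have e2 : a = t := by simpa using congrArg Prod.snd e
    have e1 : a * φ b₁ = t * φ (b₁ + 1) := by simpa using congrArg Prod.fst e
    rw [e2] at e1
    exact mul_left_cancel₀ ht e1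
  -- an eigenvector
  obtain ⟨a, ha⟩ := Module.End.exists_eigenvalue ((g 1).toLinearMap : Module.End l (l × l))
  obtain ⟨v, hv⟩ := ha.exists_hasEigenvector
  have hv0 : v ≠ 0 := hv.2
  have hva : g 1 v = a • v := hv.apply_eq_smul
  have hcv : ∀ c, ∃ s : l, g c v = s • v := by
    intro c
    apply exists_smul_of_dt hv0
    by_contra hne
    have h1 : g 1 (g c v) = a • g c v := by
      rw [hcomm 1 c v, hva, map_smul]
    exact hns a (scalar_of_two (f := (g 1).toLinearMap) hne hva h1)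
  -- stability of the set of common eigenvectors under the dilations
  have hstab : ∀ (w : l × l), (∀ c, ∃ s : l, g c w = s • w) → ∀ m, m ≠ 0 →
      ∀ c, ∃ s : l, g c (h m w) = s • h m w := by
    intro w hw m hm c
    obtain ⟨u, hu, e⟩ := hconj m (c / m) hm
    obtain ⟨s, hs⟩ := hw (c / m)
    have e1 := e w
    rw [mul_div_cancel₀ c hm, hs, map_smul] at e1
    refine ⟨u⁻¹ * s, ?_⟩
    rw [mul_smul, e1, smul_smul, inv_mul_cancel₀ hu, one_smul]
  have hsq : ∀ m, m ≠ 0 → ∃ s : l, h m (h m v) = s • v := by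
    intro m hm
    have hw0 : h m v ≠ 0 := fun h0 => hv0 ((LinearEquiv.map_eq_zero_iff _).1 h0)
    have hu0 : h m (h m v) ≠ 0 := fun h0 => hw0 ((LinearEquiv.map_eq_zero_iff _).1 h0)
    by_cases h1 : dt v (h m v) = 0
    · obtain ⟨s, hs⟩ := exists_smul_of_dt hv0 h1
      refine ⟨s * s, ?_⟩
      rw [hs, map_smul, hs, smul_smul]
    by_cases h2 : dt v (h m (h m v)) = 0
    · exact exists_smul_of_dt hv0 h2
    by_cases h3 : dt (h m (h m v)) (h m v) = 0
    · obtain ⟨s, hs⟩ := exists_smul_of_dt hu0 h3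
      rw [← map_smul] at hs
      have h4 := (h m).injective hs
      have h5 : dt v (h m v) = 0 := by
        have h6 : dt (s • h m v) (h m v) = s * dt (h m v) (h m v) := by
          simp only [dt, Prod.smul_fst, Prod.smul_snd, smul_eq_mul]; ring
        rw [← h4, dt_self, mul_zero] at h6
        exact h6
      exact absurd h5 h1
    · exfalso
      obtain ⟨s1, e1⟩ := hcv 1
      obtain ⟨s2, e2⟩ := hstab v hcv m hm 1
      obtain ⟨s3, e3⟩ := hstab _ (hstab v hcv m hm) m hm 1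
      exact hns s1 (scal3 (f := (g 1).toLinearMap) h1 h2 h3 e1 e2 e3).2
  refine ⟨v, hv0, hcv, ?_⟩
  intro c hc
  obtain ⟨m, hm⟩ := IsAlgClosed.exists_eq_mul_self c
  have hm0 : m ≠ 0 := by
    rintro rfl
    exact hc (by simpa using hm)
  obtain ⟨u, hu, e⟩ := hmul m m hm0 hm0
  obtain ⟨s, hs⟩ := hsq m hm0
  refine ⟨u⁻¹ * s, ?_⟩
  have e1 := e v
  rw [← hm, hs] at e1
  rw [mul_smul, e1, smul_smul, inv_mul_cancel₀ hu, one_smul]

end alg

end Vale.Agent.P019P
end

section

/-!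
# From exact Moebius relations to an isomorphism of fields (no uncountability)
-/

namespace Vale.Agent.P019P

open Vale.Agent.P019

set_option linter.style.haveILetI false
set_option linter.unusedSectionVars false

open Filter

open Sg in
theorem affine_exact {k l : Type*} [Field k] [Field l] [IsAlgClosed k] (φ : k → l) (S : Set k)
    (hS : S.Finite) (hinj : Set.InjOn φ Sᶜ)
    (hadd : ∀ c, ∃ α β : l, α ≠ 0 ∧ ∀ b, b ∉ S → b + c ∉ S → φ (b + c) = α * φ b + β)
    (hmul : ∀ c, c ≠ 0 → ∃ α β : l, α ≠ 0 ∧ ∀ᶠ b in cofinite, φ (c * b) = α * φ b + β) :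
    ∃ (σ : k →+* l) (p q : l), p ≠ 0 ∧ ∀ᶠ b in cofinite, φ b = p * σ b + q := by
  classical
  -- uniqueness of the affine map
  have huniq : ∀ (α β α' β' : l), (∀ᶠ b in cofinite, α * φ b + β = α' * φ b + β') →
      α = α' ∧ β = β' := by
    intro α β α' β' h
    obtain ⟨b₁, b₂, b₃, p1, p2, p3, n12, n13, n32⟩ := three_pts ⟨S, hS, hinj⟩ h
    have h1 : (α - α') * (φ b₁ - φ b₂) = 0 := by linear_combination p1 - p2
    have h2 : α = α' := by
      rcases mul_eq_zero.1 h1 with h | h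
      · exact sub_eq_zero.1 h
      · exact absurd (sub_eq_zero.1 h) n12
    refine ⟨h2, ?_⟩
    rw [h2] at p1
    linear_combination p1
  have hSae : ∀ᶠ b in cofinite, b ∈ Sᶜ := hS.compl_mem_cofinite
  choose al be hal0 habx using hadd
  have hab : ∀ c, ∀ᶠ b in cofinite, φ (b + c) = al c * φ b + be c := by
    intro c
    filter_upwards [hSae, ae_add c hSae] with b h1 h2
    exact habx c b h1 h2
  have hmul' : ∀ c, ∃ α β : l, c ≠ 0 → (α ≠ 0 ∧ ∀ᶠ b in cofinite, φ (c * b) = α * φ b + β) := by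
    intro c
    by_cases hc : c = 0
    · exact ⟨0, 0, fun h => absurd hc h⟩
    · obtain ⟨α, β, h⟩ := hmul c hc
      exact ⟨α, β, fun _ => h⟩
  choose m n hmn using hmul'
  -- composition of translations
  have hcomp : ∀ c c', al (c + c') = al c' * al c ∧ be (c + c') = al c' * be c + be c' := by
    intro c c'
    apply huniq
    filter_upwards [hab (c + c'), hab c, ae_add c (hab c')] with b h1 h2 h3
    rw [← h1, ← add_assoc, h3, h2]
    ring
  -- conjugation by dilations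
  have hconj0 : ∀ lam c, lam ≠ 0 → al (lam * c) = al c ∧
      al (lam * c) * n lam + be (lam * c) = m lam * be c + n lam := by
    intro lam c hlam
    have h1 := (hmn lam hlam).2
    have h2 : al (lam * c) * m lam = m lam * al c ∧
        al (lam * c) * n lam + be (lam * c) = m lam * be c + n lam := by
      apply huniq
      filter_upwards [h1, ae_mul hlam (hab (lam * c)), hab c, ae_add c h1] with b e1 e2 e3 e4
      rw [e1] at e2
      rw [mul_add, e2, e3] at e4
      linear_combination e4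
    refine ⟨?_, h2.2⟩
    apply mul_right_cancel₀ (hmn lam hlam).1
    rw [h2.1, mul_comm]
  have hal : ∀ d, al d = 1 := by
    have h01 : ∀ d, d ≠ 0 → al d = al 1 := by
      intro d hd
      have := (hconj0 d 1 hd).1
      rwa [mul_one] at this
    have h1 : al 1 = 1 := by
      obtain ⟨c', hc'⟩ : ∃ c' : k, c' ∉ ({0, -1} : Finset k) := Infinite.exists_notMem_finset _
      simp only [Finset.mem_insert, Finset.mem_singleton, not_or] at hc'
      have h5 := (hcomp 1 c').1
      have hne : (1 : k) + c' ≠ 0 := by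
        intro h
        exact hc'.2 (eq_neg_of_add_eq_zero_right h)
      rw [h01 _ hne, h01 _ hc'.1] at h5
      have h6 : al 1 * al 1 = 1 * al 1 := by rw [← h5, one_mul]
      exact mul_right_cancel₀ (hal0 1) h6
    intro d
    by_cases hd : d = 0
    · subst hd
      have h5 := (hcomp 0 0).1
      rw [add_zero] at h5
      have h6 : al 0 * al 0 = 1 * al 0 := by rw [← h5, one_mul]
      exact mul_right_cancel₀ (hal0 0) h6
    · rw [h01 d hd, h1]
  have hconj : ∀ lam c, lam ≠ 0 → al (lam * c) = al c ∧ be (lam * c) = m lam * be c := by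
    intro lam c hlam
    obtain ⟨h1, h2⟩ := hconj0 lam c hlam
    refine ⟨h1, ?_⟩
    rw [hal (lam * c)] at h2
    linear_combination h2
  have hbe_add : ∀ c c', be (c + c') = be c + be c' := by
    intro c c'
    rw [(hcomp c c').2, hal, one_mul]
  have htr : ∀ c, ∀ᶠ b in cofinite, φ (b + c) = φ b + be c := by
    intro c
    filter_upwards [hab c] with b hb
    rw [hb, hal, one_mul]
  have hbe_ne : ∀ c, c ≠ 0 → be c ≠ 0 := by
    intro c hc h0
    obtain ⟨b, h2, h3, h4⟩ := ((htr c).and (hSae.and (ae_add c hSae))).exists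
    rw [h0, add_zero] at h2
    have := hinj h4 h3 h2
    exact hc (by simpa using this)
  have hbe1 : be 1 ≠ 0 := hbe_ne 1 one_ne_zero
  have hm : ∀ lam, lam ≠ 0 → m lam = be lam / be 1 := by
    intro lam hlam
    have := (hconj lam 1 hlam).2
    rw [mul_one] at this
    rw [this]
    field_simp
  have hbe0 : be 0 = 0 := by
    have := hbe_add 0 0
    simpa using this
  let σ : k →+* l :=
    { toFun := fun c => be c / be 1
      map_one' := div_self hbe1
      map_mul' := by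
        intro x y
        by_cases hx : x = 0
        · simp [hx, hbe0]
        · rw [(hconj x y hx).2, hm x hx]
          ring
      map_zero' := by simp [hbe0]
      map_add' := by
        intro x y
        rw [hbe_add]
        ring }
  have hσ : ∀ c, be c = be 1 * σ c := by
    intro c
    change be c = be 1 * (be c / be 1)
    field_simp
  obtain ⟨a₀, ha₀⟩ := hSae.exists
  refine ⟨σ, be 1, φ a₀ - be 1 * σ a₀, hbe1, ?_⟩
  filter_upwards [hSae] with b hb
  have h1 := habx (b - a₀) a₀ ha₀ (by rw [add_sub_cancel]; exact hb)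
  rw [add_sub_cancel, hal, one_mul, hσ (b - a₀), map_sub] at h1
  rw [h1]
  ring

open Sg in
/-- as `sigma_exists`, with exact additive relations. -/
theorem sigma_exact {k l : Type*} [Field k] [Field l]
    [IsAlgClosed k] [IsAlgClosed l] (ψ₁ ψ₂ ψ₃ : k → l)
    (hinj₁ : ∃ S : Set k, S.Finite ∧ Set.InjOn ψ₁ Sᶜ) (hsurj₁ : (Set.range ψ₁)ᶜ.Finite)
    (hadd : ∀ᶠ a in cofinite, ∃ (i j : ℕ) (A B C D : l), A * D - B * C ≠ 0 ∧
      ∀ᶠ b in cofinite, MobRel A B C D (ψ₁ b ^ (ringExpChar l) ^ j)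
        (ψ₂ (a + b) ^ (ringExpChar l) ^ i))
    (hmul : ∀ᶠ a in cofinite, ∃ (i j : ℕ) (A B C D : l), A * D - B * C ≠ 0 ∧
      ∀ᶠ b in cofinite, MobRel A B C D (ψ₁ b ^ (ringExpChar l) ^ j)
        (ψ₃ (a * b) ^ (ringExpChar l) ^ i))
    (hex : ∃ S : Set k, S.Finite ∧ ∀ c : k, ∃ A B C D : l, A * D - B * C ≠ 0 ∧
      ∀ b, b ∉ S → b + c ∉ S → MobRel A B C D (ψ₁ b) (ψ₁ (b + c))) :
    ∃ (σ : k ≃+* l) (A B C D : l), A * D - B * C ≠ 0 ∧
      ∀ᶠ b in cofinite, MobRel A B C D (σ b) (ψ₁ b) := by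
  obtain ⟨S₀, hS₀, hex⟩ := hex
  have hgx : ∀ c, ∃ g : (l × l) ≃ₗ[l] (l × l),
      ∀ b, b ∉ S₀ → b + c ∉ S₀ → Act g (ψ₁ b) (ψ₁ (b + c)) := by
    intro c
    obtain ⟨A, B, C, D, h0, h1⟩ := hex c
    obtain ⟨g, hg⟩ := exists_of_matrix h0
    exact ⟨g, fun b hb hbc => hg _ _ (h1 b hb hbc)⟩
  choose g hgx using hgx
  have hS₀ae : ∀ᶠ b in cofinite, b ∈ S₀ᶜ := hS₀.compl_mem_cofinite
  have hg : ∀ c, ∀ᶠ b in cofinite, Act (g c) (ψ₁ b) (ψ₁ (b + c)) := by
    intro c
    filter_upwards [hS₀ae, ae_add c hS₀ae] with b h1 h2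
    exact hgx c b h1 h2
  have hh : ∀ c, ∃ g : (l × l) ≃ₗ[l] (l × l),
      c ≠ 0 → ∀ᶠ b in cofinite, Act g (ψ₁ b) (ψ₁ (c * b)) := by
    intro c
    by_cases hc : c = 0
    · exact ⟨LinearEquiv.refl _ _, fun h => absurd hc h⟩
    obtain ⟨A, B, C, D, h0, h1⟩ := untwist_mul ψ₁ ψ₃ hinj₁ hsurj₁ hmul c hc
    obtain ⟨g, hg⟩ := exists_of_matrix h0
    exact ⟨g, fun _ => h1.mono fun b hb => hg _ _ hb⟩
  choose h hh using hh
  obtain ⟨v, hv0, hgv, hhv⟩ := exists_common ψ₁ hinj₁ g h hg hh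
  obtain ⟨M, s, hs, hM⟩ := exists_move hv0
  have hM' : M.symm (1, 0) = s⁻¹ • v := by
    rw [LinearEquiv.symm_apply_eq, map_smul, hM, smul_smul, inv_mul_cancel₀ hs, one_smul]
  -- the moved function
  let φ : k → l := fun b => (M (ψ₁ b, 1)).1 / (M (ψ₁ b, 1)).2
  have hMφ : ∀ᶠ b in cofinite, Act M (ψ₁ b) (φ b) := by
    obtain ⟨S, hS, hinj⟩ := hinj₁
    have h1 : ∀ᶠ b in cofinite, b ∈ Sᶜ := hS.compl_mem_cofinite
    have h2 : {b | b ∈ Sᶜ ∧ (M (ψ₁ b, 1)).2 = 0}.Subsingleton := by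
      rintro b ⟨hb, hb0⟩ b' ⟨hb', hb0'⟩
      apply hinj hb hb'
      have e : ∀ x : l, (M (x, 1)).2 = 0 → ((x, 1) : l × l) = ((M (x, 1)).1 * s⁻¹) • v := by
        intro x hx
        rw [mul_smul, ← hM', ← map_smul, ← LinearEquiv.symm_apply_eq, LinearEquiv.symm_symm]
        ext
        · simp
        · simp [hx]
      have e1 := e _ hb0
      have e2 := e _ hb0'
      have f1 := congrArg Prod.snd e1
      have f2 := congrArg Prod.snd e2
      have g1 := congrArg Prod.fst e1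
      have g2 := congrArg Prod.fst e2
      simp only [Prod.smul_snd, Prod.smul_fst, smul_eq_mul] at f1 f2 g1 g2
      have hv2 : v.2 ≠ 0 := by
        intro h0
        rw [h0, mul_zero] at f1
        exact one_ne_zero f1
      have k1 : (M (ψ₁ b, 1)).1 * s⁻¹ = (M (ψ₁ b', 1)).1 * s⁻¹ := by
        apply mul_right_cancel₀ hv2
        rw [← f1, ← f2]
      rw [g1, g2, k1]
    have h3 : ∀ᶠ b in cofinite, ¬ (b ∈ Sᶜ ∧ (M (ψ₁ b, 1)).2 = 0) := by
      exact h2.finite.compl_mem_cofinite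
    filter_upwards [h1, h3] with b hb1 hb3
    have hb : (M (ψ₁ b, 1)).2 ≠ 0 := fun h0 => hb3 ⟨hb1, h0⟩
    refine ⟨(M (ψ₁ b, 1)).2, hb, ?_⟩
    ext
    · simp only [φ, Prod.smul_fst, smul_eq_mul]
      field_simp
    · simp
  obtain ⟨S₁, hS₁, hinjS⟩ := hinj₁
  have hTfin : (S₀ ∪ (S₁ ∪ {b | ¬ Act M (ψ₁ b) (φ b)})).Finite := hS₀.union (hS₁.union hMφ)
  have hφinj : Set.InjOn φ (S₀ ∪ (S₁ ∪ {b | ¬ Act M (ψ₁ b) (φ b)}))ᶜ := by
    intro b hb b' hb' hbb
    simp only [Set.mem_compl_iff, Set.mem_union, Set.mem_ofPred_eq, not_or, not_not] at hb hb'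
    apply hinjS hb.2.1 hb'.2.1
    have := hb'.2.2
    rw [← hbb] at this
    exact hb.2.2.eq_left this
  obtain ⟨σ, p, q, hp, hσ⟩ := affine_exact φ _ hTfin hφinj
    (by
      intro c
      obtain ⟨t, ht⟩ := hgv c
      obtain ⟨α, β, hα, hαβ⟩ := affine_of_fix (g := (M.symm.trans (g c)).trans M) (s := t) (by
        rw [LinearEquiv.trans_apply, LinearEquiv.trans_apply, hM', map_smul, ht, map_smul,
          map_smul, hM, smul_smul, smul_smul, mul_right_comm, inv_mul_cancel₀ hs, one_mul])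
      refine ⟨α, β, hα, ?_⟩
      intro b hb hbc
      simp only [Set.mem_union, Set.mem_ofPred_eq, not_or, not_not] at hb hbc
      exact hαβ _ _ ((hb.2.2.symm.comp (hgx c b hb.1 hbc.1)).comp hbc.2.2))
    (by
      intro c hc
      obtain ⟨t, ht⟩ := hhv c hc
      obtain ⟨α, β, hα, hαβ⟩ := affine_of_fix (g := (M.symm.trans (h c)).trans M) (s := t) (by
        rw [LinearEquiv.trans_apply, LinearEquiv.trans_apply, hM', map_smul, ht, map_smul,
          map_smul, hM, smul_smul, smul_smul, mul_right_comm, inv_mul_cancel₀ hs, one_mul])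
      refine ⟨α, β, hα, ?_⟩
      filter_upwards [hMφ, ae_mul hc hMφ, hh c hc] with b e1 e2 e3
      exact hαβ _ _ ((e1.symm.comp e3).comp e2))
  -- the composite Moebius transformation
  obtain ⟨N, hN⟩ := exists_of_matrix (A := p) (B := q) (C := 0) (D := 1) (l := l)
    (by simpa using hp)
  let K : (l × l) ≃ₗ[l] (l × l) := N.trans M.symm
  have hK : ∀ᶠ b in cofinite, Act K (σ b) (ψ₁ b) := by
    filter_upwards [hMφ, hσ] with b e1 e2
    have : Act N (σ b) (φ b) := hN _ _ (by unfold MobRel; rw [e2]; ring)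
    exact this.comp e1.symm
  -- surjectivity
  have hrange : (Set.range σ)ᶜ.Finite := by
    have hF : {b | ¬ Act K (σ b) (ψ₁ b)}.Finite := hK
    have hbad : ((Set.range ψ₁)ᶜ ∪ ψ₁ '' {b | ¬ Act K (σ b) (ψ₁ b)}).Finite :=
      hsurj₁.union (hF.image _)
    refine ((hbad.image (fun y => (K.symm (y, 1)).1 / (K.symm (y, 1)).2)).union
      (Set.finite_singleton ((K.symm (1, 0)).1 / (K.symm (1, 0)).2))).subset ?_
    intro w hw
    by_cases hT : (K (w, 1)).2 = 0
    · right
      have e : ((w, 1) : l × l) = (K (w, 1)).1 • K.symm (1, 0) := by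
        rw [← map_smul, ← LinearEquiv.symm_apply_eq, LinearEquiv.symm_symm]
        ext
        · simp
        · simp [hT]
      have e1 := congrArg Prod.fst e
      have e2 := congrArg Prod.snd e
      simp only [Prod.smul_fst, Prod.smul_snd, smul_eq_mul] at e1 e2
      have hne : (K.symm (1, 0)).2 ≠ 0 := by
        intro h0
        rw [h0, mul_zero] at e2
        exact one_ne_zero e2
      rw [Set.mem_singleton_iff, eq_div_iff hne, e1]
      linear_combination -(K.symm (1, 0)).1 * e2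
    · left
      have hact : Act K w ((K (w, 1)).1 / (K (w, 1)).2) := by
        refine ⟨(K (w, 1)).2, hT, ?_⟩
        ext
        · simp only [Prod.smul_fst, smul_eq_mul]
          field_simp
        · simp
      refine ⟨(K (w, 1)).1 / (K (w, 1)).2, ?_, ?_⟩
      · by_contra hnb
        simp only [Set.mem_union, Set.mem_compl_iff, Set.mem_image, not_or, not_not,
          Set.mem_ofPred_eq, Set.mem_range] at hnb
        obtain ⟨⟨b, hb⟩, h2⟩ := hnb
        have hb' : Act K (σ b) (ψ₁ b) := by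
          by_contra hcon
          exact h2 ⟨b, hcon, hb⟩
        rw [hb] at hb'
        exact hw ⟨b, hb'.eq_left hact⟩
      · obtain ⟨t, ht, e⟩ := hact.symm
        have e1 := congrArg Prod.fst e
        have e2 := congrArg Prod.snd e
        simp only [Prod.smul_fst, Prod.smul_snd, smul_eq_mul, mul_one] at e1 e2
        simp only
        rw [e1, e2]
        field_simp
  have hsurj : Function.Surjective σ := by
    intro y
    by_contra hy
    have h1 : (Set.range (fun z : k => y + σ z)).Infinite :=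
      Set.infinite_range_of_injective (fun a b hab => σ.injective (add_left_cancel hab))
    apply h1
    refine hrange.subset ?_
    rintro _ ⟨z, rfl⟩ ⟨w, hw⟩
    apply hy
    refine ⟨w - z, ?_⟩
    rw [map_sub, hw]
    simp
  obtain ⟨A, B, C, D, hdet, hmat⟩ := exists_matrix K
  refine ⟨RingEquiv.ofBijective σ ⟨σ.injective, hsurj⟩, A, B, C, D, hdet, ?_⟩
  filter_upwards [hK] with b hb
  exact hmat _ _ hb

end Vale.Agent.P019P
end

section

/-!
# Pencils of Moebius transformations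
-/

namespace Vale.Agent.P019P

open Vale.Agent.P019

set_option linter.style.haveILetI false
set_option linter.unusedSectionVars false

open Filter

/-- a quadratic polynomial with three different roots is zero -/
theorem pcl_quad {l : Type*} [Field l] {p q r x₁ x₂ x₃ : l} (h12 : x₁ ≠ x₂) (h13 : x₁ ≠ x₃)
    (h32 : x₃ ≠ x₂) (h1 : p * x₁ ^ 2 + q * x₁ + r = 0) (h2 : p * x₂ ^ 2 + q * x₂ + r = 0)
    (h3 : p * x₃ ^ 2 + q * x₃ + r = 0) : p = 0 ∧ q = 0 ∧ r = 0 := by
  have e1 : p * (x₁ + x₂) + q = 0 := by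
    have : (x₁ - x₂) * (p * (x₁ + x₂) + q) = 0 := by linear_combination h1 - h2
    exact (mul_eq_zero.1 this).resolve_left (sub_ne_zero.2 h12)
  have e2 : p * (x₁ + x₃) + q = 0 := by
    have : (x₁ - x₃) * (p * (x₁ + x₃) + q) = 0 := by linear_combination h1 - h3
    exact (mul_eq_zero.1 this).resolve_left (sub_ne_zero.2 h13)
  have e3 : p = 0 := by
    have : (x₃ - x₂) * p = 0 := by linear_combination e2 - e1
    exact (mul_eq_zero.1 this).resolve_left (sub_ne_zero.2 h32)
  have e4 : q = 0 := by rw [e3] at e1; linear_combination e1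
  refine ⟨e3, e4, ?_⟩
  rw [e3, e4] at h1
  linear_combination h1

/-- the matrix of a Moebius transformation is unique up to a scalar -/
theorem pcl_unique {k l : Type*} [Field k] [Field l] [Infinite k] {g y : k → l}
    (hg : ∃ S : Set k, S.Finite ∧ Set.InjOn g Sᶜ) {A B C D A' B' C' D' : l}
    (hd : A * D - B * C ≠ 0) (hd' : A' * D' - B' * C' ≠ 0)
    (h : ∀ᶠ a in cofinite, MobRel A B C D (g a) (y a) ∧ MobRel A' B' C' D' (g a) (y a)) :
    ∃ t : l, t ≠ 0 ∧ A = t * A' ∧ B = t * B' ∧ C = t * C' ∧ D = t * D' := by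
  have hq : ∀ᶠ a in cofinite, (A' * C - A * C') * g a ^ 2 +
      (A' * D + B' * C - A * D' - B * C') * g a + (B' * D - B * D') = 0 := by
    filter_upwards [h] with a ha
    obtain ⟨h1, h2⟩ := ha
    unfold MobRel at h1 h2
    linear_combination (C' * g a + D') * h1 - (C * g a + D) * h2
  obtain ⟨b₁, b₂, b₃, p1, p2, p3, n12, n13, n32⟩ := Sg.three_pts hg hq
  obtain ⟨e1, e2, e3⟩ := pcl_quad n12 n13 n32 p1 p2 p3
  obtain ⟨d, hdd⟩ : ∃ d : l, d = A' * D' - B' * C' := ⟨_, rfl⟩
  rw [← hdd] at hd'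
  have f1 : A = (A * D' - B' * C) / d * A' := by
    rw [div_mul_eq_mul_div, eq_div_iff hd', hdd]
    linear_combination B' * e1
  have f2 : B = (A * D' - B' * C) / d * B' := by
    rw [div_mul_eq_mul_div, eq_div_iff hd', hdd]
    linear_combination -A' * e3 + B' * e2
  have f3 : C = (A * D' - B' * C) / d * C' := by
    rw [div_mul_eq_mul_div, eq_div_iff hd', hdd]
    linear_combination D' * e1
  have f4 : D = (A * D' - B' * C) / d * D' := by
    rw [div_mul_eq_mul_div, eq_div_iff hd', hdd]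
    linear_combination -C' * e3 + D' * e2
  refine ⟨(A * D' - B' * C) / d, ?_, f1, f2, f3, f4⟩
  intro h0
  rw [h0, zero_mul] at f1 f2
  apply hd
  rw [f1, f2]
  ring

theorem pcl_inj {l : Type*} [Field l] {A B C D x y z : l} (hd : A * D - B * C ≠ 0)
    (h1 : MobRel A B C D x z) (h2 : MobRel A B C D y z) : x = y := by
  unfold MobRel at h1 h2
  by_contra hne
  have e1 : z * C = A := by
    have : (x - y) * (z * C - A) = 0 := by linear_combination h1 - h2
    have := (mul_eq_zero.1 this).resolve_left (sub_ne_zero.2 hne)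
    linear_combination this
  have e2 : z * D = B := by
    linear_combination h1 - x * e1
  apply hd
  rw [← e1, ← e2]
  ring

section

variable {k l : Type*} [Field k] [Field l] [Infinite k] {f g h : k → l} {X Y : Fin 4 → l}

/-- the good points -/
def PclOK (f g h : k → l) (X Y : Fin 4 → l) (b : k) : Prop :=
  (f b * X 0 + Y 0) * (f b * X 3 + Y 3) - (f b * X 1 + Y 1) * (f b * X 2 + Y 2) ≠ 0 ∧
      ∀ᶠ a in cofinite, MobRel (f b * X 0 + Y 0) (f b * X 1 + Y 1) (f b * X 2 + Y 2)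
        (f b * X 3 + Y 3) (g a) (h (a + b))

theorem pcl_shift {b c : k} (hb : PclOK f g h X Y b) :
    ∀ᶠ a in cofinite, MobRel (f b * X 0 + Y 0) (f b * X 1 + Y 1) (f b * X 2 + Y 2)
        (f b * X 3 + Y 3) (g (a + c)) (h (a + (b + c))) := by
  filter_upwards [Sg.ae_add c hb.2] with a ha
  rw [show a + c + b = a + (b + c) by ring] at ha
  exact ha

theorem pcl_indep (hg : ∃ S : Set k, S.Finite ∧ Set.InjOn g Sᶜ) {b c : k} (hc : c ≠ 0)
    (hb : PclOK f g h X Y b) (hbc : PclOK f g h X Y (b + c)) {s t : l}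
    (hst : ∀ i, s * X i + t * Y i = 0) : s = 0 ∧ t = 0 := by
  by_contra hne
  obtain ⟨r, hr⟩ : ∃ r : l, r = t * f b - s := ⟨_, rfl⟩
  obtain ⟨r', hr'⟩ : ∃ r' : l, r' = t * f (b + c) - s := ⟨_, rfl⟩
  -- the matrices are proportional
  have hp : ∀ i, r' * (f b * X i + Y i) = r * (f (b + c) * X i + Y i) := by
    intro i
    have e1 : t * (r' * (f b * X i + Y i) - r * (f (b + c) * X i + Y i)) = 0 := by
      rw [hr, hr']
      linear_combination (t * f (b + c) - t * f b) * hst i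
    have e2 : s * (r' * (f b * X i + Y i) - r * (f (b + c) * X i + Y i)) = 0 := by
      rw [hr, hr']
      linear_combination (s * f (b + c) - s * f b) * hst i
    rcases mul_eq_zero.1 e1 with h1 | h1
    · rcases mul_eq_zero.1 e2 with h2 | h2
      · exact absurd ⟨h2, h1⟩ hne
      · exact sub_eq_zero.1 h2
    · exact sub_eq_zero.1 h1
  have hr0 : r' ≠ 0 := by
    intro h0
    have e0 : ∀ i, f (b + c) * X i + Y i = 0 := by
      intro i
      have e1 : t * (f (b + c) * X i + Y i) = 0 := by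
        have : t * (f (b + c) * X i + Y i) = r' * X i + (s * X i + t * Y i) := by
          rw [hr']; ring
        rw [this, h0, hst i]; ring
      have e2 : s * (f (b + c) * X i + Y i) = 0 := by
        have : s * (f (b + c) * X i + Y i) = f (b + c) * (s * X i + t * Y i) - r' * Y i := by
          rw [hr']; ring
        rw [this, h0, hst i]; ring
      rcases mul_eq_zero.1 e1 with h1 | h1
      · rcases mul_eq_zero.1 e2 with h2 | h2
        · exact absurd ⟨h2, h1⟩ hne
        · exact h2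
      · exact h1
    apply hbc.1
    rw [e0 0, e0 1]
    ring
  have hr1 : r ≠ 0 := by
    intro h0
    have e0 : ∀ i, f b * X i + Y i = 0 := by
      intro i
      have e1 := hp i
      rw [h0, zero_mul] at e1
      exact (mul_eq_zero.1 e1).resolve_left hr0
    apply hb.1
    rw [e0 0, e0 1]
    ring
  obtain ⟨S, hS, hinj⟩ := hg
  have h1 : ∀ᶠ a in cofinite, a ∈ Sᶜ := hS.compl_mem_cofinite
  obtain ⟨a, ⟨ha1, ha2⟩, ha3, ha4⟩ :=
    ((h1.and (Sg.ae_add c h1)).and ((pcl_shift (c := c) hb).and hbc.2)).exists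
  have ha5 : MobRel (f b * X 0 + Y 0) (f b * X 1 + Y 1) (f b * X 2 + Y 2)
        (f b * X 3 + Y 3) (g a) (h (a + (b + c))) := by
    unfold MobRel at ha4 ⊢
    have : r' * (h (a + (b + c)) * ((f b * X 2 + Y 2) * g a + (f b * X 3 + Y 3)) -
        ((f b * X 0 + Y 0) * g a + (f b * X 1 + Y 1))) = 0 := by
      linear_combination r * ha4 + h (a + (b + c)) * (g a * hp 2 + hp 3) - g a * hp 0 - hp 1
    exact sub_eq_zero.1 ((mul_eq_zero.1 this).resolve_left hr0)
  have ha6 := hinj ha1 ha2 (pcl_inj hb.1 ha5 ha3)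
  apply hc
  linear_combination -ha6

end

theorem pencil {k l : Type*} [Field k] [Field l] [Infinite k] (f g h : k → l)
    (hf : ∃ S : Set k, S.Finite ∧ Set.InjOn f Sᶜ) (hg : ∃ S : Set k, S.Finite ∧ Set.InjOn g Sᶜ)
    (X Y : Fin 4 → l)
    (h1 : ∀ᶠ b in cofinite,
      (f b * X 0 + Y 0) * (f b * X 3 + Y 3) - (f b * X 1 + Y 1) * (f b * X 2 + Y 2) ≠ 0 ∧
      ∀ᶠ a in cofinite, MobRel (f b * X 0 + Y 0) (f b * X 1 + Y 1) (f b * X 2 + Y 2)
        (f b * X 3 + Y 3) (g a) (h (a + b))) :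
    ∃ S : Set k, S.Finite ∧ ∀ c : k, ∃ A B C D : l, A * D - B * C ≠ 0 ∧
      ∀ b, b ∉ S → b + c ∉ S → MobRel A B C D (f b) (f (b + c)) := by
  obtain ⟨Sf, hSf, hfinj⟩ := hf
  have h1' : ∀ᶠ b in cofinite, PclOK f g h X Y b := h1
  have hP : {b | ¬ PclOK f g h X Y b}.Finite := h1'
  refine ⟨{b | ¬ PclOK f g h X Y b} ∪ Sf, hP.union hSf, ?_⟩
  obtain ⟨S, hS⟩ : ∃ S : Set k, S = {b | ¬ PclOK f g h X Y b} ∪ Sf := ⟨_, rfl⟩
  rw [← hS]
  have hSfin : S.Finite := by rw [hS]; exact hP.union hSf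
  have hok : ∀ b, b ∉ S → PclOK f g h X Y b := by
    intro b hb
    by_contra hc
    exact hb (by rw [hS]; exact Or.inl hc)
  have hinj : ∀ b b', b ∉ S → b' ∉ S → b ≠ b' → f b ≠ f b' := by
    intro b b' hb hb' hne he
    refine hne (hfinj ?_ ?_ he)
    · intro hc; exact hb (by rw [hS]; exact Or.inr hc)
    · intro hc; exact hb' (by rw [hS]; exact Or.inr hc)
  have hev : ∀ᶠ b in cofinite, b ∉ S := hSfin.compl_mem_cofinite
  intro c
  by_cases hc : c = 0
  · refine ⟨1, 0, 0, 1, by simp, ?_⟩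
    intro b _ _
    rw [hc, add_zero]
    unfold MobRel
    ring
  -- the matrix N
  obtain ⟨b₀, hb₀, hb₀c⟩ := (hev.and (Sg.ae_add c hev)).exists
  have k0 := hok _ hb₀
  have k1 := hok _ hb₀c
  obtain ⟨n0, n1, n2, n3, hnd, hn⟩ : ∃ n0 n1 n2 n3 : l, n0 * n3 - n1 * n2 ≠ 0 ∧
      ∀ᶠ a in cofinite, MobRel n0 n1 n2 n3 (g a) (g (a + c)) := by
    refine ⟨_, _, _, _, sg1_comp_det k1.1 (sg1_inv_det k0.1), ?_⟩
    filter_upwards [k1.2, pcl_shift (c := c) k0] with a e1 e2
    exact sg1_comp e1 (sg1_inv e2)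
  -- the products with N
  let xn : Fin 4 → l := ![X 0 * n0 + X 1 * n2, X 0 * n1 + X 1 * n3, X 2 * n0 + X 3 * n2,
    X 2 * n1 + X 3 * n3]
  let yn : Fin 4 → l := ![Y 0 * n0 + Y 1 * n2, Y 0 * n1 + Y 1 * n3, Y 2 * n0 + Y 3 * n2,
    Y 2 * n1 + Y 3 * n3]
  have hmul : ∀ b, b ∉ S → b + c ∉ S → ∃ μ : l, μ ≠ 0 ∧
      ∀ i, f b * xn i + yn i = μ * (f (b + c) * X i + Y i) := by
    intro b hb hbc
    have m0 := hok _ hb
    have m1 := hok _ hbc
    have hboth : ∀ᶠ a in cofinite,
        MobRel ((f b * X 0 + Y 0) * n0 + (f b * X 1 + Y 1) * n2)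
          ((f b * X 0 + Y 0) * n1 + (f b * X 1 + Y 1) * n3)
          ((f b * X 2 + Y 2) * n0 + (f b * X 3 + Y 3) * n2)
          ((f b * X 2 + Y 2) * n1 + (f b * X 3 + Y 3) * n3) (g a) (h (a + (b + c))) ∧
        MobRel (f (b + c) * X 0 + Y 0) (f (b + c) * X 1 + Y 1) (f (b + c) * X 2 + Y 2)
          (f (b + c) * X 3 + Y 3) (g a) (h (a + (b + c))) := by
      filter_upwards [hn, pcl_shift (c := c) m0, m1.2] with a e1 e2 e3
      exact ⟨sg1_comp e1 e2, e3⟩
    obtain ⟨μ, hμ, q0, q1, q2, q3⟩ := pcl_unique hg (sg1_comp_det hnd m0.1) m1.1 hboth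
    refine ⟨μ, hμ, ?_⟩
    intro i
    fin_cases i
    · simp only [xn, yn, Fin.zero_eta, Matrix.cons_val_zero]
      linear_combination q0
    · simp only [xn, yn, Fin.mk_one, Matrix.cons_val_one, Matrix.cons_val_zero]
      linear_combination q1
    · simp only [xn, yn, Fin.reduceFinMk, Matrix.cons_val]
      linear_combination q2
    · simp only [xn, yn, Fin.reduceFinMk, Matrix.cons_val]
      linear_combination q3
  -- two different points
  obtain ⟨b, hb, hbc⟩ := (hev.and (Sg.ae_add c hev)).exists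
  have hne : ∀ᶠ b' in cofinite, b' ≠ b := (Set.finite_singleton b).compl_mem_cofinite
  obtain ⟨b', ⟨hb', hbc'⟩, hbb⟩ := ((hev.and (Sg.ae_add c hev)).and hne).exists
  have e1 : f b - f b' ≠ 0 := sub_ne_zero.2 (hinj _ _ hb hb' hbb.symm)
  have e2 : f (b + c) - f (b' + c) ≠ 0 :=
    sub_ne_zero.2 (hinj _ _ hbc hbc' fun h0 => hbb (add_right_cancel h0).symm)
  obtain ⟨μ, hμ, hμi⟩ := hmul b hb hbc
  obtain ⟨μ', hμ', hμi'⟩ := hmul b' hb' hbc'
  refine ⟨μ * f (b + c) - μ' * f (b' + c), f b * μ' * f (b' + c) - f b' * μ * f (b + c),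
    μ - μ', f b * μ' - f b' * μ, ?_, ?_⟩
  · have : (μ * f (b + c) - μ' * f (b' + c)) * (f b * μ' - f b' * μ) -
        (f b * μ' * f (b' + c) - f b' * μ * f (b + c)) * (μ - μ') =
        (f b - f b') * (μ * μ' * (f (b + c) - f (b' + c))) := by ring
    rw [this]
    exact mul_ne_zero e1 (mul_ne_zero (mul_ne_zero hμ hμ') e2)
  · intro w hw hwc
    obtain ⟨ν, hν, hνi⟩ := hmul w hw hwc
    have hst := pcl_indep (s := (μ * f (b + c) - μ' * f (b' + c)) * f w +
      (f b * μ' * f (b' + c) - f b' * μ * f (b + c)) - (f b - f b') * ν * f (w + c))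
      (t := (μ - μ') * f w + (f b * μ' - f b' * μ) - (f b - f b') * ν) hg hc k0 k1 (by
        intro i
        linear_combination (f b - f b') * hνi i - (f w - f b') * hμi i - (f b - f w) * hμi' i)
    unfold MobRel
    linear_combination f (w + c) * hst.2 - hst.1

end Vale.Agent.P019P
end

section

/-!
# The coordinate of the sum is a rational function
-/

namespace Vale.Agent.P019P

open Vale.Agent.P019

set_option linter.style.haveILetI false
set_option linter.unusedSectionVars false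

open Polynomial Filter

variable {K L : Type*} [Field K] [Field L] [PerfectField K] [PerfectField L] {ℓ : ℕ}
  [Fact ℓ.Prime] [NeZero (ℓ : K)] [NeZero (ℓ : L)]
  {k : Subfield K} {l : Subfield L} {Θ : V ℓ K ≃ₗ[ZMod ℓ] V ℓ L}

/-- the Moebius relation on all fibres (compare `Hyp.rel`). -/
theorem Hyp.rel_all (H : Hyp ℓ k l Θ) {t s z : K} {t' s' z' : L}
    (hts : ¬ IsAlgebraic (adj k s) t) (ht : Rt k l Θ t t') (hs : Rt k l Θ s s')
    (hz : Rt k l Θ z z') {m : K → K → K} (hm : Shift ℓ k t s z m) {ψt ψs ψz : K → L}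
    {et es ez : K → ZMod ℓ} (pt : Psi k l Θ t t' ψt et) (ps : Psi k l Θ s s' ψs es)
    (pz : Psi k l Θ z z' ψz ez) :
    ∃ G' : Subfield L, Frame l G' t' s' ∧ ∀ᶠ a in ae k, ψt a ∈ l ∧
      ∀ W : ValuationSubring L, Over W (adj G' s') t' (ψt a) →
      ∃ i j : ℕ, ∃ A ∈ l, ∃ B ∈ l, ∃ C ∈ l, ∃ D ∈ l, A * D - B * C ≠ 0 ∧
        (∀ᶠ b in ae k,
          ψz (m a b) ^ (ringExpChar L) ^ i * (C * ψs b ^ (ringExpChar L) ^ j + D) =
            A * ψs b ^ (ringExpChar L) ^ j + B) ∧
          W.valuation (z' ^ (ringExpChar L) ^ i * (C * s' ^ (ringExpChar L) ^ j + D) -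
            (A * s' ^ (ringExpChar L) ^ j + B)) < 1 := by
  have hk := H.ack
  have hl := H.acl
  have hRl : RAC l := RAC_of_isAlgClosed l hl
  have hs'l : s' ∉ l := hs.good'.1
  have ht'l : t' ∉ l := ht.good'.1
  -- `t'` and `s'` are independent
  have ht's' : ¬ IsAlgebraic (adj l s') t' := by
    intro h
    have h1 : t' ∈ adj l s' := hs.good'.2 t' h
    have h2 : adj l t' = adj l s' :=
      Crv.eq hRl (Crv.of_good ht.good') (Crv.of_good hs.good') (mem_adj l t') h1 ht'l
    exact H.crv_ne hs.good.1 hts ht.map hs.map h2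
  obtain ⟨G', hfr⟩ := exists_frame H.fgl (fun h => hs'l (hRl _ h)) ht's'
  refine ⟨G', hfr, ?_⟩
  obtain ⟨θ, hθ⟩ := hfr.nice H.fgl
  have hlF : l ≤ adj G' s' := hfr.le.trans (le_adj G' s')
  have hθ' := (ae_mono hlF) hθ
  filter_upwards [ae_mem k, pt.cor, Psi.relb_pull hk hl ht pt hθ', hm.ev] with a ha hcor hnice hev
  obtain ⟨hα, he, hc⟩ := hcor
  obtain ⟨hinj, hsurj, hO⟩ := hev
  refine ⟨hα, fun W hWo => ?_⟩
  have hW : Nice W (adj G' s') (t' - ψt a) θ := hnice W hWo
  have hfgF : FG l (adj G' s') := hfr.fg.adj s'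
  have hWs : TrivOn W (adj l s') := hW.triv.mono (adj_mono hfr.le s')
  have hWl : TrivOn W l := hW.triv.mono hlF
  obtain ⟨O, hOk, hT⟩ := H.symm.exists_tr hlF hfgF hW hs.good' hWs
  have hys : ∀ v ∈ VS ℓ (adj l s'), Θ.symm v ∈ VS ℓ (adj k s) := by
    intro v hv
    refine (hs.map _).1 ?_
    rwa [LinearEquiv.apply_symm_apply]
  have hOs : TrivOn O (adj k s) :=
    H.symm.triv_crv hlF hfgF hW hOk hT hs'l hWs (Crv.of_good hs.good) hys
  have hcen : O.valuation (t - a) < 1 := H.centre ht ha hα he hc hWl hW.unif hOk hT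
  have hU := hO O hOs hcen
  have hUL : ∀ b ∈ k, Θ (cl ℓ (s - b)) - Θ (cl ℓ (z - m a b)) ∈ U1 ℓ W := by
    intro b hb
    rw [← map_sub]
    refine (hT.iff _).1 ?_
    rw [LinearEquiv.symm_apply_apply]
    exact hU b hb
  have hV1 : VS ℓ (adj k s) ≤ VS ℓ (adj k z) ⊔ U1 ℓ O :=
    VS_le_of_shift hk hs.good.1 (m a) (fun b hb => hm.mem a ha b hb) hU
  have hV2 : VS ℓ (adj k z) ≤ VS ℓ (adj k s) ⊔ U1 ℓ O := by
    have h1 : ∀ c : K, ∃ b : K, c ∈ k → b ∈ k ∧ m a b = c := by
      intro c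
      by_cases hc : c ∈ k
      · obtain ⟨b, hb, h⟩ := hsurj c hc
        exact ⟨b, fun _ => ⟨hb, h⟩⟩
      · exact ⟨0, fun h => absurd h hc⟩
    choose m' hm' using h1
    refine VS_le_of_shift hk hz.good.1 m' (fun c hc => (hm' c hc).1) ?_
    intro c hc
    have h2 := hU (m' c) (hm' c hc).1
    rw [(hm' c hc).2] at h2
    rw [← neg_mem_iff, neg_sub]
    exact h2
  obtain ⟨hWz, hV⟩ := H.symm.rat_of hfr.le hfr.fg hW hT hs.good.1 hV2 hV1
    (fun v hv => (hs.map v).2 hv) (Crv.of_good hz.good') hz.map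
  obtain ⟨i, j, A, hA, B, hB, C', hC, D, hD, hdet, hgen, hval⟩ := H.relb_at hs hz ps pz
    (μ := m a) (fun b hb => hm.mem a ha b hb) hinj hfr.le hfr.fg hfr.ss hW hWz hV hUL
  exact ⟨i, j, A, hA, B, hB, C', hC, D, hD, hdet, hgen.mono fun b hb => hb.1, hval⟩

/-- the denominator does not vanish. -/
theorem relca_den_ne (hl : IsAlgClosed l) {x : L} (hx : x ∉ l) {A B C D : L} (hC : C ∈ l)
    (hD : D ∈ l) (hdet : A * D - B * C ≠ 0) (j : ℕ) :
    C * x ^ (ringExpChar L) ^ j + D ≠ 0 := by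
  intro h
  by_cases hC0 : C = 0
  · rw [hC0, zero_mul, zero_add] at h
    apply hdet
    rw [hC0, h, mul_zero, mul_zero, sub_zero]
  · haveI := hl
    have h1 : x ^ (ringExpChar L) ^ j ∈ l := by
      have h2 : x ^ (ringExpChar L) ^ j = -D / C := by
        rw [eq_div_iff hC0]
        linear_combination h
      rw [h2]
      exact l.div_mem (l.neg_mem hD) hC
    exact hx (mem_of_pow_q h1)

/-- a polynomial identity holding at infinitely many points of `l` holds at `x`. -/
theorem relca_ident {A B C D A' B' C' D' : L} {n₁ n₂ n₃ n₄ : ℕ}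
    (hinf : {x : L | x ∈ l ∧ (A * x ^ n₁ + B) ^ n₂ * (C' * x ^ n₃ + D') ^ n₄ =
      (A' * x ^ n₃ + B') ^ n₄ * (C * x ^ n₁ + D) ^ n₂}.Infinite) (x : L) :
    (A * x ^ n₁ + B) ^ n₂ * (C' * x ^ n₃ + D') ^ n₄ =
      (A' * x ^ n₃ + B') ^ n₄ * (C * x ^ n₁ + D) ^ n₂ := by
  let F : L[X] := (Polynomial.C A * X ^ n₁ + Polynomial.C B) ^ n₂ *
      (Polynomial.C C' * X ^ n₃ + Polynomial.C D') ^ n₄ -
    (Polynomial.C A' * X ^ n₃ + Polynomial.C B') ^ n₄ *
      (Polynomial.C C * X ^ n₁ + Polynomial.C D) ^ n₂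
  have hev : ∀ y : L, F.eval y = (A * y ^ n₁ + B) ^ n₂ * (C' * y ^ n₃ + D') ^ n₄ -
      (A' * y ^ n₃ + B') ^ n₄ * (C * y ^ n₁ + D) ^ n₂ := by
    intro y
    simp only [F, eval_sub, eval_mul, eval_pow, eval_add, eval_C, eval_X]
  have hF : F = 0 := by
    refine Polynomial.eq_zero_of_infinite_isRoot F (hinf.mono ?_)
    rintro y ⟨-, hy⟩
    rw [Set.mem_ofPred_eq, IsRoot.def, hev, hy, sub_self]
  have h1 := hev x
  rw [hF, eval_zero] at h1
  exact (sub_eq_zero.1 h1.symm)

/-- infinitely many values. -/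
theorem relca_inf (hk : IsAlgClosed k) (hl : IsAlgClosed l) {s : K} {s' : L}
    (hR : Rt k l Θ s s') {ψ : K → L} {e : K → ZMod ℓ} (p : Psi k l Θ s s' ψ e) {P : L → Prop}
    (hP : ∀ᶠ b in ae k, P (ψ b)) : {x : L | x ∈ l ∧ P x}.Infinite := by
  intro hfin
  have h1 : ∀ᶠ β in ae l, ¬ P β := by
    rw [ae_iff]
    refine hfin.subset ?_
    rintro β ⟨hβ, h⟩
    exact ⟨hβ, not_not.1 h⟩
  have h2 := Psi.relb_pull hk hl hR p h1
  haveI := ae_neBot_of_isAlgClosed hk
  obtain ⟨b, hb1, hb2⟩ := (hP.and h2).exists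
  exact hb2 hb1

/-- comparison of two Moebius relations. -/
theorem relca_cmp {q : ℕ} {y x A B C D A' B' C' D' : L} {i i' j j' : ℕ}
    (h : y ^ q ^ i * (C * x ^ q ^ j + D) = A * x ^ q ^ j + B)
    (h' : y ^ q ^ i' * (C' * x ^ q ^ j' + D') = A' * x ^ q ^ j' + B') :
    (A * x ^ q ^ j + B) ^ q ^ i' * (C' * x ^ q ^ j' + D') ^ q ^ i =
      (A' * x ^ q ^ j' + B') ^ q ^ i * (C * x ^ q ^ j + D) ^ q ^ i' := by
  rw [← h, ← h', mul_pow, mul_pow, ← pow_mul, ← pow_mul, mul_comm (q ^ i) (q ^ i')]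
  ring

/-- the value of the coordinate at the fibre does not depend on the valuation. -/
theorem relca_same (hl : IsAlgClosed l) {x c : L} (hx : x ∉ l) {A B C D A' B' C' D' : L}
    {i i' j j' : ℕ} (hC : C ∈ l) (hD : D ∈ l) (hdet : A * D - B * C ≠ 0)
    (hc : c ^ (ringExpChar L) ^ i * (C * x ^ (ringExpChar L) ^ j + D) =
      A * x ^ (ringExpChar L) ^ j + B)
    (h : (A * x ^ (ringExpChar L) ^ j + B) ^ (ringExpChar L) ^ i' *
        (C' * x ^ (ringExpChar L) ^ j' + D') ^ (ringExpChar L) ^ i =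
      (A' * x ^ (ringExpChar L) ^ j' + B') ^ (ringExpChar L) ^ i *
        (C * x ^ (ringExpChar L) ^ j + D) ^ (ringExpChar L) ^ i') :
    c ^ (ringExpChar L) ^ i' * (C' * x ^ (ringExpChar L) ^ j' + D') =
      A' * x ^ (ringExpChar L) ^ j' + B' := by
  have hne := relca_den_ne hl hx hC hD hdet j
  refine pow_q_inj (n := i) ?_
  refine mul_right_cancel₀ (pow_ne_zero ((ringExpChar L) ^ i') hne) ?_
  rw [← h, ← hc, mul_pow, mul_pow, ← pow_mul, ← pow_mul,
    mul_comm ((ringExpChar L) ^ i) ((ringExpChar L) ^ i')]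
  ring

/-- the value of the coordinate at a generic fibre. -/
theorem Hyp.relca_val (H : Hyp ℓ k l Θ) {s : K} {s' z' : L} (hs : Rt k l Θ s s')
    {ψs : K → L} {es : K → ZMod ℓ} (ps : Psi k l Θ s s' ψs es) {f : K → L}
    {G' : Subfield L} (hlG : l ≤ G') {t' α : L} (hα : α ∈ l)
    (htt : ¬ IsAlgebraic (adj G' s') t')
    (hall : ∀ W : ValuationSubring L, Over W (adj G' s') t' α →
      ∃ i j : ℕ, ∃ A ∈ l, ∃ B ∈ l, ∃ C ∈ l, ∃ D ∈ l, A * D - B * C ≠ 0 ∧
        (∀ᶠ b in ae k, f b ^ (ringExpChar L) ^ i * (C * ψs b ^ (ringExpChar L) ^ j + D) =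
            A * ψs b ^ (ringExpChar L) ^ j + B) ∧
          W.valuation (z' ^ (ringExpChar L) ^ i * (C * s' ^ (ringExpChar L) ^ j + D) -
            (A * s' ^ (ringExpChar L) ^ j + B)) < 1) :
    ∃ c ∈ adj l s', ∀ W : ValuationSubring L, Over W (adj G' s') t' α →
      W.valuation (z' - c) < 1 := by
  have hk := H.ack
  have hl := H.acl
  have hs'l : s' ∉ l := hs.good'.1
  have hlF : l ≤ adj G' s' := hlG.trans (le_adj G' s')
  obtain ⟨W₀, hW₀⟩ := exists_over htt (hlF hα)
  obtain ⟨i, j, A, hA, B, hB, C, hC, D, hD, hdet, hgen, -⟩ := hall W₀ hW₀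
  have hne := relca_den_ne hl hs'l hC hD hdet j
  have hmem : (A * s' ^ (ringExpChar L) ^ j + B) / (C * s' ^ (ringExpChar L) ^ j + D) ∈
      adj l s' := by
    have h1 : s' ^ (ringExpChar L) ^ j ∈ adj l s' := (adj l s').pow_mem (mem_adj l s') _
    exact (adj l s').div_mem
      ((adj l s').add_mem ((adj l s').mul_mem (le_adj l s' hA) h1) (le_adj l s' hB))
      ((adj l s').add_mem ((adj l s').mul_mem (le_adj l s' hC) h1) (le_adj l s' hD))
  obtain ⟨c, hc, hci⟩ := exists_root_q (adj l s') hmem i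
  have hc' : c ^ (ringExpChar L) ^ i * (C * s' ^ (ringExpChar L) ^ j + D) =
      A * s' ^ (ringExpChar L) ^ j + B := by
    rw [hci, div_mul_cancel₀ _ hne]
  refine ⟨c, hc, fun W hW => ?_⟩
  obtain ⟨i', j', A', hA', B', hB', C', hC', D', hD', hdet', hgen', hval⟩ := hall W hW
  have hinf := relca_inf (P := fun x => (A * x ^ (ringExpChar L) ^ j + B) ^ (ringExpChar L) ^ i' *
        (C' * x ^ (ringExpChar L) ^ j' + D') ^ (ringExpChar L) ^ i =
      (A' * x ^ (ringExpChar L) ^ j' + B') ^ (ringExpChar L) ^ i *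
        (C * x ^ (ringExpChar L) ^ j + D) ^ (ringExpChar L) ^ i') hk hl hs ps
    (by
      filter_upwards [hgen, hgen'] with b h1 h2
      exact relca_cmp h1 h2)
  have h3 := relca_same hl hs'l hC hD hdet hc'
    (relca_ident hinf s')
  have hne' := relca_den_ne hl hs'l hC' hD' hdet' j'
  have hden : C' * s' ^ (ringExpChar L) ^ j' + D' ∈ adj G' s' :=
    (adj G' s').add_mem ((adj G' s').mul_mem (hlF hC')
      ((adj G' s').pow_mem (mem_adj G' s') _)) (hlF hD')
  have h4 : z' ^ (ringExpChar L) ^ i' * (C' * s' ^ (ringExpChar L) ^ j' + D') -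
      (A' * s' ^ (ringExpChar L) ^ j' + B') =
      (z' - c) ^ (ringExpChar L) ^ i' * (C' * s' ^ (ringExpChar L) ^ j' + D') := by
    rw [← h3, sub_pow_q]
    ring
  rw [h4, map_mul, hW.triv.eq_one hden hne', mul_one, map_pow] at hval
  by_contra hcon
  exact absurd hval (not_lt.2 (one_le_pow₀ (not_lt.1 hcon)))

/-- the coordinate of the sum is rational. -/
theorem Hyp.z_mem (H : Hyp ℓ k l Θ) {t s z : K} {t' s' z' : L}
    (hts : ¬ IsAlgebraic (adj k s) t) (ht : Rt k l Θ t t') (hs : Rt k l Θ s s')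
    (hz : Rt k l Θ z z') {m : K → K → K} (hm : Shift ℓ k t s z m) :
    z' ∈ adj (adj l s') t' := by
  have hk := H.ack
  have hl := H.acl
  obtain ⟨ψt, et, pt⟩ := H.exists_psi ht
  obtain ⟨ψs, es, ps⟩ := H.exists_psi hs
  obtain ⟨ψz, ez, pz⟩ := H.exists_psi hz
  obtain ⟨G', hfr, hev⟩ := H.rel_all hts ht hs hz hm pt ps pz
  have hinf := relca_inf (P := fun β => ∃ c ∈ adj l s', ∀ W : ValuationSubring L,
    Over W (adj G' s') t' β → W.valuation (z' - c) < 1) hk hl ht pt
    (by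
      filter_upwards [hev] with a ha
      exact H.relca_val hs ps hfr.le ha.1 hfr.tt ha.2)
  haveI := hfr.perfect
  have hle : adj l s' ≤ adj G' s' := adj_mono hfr.le s'
  have h1 : z' ∈ adj (adj G' s') t' := by
    refine lemZ hfr.tt (hfr.alg z') (hinf.mono ?_)
    rintro β ⟨hβ, c, hc, hW⟩
    exact ⟨hle (le_adj l s' hβ), c, hle hc, hW⟩
  refine rat_descent hle hfr.tt h1 (hinf.mono ?_)
  rintro β ⟨hβ, c, hc, hW⟩
  exact ⟨le_adj l s' hβ, c, hc, hW⟩

end Vale.Agent.P019P
end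

section

/-!
# Coprime pairs which are twisted Moebius transformations
-/

namespace Vale.Agent.P019P

open Vale.Agent.P019

set_option linter.style.haveILetI false
set_option linter.unusedSectionVars false

open Polynomial Filter

section pair

variable {l : Type*} [Field l]

theorem bl_add_pow (a b : l) (m j : ℕ) :
    (C a * X ^ m + C b : l[X]) ^ (ringExpChar l) ^ j =
      C (a ^ (ringExpChar l) ^ j) * X ^ (m * (ringExpChar l) ^ j) +
        C (b ^ (ringExpChar l) ^ j) := by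
  haveI : ExpChar l[X] (ringExpChar l) := expChar_of_injective_ringHom (C_injective (R := l)) _
  rw [add_pow_expChar_pow, mul_pow, ← pow_mul, C_pow, C_pow]

theorem bl_frob_inj {p r : l[X]} {j : ℕ}
    (h : p ^ (ringExpChar l) ^ j = r ^ (ringExpChar l) ^ j) : p = r := by
  haveI : ExpChar l[X] (ringExpChar l) := expChar_of_injective_ringHom (C_injective (R := l)) _
  have h1 : (p - r) ^ (ringExpChar l) ^ j = 0 := by
    rw [sub_pow_expChar_pow, h, sub_self]
  exact sub_eq_zero.1 ((pow_eq_zero_iff (pow_pos (expChar_pos l _) j).ne').1 h1)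

theorem bl_coeff (x y : l) (M e : ℕ) : (C x * X ^ M + C y : l[X]).coeff e =
    (if e = M then x else 0) + (if e = 0 then y else 0) := by
  rw [coeff_add, coeff_C_mul, coeff_X_pow, coeff_C]
  split_ifs <;> simp

theorem bl_lin_coprime {A B C' D : l} (hdet : A * D - B * C' ≠ 0) (m : ℕ) :
    IsCoprime (C A * X ^ m + C B : l[X]) (C C' * X ^ m + C D) := by
  refine ⟨C (-C' / (A * D - B * C')), C (A / (A * D - B * C')), ?_⟩
  have h1 : (C (-C' / (A * D - B * C')) * (C A * X ^ m + C B) +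
      C (A / (A * D - B * C')) * (C C' * X ^ m + C D) : l[X]) =
      C (-C' / (A * D - B * C') * A + A / (A * D - B * C') * C') * X ^ m +
      C (-C' / (A * D - B * C') * B + A / (A * D - B * C') * D) := by
    simp only [C_add, C_mul]
    ring
  rw [h1]
  have h2 : -C' / (A * D - B * C') * A + A / (A * D - B * C') * C' = 0 := by
    rw [div_mul_eq_mul_div, div_mul_eq_mul_div, ← add_div, div_eq_zero_iff]
    left
    ring
  have h3 : -C' / (A * D - B * C') * B + A / (A * D - B * C') * D = 1 := by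
    rw [div_mul_eq_mul_div, div_mul_eq_mul_div, ← add_div, div_eq_one_iff_eq hdet]
    ring
  rw [h2, h3]
  simp

theorem bl_natDegree_lin {a b : l} (ha : a ≠ 0) {m : ℕ} :
    (C a * X ^ m + C b : l[X]).natDegree = m := by
  rw [natDegree_add_C, natDegree_C_mul_X_pow m a ha]

theorem bl_pair [IsAlgClosed l] {p r : l[X]} (hcop : IsCoprime p r) {A B C' D : l}
    (hdet : A * D - B * C' ≠ 0) {n i j : ℕ}
    (h : p ^ (ringExpChar l) ^ i * (C C' * X ^ (ringExpChar l) ^ j + C D) ^ (ringExpChar l) ^ n =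
      r ^ (ringExpChar l) ^ i * (C A * X ^ (ringExpChar l) ^ j + C B) ^ (ringExpChar l) ^ n) :
    ∃ (m : ℕ) (a b c d : l), a * d - b * c ≠ 0 ∧ p = C a * X ^ (ringExpChar l) ^ m + C b ∧
      r = C c * X ^ (ringExpChar l) ^ m + C d := by
  haveI : ExpChar l[X] (ringExpChar l) := expChar_of_injective_ringHom (C_injective (R := l)) _
  have hq0 : 0 < ringExpChar l := expChar_pos l _
  -- absorb `n`
  rw [bl_add_pow, bl_add_pow, ← pow_add] at h
  have hdet' : A ^ (ringExpChar l) ^ n * D ^ (ringExpChar l) ^ n -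
      B ^ (ringExpChar l) ^ n * C' ^ (ringExpChar l) ^ n ≠ 0 := by
    rw [sg1_det_pow]
    exact pow_ne_zero _ hdet
  generalize A ^ (ringExpChar l) ^ n = A₁ at h hdet'
  generalize B ^ (ringExpChar l) ^ n = B₁ at h hdet'
  generalize C' ^ (ringExpChar l) ^ n = C₁ at h hdet'
  generalize D ^ (ringExpChar l) ^ n = D₁ at h hdet'
  generalize j + n = J at h
  set f : l[X] := C A₁ * X ^ (ringExpChar l) ^ J + C B₁ with hf
  set g : l[X] := C C₁ * X ^ (ringExpChar l) ^ J + C D₁ with hg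
  have hfg : IsCoprime f g := bl_lin_coprime hdet' _
  have hpr : IsCoprime (p ^ (ringExpChar l) ^ i) (r ^ (ringExpChar l) ^ i) := hcop.pow
  have d1 : p ^ (ringExpChar l) ^ i ∣ f := hpr.dvd_of_dvd_mul_left (Dvd.intro _ h)
  have d2 : f ∣ p ^ (ringExpChar l) ^ i := hfg.dvd_of_dvd_mul_right (Dvd.intro_left _ h.symm)
  have hf0 : f ≠ 0 := by
    intro h0
    have h1 : f.coeff ((ringExpChar l) ^ J) = 0 := by rw [h0]; simp
    have h2 : f.coeff 0 = 0 := by rw [h0]; simp
    have hJ : (ringExpChar l) ^ J ≠ 0 := (pow_pos hq0 J).ne'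
    rw [hf, bl_coeff, if_pos rfl, if_neg hJ, add_zero] at h1
    rw [hf, bl_coeff, if_pos rfl, if_neg hJ.symm, zero_add] at h2
    apply hdet'
    rw [h1, h2]
    ring
  obtain ⟨u, hu⟩ := associated_of_dvd_dvd d1 d2
  obtain ⟨e, he, heu⟩ := Polynomial.isUnit_iff.1 u.isUnit
  have he0 : e ≠ 0 := he.ne_zero
  obtain ⟨e', rfl⟩ := exists_root e i
  have hfp : f = (C e' * p) ^ (ringExpChar l) ^ i := by
    rw [mul_pow, ← C_pow, heu, mul_comm, hu]
  have hp0 : p ≠ 0 := by
    rintro rfl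
    apply hf0
    rw [hfp, mul_zero, zero_pow (pow_pos hq0 i).ne']
  have hgr : g = (C e' * r) ^ (ringExpChar l) ^ i := by
    rw [mul_pow, ← C_pow]
    apply mul_left_cancel₀ (pow_ne_zero ((ringExpChar l) ^ i) hp0)
    rw [h, hfp, mul_pow, ← C_pow]
    ring
  have he'0 : e' ≠ 0 := by
    rintro rfl
    exact he0 (zero_pow (pow_pos hq0 i).ne')
  -- degrees
  have hdeg : ∃ N : ℕ, (ringExpChar l) ^ J = (ringExpChar l) ^ i * N := by
    by_cases hA : A₁ = 0
    · have hC : C₁ ≠ 0 := by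
        rintro rfl
        apply hdet'
        rw [hA]
        ring
      have h1 := congrArg natDegree hgr
      rw [hg, bl_natDegree_lin hC, natDegree_pow] at h1
      exact ⟨_, h1⟩
    · have h1 := congrArg natDegree hfp
      rw [hf, bl_natDegree_lin hA, natDegree_pow] at h1
      exact ⟨_, h1⟩
  have hJ : (ringExpChar l) ^ J = (ringExpChar l) ^ (J - i) * (ringExpChar l) ^ i := by
    obtain ⟨N, hN⟩ := hdeg
    rcases Nat.lt_or_ge 1 (ringExpChar l) with hq | hq
    · have hij : i ≤ J := by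
        apply (Nat.pow_le_pow_iff_right hq).1
        rw [hN]
        apply Nat.le_mul_of_pos_right
        rcases Nat.eq_zero_or_pos N with h0 | h0
        · rw [h0, mul_zero] at hN
          exact absurd hN (pow_pos hq0 J).ne'
        · exact h0
      rw [← pow_add]
      congr 1
      omega
    · have hq1 : ringExpChar l = 1 := by omega
      rw [hq1]
      simp
  obtain ⟨a, ha⟩ := exists_root A₁ i
  obtain ⟨b, hb⟩ := exists_root B₁ i
  obtain ⟨c, hc⟩ := exists_root C₁ i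
  obtain ⟨d, hd⟩ := exists_root D₁ i
  have e1 : C a * X ^ (ringExpChar l) ^ (J - i) + C b = C e' * p := by
    apply bl_frob_inj (j := i)
    rw [← hfp, bl_add_pow, ha, hb, ← hJ]
  have e2 : C c * X ^ (ringExpChar l) ^ (J - i) + C d = C e' * r := by
    apply bl_frob_inj (j := i)
    rw [← hgr, bl_add_pow, hc, hd, ← hJ]
  have hdet2 : a * d - b * c ≠ 0 := by
    intro h0
    apply hdet'
    rw [← ha, ← hb, ← hc, ← hd, sg1_det_pow, h0, zero_pow (pow_pos hq0 i).ne']
  have hCe : (C e'⁻¹ * C e' : l[X]) = 1 := by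
    rw [← C_mul, inv_mul_cancel₀ he'0, C_1]
  refine ⟨J - i, e'⁻¹ * a, e'⁻¹ * b, e'⁻¹ * c, e'⁻¹ * d, ?_, ?_, ?_⟩
  · have : e'⁻¹ * a * (e'⁻¹ * d) - e'⁻¹ * b * (e'⁻¹ * c) =
        e'⁻¹ * e'⁻¹ * (a * d - b * c) := by ring
    rw [this]
    exact mul_ne_zero (mul_ne_zero (inv_ne_zero he'0) (inv_ne_zero he'0)) hdet2
  · calc p = (C e'⁻¹ * C e') * p := by rw [hCe, one_mul]
      _ = C e'⁻¹ * (C e' * p) := by ring
      _ = C e'⁻¹ * (C a * X ^ (ringExpChar l) ^ (J - i) + C b) := by rw [e1]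
      _ = _ := by rw [C_mul, C_mul]; ring
  · calc r = (C e'⁻¹ * C e') * r := by rw [hCe, one_mul]
      _ = C e'⁻¹ * (C e' * r) := by ring
      _ = C e'⁻¹ * (C c * X ^ (ringExpChar l) ^ (J - i) + C d) := by rw [e2]
      _ = _ := by rw [C_mul, C_mul]; ring

/-- the form used below: `N` is the maximal degree. -/
theorem bl_fib [IsAlgClosed l] {p r : l[X]} (hcop : IsCoprime p r) {A B C' D : l}
    (hdet : A * D - B * C' ≠ 0) {n i j N : ℕ}
    (h : p ^ (ringExpChar l) ^ i * (C C' * X ^ (ringExpChar l) ^ j + C D) ^ (ringExpChar l) ^ n =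
      r ^ (ringExpChar l) ^ i * (C A * X ^ (ringExpChar l) ^ j + C B) ^ (ringExpChar l) ^ n)
    (hp : p.natDegree ≤ N) (hr : r.natDegree ≤ N) (hN : p.coeff N ≠ 0 ∨ r.coeff N ≠ 0) :
    (∃ m : ℕ, N = (ringExpChar l) ^ m) ∧
      (∀ e, e ≠ 0 → e ≠ N → p.coeff e = 0 ∧ r.coeff e = 0) ∧
      p.coeff N * r.coeff 0 - p.coeff 0 * r.coeff N ≠ 0 := by
  obtain ⟨m, a, b, c, d, hd, rfl, rfl⟩ := bl_pair hcop hdet h
  have hM : 0 < (ringExpChar l) ^ m := pow_pos (expChar_pos l _) m
  generalize hMd : (ringExpChar l) ^ m = M at *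
  have hc : ∀ (x y : l) (e : ℕ), (C x * X ^ M + C y : l[X]).coeff e =
      (if e = M then x else 0) + (if e = 0 then y else 0) := fun x y e => bl_coeff x y M e
  have hMN : M ≤ N := by
    by_cases ha : a = 0
    · have hc0 : c ≠ 0 := by
        rintro rfl
        apply hd
        rw [ha]
        ring
      rwa [bl_natDegree_lin hc0] at hr
    · rwa [bl_natDegree_lin ha] at hp
  have hNM : N = M := by
    by_contra hne
    have h0 : N ≠ 0 := by omega
    rw [hc, hc, if_neg hne, if_neg h0, if_neg hne, if_neg h0] at hN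
    simp at hN
  subst hNM
  refine ⟨⟨m, hMd.symm⟩, ?_, ?_⟩
  · intro e he0 heN
    rw [hc, hc, if_neg he0, if_neg heN, if_neg he0, if_neg heN]
    simp
  · rw [hc, hc, hc, hc]
    simp [hM.ne', hM.ne]
    exact hd

end pair

end Vale.Agent.P019P
end

section

/-!
# Rational functions of two variables
-/

namespace Vale.Agent.P019P

open Vale.Agent.P019

set_option linter.style.haveILetI false
set_option linter.unusedSectionVars false

open Polynomial Filter

section ev

variable {L : Type*} [Field L] {l : Subfield L}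

/-- evaluation of a polynomial in two variables. -/
noncomputable def blE (l : Subfield L) (x y : L) : l[X][X] →+* L :=
  eval₂RingHom (aeval x : l[X] →ₐ[l] L).toRingHom y

theorem blE_monomial (x y : L) (n : ℕ) (c : l[X]) :
    blE l x y (monomial n c) = aeval x c * y ^ n := by
  simp [blE]

theorem blE_C (x y : L) (c : l[X]) : blE l x y (C c) = aeval x c := by
  simp [blE]

theorem blE_X (x y : L) : blE l x y X = y := by
  simp [blE]

/-- congruence modulo the maximal ideal. -/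
def blR (W : ValuationSubring L) (u v : L) : Prop := u ∈ W ∧ v ∈ W ∧ W.valuation (u - v) < 1

theorem blR.add {W : ValuationSubring L} {u v u' v' : L} (h : blR W u v) (h' : blR W u' v') :
    blR W (u + u') (v + v') := by
  refine ⟨add_mem h.1 h'.1, add_mem h.2.1 h'.2.1, ?_⟩
  have : u + u' - (v + v') = (u - v) + (u' - v') := by ring
  rw [this]
  exact Valuation.map_add_lt _ h.2.2 h'.2.2

theorem blR.mul {W : ValuationSubring L} {u v u' v' : L} (h : blR W u v) (h' : blR W u' v') :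
    blR W (u * u') (v * v') := by
  refine ⟨mul_mem h.1 h'.1, mul_mem h.2.1 h'.2.1, ?_⟩
  have : u * u' - v * v' = (u - v) * u' + v * (u' - v') := by ring
  rw [this]
  have h1 := (W.valuation_le_one_iff _).2 h'.1
  have h2 := (W.valuation_le_one_iff _).2 h.2.1
  refine Valuation.map_add_lt _ ?_ ?_
  · rw [map_mul]
    exact lt_of_le_of_lt (mul_le_of_le_one_right' h1) h.2.2
  · rw [map_mul]
    exact lt_of_le_of_lt (mul_le_of_le_one_left' h2) h'.2.2

theorem blR.refl {W : ValuationSubring L} {u : L} (h : u ∈ W) : blR W u u :=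
  ⟨h, h, by rw [sub_self, map_zero]; exact zero_lt_one⟩

theorem blR.pow {W : ValuationSubring L} {u v : L} (h : blR W u v) (n : ℕ) :
    blR W (u ^ n) (v ^ n) := by
  induction n with
  | zero => simpa using blR.refl (one_mem W)
  | succ n ih => rw [pow_succ, pow_succ]; exact ih.mul h

theorem blR.aeval {W : ValuationSubring L} (hW : TrivOn W l) {x x' : L} (hx : blR W x x')
    (P : l[X]) : blR W (aeval x P) (aeval x' P) := by
  induction P using Polynomial.induction_on' with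
  | add p q hp hq => rw [map_add, map_add]; exact hp.add hq
  | monomial n a =>
    rw [aeval_monomial, aeval_monomial]
    exact (blR.refl (hW _ a.2)).mul (hx.pow n)

theorem blR.blE {W : ValuationSubring L} (hW : TrivOn W l) {x x' y y' : L} (hx : blR W x x')
    (hy : blR W y y') (P : l[X][X]) : blR W (blE l x y P) (blE l x' y' P) := by
  induction P using Polynomial.induction_on' with
  | add p q hp hq => rw [map_add, map_add]; exact hp.add hq
  | monomial n a =>
    rw [blE_monomial, blE_monomial]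
    exact (blR.aeval hW hx a).mul (hy.pow n)

/-- specialization of a relation. -/
theorem bl_spec {W : ValuationSubring L} {F : Subfield L} (hW : TrivOn W F) {n i : ℕ}
    {z Ps Qs P₁ Q₁ c d : L} (hP1 : P₁ ∈ F) (hQ1 : Q₁ ∈ F) (hc : c ∈ F) (hd : d ∈ F)
    (hP : blR W Ps P₁) (hQ : blR W Qs Q₁)
    (hz : W.valuation (z ^ (ringExpChar L) ^ i * c - d) < 1)
    (h : z ^ (ringExpChar L) ^ n * Qs = Ps) :
    P₁ ^ (ringExpChar L) ^ i * c ^ (ringExpChar L) ^ n =
      Q₁ ^ (ringExpChar L) ^ i * d ^ (ringExpChar L) ^ n := by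
  have hu : blR W (z ^ (ringExpChar L) ^ i * c) d := by
    have hdW := hW d hd
    refine ⟨?_, hdW, hz⟩
    have : z ^ (ringExpChar L) ^ i * c = (z ^ (ringExpChar L) ^ i * c - d) + d := by ring
    rw [this]
    exact add_mem ((W.valuation_le_one_iff _).1 hz.le) hdW
  have h1 : blR W (Ps ^ (ringExpChar L) ^ i * c ^ (ringExpChar L) ^ n)
      (P₁ ^ (ringExpChar L) ^ i * c ^ (ringExpChar L) ^ n) :=
    (hP.pow _).mul ((blR.refl (hW c hc)).pow _)
  have h2 : blR W (Qs ^ (ringExpChar L) ^ i * (z ^ (ringExpChar L) ^ i * c) ^ (ringExpChar L) ^ n)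
      (Q₁ ^ (ringExpChar L) ^ i * d ^ (ringExpChar L) ^ n) := (hQ.pow _).mul (hu.pow _)
  have h3 : Qs ^ (ringExpChar L) ^ i * (z ^ (ringExpChar L) ^ i * c) ^ (ringExpChar L) ^ n =
      Ps ^ (ringExpChar L) ^ i * c ^ (ringExpChar L) ^ n := by
    rw [← h, mul_pow, mul_pow, ← pow_mul, ← pow_mul, mul_comm ((ringExpChar L) ^ n)]
    ring
  rw [h3] at h2
  rw [← sub_eq_zero]
  refine hW.eq_zero (sub_mem (mul_mem (pow_mem hP1 _) (pow_mem hc _))
    (mul_mem (pow_mem hQ1 _) (pow_mem hd _))) ?_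
  have h4 : P₁ ^ (ringExpChar L) ^ i * c ^ (ringExpChar L) ^ n -
      Q₁ ^ (ringExpChar L) ^ i * d ^ (ringExpChar L) ^ n =
      (Ps ^ (ringExpChar L) ^ i * c ^ (ringExpChar L) ^ n -
        Q₁ ^ (ringExpChar L) ^ i * d ^ (ringExpChar L) ^ n) -
      (Ps ^ (ringExpChar L) ^ i * c ^ (ringExpChar L) ^ n -
        P₁ ^ (ringExpChar L) ^ i * c ^ (ringExpChar L) ^ n) := by ring
  rw [h4]
  exact Valuation.map_sub_lt _ h2.2.2 h1.2.2

end ev

section rep

variable {L : Type*} [Field L] {l : Subfield L}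

/-- the embedding of the polynomials. -/
noncomputable def blF (l : Subfield L) (s : L) : l[X] →+* Vale.Agent.P019.adj l s :=
  eval₂RingHom (Subfield.inclusion (Vale.Agent.P019.le_adj l s))
    ⟨s, Vale.Agent.P019.mem_adj l s⟩

theorem blF_coe (s : L) (p : l[X]) : (blF l s p : L) = aeval s p := by
  unfold blF
  rw [coe_eval₂RingHom, aeval_def]
  have := Polynomial.hom_eval₂ p (Subfield.inclusion (Vale.Agent.P019.le_adj l s))
    (Vale.Agent.P019.adj l s).subtype ⟨s, Vale.Agent.P019.mem_adj l s⟩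
  exact this

theorem blF_inj (hl : IsAlgClosed l) {s : L} (hs : s ∉ l) : Function.Injective (blF l s) := by
  rw [injective_iff_map_eq_zero]
  intro p hp
  by_contra h
  apply line_aeval_ne hl hs h
  rw [← blF_coe, hp]
  rfl

theorem bl_clear (hl : IsAlgClosed l) {s : L} (hs : s ∉ l)
    (p : (Vale.Agent.P019.adj l s)[X]) :
    ∃ d : l[X], d ≠ 0 ∧ ∃ P : l[X][X], P.map (blF l s) = C (blF l s d) * p := by
  induction p using Polynomial.induction_on' with
  | add p q hp hq =>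
    obtain ⟨d, hd, P, hP⟩ := hp
    obtain ⟨e, he, Q, hQ⟩ := hq
    refine ⟨d * e, mul_ne_zero hd he, C e * P + C d * Q, ?_⟩
    rw [Polynomial.map_add, Polynomial.map_mul, Polynomial.map_mul, hP, hQ, map_C, map_C,
      map_mul, C_mul]
    ring
  | monomial n c =>
    obtain ⟨a, b, hab⟩ := line_mem c.2
    by_cases hb : b = 0
    · refine ⟨1, one_ne_zero, 0, ?_⟩
      have hc : c = 0 := by
        apply Subtype.ext
        rw [hab, hb]
        simp
      rw [hc]
      simp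
    · refine ⟨b, hb, monomial n a, ?_⟩
      rw [map_monomial, C_mul_monomial]
      congr 1
      apply Subtype.ext
      change (blF l s a : L) = (blF l s b : L) * (c : L)
      rw [blF_coe, blF_coe, hab]
      have := line_aeval_ne hl hs hb
      field_simp

theorem blE_eq_map (s t : L) (P : l[X][X]) :
    blE l s t P = aeval t (P.map (blF l s)) := by
  induction P using Polynomial.induction_on' with
  | add p q hp hq => rw [map_add, Polynomial.map_add, map_add, hp, hq]
  | monomial n a =>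
    rw [blE_monomial, map_monomial, aeval_monomial, ← blF_coe]
    rfl

theorem bl_pf_adj (E : Subfield L) (t : L) :
    Vale.Agent.P019.adj (pf E) t ≤ adj E t :=
  Vale.Agent.P019.adj_le (pf_mono (Vale.Agent.P019.le_adj E t)) (mem_adj E t)

/-- elements of the perfect closure of `l(s)(t)`. -/
theorem bl_rep (hl : IsAlgClosed l) {s t z : L} (hs : s ∉ l) (hz : z ∈ adj (adj l s) t) :
    ∃ (n : ℕ) (P Q U V : l[X][X]) (D : l[X]), D ≠ 0 ∧ U * P + V * Q = C D ∧
      z ^ (ringExpChar L) ^ n * blE l s t Q = blE l s t P := by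
  classical
  have h1 : z ∈ adj (Vale.Agent.P019.adj l s) t := by
    have h2 : adj (adj l s) t ≤ adj (Vale.Agent.P019.adj l s) t := by
      change pf (Vale.Agent.P019.adj (pf (Vale.Agent.P019.adj l s)) t) ≤ _
      refine (pf_mono (bl_pf_adj (Vale.Agent.P019.adj l s) t)).trans ?_
      change pf (pf _) ≤ pf _
      rw [pf_pf]
    exact h2 hz
  obtain ⟨n, hn⟩ := mem_adj_iff.1 h1
  obtain ⟨p, r, hpr⟩ := line_mem hn
  by_cases hr : aeval t r = 0
  · refine ⟨n, 0, 1, 0, 1, 1, one_ne_zero, by simp, ?_⟩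
    rw [hpr, hr, div_zero, zero_mul, map_zero]
  have hr0 : r ≠ 0 := by
    rintro rfl
    exact hr (map_zero _)
  set g := EuclideanDomain.gcd p r with hg
  have hg0 : g ≠ 0 := by
    intro h
    exact hr0 (EuclideanDomain.gcd_eq_zero_iff.1 h).2
  have e1 : p = g * (p / g) := (EuclideanDomain.mul_div_cancel' hg0
    (EuclideanDomain.gcd_dvd_left p r)).symm
  have e2 : r = g * (r / g) := (EuclideanDomain.mul_div_cancel' hg0
    (EuclideanDomain.gcd_dvd_right p r)).symm
  obtain ⟨u, v, huv⟩ : ∃ u v, u * (p / g) + v * (r / g) = 1 := by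
    obtain ⟨u, v, h3⟩ : ∃ u v, g = p * u + r * v :=
      ⟨_, _, EuclideanDomain.gcd_eq_gcd_ab p r⟩
    refine ⟨u, v, mul_left_cancel₀ hg0 ?_⟩
    calc g * (u * (p / g) + v * (r / g)) = (g * (p / g)) * u + (g * (r / g)) * v := by ring
      _ = p * u + r * v := by rw [← e1, ← e2]
      _ = g * 1 := by rw [← h3, mul_one]
  generalize p / g = p' at e1 huv
  generalize r / g = r' at e2 huv
  have hgt : aeval t g ≠ 0 := by
    intro h
    apply hr
    rw [e2, map_mul, h, zero_mul]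
  have hrt : aeval t r' ≠ 0 := by
    intro h
    apply hr
    rw [e2, map_mul, h, mul_zero]
  have hz' : z ^ (ringExpChar L) ^ n * aeval t r' = aeval t p' := by
    rw [hpr, e1, e2, map_mul, map_mul]
    field_simp
  obtain ⟨d1, hd1, P1, hP1⟩ := bl_clear hl hs p'
  obtain ⟨d2, hd2, Q1, hQ1⟩ := bl_clear hl hs r'
  obtain ⟨d3, hd3, U1, hU1⟩ := bl_clear hl hs u
  obtain ⟨d4, hd4, V1, hV1⟩ := bl_clear hl hs v
  have hP : (C d2 * P1).map (blF l s) = C (blF l s (d1 * d2)) * p' := by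
    rw [Polynomial.map_mul, hP1, map_C, map_mul, C_mul]
    ring
  have hQ : (C d1 * Q1).map (blF l s) = C (blF l s (d1 * d2)) * r' := by
    rw [Polynomial.map_mul, hQ1, map_C, map_mul, C_mul]
    ring
  have hU : (C d4 * U1).map (blF l s) = C (blF l s (d3 * d4)) * u := by
    rw [Polynomial.map_mul, hU1, map_C, map_mul, C_mul]
    ring
  have hV : (C d3 * V1).map (blF l s) = C (blF l s (d3 * d4)) * v := by
    rw [Polynomial.map_mul, hV1, map_C, map_mul, C_mul]
    ring
  refine ⟨n, C d2 * P1, C d1 * Q1, C d4 * U1, C d3 * V1, d1 * d2 * (d3 * d4),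
    mul_ne_zero (mul_ne_zero hd1 hd2) (mul_ne_zero hd3 hd4), ?_, ?_⟩
  · apply Polynomial.map_injective _ (blF_inj hl hs)
    rw [Polynomial.map_add, Polynomial.map_mul (blF l s) (p := C d4 * U1),
      Polynomial.map_mul (blF l s) (p := C d3 * V1), hP, hQ, hU, hV, map_C,
      map_mul (blF l s) (d1 * d2), C_mul]
    calc C (blF l s (d3 * d4)) * u * (C (blF l s (d1 * d2)) * p') +
          C (blF l s (d3 * d4)) * v * (C (blF l s (d1 * d2)) * r')
        = C (blF l s (d1 * d2)) * C (blF l s (d3 * d4)) * (u * p' + v * r') := by ring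
      _ = _ := by rw [huv, mul_one]
  · rw [blE_eq_map, blE_eq_map, hP, hQ, map_mul (aeval t), map_mul (aeval t), ← hz']
    ring

end rep

end Vale.Agent.P019P
end

section

/-!
# The bilinear form, preparations
-/

namespace Vale.Agent.P019P

open Vale.Agent.P019

set_option linter.style.haveILetI false
set_option linter.unusedSectionVars false

open Polynomial Filter

section alg

theorem bl_q {L : Type*} [Field L] (l : Subfield L) : ringExpChar l = ringExpChar L :=
  ringExpChar.eq l (ringExpChar L)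

theorem bl_aeval_coe {L : Type*} [Field L] {l : Subfield L} (β : l) (c : l[X]) :
    aeval (β : L) c = ((c.eval β : l) : L) := by
  have h := aeval_algebraMap_apply L β c
  rw [coe_aeval_eq_eval] at h
  exact h

theorem blE_eval {L : Type*} [Field L] {l : Subfield L} (β : l) (y : L) (P : l[X][X]) :
    blE l (β : L) y P = aeval y (P.map (evalRingHom β)) := by
  induction P using Polynomial.induction_on' with
  | add p q hp hq => rw [map_add, Polynomial.map_add, map_add, hp, hq]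
  | monomial n a =>
    rw [blE_monomial, map_monomial, aeval_monomial, bl_aeval_coe]
    rfl

/-- division by the greatest common divisor of four polynomials. -/
theorem bl_gcd4 {l : Type*} [Field l] {P₁ P₀ Q₁ Q₀ : l[X]} (h : P₁ * Q₀ - P₀ * Q₁ ≠ 0) :
    ∃ g p₁ p₀ q₁ q₀ u₁ u₀ v₁ v₀ : l[X], g ≠ 0 ∧ P₁ = g * p₁ ∧ P₀ = g * p₀ ∧ Q₁ = g * q₁ ∧
      Q₀ = g * q₀ ∧ u₁ * p₁ + u₀ * p₀ + v₁ * q₁ + v₀ * q₀ = 1 ∧ p₁ * q₀ - p₀ * q₁ ≠ 0 := by
  obtain ⟨g, hg⟩ := (IsPrincipalIdealRing.principal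
    (Ideal.span ({P₁, P₀, Q₁, Q₀} : Set l[X]))).principal
  have hmem : ∀ x ∈ ({P₁, P₀, Q₁, Q₀} : Set l[X]), ∃ y, x = g * y := by
    intro x hx
    have h1 : x ∈ Ideal.span ({P₁, P₀, Q₁, Q₀} : Set l[X]) := Ideal.subset_span hx
    rw [hg] at h1
    obtain ⟨y, hy⟩ := Submodule.mem_span_singleton.1 h1
    exact ⟨y, by rw [← hy, smul_eq_mul, mul_comm]⟩
  obtain ⟨p₁, hp₁⟩ := hmem P₁ (by simp)
  obtain ⟨p₀, hp₀⟩ := hmem P₀ (by simp)
  obtain ⟨q₁, hq₁⟩ := hmem Q₁ (by simp)
  obtain ⟨q₀, hq₀⟩ := hmem Q₀ (by simp)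
  have hg0 : g ≠ 0 := by
    rintro rfl
    apply h
    rw [hp₁, hp₀]
    ring
  have h2 : g ∈ Ideal.span ({P₁, P₀, Q₁, Q₀} : Set l[X]) := by
    rw [hg]
    exact Submodule.mem_span_singleton_self g
  rw [Ideal.mem_span_insert] at h2
  obtain ⟨u₁, z₁, hz₁, e₁⟩ := h2
  rw [Ideal.mem_span_insert] at hz₁
  obtain ⟨u₀, z₂, hz₂, e₂⟩ := hz₁
  rw [Ideal.mem_span_pair] at hz₂
  obtain ⟨v₁, v₀, e₃⟩ := hz₂
  refine ⟨g, p₁, p₀, q₁, q₀, u₁, u₀, v₁, v₀, hg0, hp₁, hp₀, hq₁, hq₀, ?_, ?_⟩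
  · apply mul_left_cancel₀ hg0
    calc g * (u₁ * p₁ + u₀ * p₀ + v₁ * q₁ + v₀ * q₀) =
        u₁ * (g * p₁) + (u₀ * (g * p₀) + (v₁ * (g * q₁) + v₀ * (g * q₀))) := by ring
      _ = u₁ * P₁ + (u₀ * P₀ + (v₁ * Q₁ + v₀ * Q₀)) := by rw [← hp₁, ← hp₀, ← hq₁, ← hq₀]
      _ = g := by rw [e₃, ← e₂, ← e₁]
      _ = g * 1 := (mul_one g).symm
  · intro h0
    apply h
    rw [hp₁, hp₀, hq₁, hq₀]
    have : g * p₁ * (g * q₀) - g * p₀ * (g * q₁) = g * g * (p₁ * q₀ - p₀ * q₁) := by ring
    rw [this, h0, mul_zero]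

/-- the leading coefficient of a pair. -/
theorem bl_top {R : Type*} [CommRing R] {P Q : R[X]} (h : P ≠ 0 ∨ Q ≠ 0) :
    P.coeff (max P.natDegree Q.natDegree) ≠ 0 ∨ Q.coeff (max P.natDegree Q.natDegree) ≠ 0 := by
  by_cases hP : P = 0
  · right
    have hQ := h.resolve_left (not_not.2 hP)
    rw [hP, natDegree_zero, max_eq_right (Nat.zero_le _)]
    exact leadingCoeff_ne_zero.2 hQ
  · by_cases hQ : Q = 0
    · left
      rw [hQ, natDegree_zero, max_eq_left (Nat.zero_le _)]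
      exact leadingCoeff_ne_zero.2 hP
    · rcases le_total P.natDegree Q.natDegree with h1 | h1
      · right
        rw [max_eq_right h1]
        exact leadingCoeff_ne_zero.2 hQ
      · left
        rw [max_eq_left h1]
        exact leadingCoeff_ne_zero.2 hP

end alg

section hyp

variable {K L : Type*} [Field K] [Field L] [PerfectField K] [PerfectField L] {ℓ : ℕ}
  [Fact ℓ.Prime] [NeZero (ℓ : K)] [NeZero (ℓ : L)]
  {k : Subfield K} {l : Subfield L} {Θ : V ℓ K ≃ₗ[ZMod ℓ] V ℓ L}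

/-- a polynomial which vanishes at almost all corresponding points is zero. -/
theorem bl_ae_zero (hk : IsAlgClosed k) (hl : IsAlgClosed l) {s : K} {s' : L}
    (hR : Rt k l Θ s s') {ψ : K → L} {e : K → ZMod ℓ} (p : Psi k l Θ s s' ψ e) {F : l[X]}
    (h : ∀ᶠ b in ae k, ∀ hb : ψ b ∈ l, F.eval ⟨ψ b, hb⟩ = 0) : F = 0 := by
  by_contra hF
  haveI := ae_neBot_of_isAlgClosed hk
  have h1 := Psi.relb_pull hk hl hR p (relb_root_ae hF)
  obtain ⟨b, ⟨h2, h3⟩, h4⟩ := ((h.and h1).and p.cor).exists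
  exact (h3 h4.1).2 (h2 h4.1)

/-- a nonzero polynomial does not vanish at almost all corresponding points. -/
theorem bl_ae_ne (hk : IsAlgClosed k) (hl : IsAlgClosed l) {s : K} {s' : L}
    (hR : Rt k l Θ s s') {ψ : K → L} {e : K → ZMod ℓ} (p : Psi k l Θ s s' ψ e) {F : l[X]}
    (hF : F ≠ 0) : ∀ᶠ b in ae k, ∀ hb : ψ b ∈ l, F.eval ⟨ψ b, hb⟩ ≠ 0 := by
  filter_upwards [Psi.relb_pull hk hl hR p (relb_root_ae hF)] with b h hb
  exact (h hb).2

/-- the relation on the fibres of `t`, in terms of polynomials. -/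
theorem Hyp.bl_fibre (H : Hyp ℓ k l Θ) {t s z : K} {t' s' z' : L}
    (hts : ¬ IsAlgebraic (adj k s) t) (ht : Rt k l Θ t t') (hs : Rt k l Θ s s')
    (hz : Rt k l Θ z z') {m : K → K → K} (hm : Shift ℓ k t s z m) {ψt ψs ψz : K → L}
    {et es ez : K → ZMod ℓ} (pt : Psi k l Θ t t' ψt et) (ps : Psi k l Θ s s' ψs es)
    (pz : Psi k l Θ z z' ψz ez) :
    ∀ᶠ a in ae k, ψt a ∈ l ∧ ∃ (i j : ℕ) (A B C' D : l), A * D - B * C' ≠ 0 ∧
      (∀ᶠ b in ae k, ψz (m a b) ^ (ringExpChar L) ^ i * (C' * ψs b ^ (ringExpChar L) ^ j + D) =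
            A * ψs b ^ (ringExpChar L) ^ j + B) ∧
      ∀ (n : ℕ) (Ps Qs : L) (P₁ Q₁ : l[X]),
        (∀ W : ValuationSubring L, TrivOn W l → s' ∈ W → t' ∈ W → W.valuation (t' - ψt a) < 1 →
          blR W Ps (aeval s' P₁) ∧ blR W Qs (aeval s' Q₁)) →
        z' ^ (ringExpChar L) ^ n * Qs = Ps →
        P₁ ^ (ringExpChar l) ^ i *
            (C C' * X ^ (ringExpChar l) ^ j + C D) ^ (ringExpChar l) ^ n =
          Q₁ ^ (ringExpChar l) ^ i *
            (C A * X ^ (ringExpChar l) ^ j + C B) ^ (ringExpChar l) ^ n := by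
  have hl := H.acl
  obtain ⟨G', hfr, h⟩ := H.rel_all hts ht hs hz hm pt ps pz
  filter_upwards [h] with a ha
  obtain ⟨hα, hW⟩ := ha
  refine ⟨hα, ?_⟩
  have hlF : l ≤ adj G' s' := hfr.le.trans (le_adj G' s')
  obtain ⟨W, hWo⟩ := exists_over hfr.tt (hlF hα)
  obtain ⟨i, j, A, hA, B, hB, C', hC, D, hD, hdet, hgen, hval⟩ := hW W hWo
  refine ⟨i, j, ⟨A, hA⟩, ⟨B, hB⟩, ⟨C', hC⟩, ⟨D, hD⟩, ?_, hgen, ?_⟩
  · intro h0
    exact hdet (congrArg Subtype.val h0)
  · intro n Ps Qs P₁ Q₁ hPQ hzz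
    have hWl : TrivOn W l := hWo.triv.mono hlF
    have hsW : s' ∈ W := hWo.triv _ (mem_adj G' s')
    have htW : t' ∈ W := hWo.mem (hlF hα)
    obtain ⟨h1, h2⟩ := hPQ W hWl hsW htW hWo.lt
    have hmem : ∀ P : l[X], aeval s' P ∈ adj G' s' := fun P =>
      adj_mono hfr.le s' (relb_aeval_mem s' P)
    have hsp : ∀ e : ℕ, s' ^ e ∈ adj G' s' := fun e => pow_mem (mem_adj G' s') e
    have h3 := bl_spec (n := n) (i := i) hWo.triv (hmem P₁) (hmem Q₁)
      (add_mem (mul_mem (hlF hC) (hsp _)) (hlF hD)) (add_mem (mul_mem (hlF hA) (hsp _)) (hlF hB))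
      h1 h2 hval hzz
    apply line_transc hl hs.good'.1
    rw [bl_q l]
    simp only [map_mul, map_pow, map_add, aeval_C, aeval_X]
    exact h3

end hyp

end Vale.Agent.P019P
end

section

/-!
# The bilinear form, the two steps
-/

namespace Vale.Agent.P019P

open Vale.Agent.P019

set_option linter.style.haveILetI false
set_option linter.unusedSectionVars false

open Polynomial Filter

theorem bl_two {R : Type*} [CommRing R] {P : R[X]} {N : ℕ} (hN : N ≠ 0)
    (h : ∀ e, e ≠ 0 → e ≠ N → P.coeff e = 0) : P = C (P.coeff N) * X ^ N + C (P.coeff 0) := by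
  ext e
  rw [coeff_add, coeff_C_mul, coeff_X_pow, coeff_C]
  by_cases h0 : e = 0
  · subst h0
    rw [if_neg hN.symm, if_pos rfl]
    simp
  · by_cases hN' : e = N
    · subst hN'
      rw [if_pos rfl, if_neg h0]
      simp
    · rw [if_neg hN', if_neg h0, h e h0 hN']
      simp

theorem bl_cop {L : Type*} [Field L] {l : Subfield L} {P Q U V : l[X][X]} {D : l[X]}
    (hUV : U * P + V * Q = C D) {β : l} (hD : D.eval β ≠ 0) :
    IsCoprime (P.map (evalRingHom β)) (Q.map (evalRingHom β)) := by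
  have h1 := congrArg (fun F : l[X][X] => F.map (evalRingHom β)) hUV
  simp only [Polynomial.map_add, Polynomial.map_mul, map_C, coe_evalRingHom] at h1
  refine ⟨C (D.eval β)⁻¹ * U.map (evalRingHom β), C (D.eval β)⁻¹ * V.map (evalRingHom β), ?_⟩
  calc C (D.eval β)⁻¹ * U.map (evalRingHom β) * P.map (evalRingHom β) +
        C (D.eval β)⁻¹ * V.map (evalRingHom β) * Q.map (evalRingHom β) =
      C (D.eval β)⁻¹ * (U.map (evalRingHom β) * P.map (evalRingHom β) +
        V.map (evalRingHom β) * Q.map (evalRingHom β)) := by ring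
    _ = C (D.eval β)⁻¹ * C (D.eval β) := by rw [h1]
    _ = 1 := by rw [← C_mul, inv_mul_cancel₀ hD, C_1]

/-- coprimality on the fibres of the other projection. -/
theorem bl_cop_ae {l : Type*} [Field l] [IsAlgClosed l] {p₁ p₀ q₁ q₀ u₁ u₀ v₁ v₀ : l[X]}
    (hb : u₁ * p₁ + u₀ * p₀ + v₁ * q₁ + v₀ * q₀ = 1) (hd : p₁ * q₀ - p₀ * q₁ ≠ 0) {N : ℕ}
    (hN : N ≠ 0) : ∃ F : l[X], F ≠ 0 ∧ ∀ α : l, F.eval α ≠ 0 →
      IsCoprime (C (α ^ N) * p₁ + p₀) (C (α ^ N) * q₁ + q₀) := by
  classical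
  set F : l → l[X] := fun x => if p₁.eval x ≠ 0 ∨ p₀.eval x ≠ 0 then
    C (p₁.eval x) * X ^ N + C (p₀.eval x) else C (q₁.eval x) * X ^ N + C (q₀.eval x) with hF
  have hlin : ∀ a b : l, (a ≠ 0 ∨ b ≠ 0) → (C a * X ^ N + C b : l[X]) ≠ 0 := by
    intro a b hab h0
    have h1 : (C a * X ^ N + C b : l[X]).coeff N = 0 := by rw [h0]; simp
    have h2 : (C a * X ^ N + C b : l[X]).coeff 0 = 0 := by rw [h0]; simp
    rw [bl_coeff, if_pos rfl, if_neg hN, add_zero] at h1
    rw [bl_coeff, if_pos rfl, if_neg hN.symm, zero_add] at h2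
    rcases hab with h | h
    · exact h h1
    · exact h h2
  have hF0 : ∀ x, F x ≠ 0 := by
    intro x
    by_cases hx : p₁.eval x ≠ 0 ∨ p₀.eval x ≠ 0
    · have : F x = C (p₁.eval x) * X ^ N + C (p₀.eval x) := if_pos hx
      rw [this]
      exact hlin _ _ hx
    · have : F x = C (q₁.eval x) * X ^ N + C (q₀.eval x) := if_neg hx
      rw [this]
      apply hlin
      by_contra hcon
      rw [not_or, not_not, not_not] at hx hcon
      have h1 := congrArg (eval x) hb
      rw [eval_add, eval_add, eval_add, eval_mul, eval_mul, eval_mul, eval_mul, hx.1, hx.2,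
        hcon.1, hcon.2] at h1
      simp at h1
  refine ⟨∏ x ∈ (p₁ * q₀ - p₀ * q₁).roots.toFinset, F x,
    Finset.prod_ne_zero_iff.2 fun x _ => hF0 x, ?_⟩
  intro α hα
  refine (isCoprime_iff_aeval_ne_zero_of_isAlgClosed (k := l) l _ _).2 fun x => ?_
  rw [coe_aeval_eq_eval]
  by_contra hcon
  rw [not_or, not_not, not_not] at hcon
  obtain ⟨h1, h2⟩ := hcon
  rw [eval_add, eval_mul, eval_C] at h1 h2
  have hx : x ∈ (p₁ * q₀ - p₀ * q₁).roots.toFinset := by
    rw [Multiset.mem_toFinset, mem_roots hd, IsRoot.def, eval_sub, eval_mul, eval_mul]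
    linear_combination (q₀.eval x) * 0 + (-(q₁.eval x)) * h1 + (p₁.eval x) * h2
  rw [eval_prod, Finset.prod_ne_zero_iff] at hα
  apply hα x hx
  by_cases hx : p₁.eval x ≠ 0 ∨ p₀.eval x ≠ 0
  · have : F x = C (p₁.eval x) * X ^ N + C (p₀.eval x) := if_pos hx
    rw [this]
    simp only [eval_add, eval_mul, eval_C, eval_pow, eval_X]
    linear_combination h1
  · have : F x = C (q₁.eval x) * X ^ N + C (q₀.eval x) := if_neg hx
    rw [this]
    simp only [eval_add, eval_mul, eval_C, eval_pow, eval_X]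
    linear_combination h2

variable {K L : Type*} [Field K] [Field L] [PerfectField K] [PerfectField L] {ℓ : ℕ}
  [Fact ℓ.Prime] [NeZero (ℓ : K)] [NeZero (ℓ : L)]
  {k : Subfield K} {l : Subfield L} {Θ : V ℓ K ≃ₗ[ZMod ℓ] V ℓ L}

theorem bl_shift (hk : IsAlgClosed k) {t : K} (ht : t ∉ k) (s : K) :
    Shift ℓ k s t (t + s) (fun a b => a + b) := by
  have := shift_add (ℓ := ℓ) hk ht s
  rwa [add_comm s t] at this

/-- the fibre relations determine the form of the polynomials. -/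
theorem bl_core (hk : IsAlgClosed k) (hl : IsAlgClosed l) {s : K} {t' s' z' : L}
    (hs : Rt k l Θ s s') {ψs : K → L} {es : K → ZMod ℓ} (ps : Psi k l Θ s s' ψs es)
    (hfib : ∀ᶠ b in ae k, ψs b ∈ l ∧ ∃ (i j : ℕ) (A B C' D : l), A * D - B * C' ≠ 0 ∧
      ∀ (n : ℕ) (Ps Qs : L) (P₁ Q₁ : l[X]),
        (∀ W : ValuationSubring L, TrivOn W l → t' ∈ W → s' ∈ W → W.valuation (s' - ψs b) < 1 →
          blR W Ps (aeval t' P₁) ∧ blR W Qs (aeval t' Q₁)) →
        z' ^ (ringExpChar L) ^ n * Qs = Ps →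
        P₁ ^ (ringExpChar l) ^ i *
            (C C' * X ^ (ringExpChar l) ^ j + C D) ^ (ringExpChar l) ^ n =
          Q₁ ^ (ringExpChar l) ^ i *
            (C A * X ^ (ringExpChar l) ^ j + C B) ^ (ringExpChar l) ^ n)
    {n : ℕ} {P Q : l[X][X]} (hPQ0 : P ≠ 0 ∨ Q ≠ 0)
    (hcop : ∀ᶠ b in ae k, ∀ hb : ψs b ∈ l,
      IsCoprime (P.map (evalRingHom ⟨ψs b, hb⟩)) (Q.map (evalRingHom ⟨ψs b, hb⟩)))
    (hPQ : z' ^ (ringExpChar L) ^ n * blE l s' t' Q = blE l s' t' P) :
    ∃ r : ℕ, (∀ e, e ≠ 0 → e ≠ (ringExpChar l) ^ r → P.coeff e = 0 ∧ Q.coeff e = 0) ∧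
      P.coeff ((ringExpChar l) ^ r) * Q.coeff 0 -
        P.coeff 0 * Q.coeff ((ringExpChar l) ^ r) ≠ 0 := by
  haveI := hl
  haveI := ae_neBot_of_isAlgClosed hk
  have htop := bl_top hPQ0
  generalize hN : max P.natDegree Q.natDegree = N at htop
  have hPN : P.natDegree ≤ N := by rw [← hN]; exact le_max_left _ _
  have hQN : Q.natDegree ≤ N := by rw [← hN]; exact le_max_right _ _
  have htop' : ∀ᶠ b in ae k, ∀ hb : ψs b ∈ l, (P.coeff N).eval ⟨ψs b, hb⟩ ≠ 0 ∨
      (Q.coeff N).eval ⟨ψs b, hb⟩ ≠ 0 := by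
    rcases htop with h | h
    · filter_upwards [bl_ae_ne hk hl hs ps h] with b hb' hb using Or.inl (hb' hb)
    · filter_upwards [bl_ae_ne hk hl hs ps h] with b hb' hb using Or.inr (hb' hb)
  have h1 : ∀ᶠ b in ae k, (∃ m : ℕ, N = (ringExpChar l) ^ m) ∧ ∀ hb : ψs b ∈ l,
      (∀ e, e ≠ 0 → e ≠ N → (P.coeff e).eval ⟨ψs b, hb⟩ = 0 ∧
        (Q.coeff e).eval ⟨ψs b, hb⟩ = 0) ∧
      (P.coeff N * Q.coeff 0 - P.coeff 0 * Q.coeff N).eval ⟨ψs b, hb⟩ ≠ 0 := by
    filter_upwards [hfib, hcop, htop'] with b hb hDb htb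
    obtain ⟨hβ, i, j, A, B, C', D', hdet, hid⟩ := hb
    have hid' := hid n (blE l s' t' P) (blE l s' t' Q) (P.map (evalRingHom ⟨ψs b, hβ⟩))
      (Q.map (evalRingHom ⟨ψs b, hβ⟩)) (by
        intro W hWl htW hsW hlt
        rw [← blE_eval, ← blE_eval]
        have hx : blR W s' (ψs b) := ⟨hsW, hWl _ hβ, hlt⟩
        exact ⟨blR.blE hWl hx (blR.refl htW) P, blR.blE hWl hx (blR.refl htW) Q⟩) hPQ
    have h2 := bl_fib (N := N) (hDb hβ) hdet hid' (natDegree_map_le.trans hPN)
      (natDegree_map_le.trans hQN) (by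
        rw [coeff_map, coeff_map]
        exact htb hβ)
    simp only [coeff_map, coe_evalRingHom] at h2
    refine ⟨h2.1, fun _ => ⟨h2.2.1, ?_⟩⟩
    rw [eval_sub, eval_mul, eval_mul]
    exact h2.2.2
  obtain ⟨b, ⟨⟨r, hr⟩, hb1⟩, hb2⟩ := (h1.and ps.cor).exists
  refine ⟨r, ?_⟩
  rw [← hr]
  refine ⟨fun e he0 heN => ⟨?_, ?_⟩, ?_⟩
  · exact bl_ae_zero hk hl hs ps
      (by filter_upwards [h1] with b h hb using ((h.2 hb).1 e he0 heN).1)
  · exact bl_ae_zero hk hl hs ps
      (by filter_upwards [h1] with b h hb using ((h.2 hb).1 e he0 heN).2)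
  · intro h0
    apply (hb1 hb2.1).2
    rw [h0, eval_zero]

/-- first step: linear in `t' ^ q^r`. -/
theorem Hyp.bl_step1 (H : Hyp ℓ k l Θ) {t s : K} {t' s' z' : L}
    (hst : Ind k s t) (ht : Rt k l Θ t t') (hs : Rt k l Θ s s')
    (hz : Rt k l Θ (t + s) z') {ψt ψs ψz : K → L}
    {et es ez : K → ZMod ℓ} (pt : Psi k l Θ t t' ψt et) (ps : Psi k l Θ s s' ψs es)
    (pz : Psi k l Θ (t + s) z' ψz ez) :
    ∃ (n r : ℕ) (P₁ P₀ Q₁ Q₀ : l[X]), P₁ * Q₀ - P₀ * Q₁ ≠ 0 ∧
      z' ^ (ringExpChar L) ^ n * (aeval s' Q₁ * t' ^ (ringExpChar l) ^ r + aeval s' Q₀) =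
        aeval s' P₁ * t' ^ (ringExpChar l) ^ r + aeval s' P₀ := by
  have hk := H.ack
  have hl := H.acl
  have hts : ¬ IsAlgebraic (adj k s) t := hst.2
  have hts' : ¬ IsAlgebraic (adj k t) s := (hst.symm hk).2
  have hzm : z' ∈ adj (adj l s') t' := H.z_mem hts ht hs hz (shift_add hk hs.good.1 t)
  obtain ⟨n, P, Q, U, V, D, hD, hUV, hPQ⟩ := bl_rep hl hs.good'.1 hzm
  have hfib := H.bl_fibre hts' hs ht hz (bl_shift hk ht.good.1 s) ps pt pz
  have hPQ0 : P ≠ 0 ∨ Q ≠ 0 := by
    by_contra hcon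
    rw [not_or, not_not, not_not] at hcon
    rw [hcon.1, hcon.2, mul_zero, mul_zero, add_zero] at hUV
    exact hD (C_eq_zero.1 hUV.symm)
  obtain ⟨r, hr1, hr2⟩ := bl_core hk hl hs ps (by
    filter_upwards [hfib] with b hb
    obtain ⟨hβ, i, j, A, B, C', D', hdet, -, hid⟩ := hb
    exact ⟨hβ, i, j, A, B, C', D', hdet, hid⟩) hPQ0 (by
    filter_upwards [bl_ae_ne hk hl hs ps hD] with b hb hb' using bl_cop hUV (hb hb')) hPQ
  have hN0 : (ringExpChar l) ^ r ≠ 0 := (pow_pos (expChar_pos l _) r).ne'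
  have hP2 := bl_two hN0 fun e h0 hN => (hr1 e h0 hN).1
  have hQ2 := bl_two hN0 fun e h0 hN => (hr1 e h0 hN).2
  refine ⟨n, r, P.coeff ((ringExpChar l) ^ r), P.coeff 0, Q.coeff ((ringExpChar l) ^ r),
    Q.coeff 0, hr2, ?_⟩
  rw [hP2, hQ2] at hPQ
  simp only [map_add, map_mul, map_pow, blE_C, blE_X] at hPQ
  exact hPQ

theorem blE_mapC (x y : L) (p : l[X]) : blE l x y (p.map C) = aeval y p := by
  induction p using Polynomial.induction_on' with
  | add p q hp hq => rw [Polynomial.map_add, map_add, map_add, hp, hq]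
  | monomial n a =>
    rw [map_monomial, blE_monomial, aeval_monomial, aeval_C]

/-- second step: the bilinear form. -/
theorem Hyp.bl_step2 (H : Hyp ℓ k l Θ) {t s : K} {t' s' z' : L}
    (hst : Ind k s t) (ht : Rt k l Θ t t') (hs : Rt k l Θ s s')
    (hz : Rt k l Θ (t + s) z') {ψt ψs ψz : K → L}
    {et es ez : K → ZMod ℓ} (pt : Psi k l Θ t t' ψt et) (ps : Psi k l Θ s s' ψs es)
    (pz : Psi k l Θ (t + s) z' ψz ez) :
    ∃ (n r r' : ℕ) (p : Fin 4 → l[X]), p 0 * p 3 - p 1 * p 2 ≠ 0 ∧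
      (∀ i, p i = C ((p i).coeff ((ringExpChar l) ^ r')) * X ^ (ringExpChar l) ^ r' +
        C ((p i).coeff 0)) ∧
      z' ^ (ringExpChar L) ^ n * (aeval s' (p 2) * t' ^ (ringExpChar l) ^ r + aeval s' (p 3)) =
        aeval s' (p 0) * t' ^ (ringExpChar l) ^ r + aeval s' (p 1) := by
  have hk := H.ack
  have hl := H.acl
  haveI := hl
  obtain ⟨n, r, P₁, P₀, Q₁, Q₀, hdet, hrel⟩ := H.bl_step1 hst ht hs hz pt ps pz
  obtain ⟨g, p₁, p₀, q₁, q₀, u₁, u₀, v₁, v₀, hg0, hp₁, hp₀, hq₁, hq₀, hbez, hdet'⟩ :=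
    bl_gcd4 hdet
  have hgs : aeval s' g ≠ 0 := line_aeval_ne hl hs.good'.1 hg0
  set N := (ringExpChar l) ^ r with hN
  have hN0 : N ≠ 0 := (pow_pos (expChar_pos l _) r).ne'
  have hrel' : z' ^ (ringExpChar L) ^ n * (aeval s' q₁ * t' ^ N + aeval s' q₀) =
      aeval s' p₁ * t' ^ N + aeval s' p₀ := by
    apply mul_left_cancel₀ hgs
    rw [hp₁, hp₀, hq₁, hq₀] at hrel
    simp only [map_mul] at hrel
    linear_combination hrel
  -- the polynomials with the roles of the variables exchanged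
  set P : l[X][X] := p₁.map C * C (X ^ N) + p₀.map C with hP
  set Q : l[X][X] := q₁.map C * C (X ^ N) + q₀.map C with hQ
  have hcoef : ∀ (p q : l[X]) (e : ℕ), (p.map C * C (X ^ N) + q.map C : l[X][X]).coeff e =
      C (p.coeff e) * X ^ N + C (q.coeff e) := by
    intro p q e
    rw [coeff_add, coeff_mul_C, coeff_map, coeff_map]
  have hmap : ∀ (p q : l[X]) (α : l), (p.map C * C (X ^ N) + q.map C : l[X][X]).map
      (evalRingHom α) = C (α ^ N) * p + q := by
    intro p q α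
    have hid : (evalRingHom α).comp (C : l →+* l[X]) = RingHom.id l := by
      ext x
      simp
    rw [Polynomial.map_add, Polynomial.map_mul, Polynomial.map_map, Polynomial.map_map, hid,
      Polynomial.map_id, Polynomial.map_id, map_C, coe_evalRingHom, eval_pow, eval_X, mul_comm]
  have hblE : ∀ p q : l[X], blE l t' s' (p.map C * C (X ^ N) + q.map C) =
      aeval s' p * t' ^ N + aeval s' q := by
    intro p q
    rw [map_add, map_mul, blE_mapC, blE_mapC, blE_C, map_pow, aeval_X]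
  have hPQ : z' ^ (ringExpChar L) ^ n * blE l t' s' Q = blE l t' s' P := by
    rw [hP, hQ, hblE, hblE]
    exact hrel'
  have hlin : ∀ a b : l, (C a * X ^ N + C b : l[X]) = 0 → a = 0 ∧ b = 0 := by
    intro a b h0
    have h1 : (C a * X ^ N + C b : l[X]).coeff N = 0 := by rw [h0]; simp
    have h2 : (C a * X ^ N + C b : l[X]).coeff 0 = 0 := by rw [h0]; simp
    rw [bl_coeff, if_pos rfl, if_neg hN0, add_zero] at h1
    rw [bl_coeff, if_pos rfl, if_neg hN0.symm, zero_add] at h2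
    exact ⟨h1, h2⟩
  have hPQ0 : P ≠ 0 ∨ Q ≠ 0 := by
    by_contra hcon
    rw [not_or, not_not, not_not] at hcon
    have key : ∀ (p q : l[X]), (p.map C * C (X ^ N) + q.map C : l[X][X]) = 0 → p = 0 ∧ q = 0 := by
      intro p q h0
      have h1 : ∀ e, p.coeff e = 0 ∧ q.coeff e = 0 := by
        intro e
        apply hlin
        rw [← hcoef, h0, coeff_zero]
      exact ⟨Polynomial.ext fun e => by rw [(h1 e).1, coeff_zero],
        Polynomial.ext fun e => by rw [(h1 e).2, coeff_zero]⟩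
    obtain ⟨e1, e2⟩ := key p₁ p₀ hcon.1
    obtain ⟨e3, e4⟩ := key q₁ q₀ hcon.2
    rw [e1, e2, e3, e4] at hbez
    simp at hbez
  obtain ⟨F, hF0, hF⟩ := bl_cop_ae hbez hdet' hN0
  have hfib := H.bl_fibre hst.2 ht hs hz (shift_add hk hs.good.1 t) pt ps pz
  obtain ⟨r', hr1, -⟩ := bl_core hk hl ht pt (by
    filter_upwards [hfib] with b hb
    obtain ⟨hβ, i, j, A, B, C', D', hdet, -, hid⟩ := hb
    exact ⟨hβ, i, j, A, B, C', D', hdet, hid⟩) hPQ0 (by
    filter_upwards [bl_ae_ne hk hl ht pt hF0] with a ha ha'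
    rw [hP, hQ, hmap, hmap]
    exact hF _ (ha ha')) hPQ
  have hM0 : (ringExpChar l) ^ r' ≠ 0 := (pow_pos (expChar_pos l _) r').ne'
  have h4 : ∀ e, e ≠ 0 → e ≠ (ringExpChar l) ^ r' → (p₁.coeff e = 0 ∧ p₀.coeff e = 0) ∧
      (q₁.coeff e = 0 ∧ q₀.coeff e = 0) := by
    intro e he0 heN
    obtain ⟨h5, h6⟩ := hr1 e he0 heN
    rw [hP, hcoef] at h5
    rw [hQ, hcoef] at h6
    exact ⟨hlin _ _ h5, hlin _ _ h6⟩
  refine ⟨n, r, r', ![p₁, p₀, q₁, q₀], hdet', ?_, hrel'⟩
  intro i
  fin_cases i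
  · exact bl_two hM0 fun e h0 hN => (h4 e h0 hN).1.1
  · exact bl_two hM0 fun e h0 hN => (h4 e h0 hN).1.2
  · exact bl_two hM0 fun e h0 hN => (h4 e h0 hN).2.1
  · exact bl_two hM0 fun e h0 hN => (h4 e h0 hN).2.2

end Vale.Agent.P019P
end

section

/-!
# The coordinate of the sum is a bilinear function
-/

namespace Vale.Agent.P019P

open Vale.Agent.P019

set_option linter.style.haveILetI false
set_option linter.unusedSectionVars false

open Polynomial Filter

variable {K L : Type*} [Field K] [Field L] [PerfectField K] [PerfectField L] {ℓ : ℕ}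
  [Fact ℓ.Prime] [NeZero (ℓ : K)] [NeZero (ℓ : L)]
  {k : Subfield K} {l : Subfield L} {Θ : V ℓ K ≃ₗ[ZMod ℓ] V ℓ L}

/-- values of a twisted linear polynomial. -/
theorem bl_eval_lin {L : Type*} [Field L] {l : Subfield L} {p : l[X]} {m : ℕ}
    (hp : p = C (p.coeff ((ringExpChar l) ^ m)) * X ^ (ringExpChar l) ^ m + C (p.coeff 0))
    (β : l) : ((p.eval β : l) : L) = (β : L) ^ (ringExpChar L) ^ m *
      ((p.coeff ((ringExpChar l) ^ m) : l) : L) + ((p.coeff 0 : l) : L) := by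
  have h1 := congrArg (eval β) hp
  rw [eval_add, eval_mul, eval_C, eval_C, eval_pow, eval_X] at h1
  have h2 := congrArg (Subtype.val : l → L) h1
  rw [h2]
  change ((p.coeff ((ringExpChar l) ^ m) : l) : L) * (β : L) ^ (ringExpChar l) ^ m +
    ((p.coeff 0 : l) : L) = _
  rw [bl_q l]
  ring

/-- the bilinear form: `z' ^ q^n` is the quotient of bilinear functions of `t' ^ q^r`,
`s' ^ q^r'`, and the corresponding relation for the points. -/
theorem Hyp.bilin (H : Hyp ℓ k l Θ) {t s : K} {t' s' z' : L}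
    (hst : Ind k s t) (ht : Rt k l Θ t t') (hs : Rt k l Θ s s')
    (hz : Rt k l Θ (t + s) z') {ψt ψs ψz : K → L}
    {et es ez : K → ZMod ℓ} (pt : Psi k l Θ t t' ψt et) (ps : Psi k l Θ s s' ψs es)
    (pz : Psi k l Θ (t + s) z' ψz ez) :
    ∃ (n r r' : ℕ) (X Y : Fin 4 → L), (∀ i, X i ∈ l) ∧ (∀ i, Y i ∈ l) ∧
      ∀ᶠ b in ae k,
        (ψs b ^ (ringExpChar L) ^ r' * X 0 + Y 0) * (ψs b ^ (ringExpChar L) ^ r' * X 3 + Y 3) -
          (ψs b ^ (ringExpChar L) ^ r' * X 1 + Y 1) *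
            (ψs b ^ (ringExpChar L) ^ r' * X 2 + Y 2) ≠ 0 ∧
        ∀ᶠ a in ae k,
          ψz (a + b) ^ (ringExpChar L) ^ n *
            ((ψs b ^ (ringExpChar L) ^ r' * X 2 + Y 2) * ψt a ^ (ringExpChar L) ^ r +
              (ψs b ^ (ringExpChar L) ^ r' * X 3 + Y 3)) =
          (ψs b ^ (ringExpChar L) ^ r' * X 0 + Y 0) * ψt a ^ (ringExpChar L) ^ r +
              (ψs b ^ (ringExpChar L) ^ r' * X 1 + Y 1) := by
  have hk := H.ack
  have hl := H.acl
  haveI := hl
  obtain ⟨n, r, r', p, hdet, hp, hrel⟩ := H.bl_step2 hst ht hs hz pt ps pz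
  refine ⟨n, r, r', fun i => ((p i).coeff ((ringExpChar l) ^ r') : l),
    fun i => ((p i).coeff 0 : l), fun i => Subtype.coe_prop _, fun i => Subtype.coe_prop _, ?_⟩
  have hfib := H.bl_fibre (hst.symm hk).2 hs ht hz (bl_shift hk ht.good.1 s) ps pt pz
  filter_upwards [hfib, bl_ae_ne hk hl hs ps hdet] with b hb hdb
  obtain ⟨hβ, i, j, A, B, C', D, hAD, hgen, hid⟩ := hb
  set β : l := ⟨ψs b, hβ⟩ with hβd
  have hβe : ψs b = (β : L) := rfl
  simp only [hβe, ← bl_eval_lin (hp _) β]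
  have hdb' := hdb hβ
  rw [eval_sub, eval_mul, eval_mul] at hdb'
  refine ⟨fun h0 => hdb' (Subtype.ext h0), ?_⟩
  -- the identity of polynomials
  have hid' := hid n (aeval s' (p 0) * t' ^ (ringExpChar l) ^ r + aeval s' (p 1))
    (aeval s' (p 2) * t' ^ (ringExpChar l) ^ r + aeval s' (p 3))
    (C ((p 0).eval β) * X ^ (ringExpChar l) ^ r + C ((p 1).eval β))
    (C ((p 2).eval β) * X ^ (ringExpChar l) ^ r + C ((p 3).eval β)) (by
      intro W hWl htW hsW hlt
      have hx : blR W s' (β : L) := ⟨hsW, hWl _ hβ, hlt⟩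
      have hy : blR W (t' ^ (ringExpChar l) ^ r) (t' ^ (ringExpChar l) ^ r) :=
        blR.refl (pow_mem htW _)
      have key : ∀ i j, blR W (aeval s' (p i) * t' ^ (ringExpChar l) ^ r + aeval s' (p j))
          (aeval t' (C ((p i).eval β) * X ^ (ringExpChar l) ^ r + C ((p j).eval β))) := by
        intro i j
        rw [map_add, map_mul, aeval_C, aeval_C, map_pow, aeval_X]
        change blR W _ ((((p i).eval β : l) : L) * _ + (((p j).eval β : l) : L))
        rw [← bl_aeval_coe, ← bl_aeval_coe]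
        exact ((blR.aeval hWl hx (p i)).mul hy).add (blR.aeval hWl hx (p j))
      exact ⟨key 0 1, key 2 3⟩) hrel
  -- the denominator of the Moebius transformation
  have hden : (C C' * X ^ (ringExpChar l) ^ j + C D : l[X]) ≠ 0 := by
    intro h0
    have hJ : (ringExpChar l) ^ j ≠ 0 := (pow_pos (expChar_pos l _) j).ne'
    have h1 : (C C' * X ^ (ringExpChar l) ^ j + C D : l[X]).coeff ((ringExpChar l) ^ j) = 0 := by
      rw [h0]; simp
    have h2 : (C C' * X ^ (ringExpChar l) ^ j + C D : l[X]).coeff 0 = 0 := by rw [h0]; simp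
    rw [bl_coeff, if_pos rfl, if_neg hJ, add_zero] at h1
    rw [bl_coeff, if_pos rfl, if_neg hJ.symm, zero_add] at h2
    apply hAD
    rw [h1, h2]
    ring
  filter_upwards [hgen, pt.cor, bl_ae_ne hk hl ht pt hden] with a ha hα hda
  have hα' := hα.1
  set α : l := ⟨ψt a, hα'⟩ with hαd
  have hαe : ψt a = (α : L) := rfl
  have e1 := congrArg (eval α) hid'
  simp only [eval_mul, eval_pow, eval_add, eval_C, eval_X] at e1
  have e2 := congrArg (Subtype.val : l → L) e1
  have e3 : ∀ (u v u' v' : l), ((u ^ (ringExpChar l) ^ i * v ^ (ringExpChar l) ^ n : l) : L) =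
      (u : L) ^ (ringExpChar L) ^ i * (v : L) ^ (ringExpChar L) ^ n := by
    intro u v _ _
    rw [bl_q l]
    rfl
  rw [e3 _ _ 0 0, e3 _ _ 0 0] at e2
  have hda' := hda hα'
  simp only [eval_mul, eval_pow, eval_add, eval_C, eval_X] at hda'
  have hda2 : ((C' * α ^ (ringExpChar l) ^ j + D : l) : L) ≠ 0 := fun h0 =>
    hda' (Subtype.ext h0)
  have ha' : ψz (a + b) ^ (ringExpChar L) ^ i * ((C' * α ^ (ringExpChar l) ^ j + D : l) : L) =
      ((A * α ^ (ringExpChar l) ^ j + B : l) : L) := by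
    have h5 := ha
    rw [add_comm b a, hαe] at h5
    rw [bl_q l]
    exact h5
  rw [hαe]
  have e4 : ∀ i j : Fin 4, (((p i).eval β * α ^ (ringExpChar l) ^ r + (p j).eval β : l) : L) =
      (((p i).eval β : l) : L) * (α : L) ^ (ringExpChar L) ^ r + (((p j).eval β : l) : L) := by
    intro i j
    rw [bl_q l]
    rfl
  rw [e4, e4] at e2
  generalize (((p 0).eval β : l) : L) * (α : L) ^ (ringExpChar L) ^ r +
    (((p 1).eval β : l) : L) = U at e2 ⊢
  generalize (((p 2).eval β : l) : L) * (α : L) ^ (ringExpChar L) ^ r +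
    (((p 3).eval β : l) : L) = V at e2 ⊢
  rw [← ha', mul_pow, ← mul_assoc] at e2
  have e5 := mul_right_cancel₀ (pow_ne_zero _ hda2) e2
  apply pow_q_inj (n := i)
  rw [e5, mul_pow, ← pow_mul, ← pow_mul, mul_comm ((ringExpChar L) ^ n), mul_comm]

/-- injectivity of the correspondence off a finite set. -/
theorem bl_inj (hk : IsAlgClosed k) (hl : IsAlgClosed l) {s : K} {s' : L}
    (hR : Rt k l Θ s s') {ψ : K → L} {e : K → ZMod ℓ} (p : Psi k l Θ s s' ψ e) (n : ℕ) :
    ∃ S : Set k, S.Finite ∧ Set.InjOn (fun b => rst k l ψ b ^ (ringExpChar l) ^ n) Sᶜ := by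
  refine ⟨{b : k | ¬ (ψ b ∈ l ∧ e b ≠ 0 ∧ Cor k l Θ s s' (e b) b (ψ b))}, ?_, ?_⟩
  · exact ae_iff_sub.1 p.cor
  · intro b hb b' hb' hbb
    simp only [Set.mem_compl_iff, Set.mem_ofPred_eq, not_not] at hb hb'
    have h3 : rst k l ψ b = rst k l ψ b' := pow_q_inj hbb
    have h4 := congrArg (Subtype.val : l → L) h3
    rw [sigb_rst_eq hb.1, sigb_rst_eq hb'.1] at h4
    have h5 := hb'.2.2
    rw [← h4] at h5
    exact Subtype.ext (Cor.inj hk hl hR hb.2.1 hb'.2.1 b.2 b'.2 hb.1 hb.2.2 h5)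

/-- exact additive relations for the correspondence of points. -/
theorem Hyp.exact_add (H : Hyp ℓ k l Θ) {t s : K} {t' s' z' : L}
    (hst : Ind k s t) (ht : Rt k l Θ t t') (hs : Rt k l Θ s s')
    (hz : Rt k l Θ (t + s) z') {ψs : K → L}
    {es : K → ZMod ℓ} (ps : Psi k l Θ s s' ψs es) :
    ∃ S : Set K, S.Finite ∧ ∀ c ∈ k, ∃ A ∈ l, ∃ B ∈ l, ∃ C ∈ l, ∃ D ∈ l, A * D - B * C ≠ 0 ∧
      ∀ b ∈ k, b ∉ S → b + c ∉ S → ψs b ∈ l ∧ ψs (b + c) * (C * ψs b + D) = A * ψs b + B := by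
  have hk := H.ack
  have hl := H.acl
  haveI := hk
  haveI := hl
  obtain ⟨ψt, et, pt⟩ := H.exists_psi ht
  obtain ⟨ψz, ez, pz⟩ := H.exists_psi hz
  obtain ⟨n, r, r', X, Y, hX, hY, hb⟩ := H.bilin hst ht hs hz pt ps pz
  obtain ⟨S₀, hS₀, hpen⟩ := pencil (fun b : k => rst k l ψs b ^ (ringExpChar l) ^ r')
    (fun a : k => rst k l ψt a ^ (ringExpChar l) ^ r)
    (fun c : k => rst k l ψz c ^ (ringExpChar l) ^ n) (bl_inj hk hl hs ps r')
    (bl_inj hk hl ht pt r) (fun i => ⟨X i, hX i⟩) (fun i => ⟨Y i, hY i⟩) (by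
      filter_upwards [ae_iff_sub.1 hb, ae_iff_sub.1 ps.cor] with b hb1 hb2
      obtain ⟨h1, h2⟩ := hb1
      have hq := bl_q l
      refine ⟨?_, ?_⟩
      · intro h0
        apply h1
        have h3 := congrArg (Subtype.val : l → L) h0
        change ((rst k l ψs b : L) ^ (ringExpChar l) ^ r' * X 0 + Y 0) *
          ((rst k l ψs b : L) ^ (ringExpChar l) ^ r' * X 3 + Y 3) -
          ((rst k l ψs b : L) ^ (ringExpChar l) ^ r' * X 1 + Y 1) *
            ((rst k l ψs b : L) ^ (ringExpChar l) ^ r' * X 2 + Y 2) = 0 at h3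
        rw [sigb_rst_eq hb2.1, hq] at h3
        exact h3
      · filter_upwards [ae_iff_sub.1 h2, ae_iff_sub.1 pt.cor,
          ae_iff_sub.1 (ae_shift b.2 pz.cor)] with a ha1 ha2 ha3
        refine Subtype.ext ?_
        change (rst k l ψz (a + b) : L) ^ (ringExpChar l) ^ n *
            (((rst k l ψs b : L) ^ (ringExpChar l) ^ r' * X 2 + Y 2) *
              (rst k l ψt a : L) ^ (ringExpChar l) ^ r +
              ((rst k l ψs b : L) ^ (ringExpChar l) ^ r' * X 3 + Y 3)) =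
          ((rst k l ψs b : L) ^ (ringExpChar l) ^ r' * X 0 + Y 0) *
            (rst k l ψt a : L) ^ (ringExpChar l) ^ r +
              ((rst k l ψs b : L) ^ (ringExpChar l) ^ r' * X 1 + Y 1)
        have hzm : ψz ((a + b : k) : K) ∈ l := by
          have h5 := ha3.1
          rw [add_comm] at h5
          exact h5
        rw [sigb_rst_eq hb2.1, sigb_rst_eq ha2.1, sigb_rst_eq hzm, hq]
        exact ha1)
  refine ⟨Subtype.val '' S₀ ∪ {b : K | b ∈ k ∧ ¬ (ψs b ∈ l ∧ es b ≠ 0 ∧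
    Cor k l Θ s s' (es b) b (ψs b))}, (hS₀.image _).union (ae_iff.1 ps.cor), ?_⟩
  intro c hc
  obtain ⟨A, B, C', D, hd, hM⟩ := hpen ⟨c, hc⟩
  obtain ⟨A, rfl⟩ := exists_root A r'
  obtain ⟨B, rfl⟩ := exists_root B r'
  obtain ⟨C', rfl⟩ := exists_root C' r'
  obtain ⟨D, rfl⟩ := exists_root D r'
  refine ⟨A, A.2, B, B.2, C', C'.2, D, D.2, ?_, ?_⟩
  · intro h0
    apply hd
    rw [sg1_det_pow]
    have h1 : A * D - B * C' = 0 := Subtype.ext h0
    rw [h1, zero_pow (pow_pos (expChar_pos l _) r').ne']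
  · intro b hb hbS hbcS
    have hmem : ∀ x ∈ k, x ∉ Subtype.val '' S₀ ∪ {b : K | b ∈ k ∧ ¬ (ψs b ∈ l ∧ es b ≠ 0 ∧
        Cor k l Θ s s' (es b) b (ψs b))} → ψs x ∈ l := by
      intro x hx hxS
      by_contra hcon
      exact hxS (Or.inr ⟨hx, fun h => hcon h.1⟩)
    have hb1 := hmem b hb hbS
    have hb2 := hmem (b + c) (add_mem hb hc) hbcS
    refine ⟨hb1, ?_⟩
    have h1 := hM ⟨b, hb⟩ (fun h => hbS (Or.inl ⟨_, h, rfl⟩)) (fun h => hbcS (Or.inl ⟨_, h, rfl⟩))
    have h2 := sg1_unpow r' h1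
    have h3 := congrArg (Subtype.val : l → L) h2
    change (rst k l ψs (⟨b, hb⟩ + ⟨c, hc⟩) : L) * ((C' : L) * (rst k l ψs ⟨b, hb⟩ : L) + (D : L)) =
      (A : L) * (rst k l ψs ⟨b, hb⟩ : L) + (B : L) at h3
    have hb2' : ψs (((⟨b, hb⟩ : k) + (⟨c, hc⟩ : k) : k) : K) ∈ l := hb2
    rw [sigb_rst_eq (b := ⟨b, hb⟩) hb1, sigb_rst_eq hb2'] at h3
    exact h3

end Vale.Agent.P019P
end

section

/-!
# Special elements, all of whose points correspond
-/

namespace Vale.Agent.P019P

open Vale.Agent.P019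

set_option linter.style.haveILetI false
set_option linter.unusedSectionVars false

open Polynomial Filter

variable {K L : Type*} [Field K] [Field L] [PerfectField K] [PerfectField L] {ℓ : ℕ}
  [Fact ℓ.Prime] [NeZero (ℓ : K)] [NeZero (ℓ : L)]
  {k : Subfield K} {l : Subfield L} {Θ : V ℓ K ≃ₗ[ZMod ℓ] V ℓ L}

/-- the type of the point of the line of `z'` below a transferred valuation. -/
theorem Hyp.spec_point (H : Hyp ℓ k l Θ) {F : Subfield K} (hkF : k ≤ F) (hfg : FG k F)
    {W : ValuationSubring K} {π θ : K} (hN : Nice W F π θ) {y : K} (hy : Good k y)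
    (hyW : TrivOn W (adj k y)) {z : K} {z' : L} (hR : Rt k l Θ z z') {v₀ : V ℓ K}
    (hv₀ : v₀ ∈ VS ℓ (adj k z)) (h₀ : hN.unif.fn ℓ v₀ ≠ 0) :
    (∃ β ∈ l, ∃ κ : ZMod ℓ, ∀ v ∈ VS ℓ (adj k z),
      hN.unif.fn ℓ v = κ * del ℓ l z' β (Θ v)) ∨
    (∀ c ∈ l, ∀ c' ∈ l, hN.unif.fn ℓ (Θ.symm (cl ℓ (z' - c) - cl ℓ (z' - c'))) = 0) := by
  obtain ⟨O, hOl, hT⟩ := H.exists_tr hkF hfg hN hy hyW
  have hnt : ¬ TrivOn O (adj l z') := by
    intro hO
    obtain ⟨x, hx, hx0, hx1⟩ := (hR.map v₀).2 hv₀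
    have h1 := hT.unit hN.unif x (hO.eq_one hx hx0)
    rw [← hx1, LinearEquiv.symm_apply_apply] at h1
    exact h₀ h1
  set f : V ℓ L →ₗ[ZMod ℓ] ZMod ℓ := (hN.unif.fn ℓ) ∘ₗ Θ.symm.toLinearMap with hf
  have hfv : ∀ v, f (Θ v) = hN.unif.fn ℓ v := by
    intro v
    change hN.unif.fn ℓ (Θ.symm (Θ v)) = _
    rw [LinearEquiv.symm_apply_apply]
  have hfs : ∀ w, hN.unif.fn ℓ (Θ.symm w) = f w := fun w => rfl
  have hfu : ∀ z, O.valuation z = 1 → f (cl ℓ z) = 0 := fun z hz => hT.unit hN.unif z hz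
  rcases exists_centre H.acl hR.good' hOl hnt with ⟨β, hβ, hβ1⟩ | hinf
  · left
    refine ⟨β, hβ, f (cl ℓ (z' - β)), fun v hv => ?_⟩
    rw [← hfv]
    exact del_of_kills H.acl hR.good' hOl hβ hβ1 f hfu ((hR.map v).2 hv)
  · right
    have key : ∀ c ∈ l, f (cl ℓ (z' - c)) = f (cl ℓ z') := by
      intro c hc
      have hs0 : z' ≠ 0 := by
        rintro rfl
        rw [map_zero] at hinf
        exact absurd hinf (not_lt.2 zero_le_one)
      have hcle : O.valuation c < O.valuation z' := (hOl.le_one hc).trans_lt hinf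
      have hval : O.valuation (z' - c) = O.valuation z' :=
        Valuation.map_sub_eq_of_lt_left _ hcle
      have hsc0 : z' - c ≠ 0 := by
        intro h
        rw [h, map_zero] at hval
        exact (Valuation.ne_zero_iff O.valuation).2 hs0 hval.symm
      have h1 : O.valuation ((z' - c) / z') = 1 := by
        rw [map_div₀, hval, div_self ((Valuation.ne_zero_iff O.valuation).2 hs0)]
      have h2 := hfu _ h1
      rw [cl_div ℓ hsc0 hs0, map_sub, sub_eq_zero] at h2
      exact h2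
    intro c hc c' hc'
    rw [hfs, map_sub, key c hc, key c' hc', sub_self]

/-- shifting the parameter. -/
theorem spec_ae_shift {P : K → Prop} (h : ∀ᶠ c in ae k, P c) : ∀ᶠ c in ae k, P (c - 1) := by
  rw [ae_iff] at h ⊢
  refine (h.image (fun c => c + 1)).subset ?_
  rintro c ⟨hc, hc1⟩
  exact ⟨c - 1, ⟨k.sub_mem hc k.one_mem, hc1⟩, sub_add_cancel c 1⟩

/-- comparison of the coefficients of two points through the degree formula. -/
theorem Hyp.spec_compare (H : Hyp ℓ k l Θ) {z : K} {z' : L} (hR : Rt k l Θ z z')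
    (hfin : ∀ b ∈ k,
      (∃ β ∈ l, ∃ κ : ZMod ℓ, ∀ v ∈ VS ℓ (adj k z), del ℓ k z b v = κ * del ℓ l z' β (Θ v)) ∨
      (∀ c ∈ l, ∀ c' ∈ l, del ℓ k z b (Θ.symm (cl ℓ (z' - c) - cl ℓ (z' - c'))) = 0))
    {g : V ℓ K →ₗ[ZMod ℓ] ZMod ℓ} (hg : ∀ b ∈ k, g (cl ℓ (z - b)) = -1)
    (hinf :
      (∃ β ∈ l, ∃ κ : ZMod ℓ, ∀ v ∈ VS ℓ (adj k z), g v = κ * del ℓ l z' β (Θ v)) ∨
      (∀ c ∈ l, ∀ c' ∈ l, g (Θ.symm (cl ℓ (z' - c) - cl ℓ (z' - c'))) = 0))
    {b b' : K} (hb : b ∈ k) (hb' : b' ∈ k) {β β' : L} (hβ : β ∈ l) (hβ' : β' ∈ l)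
    {e e' : ZMod ℓ} (he : e ≠ 0) (he' : e' ≠ 0) (h : Cor k l Θ z z' e b β)
    (h' : Cor k l Θ z z' e' b' β') : e = e' := by
  classical
  by_cases hββ : β = β'
  · subst hββ
    have hbb := Cor.inj H.ack H.acl hR he he' hb hb' hβ h h'
    subst hbb
    exact (Cor.unique H.ack H.acl hR he hb hβ hβ h h').2
  have hbb : b ≠ b' := by
    rintro rfl
    exact hββ (Cor.unique H.ack H.acl hR he hb hβ hβ' h h').1
  have hz'k : ∀ c ∈ l, cl ℓ (z' - c) ∈ VS ℓ (adj l z') := fun c hc =>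
    cl_mem_VS ((adj l z').sub_mem (mem_adj l z') (le_adj l z' hc))
  have hzk : ∀ c ∈ k, cl ℓ (z - c) ∈ VS ℓ (adj k z) := fun c hc =>
    cl_mem_VS ((adj k z).sub_mem (mem_adj k z) (le_adj k z hc))
  set w : V ℓ L := cl ℓ (z' - β) - cl ℓ (z' - β') with hw
  have hwV : w ∈ VS ℓ (adj l z') := Submodule.sub_mem _ (hz'k β hβ) (hz'k β' hβ')
  set v : V ℓ K := Θ.symm w with hv
  have hΘv : Θ v = w := by rw [hv, LinearEquiv.apply_symm_apply]
  have hvV : v ∈ VS ℓ (adj k z) := by rw [← hR.map, hΘv]; exact hwV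
  -- values of the functionals of the second line at `w`
  have hdw : ∀ γ ∈ l, γ ≠ β → γ ≠ β' → del ℓ l z' γ w = 0 := by
    intro γ hγ h1 h2
    rw [hw, map_sub, del_ne H.acl hR.good' hγ hβ (Ne.symm h1),
      del_ne H.acl hR.good' hγ hβ' (Ne.symm h2), sub_self]
  have hdβ : del ℓ l z' β w = 1 := by
    rw [hw, map_sub, del_self H.acl hR.good' hβ, del_ne H.acl hR.good' hβ hβ' (Ne.symm hββ),
      sub_zero]
  have hdβ' : del ℓ l z' β' w = -1 := by
    rw [hw, map_sub, del_self H.acl hR.good' hβ', del_ne H.acl hR.good' hβ' hβ hββ, zero_sub]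
  have hvb : del ℓ k z b v = e := by
    rw [h v hvV, hΘv, hdβ, mul_one]
  have hvb' : del ℓ k z b' v = -e' := by
    rw [h' v hvV, hΘv, hdβ', mul_neg, mul_one]
  have hvo : ∀ c ∈ k, c ≠ b → c ≠ b' → del ℓ k z c v = 0 := by
    intro c hc hcb hcb'
    rcases hfin c hc with ⟨γ, hγ, κ, hκ⟩ | h1
    · have hκ0 : κ ≠ 0 := by
        rintro rfl
        have h2 := hκ _ (hzk c hc)
        rw [del_self H.ack hR.good hc, zero_mul] at h2
        exact one_ne_zero h2
      rw [hκ v hvV, hΘv]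
      by_cases h1 : γ = β
      · subst h1
        exact absurd (Cor.inj H.ack H.acl hR hκ0 he hc hb hγ hκ h) hcb
      by_cases h2 : γ = β'
      · subst h2
        exact absurd (Cor.inj H.ack H.acl hR hκ0 he' hc hb' hγ hκ h') hcb'
      rw [hdw γ hγ h1 h2, mul_zero]
    · exact h1 β hβ β' hβ'
  have hgv : g v = 0 := by
    rcases hinf with ⟨γ, hγ, κ, hκ⟩ | h1
    · -- a finite point is not proportional to the point of a finite point
      have hcontra : ∀ {b₁ b₂ : K} {e₁ : ZMod ℓ}, b₁ ∈ k → b₂ ∈ k → b₂ ≠ b₁ → e₁ ≠ 0 →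
          Cor k l Θ z z' e₁ b₁ γ → False := by
        intro b₁ b₂ e₁ hb₁ hb₂ hne he₁ hC
        have h2 := hC _ (hzk b₂ hb₂)
        rw [del_ne H.ack hR.good hb₁ hb₂ hne] at h2
        have h3 : del ℓ l z' γ (Θ (cl ℓ (z - b₂))) = 0 :=
          (mul_eq_zero.1 h2.symm).resolve_left he₁
        have h4 := hκ _ (hzk b₂ hb₂)
        rw [h3, mul_zero, hg b₂ hb₂] at h4
        exact one_ne_zero (neg_eq_zero.1 h4)
      rw [hκ v hvV, hΘv]
      by_cases h1 : γ = β
      · subst h1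
        exact (hcontra hb hb' (Ne.symm hbb) he h).elim
      by_cases h2 : γ = β'
      · subst h2
        exact (hcontra hb' hb hbb he' h').elim
      rw [hdw γ hγ h1 h2, mul_zero]
    · exact h1 β hβ β' hβ'
  -- the degree formula
  obtain ⟨T, n, hT, hvT⟩ := adj_factor H.ack hR.good.1 hvV
  have hdel : ∀ c ∈ k, del ℓ k z c v = if c ∈ T then n c else 0 := by
    intro c hc
    rw [hvT]
    exact del_eval H.ack hR.good T hT n hc
  have hgT : g v = -∑ c ∈ T, n c := by
    rw [hvT, map_sum, ← Finset.sum_neg_distrib]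
    refine Finset.sum_congr rfl fun c hc => ?_
    rw [map_smul, hg c (hT c hc), smul_eq_mul, mul_neg, mul_one]
  have hbT : b ∈ T := by
    by_contra hcon
    have h1 := hdel b hb
    rw [if_neg hcon, hvb] at h1
    exact he h1
  have hbT' : b' ∈ T := by
    by_contra hcon
    have h1 := hdel b' hb'
    rw [if_neg hcon, hvb'] at h1
    exact he' (neg_eq_zero.1 h1)
  have hsum : ∑ c ∈ T, n c = e - e' := by
    have h1 : ∀ c ∈ T, n c = (if c = b then e else 0) + (if c = b' then -e' else 0) := by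
      intro c hc
      have h2 := hdel c (hT c hc)
      rw [if_pos hc] at h2
      by_cases h3 : c = b
      · subst h3
        rw [if_pos rfl, if_neg hbb, add_zero, ← h2, hvb]
      by_cases h4 : c = b'
      · subst h4
        rw [if_neg h3, if_pos rfl, zero_add, ← h2, hvb']
      rw [if_neg h3, if_neg h4, add_zero, ← h2, hvo c (hT c hc) h3 h4]
    rw [Finset.sum_congr rfl h1, Finset.sum_add_distrib, Finset.sum_ite_eq', Finset.sum_ite_eq',
      if_pos hbT, if_pos hbT', sub_eq_add_neg]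
  rw [hgv, hsum] at hgT
  have h5 : e - e' = 0 := neg_eq_zero.1 hgT.symm
  exact sub_eq_zero.1 h5

/-- for every good `s` there is `t` such that the coefficients of the correspondence for `t + s`
are constant. -/
theorem Hyp.exists_special (H : Hyp ℓ k l Θ) {s : K} (hs : Good k s) :
    ∃ t, Good k t ∧ Good k (t + s) ∧ Ind k s t ∧ ∀ z', Rt k l Θ (t + s) z' →
      ∃ e₀ : ZMod ℓ, ∀ b ∈ k, ∀ β ∈ l, ∀ e : ZMod ℓ, e ≠ 0 →
        Cor k l Θ (t + s) z' e b β → e = e₀ := by
  classical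
  have hRAC := RAC_of_isAlgClosed k H.ack
  have hne := ae_neBot_of_isAlgClosed H.ack
  obtain ⟨x₁, hx₁, hx₁s⟩ := H.exists_indep hs
  have hsk : ¬ IsAlgebraic k s := fun h => hs.1 (hRAC s h)
  obtain ⟨G, hG⟩ := exists_frame H.fgk hsk hx₁s
  obtain ⟨θ, hθ⟩ := hG.nice H.fgk
  set F : Subfield K := adj G s with hF
  have hkF : k ≤ F := hG.le.trans (le_adj G s)
  have hsF : s ∈ F := mem_adj G s
  have hksF : adj k s ≤ F := adj_mono hG.le s
  have hfgF : FG k F := hG.fg.adj s
  have hθk : ∀ᶠ a in ae k, ∀ W : ValuationSubring K, Over W F x₁ a → Nice W F (x₁ - a) θ :=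
    ae_mono hkF hθ
  obtain ⟨a₀, ha₀, ha₀k⟩ := (hθk.and (ae_mem k)).exists
  have hxa : x₁ - a₀ ≠ 0 := fun h => hx₁.1 (by rw [sub_eq_zero.1 h]; exact ha₀k)
  set x : K := (x₁ - a₀)⁻¹ with hx
  have hx0 : x ≠ 0 := inv_ne_zero hxa
  have hx₁x : x₁ = x⁻¹ + a₀ := by rw [hx, inv_inv, sub_add_cancel]
  have hxs : ¬ IsAlgebraic (adj k s) x := by
    intro h
    apply hx₁s
    have h1 : x ∈ rac (adj k s) := mem_rac.2 h
    have h2 : x₁ ∈ rac (adj k s) := by
      rw [hx₁x]
      exact (rac (adj k s)).add_mem ((rac (adj k s)).inv_mem h1) (le_rac _ (le_adj k s ha₀k))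
    exact mem_rac.1 h2
  have hxk : x ∉ k := fun h => hxs (isAlgebraic_of_mem (le_adj k s h))
  have hsx : ¬ IsAlgebraic (adj k x) s := fun h => hxs (exchange hsk h)
  -- the exceptional parameters
  have hEx : ∀ᶠ c in ae k, ∀ b ∈ k, b - c * s ≠ 0 → ∀ W : ValuationSubring K,
      Over W F x₁ (a₀ + (b - c * s)⁻¹) → Nice W F (x₁ - (a₀ + (b - c * s)⁻¹)) θ := by
    rw [ae_iff] at hθ ⊢
    refine (hθ.biUnion (t := fun a => {c : K | c ∈ k ∧ ∃ b ∈ k, b - c * s ≠ 0 ∧
      a₀ + (b - c * s)⁻¹ = a}) ?_).subset ?_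
    · intro a _
      apply Set.Subsingleton.finite
      rintro c ⟨hc, b, hb, hbc, h1⟩ c' ⟨hc', b', hb', hbc', h1'⟩
      have h2 : b - c * s = b' - c' * s := by
        have h3 : (b - c * s)⁻¹ = (b' - c' * s)⁻¹ := by
          have h4 := h1.trans h1'.symm
          exact add_left_cancel h4
        exact inv_injective h3
      by_contra hcc
      have hd : c - c' ≠ 0 := sub_ne_zero.2 hcc
      apply hs.1
      have h5 : s = (b - b') / (c - c') := by
        rw [eq_div_iff hd]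
        linear_combination -h2
      rw [h5]
      exact k.div_mem (k.sub_mem hb hb') (k.sub_mem hc hc')
    · rintro c ⟨hc, hc1⟩
      push Not at hc1
      obtain ⟨b, hb, hbc, W, hW, hWn⟩ := hc1
      rw [Set.mem_iUnion₂]
      refine ⟨a₀ + (b - c * s)⁻¹, ⟨?_, fun h => hWn (h W hW)⟩, hc, b, hb, hbc, rfl⟩
      exact F.add_mem (hkF ha₀k) (F.inv_mem (F.sub_mem (hkF hb) (F.mul_mem (hkF hc) hsF)))
  have hgood := H.bert x s hxk hsx
  have hgood' := spec_ae_shift hgood
  have hc0' : ∀ᶠ c in ae k, c ≠ 0 := by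
    rw [ae_iff]
    refine (Set.finite_singleton (0 : K)).subset ?_
    rintro c ⟨_, hc⟩
    rw [not_not] at hc
    exact hc
  obtain ⟨c, ⟨⟨⟨⟨hc1, hc2⟩, hc3⟩, hc0⟩, hck⟩⟩ :=
    ((((hgood.and hgood').and hEx).and hc0').and (ae_mem k)).exists
  have htz : x + (c - 1) * s + s = x + c * s := by ring
  refine ⟨x + (c - 1) * s, hc2, by rw [htz]; exact hc1, ⟨hs.1, ?_⟩, ?_⟩
  · intro h
    apply hxs
    have h1 : x + (c - 1) * s ∈ rac (adj k s) := mem_rac.2 h
    have h2 : (c - 1) * s ∈ rac (adj k s) :=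
      le_rac _ ((adj k s).mul_mem (le_adj k s (k.sub_mem hck k.one_mem)) (mem_adj k s))
    have h3 := (rac (adj k s)).sub_mem h1 h2
    rw [add_sub_cancel_right] at h3
    exact mem_rac.1 h3
  rw [htz]
  intro z' hR
  set z : K := x + c * s with hz
  have hbcs : ∀ b ∈ k, b - c * s ≠ 0 := by
    intro b hb h
    apply hs.1
    have h1 : s = b / c := by
      rw [eq_div_iff hc0]
      linear_combination -h
    rw [h1]
    exact k.div_mem hb hck
  have huF : ∀ b ∈ k, b - c * s ∈ F := fun b hb =>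
    F.sub_mem (hkF hb) (F.mul_mem (hkF hck) hsF)
  have hzk : ∀ c ∈ k, cl ℓ (z - c) ∈ VS ℓ (adj k z) := fun c hc =>
    cl_mem_VS ((adj k z).sub_mem (mem_adj k z) (le_adj k z hc))
  -- finite points
  have hfin : ∀ b ∈ k,
      (∃ β ∈ l, ∃ κ : ZMod ℓ, ∀ v ∈ VS ℓ (adj k z), del ℓ k z b v = κ * del ℓ l z' β (Θ v)) ∨
      (∀ c ∈ l, ∀ c' ∈ l, del ℓ k z b (Θ.symm (cl ℓ (z' - c) - cl ℓ (z' - c'))) = 0) := by
    intro b hb
    set u : K := b - c * s with hu
    have hu0 : u ≠ 0 := hbcs b hb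
    have huF' : u ∈ F := huF b hb
    have haF : a₀ + u⁻¹ ∈ F := F.add_mem (hkF ha₀k) (F.inv_mem huF')
    obtain ⟨W, hW⟩ := exists_over hG.tt haF
    have hN := hc3 b hb hu0 W hW
    have hWF : TrivOn W F := hN.triv
    have hWk : TrivOn W k := hWF.mono hkF
    have hWs : TrivOn W (adj k s) := hWF.mono hksF
    have hvu : W.valuation u = 1 := hWF.eq_one huF' hu0
    have hvui : W.valuation u⁻¹ = 1 := by rw [map_inv₀, hvu, inv_one]
    have hva : W.valuation (x₁ - a₀) = 1 := by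
      have h1 : x₁ - a₀ = (x₁ - (a₀ + u⁻¹)) + u⁻¹ := by ring
      rw [h1, Valuation.map_add_eq_of_lt_right _ (by rw [hvui]; exact hW.lt), hvui]
    have hπ0 : x₁ - (a₀ + u⁻¹) ≠ 0 := hN.unif.ne
    have hzb : z - b = (-u * x) * (x₁ - (a₀ + u⁻¹)) := by
      rw [hz, hx, hu]
      have hu0' : b - c * s ≠ 0 := hu0
      field_simp
      ring
    have hvux : W.valuation (-u * x) = 1 := by
      rw [map_mul, Valuation.map_neg, hvu, hx, map_inv₀, hva, inv_one, one_mul]
    have hux0 : -u * x ≠ 0 := mul_ne_zero (neg_ne_zero.2 hu0) hx0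
    have hlt : W.valuation (z - b) < 1 := by
      rw [hzb, map_mul, hvux, one_mul]
      exact hW.lt
    have hfn1 : hN.unif.fn ℓ (cl ℓ (z - b)) = 1 := by
      rw [hzb, cl_mul ℓ hux0 hπ0, map_add, hN.unif.fn_unit ℓ _ hvux, hN.unif.fn_self ℓ, zero_add]
    have hfn : ∀ v ∈ VS ℓ (adj k z), hN.unif.fn ℓ v = del ℓ k z b v := by
      intro v hv
      rw [del_of_kills H.ack hR.good hWk hb hlt (hN.unif.fn ℓ)
        (fun z hz => hN.unif.fn_unit ℓ z hz) hv, hfn1, one_mul]
    rcases H.spec_point hkF hfgF hN hs hWs hR (hzk b hb) (by rw [hfn1]; exact one_ne_zero)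
      with ⟨β, hβ, κ, hκ⟩ | h1
    · left
      exact ⟨β, hβ, κ, fun v hv => by rw [← hfn v hv]; exact hκ v hv⟩
    · right
      intro d hd d' hd'
      rw [← hfn]
      · exact h1 d hd d' hd'
      · rw [← hR.map, LinearEquiv.apply_symm_apply]
        exact Submodule.sub_mem _
          (cl_mem_VS ((adj l z').sub_mem (mem_adj l z') (le_adj l z' hd)))
          (cl_mem_VS ((adj l z').sub_mem (mem_adj l z') (le_adj l z' hd')))
  -- the pole
  obtain ⟨W, hW⟩ := exists_over hG.tt (hkF ha₀k)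
  have hN := ha₀ W hW
  have hWF : TrivOn W F := hN.triv
  have hWs : TrivOn W (adj k s) := hWF.mono hksF
  have hg : ∀ b ∈ k, hN.unif.fn ℓ (cl ℓ (z - b)) = -1 := by
    intro b hb
    have huF' : b - c * s ∈ F := huF b hb
    have hlt : W.valuation ((b - c * s) * (x₁ - a₀)) < 1 := by
      rw [map_mul]
      refine (mul_le_mul_left (hWF.le_one huF') _).trans_lt ?_
      rw [one_mul]
      exact hW.lt
    have h1 : W.valuation (1 - (b - c * s) * (x₁ - a₀)) = 1 := by
      rw [Valuation.map_one_sub_of_lt _ hlt]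
    have h10 : 1 - (b - c * s) * (x₁ - a₀) ≠ 0 := by
      intro h0
      rw [h0, map_zero] at h1
      exact zero_ne_one h1
    have hzb : z - b = (1 - (b - c * s) * (x₁ - a₀)) / (x₁ - a₀) := by
      rw [hz, hx]
      field_simp
      ring
    rw [hzb, cl_div ℓ h10 hxa, map_sub, hN.unif.fn_unit ℓ _ h1, hN.unif.fn_self ℓ, zero_sub]
  have hinf := H.spec_point hkF hfgF hN hs hWs hR (hzk 0 k.zero_mem)
    (by rw [hg 0 k.zero_mem]; exact neg_ne_zero.2 one_ne_zero)
  by_cases hex : ∃ b ∈ k, ∃ β ∈ l, ∃ e : ZMod ℓ, e ≠ 0 ∧ Cor k l Θ z z' e b β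
  · obtain ⟨b₀, hb₀, β₀, hβ₀, e₀, he₀, hC₀⟩ := hex
    refine ⟨e₀, fun b hb β hβ e he hC => ?_⟩
    exact H.spec_compare hR hfin hg hinf hb hb₀ hβ hβ₀ he he₀ hC hC₀
  · refine ⟨0, fun b hb β hβ e he hC => ?_⟩
    exact absurd ⟨b, hb, β, hβ, e, he, hC⟩ hex

end Vale.Agent.P019P
end

section

/-!
# Transcendence bases
-/

namespace Vale.Agent.P019P

open Vale.Agent.P019

set_option linter.style.haveILetI false
set_option linter.unusedSectionVars false

open Polynomial Filter

section e0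

variable {K : Type*} [Field K]

/-- the perfect closure of `k(B)`. -/
noncomputable def gsp (k : Subfield K) (B : Finset K) : Subfield K :=
  pf (k ⊔ Subfield.closure (B : Set K))

theorem le_gsp (k : Subfield K) (B : Finset K) : k ≤ gsp k B := le_sup_left.trans (le_pf _)

theorem mem_gsp {k : Subfield K} {B : Finset K} {x : K} (hx : x ∈ B) : x ∈ gsp k B :=
  (le_sup_right.trans (le_pf _) : Subfield.closure (B : Set K) ≤ gsp k B)
    (Subfield.subset_closure hx)

theorem gsp_perfect [PerfectField K] (k : Subfield K) (B : Finset K) :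
    PerfectField (gsp k B) := perfect_of_pf_le (by unfold gsp; rw [pf_pf])

theorem gsp_le {k F : Subfield K} [PerfectField F] {B : Finset K} (h : k ≤ F)
    (hB : ∀ x ∈ B, x ∈ F) : gsp k B ≤ F :=
  pf_le (sup_le h (Subfield.closure_le.2 fun x hx => hB x hx))

theorem gsp_mono [PerfectField K] (k : Subfield K) {B B' : Finset K} (h : B ⊆ B') :
    gsp k B ≤ gsp k B' := by
  haveI := gsp_perfect k B'
  exact gsp_le (le_gsp k B') fun x hx => mem_gsp (h hx)

theorem gsp_empty (k : Subfield K) [PerfectField k] : gsp k ∅ = k := by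
  unfold gsp
  rw [Finset.coe_empty, Subfield.closure_empty, sup_bot_eq, pf_eq]

theorem gsp_insert [PerfectField K] [DecidableEq K] (k : Subfield K) (B : Finset K) (v : K) :
    gsp k (insert v B) = adj (gsp k B) v := by
  haveI := gsp_perfect k (insert v B)
  haveI : PerfectField (adj (gsp k B) v) := perfect_of_pf_le (by unfold adj; rw [pf_pf])
  apply le_antisymm
  · refine gsp_le ((le_gsp k B).trans (le_adj _ _)) fun x hx => ?_
    rcases Finset.mem_insert.1 hx with rfl | hx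
    · exact mem_adj _ _
    · exact le_adj _ _ (mem_gsp hx)
  · exact adj_le (gsp_mono k (Finset.subset_insert v B)) (mem_gsp (Finset.mem_insert_self v B))

theorem gsp_fg [PerfectField K] (k : Subfield K) (B : Finset K) : FG k (gsp k B) := ⟨B, rfl⟩

/-- the elements of `B` are algebraically independent over `k`. -/
def Indp (k : Subfield K) (B : Finset K) : Prop :=
  ∀ S ⊆ B, ∀ v ∈ B, v ∉ S → ¬ IsAlgebraic (gsp k S) v

theorem Indp.mono {k : Subfield K} {B B' : Finset K} (h : Indp k B) (hB : B' ⊆ B) :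
    Indp k B' := fun S hS v hv hvS => h S (hS.trans hB) v (hB hv) hvS

/-- transcendence degree. -/
def Td (k : Subfield K) (n : ℕ) : Prop :=
  ∃ B : Finset K, B.card = n ∧ Indp k B ∧ ∀ z : K, IsAlgebraic (gsp k B) z

variable [PerfectField K]

/-- elements algebraic over `k(B)` are algebraic over any field over which `B` is algebraic. -/
theorem e0_alg_trans {k E : Subfield K} {B : Finset K} (hk : k ≤ E)
    (hB : ∀ z ∈ B, IsAlgebraic E z) {x : K} (hx : IsAlgebraic (gsp k B) x) : IsAlgebraic E x := by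
  refine isAlgebraic_trans (le_rac E) (fun z hz => mem_rac.1 hz) (isAlgebraic_mono ?_ hx)
  exact gsp_le (hk.trans (le_rac E)) fun z hz => mem_rac.2 (hB z hz)

theorem Indp.insert [DecidableEq K] {k : Subfield K} {B : Finset K} (h : Indp k B) {v : K}
    (hv : ¬ IsAlgebraic (gsp k B) v) : Indp k (insert v B) := by
  intro S hS w hw hwS hal
  by_cases hvS : v ∈ S
  · have hwv : w ≠ v := fun h1 => hwS (h1 ▸ hvS)
    have hwB : w ∈ B := (Finset.mem_insert.1 hw).resolve_left hwv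
    have hS' : S.erase v ⊆ B := fun x hx => by
      rw [Finset.mem_erase] at hx
      exact (Finset.mem_insert.1 (hS hx.2)).resolve_left hx.1
    have hw' : ¬ IsAlgebraic (gsp k (S.erase v)) w :=
      h _ hS' w hwB fun h1 => hwS (Finset.mem_of_mem_erase h1)
    have h1 : S = Insert.insert v (S.erase v) := (Finset.insert_erase hvS).symm
    rw [h1, gsp_insert] at hal
    have h2 := exchange hw' hal
    rw [← gsp_insert] at h2
    exact hv (isAlgebraic_mono (gsp_mono k (Finset.insert_subset hwB hS')) h2)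
  · have hSB : S ⊆ B := fun x hx =>
      (Finset.mem_insert.1 (hS hx)).resolve_left fun h1 => hvS (h1 ▸ hx)
    rcases Finset.mem_insert.1 hw with rfl | hw
    · exact hv (isAlgebraic_mono (gsp_mono k hSB) hal)
    · exact h S hSB w hw hwS hal

theorem Indp.ratF {k : Subfield K} [PerfectField k] {B : Finset K} (h : Indp k B) :
    RatF k (gsp k B) := by
  classical
  induction B using Finset.induction_on with
  | empty =>
    rw [gsp_empty]
    exact RatF.base
  | insert v B hvB ih =>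
    rw [gsp_insert]
    exact RatF.step (ih (h.mono (Finset.subset_insert v B)))
      (h B (Finset.subset_insert v B) v (Finset.mem_insert_self v B) hvB)

theorem e0_extend {k : Subfield K} {B : Finset K} (h : Indp k B) (S : Finset K) :
    ∃ B', B ⊆ B' ∧ Indp k B' ∧ ∀ z ∈ S, IsAlgebraic (gsp k B') z := by
  classical
  induction S using Finset.induction_on with
  | empty => exact ⟨B, subset_rfl, h, by simp⟩
  | insert v S hvS ih =>
    obtain ⟨B', h1, h2, h3⟩ := ih
    by_cases hv : IsAlgebraic (gsp k B') v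
    · refine ⟨B', h1, h2, fun z hz => ?_⟩
      rcases Finset.mem_insert.1 hz with rfl | hz
      · exact hv
      · exact h3 z hz
    · refine ⟨Insert.insert v B', h1.trans (Finset.subset_insert _ _), h2.insert hv,
        fun z hz => ?_⟩
      rcases Finset.mem_insert.1 hz with rfl | hz
      · exact isAlgebraic_of_mem (mem_gsp (Finset.mem_insert_self _ _))
      · exact isAlgebraic_mono (gsp_mono k (Finset.subset_insert _ _)) (h3 z hz)

/-- extension of independent sets to transcendence bases. -/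
theorem Indp.extend {k : Subfield K} (hfg : FG k (⊤ : Subfield K)) {B : Finset K}
    (h : Indp k B) : ∃ B', B ⊆ B' ∧ Indp k B' ∧ ∀ z : K, IsAlgebraic (gsp k B') z := by
  obtain ⟨S, hS⟩ := hfg
  obtain ⟨B', h1, h2, h3⟩ := e0_extend h S
  refine ⟨B', h1, h2, fun z => e0_alg_trans (le_gsp k B') h3 (isAlgebraic_of_mem ?_)⟩
  change z ∈ pf (k ⊔ Subfield.closure (S : Set K))
  rw [← hS]
  exact Subfield.mem_top z

theorem e0_first [DecidableEq K] {k : Subfield K} {C : Finset K} {v : K}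
    (hC : ¬ IsAlgebraic (gsp k C) v) (T : Finset K) (hT : IsAlgebraic (gsp k (C ∪ T)) v) :
    ∃ w ∈ T, ∃ D, C ⊆ D ∧ D ⊆ C ∪ T ∧ w ∉ D ∧ ¬ IsAlgebraic (gsp k D) v ∧
      IsAlgebraic (gsp k (Insert.insert w D)) v := by
  induction T using Finset.induction_on with
  | empty =>
    rw [Finset.union_empty] at hT
    exact absurd hT hC
  | insert w T hwT ih =>
    by_cases h1 : IsAlgebraic (gsp k (C ∪ T)) v
    · obtain ⟨w', hw', D, h2, h3, h4⟩ := ih h1
      exact ⟨w', Finset.mem_insert_of_mem hw', D, h2,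
        h3.trans (Finset.union_subset_union_right (Finset.subset_insert w T)), h4⟩
    · refine ⟨w, Finset.mem_insert_self w T, C ∪ T, Finset.subset_union_left,
        Finset.union_subset_union_right (Finset.subset_insert w T), ?_, h1, ?_⟩
      · intro h2
        apply h1
        rwa [Finset.union_insert, Finset.insert_eq_of_mem h2] at hT
      · rwa [Finset.union_insert] at hT

/-- one exchange step. -/
theorem e0_step [DecidableEq K] {k : Subfield K} {B B' : Finset K} (h : Indp k B)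
    (h' : ∀ z ∈ B, IsAlgebraic (gsp k B') z) {v : K} (hv : v ∈ B) (hv' : v ∉ B') :
    ∃ w ∈ B', w ∉ B ∧
      ∀ z ∈ B, IsAlgebraic (gsp k (Insert.insert v (B'.erase w))) z := by
  have h0 : B ∩ B' ∪ B' = B' := Finset.union_eq_right.2 Finset.inter_subset_right
  obtain ⟨w, hw, D, h1, h2, h3, h4, h5⟩ := e0_first
    (h (B ∩ B') Finset.inter_subset_left v hv fun h1 => hv' (Finset.mem_inter.1 h1).2) B'
    (by rw [h0]; exact h' v hv)
  rw [h0] at h2
  have hwB : w ∉ B := fun h6 => h3 (h1 (Finset.mem_inter.2 ⟨h6, hw⟩))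
  refine ⟨w, hw, hwB, fun z hz => ?_⟩
  rw [gsp_insert] at h5
  have h6 := exchange h4 h5
  rw [← gsp_insert] at h6
  have h7 : D ⊆ B'.erase w := fun x hx => Finset.mem_erase.2 ⟨fun h8 => h3 (h8 ▸ hx), h2 hx⟩
  have h8 : IsAlgebraic (gsp k (Insert.insert v (B'.erase w))) w :=
    isAlgebraic_mono (gsp_mono k (Finset.insert_subset_insert v h7)) h6
  refine e0_alg_trans (le_gsp k _) (fun x hx => ?_) (h' z hz)
  by_cases hxw : x = w
  · rw [hxw]
    exact h8
  · exact isAlgebraic_of_mem (mem_gsp (Finset.mem_insert_of_mem (Finset.mem_erase.2 ⟨hxw, hx⟩)))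

theorem e0_card_le [DecidableEq K] {k : Subfield K} {B : Finset K} (h : Indp k B) (n : ℕ) :
    ∀ B' : Finset K, (B \ B').card = n → (∀ z ∈ B, IsAlgebraic (gsp k B') z) →
      B.card ≤ B'.card := by
  induction n with
  | zero =>
    intro B' hn _
    exact Finset.card_le_card (Finset.sdiff_eq_empty_iff_subset.1 (Finset.card_eq_zero.1 hn))
  | succ n ih =>
    intro B' hn h'
    obtain ⟨v, hv⟩ : (B \ B').Nonempty := Finset.card_pos.1 (by omega)
    rw [Finset.mem_sdiff] at hv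
    obtain ⟨w, hw, hwB, h1⟩ := e0_step h h' hv.1 hv.2
    have h2 : B \ Insert.insert v (B'.erase w) = (B \ B').erase v := by
      ext x
      simp only [Finset.mem_sdiff, Finset.mem_insert, Finset.mem_erase]
      constructor
      · rintro ⟨h3, h4⟩
        have h5 : x ≠ w := fun h6 => hwB (h6 ▸ h3)
        exact ⟨fun h6 => h4 (Or.inl h6), h3, fun h6 => h4 (Or.inr ⟨h5, h6⟩)⟩
      · rintro ⟨h3, h4, h5⟩
        exact ⟨h4, fun h6 => h6.elim h3 fun h7 => h5 h7.2⟩
    have h3 : (B \ Insert.insert v (B'.erase w)).card = n := by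
      rw [h2, Finset.card_erase_of_mem (Finset.mem_sdiff.2 hv), hn, Nat.add_sub_cancel]
    refine (ih _ h3 h1).trans ?_
    rw [Finset.card_insert_of_notMem fun h4 => hv.2 (Finset.mem_of_mem_erase h4),
      Finset.card_erase_add_one hw]

/-- exchange: an independent set is not larger than a transcendence basis. -/
theorem Indp.card_le {k : Subfield K} {B B' : Finset K} (h : Indp k B)
    (h' : ∀ z ∈ B, IsAlgebraic (gsp k B') z) : B.card ≤ B'.card := by
  classical
  exact e0_card_le h _ B' rfl h'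

theorem Td.le {k : Subfield K} {n : ℕ} (h : Td k n) {B : Finset K} (hB : Indp k B) :
    B.card ≤ n := by
  obtain ⟨B', h1, -, h2⟩ := h
  rw [← h1]
  exact hB.card_le fun z _ => h2 z

theorem Td.unique {k : Subfield K} {n m : ℕ} (h : Td k n) (h' : Td k m) : n = m := by
  obtain ⟨B, h1, h2, -⟩ := id h
  obtain ⟨B', h1', h2', -⟩ := id h'
  exact le_antisymm (h1 ▸ h'.le h2) (h1' ▸ h.le h2')

/-- a transcendence basis containing a given good element. -/
theorem Td.exists_basis {k : Subfield K} (hk : IsAlgClosed k) (hfg : FG k (⊤ : Subfield K))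
    {n : ℕ} (h : Td k (n + 1)) {t : K} (ht : t ∉ k) :
    ∃ B : Finset K, B.card = n ∧ Indp k B ∧ ¬ IsAlgebraic (gsp k B) t ∧
      (∀ z : K, IsAlgebraic (adj (gsp k B) t) z) ∧ t ∉ B := by
  classical
  have hr : RAC k := RAC_of_isAlgClosed k hk
  haveI : PerfectField k := perfect_of_RAC hr
  have h0 : Indp k (∅ : Finset K) := fun S _ v hv _ => absurd hv (Finset.notMem_empty v)
  have h1 : ¬ IsAlgebraic (gsp k (∅ : Finset K)) t := by
    rw [gsp_empty]
    exact fun h2 => ht (hr t h2)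
  obtain ⟨B', h2, h3, h4⟩ := (h0.insert h1).extend hfg
  have htB : t ∈ B' := h2 (Finset.mem_insert_self t ∅)
  have hc : B'.card = n + 1 := Td.unique (K := K) (k := k) ⟨B', rfl, h3, h4⟩ h
  refine ⟨B'.erase t, ?_, h3.mono (Finset.erase_subset t B'),
    h3 _ (Finset.erase_subset t B') t htB (Finset.notMem_erase t B'), fun z => ?_,
    Finset.notMem_erase t B'⟩
  · rw [Finset.card_erase_of_mem htB, hc, Nat.add_sub_cancel]
  · rw [← gsp_insert, Finset.insert_erase htB]
    exact h4 z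

end e0

end Vale.Agent.P019P
end

section

/-!
# Independent elements and residue fields
-/

namespace Vale.Agent.P019P

open Vale.Agent.P019

set_option linter.style.haveILetI false
set_option linter.unusedSectionVars false

open Polynomial Filter

section lift

variable {K : Type*} [Field K] [PerfectField K]

theorem e1a_bar_congr {O : ValuationSubring K} {E E' : Subfield K} (h : TrivOn O E)
    (h' : TrivOn O E') (hE : E = E') : bar h = bar h' := by
  subst hE
  rfl

theorem e1a_empty (k : Subfield K) : Indp k ∅ := fun _ _ v hv =>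
  absurd hv (Finset.notMem_empty v)


/-- lifts of independent elements of the residue field. -/
theorem indp_lift {k : Subfield K} [PerfectField k] {O : ValuationSubring K} (hO : TrivOn O k)
    {B : Finset (IsLocalRing.ResidueField O)} (hB : Indp (bar hO) B) :
    ∃ B' : Finset K, B'.card = B.card ∧ Indp k B' ∧ ∃ h : TrivOn O (gsp k B'),
      bar h = gsp (bar hO) B := by
  classical
  haveI : PerfectField (IsLocalRing.ResidueField O) := rs_perfect hO
  haveI : PerfectField (bar hO) := bar_perfect hO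
  induction B using Finset.induction_on with
  | empty =>
    refine ⟨∅, rfl, e1a_empty k, ?_⟩
    rw [gsp_empty k, gsp_empty (bar hO)]
    exact ⟨hO, rfl⟩
  | insert c B hc ih =>
    obtain ⟨B', hcard, hind, h, hbar⟩ := ih (hB.mono (Finset.subset_insert c B))
    have hcalg : ¬ IsAlgebraic (gsp (bar hO) B) c :=
      hB B (Finset.subset_insert c B) c (Finset.mem_insert_self c B) hc
    rw [← hbar] at hcalg
    obtain ⟨y, hy, rfl⟩ := rs_surj c
    haveI := gsp_perfect k B'
    have hT : TrivOn O (adj (gsp k B') y) := rsb_triv h hy hcalg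
    have hyalg : ¬ IsAlgebraic (gsp k B') y := fun h' => hcalg (isAlgebraic_bar h hy h')
    have hyB : y ∉ B' := fun h' => hyalg (isAlgebraic_of_mem (mem_gsp h'))
    refine ⟨insert y B', ?_, hind.insert hyalg, ?_⟩
    · rw [Finset.card_insert_of_notMem hyB, Finset.card_insert_of_notMem hc, hcard]
    · rw [gsp_insert, gsp_insert]
      exact ⟨hT, by rw [bar_adj h hT, hbar]⟩

/-- reduction of independent elements. -/
theorem indp_red {k : Subfield K} [PerfectField k] {B : Finset K} (hB : Indp k B)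
    {O : ValuationSubring K} (hO : TrivOn O k) (h : TrivOn O (gsp k B)) :
    ∃ B' : Finset (IsLocalRing.ResidueField O), B'.card = B.card ∧ Indp (bar hO) B' ∧
      gsp (bar hO) B' = bar h := by
  classical
  haveI : PerfectField (IsLocalRing.ResidueField O) := rs_perfect hO
  haveI : PerfectField (bar hO) := bar_perfect hO
  induction B using Finset.induction_on with
  | empty =>
    refine ⟨∅, rfl, e1a_empty _, ?_⟩
    rw [gsp_empty (bar hO)]
    exact e1a_bar_congr _ _ (gsp_empty k).symm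
  | insert v B hv ih =>
    have h1 : TrivOn O (gsp k B) := h.mono (gsp_mono k (Finset.subset_insert v B))
    obtain ⟨B', hcard, hind, hg⟩ := ih (hB.mono (Finset.subset_insert v B)) h1
    have hv' : ¬ IsAlgebraic (gsp k B) v :=
      hB B (Finset.subset_insert v B) v (Finset.mem_insert_self v B) hv
    have hE := gsp_insert k B v
    have h2 : TrivOn O (adj (gsp k B) v) := by
      rw [← hE]
      exact h
    have hr : ¬ IsAlgebraic (gsp (bar hO) B') (rs O v) := by
      rw [hg]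
      exact fun h' => hv' (isAlgebraic_of_bar h1 h2 h')
    have hrB : rs O v ∉ B' := fun h' => hr (isAlgebraic_of_mem (mem_gsp h'))
    refine ⟨insert (rs O v) B', ?_, hind.insert hr, ?_⟩
    · rw [Finset.card_insert_of_notMem hrB, Finset.card_insert_of_notMem hv, hcard]
    · rw [gsp_insert, hg, ← bar_adj h1 h2]
      exact e1a_bar_congr _ _ hE.symm

/-- the residue fields of nice valuations. -/
theorem Nice.td {k : Subfield K} [PerfectField k] {B : Finset K} (hB : Indp k B)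
    {W : ValuationSubring K} {π θ : K} (hW : Nice W (gsp k B) π θ) (hWk : TrivOn W k) :
    Td (bar hWk) B.card ∧ FG (bar hWk) (⊤ : Subfield (IsLocalRing.ResidueField W)) := by
  obtain ⟨B', h1, h2, h3⟩ := indp_red hB hWk hW.triv
  refine ⟨⟨B', h1, h2, fun z => ?_⟩, hW.fg (le_gsp k B) (gsp_fg k B) hWk⟩
  rw [h3]
  exact hW.alg_bar z

/-- for almost all `a`, every valuation subring over `t = a` is nice. -/
theorem e1a_nice {k F : Subfield K} [PerfectField F] (hkF : k ≤ F)
    (hfg : FG k (⊤ : Subfield K)) {t : K} (ht : ¬ IsAlgebraic F t)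
    (hta : ∀ z : K, IsAlgebraic (adj F t) z) :
    ∃ θ : K, ∀ᶠ a in ae F, ∀ W : ValuationSubring K, Over W F t a →
      Nice W F (t - a) θ := by
  classical
  haveI : PerfectField (adj F t) := perfect_adj _ _
  obtain ⟨θ, hθ⟩ := exists_prim (hkF.trans (le_adj _ t)) hfg hta
  refine ⟨θ, ?_⟩
  have hθalg : IsAlgebraic (adj F t) θ := hta θ
  set Ψ := minpoly (adj F t) θ with hΨ
  have hΨm : Ψ.Monic := minpoly.monic hθalg.isIntegral
  have hΨs : Ψ.Separable := PerfectField.separable_of_irreducible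
    (minpoly.irreducible hθalg.isIntegral)
  obtain ⟨m, y, hy, hcoef⟩ := exists_common_root (E := F) (t := t)
    (Ψ.support.image (fun i => ((Ψ.coeff i : adj F t) : K))) (by
      intro z hz
      obtain ⟨i, -, rfl⟩ := Finset.mem_image.1 hz
      exact (Ψ.coeff i).2)
  have hcoef' : ∀ i, ((Ψ.coeff i : adj F t) : K) ∈ Vale.Agent.P019.adj F y := by
    intro i
    by_cases hi : i ∈ Ψ.support
    · exact hcoef _ (Finset.mem_image_of_mem _ hi)
    · rw [notMem_support_iff.1 hi]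
      exact Subfield.zero_mem _
  have hyF : ¬ IsAlgebraic F y := by
    intro h'
    apply ht
    rw [← hy]
    exact h'.pow _
  -- descend the minimal polynomial
  set F' := IntermediateField.adjoin F {y} with hF'
  have hle : Vale.Agent.P019.adj F y ≤ adj F t := by
    rw [← hy, adj_pow]
    exact adj0_le_adj F y
  have hF'le : ∀ z : F', (z : K) ∈ adj F t := fun z => hle (mem_adjoin_simple.1 z.2)
  let j : F' →+* adj F t :=
    { toFun := fun z => ⟨z, hF'le z⟩
      map_one' := rfl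
      map_mul' := fun _ _ => rfl
      map_zero' := rfl
      map_add' := fun _ _ => rfl }
  have hl : Ψ ∈ Polynomial.lifts j := by
    rw [Polynomial.lifts_iff_coeff_lifts]
    intro n
    exact ⟨⟨Ψ.coeff n, mem_adjoin_simple.2 (hcoef' n)⟩, rfl⟩
  obtain ⟨Φ, hΦ⟩ := hl
  have hΦ' : Φ.map j = Ψ := hΦ
  have hΦm : Φ.Monic := by
    rw [← hΦ'] at hΨm
    exact Polynomial.monic_of_injective j.injective hΨm
  have hΦs : Φ.Separable := by
    rw [← hΦ'] at hΨs
    exact (Polynomial.separable_map j).1 hΨs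
  have hΦr : aeval θ Φ = 0 := by
    have h1 : aeval θ Ψ = 0 := minpoly.aeval _ _
    rw [← hΦ', aeval_def, eval₂_map] at h1
    rw [aeval_def]
    exact h1
  have hcore := frp_core_ae hyF F' hF' Φ hΦm hΦr hΦs
  -- every element has a power in the plain field
  set N0 : Subfield K := Vale.Agent.P019.adj (Vale.Agent.P019.adj F y) θ with hN0
  have hall : ∀ z : K, ∃ n : ℕ, z ^ (ringExpChar K) ^ n ∈ N0 := by
    intro z
    rw [← mem_pf]
    have h1 : Vale.Agent.P019.adj (adj F t) θ ≤ pf N0 := by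
      refine Vale.Agent.P019.adj_le ?_ (le_pf _ (Vale.Agent.P019.mem_adj _ _))
      refine pf_mono ?_
      refine Vale.Agent.P019.adj_le ((Vale.Agent.P019.le_adj F y).trans
        (Vale.Agent.P019.le_adj _ θ)) ?_
      rw [← hy]
      exact Subfield.pow_mem _ (Vale.Agent.P019.le_adj _ θ (Vale.Agent.P019.mem_adj F y)) _
    exact h1 (hθ z)
  rw [ae_iff] at hcore ⊢
  refine (hcore.image (fun c => c ^ (ringExpChar K) ^ m)).subset ?_
  rintro a ⟨haF, ha⟩
  obtain ⟨c, hcF, hca⟩ := exists_root_q F haF m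
  refine ⟨c, ⟨hcF, ?_⟩, hca⟩
  intro hc
  apply ha
  intro W hW
  obtain ⟨c', hc'F, hc'a, hWc⟩ := Over.root haF hy hW
  have hcc : c' = c := pow_q_inj (hc'a.trans hca.symm)
  rw [hcc] at hWc
  obtain ⟨h1, h2, h3, h4⟩ := hc W hWc
  have hπ : (y - c) ^ (ringExpChar K) ^ m = t - a := by
    rw [sub_pow_q, hy, hca]
  have hne : t - a ≠ 0 := by
    intro h0
    apply ht
    rw [sub_eq_zero.1 h0]
    exact isAlgebraic_of_mem haF
  refine ⟨inferInstance, ⟨hne, hW.lt, ?_⟩, hW.triv, h1, ?_, h4⟩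
  · intro z hz0
    obtain ⟨n, hn⟩ := hall z
    obtain ⟨i, hi⟩ := h2 _ hn (pow_ne_zero _ hz0)
    refine ⟨n + m, i, ?_⟩
    have e2 : ((y - c) ^ (ringExpChar K) ^ m) ^ i = ((y - c) ^ i) ^ (ringExpChar K) ^ m := by
      rw [← zpow_natCast, ← zpow_natCast, ← zpow_mul, ← zpow_mul, mul_comm]
    have e : z ^ (ringExpChar K) ^ (n + m) * (t - a) ^ i =
        (z ^ (ringExpChar K) ^ n * (y - c) ^ i) ^ (ringExpChar K) ^ m := by
      rw [← hπ, e2, pow_add, pow_mul, mul_pow]
    rw [e, map_pow, hi, one_pow]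
  · intro z hz
    obtain ⟨n, hn⟩ := hall z
    refine frp_res hW.triv h1 h4 hz (n := n) (h3 _ hn ?_)
    rw [map_pow]
    exact pow_le_one₀ zero_le hz

/-- there is a nice valuation over `t = b` for almost all `b`. -/
theorem exists_over_nice {k : Subfield K} (hk : IsAlgClosed k) (hfg : FG k (⊤ : Subfield K))
    {B : Finset K} (hB : Indp k B) {t : K} (ht : ¬ IsAlgebraic (gsp k B) t)
    (halg : ∀ z : K, IsAlgebraic (adj (gsp k B) t) z) :
    ∃ θ : K, ∀ᶠ b in ae k, (∃ W : ValuationSubring K, Over W (gsp k B) t b) ∧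
      ∀ W : ValuationSubring K, Over W (gsp k B) t b → Nice W (gsp k B) (t - b) θ := by
  haveI := gsp_perfect k B
  obtain ⟨θ, hθ⟩ := e1a_nice (le_gsp k B) hfg ht halg
  refine ⟨θ, ?_⟩
  rw [ae_iff] at hθ ⊢
  refine hθ.subset ?_
  rintro b ⟨hb, hb'⟩
  refine ⟨le_gsp k B hb, fun h => hb' ⟨exists_over ht (le_gsp k B hb), h⟩⟩

end lift

end Vale.Agent.P019P
end

section

/-!
# Composite valuation rings, unique extensions
-/

namespace Vale.Agent.P019P

open Vale.Agent.P019

set_option linter.style.haveILetI false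
set_option linter.unusedSectionVars false

open Polynomial Filter

/-- composite valuation ring: the elements of `W` whose residue lies in `P`. -/
noncomputable def compos {K : Type*} [Field K] (W : ValuationSubring K)
    (P : ValuationSubring (IsLocalRing.ResidueField W)) : ValuationSubring K where
  carrier := {z | z ∈ W ∧ rs W z ∈ P}
  mul_mem' := by
    rintro x y ⟨hx, hx'⟩ ⟨hy, hy'⟩
    exact ⟨mul_mem hx hy, by rw [rs_mul hx hy]; exact mul_mem hx' hy'⟩
  one_mem' := ⟨one_mem _, by rw [rs_one]; exact one_mem _⟩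
  add_mem' := by
    rintro x y ⟨hx, hx'⟩ ⟨hy, hy'⟩
    exact ⟨add_mem hx hy, by rw [rs_add hx hy]; exact add_mem hx' hy'⟩
  zero_mem' := ⟨zero_mem _, by rw [rs_zero]; exact zero_mem _⟩
  neg_mem' := by
    rintro x ⟨hx, hx'⟩
    exact ⟨neg_mem hx, by rw [rs_neg hx]; exact neg_mem hx'⟩
  mem_or_inv_mem' := by
    intro x
    by_cases h0 : W.valuation x = 1
    · have hx := mem_of_val h0
      have h1 : W.valuation x⁻¹ = 1 := by rw [map_inv₀, h0, inv_one]
      rcases P.mem_or_inv_mem (rs W x) with h | h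
      · exact Or.inl ⟨hx, h⟩
      · exact Or.inr ⟨mem_of_val h1, by rw [rs_inv h0]; exact h⟩
    · rcases W.mem_or_inv_mem x with h | h
      · left
        have h1 : W.valuation x < 1 := lt_of_le_of_ne ((W.valuation_le_one_iff x).2 h) h0
        exact ⟨h, by rw [(rs_eq_zero h).2 h1]; exact zero_mem _⟩
      · right
        have h2 : W.valuation x⁻¹ ≠ 1 := by
          rw [map_inv₀]
          intro h3
          exact h0 (inv_eq_one.1 h3)
        have h1 : W.valuation x⁻¹ < 1 := lt_of_le_of_ne ((W.valuation_le_one_iff _).2 h) h2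
        exact ⟨h, by rw [(rs_eq_zero h).2 h1]; exact zero_mem _⟩

theorem mem_compos {K : Type*} [Field K] {W : ValuationSubring K}
    {P : ValuationSubring (IsLocalRing.ResidueField W)} {z : K} :
    z ∈ compos W P ↔ z ∈ W ∧ rs W z ∈ P := Iff.rfl

theorem ue_core (A F : Type*) {L : Type*} [CommRing A] [Field F] [Field L] [Algebra A F]
    [Algebra F L] [Algebra A L] [IsScalarTower A F L] [IsDomain A] [IsFractionRing A F]
    [FiniteDimensional F L] [Algebra.IsSeparable F L] [IsIntegrallyClosed A] {x z : L}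
    (hx : Algebra.adjoin F {x} = ⊤) (hAx : IsIntegral A x) (hz : IsIntegral A z)
    (h0 : aeval x (derivative (minpoly F x)) ≠ 0) :
    ∃ f : A[X], aeval x (derivative (minpoly F x)) * z = aeval x f := by
  have h1 : z ∈ (Algebra.traceForm F L).dualSubmodule
      (Subalgebra.toSubmodule (Algebra.adjoin A {x})) := by
    rw [LinearMap.BilinForm.mem_dualSubmodule]
    intro y hy
    have hy' : IsIntegral A y := adjoin_le_integralClosure hAx hy
    rw [Algebra.traceForm_apply]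
    have h2 : IsIntegral A (Algebra.trace F L (z * y)) := Algebra.isIntegral_trace (hz.mul hy')
    obtain ⟨a, ha⟩ := IsIntegrallyClosed.isIntegral_iff.1 h2
    rw [Submodule.mem_one]
    exact ⟨a, ha⟩
  rw [traceForm_dualSubmodule_adjoin A F hx hAx] at h1
  obtain ⟨w, hw, hw'⟩ := h1
  change w ∈ Algebra.adjoin A {x} at hw
  rw [Algebra.adjoin_singleton_eq_range_aeval] at hw
  obtain ⟨f, hf⟩ := hw
  refine ⟨f, ?_⟩
  change aeval x f = w at hf
  change (aeval x (derivative (minpoly F x)))⁻¹ • w = z at hw'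
  rw [hf, ← hw', smul_eq_mul, mul_inv_cancel_left₀ h0]

theorem ue_lt_iff {K : Type*} [Field K] {M : Subfield K} {O₁ O₂ : ValuationSubring K}
    (hO : ∀ z ∈ M, z ∈ O₁ ↔ z ∈ O₂) {y : K} (hy : y ∈ M) :
    O₁.valuation y < 1 ↔ O₂.valuation y < 1 := by
  by_cases h0 : y = 0
  · simp [h0]
  have h1 : ∀ O : ValuationSubring K, O.valuation y < 1 ↔ y⁻¹ ∉ O := by
    intro O
    rw [← O.valuation_le_one_iff, map_inv₀, not_le, one_lt_inv₀]
    exact (Valuation.pos_iff _).2 h0
  rw [h1, h1, hO _ (M.inv_mem hy)]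

theorem ue_eq_iff {K : Type*} [Field K] {M : Subfield K} {O₁ O₂ : ValuationSubring K}
    (hO : ∀ z ∈ M, z ∈ O₁ ↔ z ∈ O₂) {y : K} (hy : y ∈ M) :
    O₁.valuation y = 1 ↔ O₂.valuation y = 1 := by
  have h1 := ue_lt_iff hO hy
  have h2 := hO y hy
  rw [← O₁.valuation_le_one_iff, ← O₂.valuation_le_one_iff] at h2
  rw [eq_iff_le_not_lt, eq_iff_le_not_lt, h1, h2]

theorem ue_pow {K : Type*} [Field K] {O : ValuationSubring K} {a b : K} (ha : a ∈ O)
    (hb : b ∈ O) (h : O.valuation (a - b) < 1) (i : ℕ) : O.valuation (a ^ i - b ^ i) < 1 := by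
  rw [← geom_sum₂_mul, map_mul]
  refine lt_of_le_of_lt (mul_le_of_le_one_left' ?_) h
  rw [O.valuation_le_one_iff]
  exact sum_mem fun j _ => mul_mem (pow_mem ha _) (pow_mem hb _)

theorem ue_poly {K : Type*} [Field K] {M : Subfield K} {O : ValuationSubring K} {a b : K}
    (ha : a ∈ O) (hb : b ∈ O) (h : O.valuation (a - b) < 1) {f : M[X]}
    (hf : ∀ i, ((f.coeff i : M) : K) ∈ O) : O.valuation (aeval a f - aeval b f) < 1 := by
  rw [aeval_eq_sum_range, aeval_eq_sum_range, ← Finset.sum_sub_distrib]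
  apply Valuation.map_sum_lt _ one_ne_zero
  intro i _
  rw [← smul_sub, Algebra.smul_def, map_mul]
  refine lt_of_le_of_lt (mul_le_of_le_one_left' ?_) (ue_pow ha hb h i)
  rw [O.valuation_le_one_iff]
  exact hf i

theorem ue_unit {K : Type*} [Field K] {M : Subfield K} {O : ValuationSubring K} {a b : K}
    (ha : a ∈ O) (hb : b ∈ O) (h : O.valuation (a - b) < 1) {f : M[X]}
    (hf : ∀ i, ((f.coeff i : M) : K) ∈ O) :
    O.valuation (aeval a f) = 1 ↔ O.valuation (aeval b f) = 1 := by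
  have h1 := ue_poly ha hb h hf
  constructor
  · intro h2
    rw [← h2] at h1
    rw [← h2]
    exact (Valuation.map_eq_of_sub_lt _ (by rwa [Valuation.map_sub_swap] at h1))
  · intro h2
    rw [← h2] at h1
    rw [← h2]
    exact (Valuation.map_eq_of_sub_lt _ h1)


/-- splitting a relation at the last unit coefficient. -/
theorem ue_split {K : Type*} [Field K] {z : K} {n k : ℕ} (hk : k ≤ n) (e : ℕ → K)
    (h : ∑ j ∈ Finset.range (n + 1), e j * z ^ j = 0) (h1 : e k = 1) :
    ∃ b : K, (b = (∑ i ∈ Finset.range (n - k), e (k + (i + 1)) * z ^ (i + 1)) + 1) ∧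
      (z ≠ 0 → b * z = -∑ j ∈ Finset.range k, e j * z⁻¹ ^ (k - 1 - j)) := by
  refine ⟨_, rfl, fun hz => ?_⟩
  have h2 : n + 1 = k + (n - k + 1) := by omega
  rw [h2, Finset.sum_range_add, Finset.sum_range_succ'] at h
  rw [add_zero, h1, one_mul] at h
  have h3 : (∑ i ∈ Finset.range (n - k), e (k + (i + 1)) * z ^ (k + (i + 1))) =
      z ^ k * ∑ i ∈ Finset.range (n - k), e (k + (i + 1)) * z ^ (i + 1) := by
    rw [Finset.mul_sum]
    refine Finset.sum_congr rfl fun i _ => ?_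
    rw [pow_add]
    ring
  rw [h3] at h
  set B := ∑ i ∈ Finset.range (n - k), e (k + (i + 1)) * z ^ (i + 1)
  rcases k with _ | k
  · rw [Finset.range_zero, Finset.sum_empty, zero_add, pow_zero, one_mul] at h
    rw [Finset.range_zero, Finset.sum_empty, neg_zero, h, zero_mul]
  · apply mul_left_cancel₀ (pow_ne_zero k hz)
    have h4 : z ^ k * ∑ j ∈ Finset.range (k + 1), e j * z⁻¹ ^ (k + 1 - 1 - j) =
        ∑ j ∈ Finset.range (k + 1), e j * z ^ j := by
      rw [Finset.mul_sum]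
      refine Finset.sum_congr rfl fun j hj => ?_
      have h5 : k = j + (k - j) := by
        have := Finset.mem_range.1 hj
        omega
      have h6 : z ^ k = z ^ j * z ^ (k - j) := by rw [← pow_add, ← h5]
      rw [Nat.add_sub_cancel, inv_pow, h6]
      field_simp
    rw [mul_neg, h4]
    linear_combination h

theorem ue_decomp {K : Type*} [Field K] {M : Subfield K} {V : ValuationSubring K} {z : K}
    (hz : z ∈ V) (halg : IsAlgebraic M z) :
    ∃ b : K, V.valuation b = 1 ∧ b ∈ Vale.Agent.P019.adj M z ∧ ∀ W : ValuationSubring K,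
      (∀ y ∈ M, y ∈ V → y ∈ W) → b ∈ W ∧ b * z ∈ W := by
  by_cases hz0 : z = 0
  · refine ⟨1, map_one _, one_mem _, fun W _ => ⟨one_mem _, ?_⟩⟩
    rw [hz0, mul_zero]
    exact zero_mem _
  obtain ⟨P, hP0, hP⟩ := halg
  obtain ⟨k, hk, hmax⟩ := Finset.exists_max_image P.support
    (fun j => toLex (V.valuation (P.coeff j : K), j)) (Polynomial.support_nonempty.2 hP0)
  have hck : P.coeff k ≠ 0 := Polynomial.mem_support_iff.1 hk
  have hck' : ((P.coeff k : M) : K) ≠ 0 := by
    intro h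
    exact hck (Subtype.ext h)
  have hvk : 0 < V.valuation ((P.coeff k : M) : K) := (Valuation.pos_iff _).2 hck'
  let e : ℕ → K := fun j => ((P.coeff j / P.coeff k : M) : K)
  have heM : ∀ j, e j ∈ M := fun j => SetLike.coe_mem _
  have hve : ∀ j, V.valuation (e j) =
      V.valuation ((P.coeff j : M) : K) / V.valuation ((P.coeff k : M) : K) := by
    intro j
    rw [← map_div₀]
    rfl
  have hek : e k = 1 := by
    change ((P.coeff k / P.coeff k : M) : K) = 1
    rw [div_self hck]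
    rfl
  have hle : ∀ j, V.valuation (e j) ≤ 1 ∧ (k < j → V.valuation (e j) < 1) := by
    intro j
    rw [hve]
    by_cases hj : j ∈ P.support
    · have h1 := hmax j hj
      rw [Prod.Lex.toLex_le_toLex] at h1
      rcases h1 with h1 | ⟨h1, h2⟩
      · have h3 := (div_lt_one₀ hvk).2 h1
        exact ⟨h3.le, fun _ => h3⟩
      · dsimp only at h1 h2
        rw [h1, div_self hvk.ne']
        exact ⟨le_rfl, fun h => absurd h (not_lt.2 h2)⟩
    · rw [Polynomial.notMem_support_iff.1 hj]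
      simp
  have hsum : ∑ j ∈ Finset.range (P.natDegree + 1), e j * z ^ j = 0 := by
    rw [aeval_eq_sum_range] at hP
    have h1 : ∑ j ∈ Finset.range (P.natDegree + 1), e j * z ^ j =
        (∑ j ∈ Finset.range (P.natDegree + 1), P.coeff j • z ^ j) / ((P.coeff k : M) : K) := by
      rw [Finset.sum_div]
      refine Finset.sum_congr rfl fun j _ => ?_
      rw [Algebra.smul_def]
      change ((P.coeff j : M) : K) / ((P.coeff k : M) : K) * z ^ j = _
      rw [div_mul_eq_mul_div]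
      rfl
    rw [h1, hP, zero_div]
  obtain ⟨b, hb, hbz⟩ := ue_split (Polynomial.le_natDegree_of_mem_supp k hk) e hsum hek
  refine ⟨b, ?_, ?_, fun W hW => ?_⟩
  · rw [hb, add_comm]
    apply Valuation.map_one_add_of_lt
    apply Valuation.map_sum_lt _ one_ne_zero
    intro i _
    rw [map_mul]
    refine lt_of_le_of_lt (mul_le_of_le_one_right' ?_) ((hle (k + (i + 1))).2 (by omega))
    rw [V.valuation_le_one_iff]
    exact pow_mem hz _
  · rw [hb]
    refine add_mem (Subfield.sum_mem _ fun i _ => ?_) (one_mem _)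
    exact mul_mem (P019.le_adj M z (heM _)) (pow_mem (P019.mem_adj M z) _)
  · have heW : ∀ j, e j ∈ W := fun j =>
      hW _ (heM j) ((V.valuation_le_one_iff _).1 (hle j).1)
    rcases W.mem_or_inv_mem z with h | h
    · have h1 : b ∈ W := by
        rw [hb]
        exact add_mem (sum_mem fun i _ => mul_mem (heW _) (pow_mem h _)) (one_mem _)
      exact ⟨h1, mul_mem h1 h⟩
    · have h1 : b * z ∈ W := by
        rw [hbz hz0]
        exact neg_mem (sum_mem fun i _ => mul_mem (heW _) (pow_mem h _))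
      refine ⟨?_, h1⟩
      have h2 : b = b * z * z⁻¹ := by rw [mul_inv_cancel_right₀ hz0]
      rw [h2]
      exact mul_mem h1 h

theorem ue_integral {K : Type*} [Field K] {M : Subfield K} {V : ValuationSubring K} {b : K}
    (hb : ∀ W : ValuationSubring K, (∀ y ∈ M, y ∈ V → y ∈ W) → b ∈ W) :
    IsIntegral (V.comap (algebraMap M K)) b := by
  let s : Set K := {y | y ∈ M ∧ y ∈ V}
  have h1 : b ∈ (integralClosure (Subring.closure s) K).toSubring := by
    rw [← iInf_valuationSubring_superset, Subring.mem_iInf]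
    rintro ⟨W, hW⟩
    exact hb W fun y h1 h2 => hW ⟨h1, h2⟩
  have h2 : IsIntegral (Subring.closure s) b := h1
  have h3 : ∀ y ∈ Subring.closure s, y ∈ M ∧ y ∈ V := by
    intro y hy
    have h4 : Subring.closure s ≤ M.toSubring ⊓ V.toSubring :=
      Subring.closure_le.2 (fun x hx => hx)
    exact h4 hy
  let φ : Subring.closure s →+* V.comap (algebraMap M K) :=
    { toFun := fun y => ⟨⟨y, (h3 y y.2).1⟩, (h3 y y.2).2⟩
      map_one' := rfl
      map_mul' := fun _ _ => rfl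
      map_zero' := rfl
      map_add' := fun _ _ => rfl }
  exact IsIntegral.map_of_comp_eq φ (RingHom.id K) rfl h2

theorem ue_integral_gen {K : Type*} [Field K] {M : Subfield K} {V : ValuationSubring K} {θ : K}
    {P : M[X]} (hP : P.Monic) (hθ : aeval θ P = 0) (hint : ∀ i, ((P.coeff i : M) : K) ∈ V) :
    IsIntegral (V.comap (algebraMap M K)) θ := by
  have h1 : P ∈ Polynomial.lifts (algebraMap (V.comap (algebraMap M K)) M) := by
    rw [Polynomial.lifts_iff_coeff_lifts]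
    intro i
    exact ⟨⟨P.coeff i, hint i⟩, rfl⟩
  obtain ⟨q, hq, -, hqm⟩ := Polynomial.lifts_and_natDegree_eq_and_monic h1 hP
  refine ⟨q, hqm, ?_⟩
  rw [← aeval_def, ← aeval_map_algebraMap M, hq, hθ]

theorem ue_mem {K : Type*} [Field K] {M : Subfield K} {V : ValuationSubring K} {θ : K}
    (h : IsIntegral (V.comap (algebraMap M K)) θ) : θ ∈ V := by
  let φ : V.comap (algebraMap M K) →+* V :=
    { toFun := fun y => ⟨y.1, y.2⟩
      map_one' := rfl
      map_mul' := fun _ _ => rfl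
      map_zero' := rfl
      map_add' := fun _ _ => rfl }
  have h1 : IsIntegral V θ := IsIntegral.map_of_comp_eq φ (RingHom.id K) rfl h
  obtain ⟨y, hy⟩ := IsIntegrallyClosed.isIntegral_iff.1 h1
  rw [← hy]
  exact y.2

theorem ue_bform {K : Type*} [Field K] {M : Subfield K} {θ b : K} (hθ : IsAlgebraic M θ)
    {V : ValuationSubring K} (hint : ∀ i, (((minpoly M θ).coeff i : M) : K) ∈ V)
    (h0 : aeval θ (derivative (minpoly M θ)) ≠ 0) (hb : b ∈ Vale.Agent.P019.adj M θ)
    (hbi : IsIntegral (V.comap (algebraMap M K)) b) :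
    ∃ f : M[X], (∀ i, ((f.coeff i : M) : K) ∈ V) ∧
      aeval θ (derivative (minpoly M θ)) * b = aeval θ f := by
  have hθi : IsIntegral M θ := hθ.isIntegral
  have hsep : IsSeparable M θ := by
    refine (separable_iff_derivative_ne_zero (minpoly.irreducible hθi)).2 ?_
    intro h
    rw [h, map_zero] at h0
    exact h0 rfl
  have i1 : FiniteDimensional M (IntermediateField.adjoin M {θ}) :=
    IntermediateField.adjoin.finiteDimensional hθi
  have i2 : Algebra.IsSeparable M (IntermediateField.adjoin M {θ}) :=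
    (IntermediateField.isSeparable_adjoin_simple_iff_isSeparable M K).2 hsep
  have hbL : b ∈ IntermediateField.adjoin M {θ} := mem_adjoin_simple.2 hb
  have hinj : Function.Injective (algebraMap (IntermediateField.adjoin M {θ}) K) :=
    (algebraMap (IntermediateField.adjoin M {θ}) K).injective
  have hx : Algebra.adjoin M {IntermediateField.AdjoinSimple.gen M θ} = ⊤ :=
    (IntermediateField.adjoin.powerBasis hθi).adjoin_gen_eq_top
  have hAx : IsIntegral (V.comap (algebraMap M K)) (IntermediateField.AdjoinSimple.gen M θ) :=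
    (isIntegral_algebraMap_iff hinj).1 (ue_integral_gen (minpoly.monic hθi)
      (minpoly.aeval M θ) hint)
  have hz : IsIntegral (V.comap (algebraMap M K))
      (⟨b, hbL⟩ : IntermediateField.adjoin M {θ}) := (isIntegral_algebraMap_iff hinj).1 hbi
  have e1 : ((aeval (IntermediateField.AdjoinSimple.gen M θ) (derivative (minpoly M θ)) :
      IntermediateField.adjoin M {θ}) : K) = aeval θ (derivative (minpoly M θ)) :=
    (IntermediateField.aeval_coe _ _ _).symm
  have h0' : aeval (IntermediateField.AdjoinSimple.gen M θ)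
      (derivative (minpoly M (IntermediateField.AdjoinSimple.gen M θ))) ≠ 0 := by
    rw [IntermediateField.minpoly_gen]
    intro h
    rw [h] at e1
    exact h0 e1.symm
  obtain ⟨f, hf⟩ := ue_core (V.comap (algebraMap M K)) M hx hAx hz h0'
  refine ⟨f.map (algebraMap _ M), fun i => ?_, ?_⟩
  · rw [coeff_map]
    exact (f.coeff i).2
  · rw [aeval_map_algebraMap, ← e1]
    rw [IntermediateField.minpoly_gen] at hf
    have h2 := congrArg (IntermediateField.adjoin M {θ}).val hf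
    rw [map_mul] at h2
    exact h2.trans (IntermediateField.aeval_coe _ _ _).symm

theorem ue_half {K : Type*} [Field K] (M : Subfield K) {θ ϑ : K} (hθ : IsAlgebraic M θ)
    (hM : ϑ ∈ M) {O₁ O₂ : ValuationSubring K} (hO : ∀ z ∈ M, z ∈ O₁ ↔ z ∈ O₂)
    (hint : ∀ i, (((minpoly M θ).coeff i : M) : K) ∈ O₁)
    (hθ1 : θ ∈ O₁) (hθ2 : θ ∈ O₂) (hϑ1 : ϑ ∈ O₁)
    (h₁ : O₁.valuation (θ - ϑ) < 1) (h₂ : O₂.valuation (θ - ϑ) < 1)
    (hder : O₁.valuation (aeval θ (derivative (minpoly M θ))) = 1)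
    (hder2 : O₂.valuation (aeval θ (derivative (minpoly M θ))) = 1) {z : K}
    (hz : z ∈ Vale.Agent.P019.adj M θ) (hz1 : z ∈ O₁) : z ∈ O₂ := by
  have hθi : IsIntegral M θ := hθ.isIntegral
  have h0 : aeval θ (derivative (minpoly M θ)) ≠ 0 := by
    intro h
    rw [h, map_zero] at hder
    exact zero_ne_one hder
  have halg : IsAlgebraic M z := by
    have i1 : FiniteDimensional M (IntermediateField.adjoin M {θ}) :=
      IntermediateField.adjoin.finiteDimensional hθi
    have h1 : IsAlgebraic M (⟨z, mem_adjoin_simple.2 hz⟩ : IntermediateField.adjoin M {θ}) :=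
      Algebra.IsAlgebraic.isAlgebraic _
    exact h1.algebraMap
  obtain ⟨b, hb1, hbM, hbW⟩ := ue_decomp hz1 halg
  have hb : b ∈ Vale.Agent.P019.adj M θ := P019.adj_le (P019.le_adj M θ) hz hbM
  obtain ⟨f, hf, hfb⟩ := ue_bform hθ hint h0 hb (ue_integral fun W hW => (hbW W hW).1)
  have hf2 : ∀ i, ((f.coeff i : M) : K) ∈ O₂ := fun i => (hO _ (SetLike.coe_mem _)).1 (hf i)
  have v1 : O₁.valuation (aeval θ f) = 1 := by rw [← hfb, map_mul, hder, hb1, one_mul]
  have hfM : aeval ϑ f ∈ M := by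
    rw [aeval_eq_sum_range]
    refine Subfield.sum_mem _ fun i _ => ?_
    rw [Algebra.smul_def]
    exact mul_mem (SetLike.coe_mem _) (pow_mem hM i)
  have v2 := (ue_unit hθ2 ((hO _ hM).1 hϑ1) h₂ hf2).2
    ((ue_eq_iff hO hfM).1 ((ue_unit hθ1 hϑ1 h₁ hf).1 v1))
  rw [← hfb, map_mul, hder2, one_mul] at v2
  have v3 := (hbW O₂ fun y hy hy1 => (hO y hy).1 hy1).2
  rw [← O₂.valuation_le_one_iff, map_mul, v2, one_mul] at v3
  exact (O₂.valuation_le_one_iff _).1 v3

/-- uniqueness of unramified extensions. -/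
theorem uniq_ext {K : Type*} [Field K] [PerfectField K] (M : Subfield K) {θ ϑ : K}
    (hθ : IsAlgebraic M θ) (htop : ∀ z : K, ∃ n : ℕ,
      z ^ (ringExpChar K) ^ n ∈ Vale.Agent.P019.adj M θ)
    (hM : ϑ ∈ M) {O₁ O₂ : ValuationSubring K} (hO : ∀ z ∈ M, z ∈ O₁ ↔ z ∈ O₂)
    (hint : ∀ i, (((minpoly M θ).coeff i : M) : K) ∈ O₁)
    (h₁ : O₁.valuation (θ - ϑ) < 1) (h₂ : O₂.valuation (θ - ϑ) < 1)
    (hder : O₁.valuation (aeval θ (derivative (minpoly M θ))) = 1) : O₁ = O₂ := by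
  have hθi : IsIntegral M θ := hθ.isIntegral
  have hint2 : ∀ i, (((minpoly M θ).coeff i : M) : K) ∈ O₂ := fun i =>
    (hO _ (SetLike.coe_mem _)).1 (hint i)
  have hθ1 : θ ∈ O₁ := ue_mem (ue_integral_gen (minpoly.monic hθi) (minpoly.aeval M θ) hint)
  have hθ2 : θ ∈ O₂ := ue_mem (ue_integral_gen (minpoly.monic hθi) (minpoly.aeval M θ) hint2)
  have hϑ1 : ϑ ∈ O₁ := by
    have h3 : ϑ = θ - (θ - ϑ) := by ring
    rw [h3]
    exact sub_mem hθ1 ((O₁.valuation_le_one_iff _).1 h₁.le)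
  have hϑ2 : ϑ ∈ O₂ := (hO _ hM).1 hϑ1
  have hd : ∀ O : ValuationSubring K, (∀ i, (((minpoly M θ).coeff i : M) : K) ∈ O) →
      ∀ i, (((derivative (minpoly M θ)).coeff i : M) : K) ∈ O := by
    intro O h i
    rw [coeff_derivative]
    have h4 : (((minpoly M θ).coeff (i + 1) * ((i : M) + 1) : M) : K) =
        (((minpoly M θ).coeff (i + 1) : M) : K) * ((i + 1 : ℕ) : K) := by
      push_cast
      rfl
    rw [h4]
    exact mul_mem (h _) (natCast_mem _ _)
  have hdM : aeval ϑ (derivative (minpoly M θ)) ∈ M := by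
    rw [aeval_eq_sum_range]
    refine Subfield.sum_mem _ fun i _ => ?_
    rw [Algebra.smul_def]
    exact mul_mem (SetLike.coe_mem _) (pow_mem hM i)
  have hder2 : O₂.valuation (aeval θ (derivative (minpoly M θ))) = 1 :=
    (ue_unit hθ2 hϑ2 h₂ (hd O₂ hint2)).2
      ((ue_eq_iff hO hdM).1 ((ue_unit hθ1 hϑ1 h₁ (hd O₁ hint)).1 hder))
  have hpos : ∀ n : ℕ, (ringExpChar K) ^ n ≠ 0 := fun n =>
    pow_ne_zero n (expChar_pos K (ringExpChar K)).ne'
  have hroot : ∀ (O : ValuationSubring K) (z : K) (n : ℕ), z ^ (ringExpChar K) ^ n ∈ O →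
      z ∈ O := by
    intro O z n h
    rw [← O.valuation_le_one_iff, map_pow] at h
    rw [← O.valuation_le_one_iff]
    exact (pow_le_one_iff (hpos n)).1 h
  apply le_antisymm
  · intro z hz
    obtain ⟨n, hn⟩ := htop z
    exact hroot O₂ z n (ue_half M hθ hM hO hint hθ1 hθ2 hϑ1 h₁ h₂ hder hder2 hn (pow_mem hz _))
  · intro z hz
    obtain ⟨n, hn⟩ := htop z
    exact hroot O₁ z n (ue_half M hθ hM (fun y hy => (hO y hy).symm) hint2 hθ2 hθ1 hϑ2 h₂ h₁
      hder2 hder hn (pow_mem hz _))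

end Vale.Agent.P019P
end

section

/-!
# Divisor classes
-/

namespace Vale.Agent.P019P

open Finsupp

variable {P : Type*}

theorem dg_single (p : P) (n : ℤ) : dg (single p n) = n := by
  simp [dg]

theorem dg_mapDomain (τ : Equiv.Perm P) (D : P →₀ ℤ) : dg (D.mapDomain τ) = dg D := by
  induction D using Finsupp.induction_linear with
  | zero => rw [Finsupp.mapDomain_zero]
  | add f g hf hg => rw [Finsupp.mapDomain_add, map_add, map_add, hf, hg]
  | single a b => rw [Finsupp.mapDomain_single, dg_single, dg_single]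

namespace ZDat

variable (Z : ZDat P)

/-- divisor classes. -/
abbrev Pic : Type _ := (P →₀ ℤ) ⧸ Z.prin

/-- the class of a divisor. -/
noncomputable def cl : (P →₀ ℤ) →+ Z.Pic := QuotientAddGroup.mk' Z.prin

theorem cl_surj (x : Z.Pic) : ∃ D, Z.cl D = x := QuotientAddGroup.mk'_surjective _ x

theorem cl_eq {D E : P →₀ ℤ} : Z.cl D = Z.cl E ↔ D - E ∈ Z.prin := by
  rw [cl, QuotientAddGroup.mk'_apply, QuotientAddGroup.mk'_apply, QuotientAddGroup.eq,
    ← neg_mem_iff, neg_add, neg_neg, sub_eq_add_neg]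

/-- the degree of a class. -/
noncomputable def deg : Z.Pic →+ ℤ := QuotientAddGroup.lift Z.prin dg (fun D hD => Z.deg_prin D hD)

@[simp] theorem deg_cl (D : P →₀ ℤ) : Z.deg (Z.cl D) = dg D := rfl

/-- the action of the Frobenius on classes. -/
noncomputable def s : AddMonoid.End Z.Pic :=
  QuotientAddGroup.map Z.prin Z.prin (Finsupp.mapDomain.addMonoidHom Z.σ)
    (fun D hD => (Z.sig_prin D).1 hD)

theorem s_cl (D : P →₀ ℤ) : Z.s (Z.cl D) = Z.cl (D.mapDomain Z.σ) := rfl

theorem s_pow_cl (n : ℕ) (D : P →₀ ℤ) : (Z.s ^ n) (Z.cl D) = Z.cl (D.mapDomain (Z.σ ^ n)) := by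
  induction n with
  | zero =>
    rw [pow_zero, pow_zero, Equiv.Perm.coe_one, Finsupp.mapDomain_id]
    rfl
  | succ n ih =>
    have h : (Z.s ^ (n + 1)) (Z.cl D) = Z.s ((Z.s ^ n) (Z.cl D)) := by
      rw [pow_succ']
      rfl
    rw [h, ih, s_cl, ← Finsupp.mapDomain_comp, pow_succ', Equiv.Perm.coe_mul]

theorem deg_s (x : Z.Pic) : Z.deg (Z.s x) = Z.deg x := by
  obtain ⟨D, rfl⟩ := Z.cl_surj x
  rw [s_cl, deg_cl, deg_cl, dg_mapDomain]

theorem deg_s_pow (n : ℕ) (x : Z.Pic) : Z.deg ((Z.s ^ n) x) = Z.deg x := by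
  obtain ⟨D, rfl⟩ := Z.cl_surj x
  rw [s_pow_cl, deg_cl, deg_cl, dg_mapDomain]

/-- every divisor is fixed by a power of the Frobenius. -/
theorem exists_fix (D : P →₀ ℤ) : ∃ n : ℕ, 0 < n ∧ D.mapDomain (Z.σ ^ n) = D := by
  have h1 : ∀ p : P, ∃ n : ℕ, 0 < n ∧ (Z.σ ^ n) p = p := fun p => Z.per p
  choose f hf0 hf using h1
  refine ⟨∏ p ∈ D.support, f p, Finset.prod_pos fun p _ => hf0 p, ?_⟩
  have h2 : ∀ p ∈ D.support, (Z.σ ^ (∏ p ∈ D.support, f p)) p = p := by
    intro p hp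
    obtain ⟨c, hc⟩ := Finset.dvd_prod_of_mem f hp
    rw [hc, pow_mul]
    exact Function.IsFixedPt.perm_pow (hf p) c
  conv_rhs => rw [← Finsupp.mapDomain_id (v := D)]
  exact Finsupp.mapDomain_congr h2

theorem fix_mul {D : P →₀ ℤ} {n : ℕ} (h : D.mapDomain (Z.σ ^ n) = D) (m : ℕ) :
    D.mapDomain (Z.σ ^ (n * m)) = D := by
  induction m with
  | zero => rw [mul_zero, pow_zero, Equiv.Perm.coe_one, Finsupp.mapDomain_id]
  | succ m ih =>
    rw [Nat.mul_succ, pow_add, Equiv.Perm.coe_mul, Finsupp.mapDomain_comp, h, ih]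

/-- `l` depends only on the class. -/
theorem l_congr {D E : P →₀ ℤ} (h : D - E ∈ Z.prin) : Z.l D = Z.l E := by
  obtain ⟨n₁, hn₁, h₁⟩ := Z.exists_fix D
  obtain ⟨n₂, hn₂, h₂⟩ := Z.exists_fix E
  have hn : 0 < n₁ * n₂ := Nat.mul_pos hn₁ hn₂
  have hD : D.mapDomain (Z.σ ^ (n₁ * n₂)) = D := Z.fix_mul h₁ n₂
  have hE : E.mapDomain (Z.σ ^ (n₁ * n₂)) = E := by
    rw [Nat.mul_comm]
    exact Z.fix_mul h₂ n₁
  have cD := Z.count (n₁ * n₂) hn D (by rw [hD, sub_self]; exact zero_mem _)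
  have cE := Z.count (n₁ * n₂) hn E (by rw [hE, sub_self]; exact zero_mem _)
  have hset : ∀ F : P →₀ ℤ, (0 ≤ F ∧ F.mapDomain (Z.σ ^ (n₁ * n₂)) = F ∧ F - D ∈ Z.prin) ↔
      (0 ≤ F ∧ F.mapDomain (Z.σ ^ (n₁ * n₂)) = F ∧ F - E ∈ Z.prin) := by
    intro F
    refine and_congr_right fun _ => and_congr_right fun _ => ?_
    have e1 : F - E = (F - D) + (D - E) := by abel
    rw [e1]
    exact (AddSubgroup.add_mem_cancel_right _ h).symm
  have hc : Nat.card {F : P →₀ ℤ // 0 ≤ F ∧ F.mapDomain (Z.σ ^ (n₁ * n₂)) = F ∧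
      F - D ∈ Z.prin} = Nat.card {F : P →₀ ℤ // 0 ≤ F ∧
        F.mapDomain (Z.σ ^ (n₁ * n₂)) = F ∧ F - E ∈ Z.prin} :=
    Nat.card_congr (Equiv.subtypeEquivRight hset)
  rw [hc, cE] at cD
  have hq : 0 < Z.q := lt_of_lt_of_le two_pos Z.two_le
  have p1 : 0 < Z.q ^ (n₁ * n₂ * Z.l D) := Nat.pow_pos hq
  have p2 : 0 < Z.q ^ (n₁ * n₂ * Z.l E) := Nat.pow_pos hq
  have e2 : Z.q ^ (n₁ * n₂ * Z.l D) = Z.q ^ (n₁ * n₂ * Z.l E) := by omega
  exact Nat.eq_of_mul_eq_mul_left hn (Nat.pow_right_injective Z.two_le e2)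

theorem mapDomain_sig_comm (n : ℕ) (F : P →₀ ℤ) :
    (F.mapDomain Z.σ).mapDomain (Z.σ ^ n) = (F.mapDomain (Z.σ ^ n)).mapDomain Z.σ := by
  rw [← Finsupp.mapDomain_comp, ← Finsupp.mapDomain_comp, ← Equiv.Perm.coe_mul,
    ← Equiv.Perm.coe_mul, ← pow_succ, ← pow_succ']

theorem mapDomain_sig_inj {F G : P →₀ ℤ} (h : F.mapDomain Z.σ = G.mapDomain Z.σ) : F = G :=
  Finsupp.mapDomain_injective Z.σ.injective h

theorem l_sig (D : P →₀ ℤ) : Z.l (D.mapDomain Z.σ) = Z.l D := by
  obtain ⟨n, hn, hD⟩ := Z.exists_fix D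
  have hS : (D.mapDomain Z.σ).mapDomain (Z.σ ^ n) = D.mapDomain Z.σ := by
    rw [Z.mapDomain_sig_comm, hD]
  have cD := Z.count n hn D (by rw [hD, sub_self]; exact zero_mem _)
  have cS := Z.count n hn (D.mapDomain Z.σ) (by rw [hS, sub_self]; exact zero_mem _)
  have happ : ∀ F : P →₀ ℤ, (Finsupp.domCongr (M := ℤ) Z.σ) F = F.mapDomain Z.σ := fun F => by
    rw [Finsupp.domCongr_apply, Finsupp.equivMapDomain_eq_mapDomain]
  have hc : Nat.card {F : P →₀ ℤ // 0 ≤ F ∧ F.mapDomain (Z.σ ^ n) = F ∧ F - D ∈ Z.prin} =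
      Nat.card {F : P →₀ ℤ // 0 ≤ F ∧ F.mapDomain (Z.σ ^ n) = F ∧
        F - D.mapDomain Z.σ ∈ Z.prin} := by
    refine Nat.card_congr (Equiv.subtypeEquiv (Finsupp.domCongr (M := ℤ) Z.σ).toEquiv ?_)
    intro F
    have e0 : (Finsupp.domCongr (M := ℤ) Z.σ).toEquiv F = F.mapDomain Z.σ := happ F
    rw [e0]
    refine and_congr ?_ (and_congr ?_ ?_)
    · constructor
      · intro h p
        rw [← Finsupp.equivMapDomain_eq_mapDomain, Finsupp.equivMapDomain_apply]
        exact h _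
      · intro h p
        have h1 := h (Z.σ p)
        rw [← Finsupp.equivMapDomain_eq_mapDomain, Finsupp.equivMapDomain_apply,
          Equiv.symm_apply_apply] at h1
        exact h1
    · rw [Z.mapDomain_sig_comm]
      constructor
      · intro h
        rw [h]
      · intro h
        exact Z.mapDomain_sig_inj h
    · have e1 : F.mapDomain Z.σ - D.mapDomain Z.σ = (F - D).mapDomain Z.σ :=
        ((Finsupp.mapDomain.addMonoidHom (M := ℤ) Z.σ).map_sub F D).symm
      rw [e1]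
      exact Z.sig_prin _
  rw [hc, cS] at cD
  have hq : 0 < Z.q := lt_of_lt_of_le two_pos Z.two_le
  have p1 : 0 < Z.q ^ (n * Z.l D) := Nat.pow_pos hq
  have p2 : 0 < Z.q ^ (n * Z.l (D.mapDomain Z.σ)) := Nat.pow_pos hq
  have e2 : Z.q ^ (n * Z.l (D.mapDomain Z.σ)) = Z.q ^ (n * Z.l D) := by omega
  exact Nat.eq_of_mul_eq_mul_left hn (Nat.pow_right_injective Z.two_le e2)

/-- the dimension of a class. -/
noncomputable def ll : Z.Pic → ℕ :=
  Quotient.lift Z.l (fun D E h => Z.l_congr (by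
    have h1 : Z.cl D = Z.cl E := Quotient.sound h
    exact (Z.cl_eq).1 h1))

@[simp] theorem ll_cl (D : P →₀ ℤ) : Z.ll (Z.cl D) = Z.l D := rfl

theorem ll_s (x : Z.Pic) : Z.ll (Z.s x) = Z.ll x := by
  obtain ⟨D, rfl⟩ := Z.cl_surj x
  rw [Z.s_cl, Z.ll_cl, Z.ll_cl, Z.l_sig]

theorem l_zero' : Z.l 0 = 1 := Z.l_prin 0 (zero_mem _)

theorem l_kappa : Z.l Z.κ = Z.g := by
  have h := Z.rr 0
  rw [sub_zero, Z.l_zero', map_zero] at h
  push_cast at h
  omega

theorem dg_kappa : dg Z.κ = 2 * (Z.g : ℤ) - 2 := by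
  have h := Z.rr Z.κ
  rw [sub_self, Z.l_zero', Z.l_kappa] at h
  push_cast at h
  omega

/-- Riemann-Roch in large degree. -/
theorem ll_large (x : Z.Pic) (h : 2 * (Z.g : ℤ) - 1 ≤ Z.deg x) :
    (Z.ll x : ℤ) = Z.deg x + 1 - Z.g := by
  obtain ⟨D, rfl⟩ := Z.cl_surj x
  rw [Z.deg_cl] at h ⊢
  have h1 := Z.rr D
  have h2 : Z.l (Z.κ - D) = 0 := Z.l_neg _ (by
    rw [map_sub, Z.dg_kappa]
    omega)
  rw [h2] at h1
  rw [Z.ll_cl]
  push_cast at h1
  omega

theorem ll_crit_eq : Z.ll (Z.cl Z.κ) = Z.g := by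
  rw [Z.ll_cl, Z.l_kappa]

theorem ll_crit_ne (x : Z.Pic) (h : Z.deg x = 2 * (Z.g : ℤ) - 2) (hx : x ≠ Z.cl Z.κ) :
    (Z.ll x : ℤ) = Z.g - 1 := by
  obtain ⟨D, rfl⟩ := Z.cl_surj x
  rw [Z.deg_cl] at h
  have h1 := Z.rr D
  have h2 : Z.l (Z.κ - D) = 0 := Z.l_zero _ (by
    rw [map_sub, Z.dg_kappa]
    omega) (fun hm => hx (Z.cl_eq.2 hm).symm)
  rw [h2] at h1
  rw [Z.ll_cl]
  push_cast at h1
  omega

theorem ll_pos (x : Z.Pic) (h : (Z.g : ℤ) ≤ Z.deg x) : 0 < Z.ll x := by
  obtain ⟨D, rfl⟩ := Z.cl_surj x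
  rw [Z.deg_cl] at h
  have h1 := Z.rr D
  rw [Z.ll_cl]
  omega

theorem s_kappa : Z.s (Z.cl Z.κ) = Z.cl Z.κ := by
  by_contra hne
  have h1 := Z.ll_crit_ne (Z.s (Z.cl Z.κ)) (by rw [Z.deg_s, Z.deg_cl, Z.dg_kappa]) hne
  rw [Z.ll_s, Z.ll_crit_eq] at h1
  omega

/-- the classes of degree zero. -/
abbrev J : Type _ := Z.deg.ker

/-- the action of the Frobenius on classes of degree zero. -/
noncomputable def sJ : AddMonoid.End Z.J :=
  (Z.s.comp (AddSubgroup.subtype _)).codRestrict _ (fun x => by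
    have h := x.2
    rw [AddMonoidHom.mem_ker] at h ⊢
    exact (Z.deg_s _).trans h)

theorem coe_sJ (x : Z.J) : ((Z.sJ x : Z.J) : Z.Pic) = Z.s x := rfl

theorem coe_sJ_pow (n : ℕ) (x : Z.J) : (((Z.sJ ^ n) x : Z.J) : Z.Pic) = (Z.s ^ n) x := by
  induction n with
  | zero => rfl
  | succ n ih =>
    have h1 : (Z.sJ ^ (n + 1)) x = Z.sJ ((Z.sJ ^ n) x) := by
      rw [pow_succ']
      rfl
    have h2 : (Z.s ^ (n + 1)) (x : Z.Pic) = Z.s ((Z.s ^ n) (x : Z.Pic)) := by
      rw [pow_succ']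
      rfl
    rw [h1, h2, coe_sJ, ih]

theorem sJ_per (x : Z.J) : ∃ n : ℕ, 0 < n ∧ (Z.sJ ^ n) x = x := by
  obtain ⟨D, hD⟩ := Z.cl_surj (x : Z.Pic)
  obtain ⟨n, hn, h⟩ := Z.exists_fix D
  refine ⟨n, hn, Subtype.ext ?_⟩
  rw [coe_sJ_pow, ← hD, s_pow_cl, h]

end ZDat

end Vale.Agent.P019P
end

section

/-!
# Effective invariant divisors
-/

namespace Vale.Agent.P019P

open Finsupp

variable {P : Type*}

/-- effective `τ`-invariant divisors of degree `m`. -/
def Eff (τ : Equiv.Perm P) (m : ℕ) : Set (P →₀ ℤ) :=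
  {E | 0 ≤ E ∧ E.mapDomain τ = E ∧ dg E = m}

/-- the coefficients of the zeta function with weights `χ`. -/
noncomputable def ac {R : Type*} [CommRing R] (τ : Equiv.Perm P) (χ : (P →₀ ℤ) → R) (m : ℕ) : R :=
  ∑ᶠ E ∈ Eff τ m, χ E

/-- the coefficients of its logarithmic derivative. -/
noncomputable def sc {R : Type*} [CommRing R] (τ : Equiv.Perm P) (χ : (P →₀ ℤ) → R) (m : ℕ) : R :=
  ∑ᶠ p ∈ {p | (τ ^ m) p = p}, χ (single p 1) ^ m

private theorem dg_eq_sum' (D : P →₀ ℤ) : dg D = ∑ p ∈ D.support, D p := by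
  simp only [dg, liftAddHom_apply, Finsupp.sum, AddMonoidHom.id_apply]

private theorem sum_le_dg (E : P →₀ ℤ) (hE : 0 ≤ E) (s : Finset P) : ∑ p ∈ s, E p ≤ dg E := by
  classical
  rw [dg_eq_sum']
  calc ∑ p ∈ s, E p ≤ ∑ p ∈ s ∪ E.support, E p :=
        Finset.sum_le_sum_of_subset_of_nonneg Finset.subset_union_left fun p _ _ => hE p
    _ = ∑ p ∈ E.support, E p := by
        refine (Finset.sum_subset Finset.subset_union_right fun p _ hp => ?_).symm
        exact notMem_support_iff.1 hp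

private theorem val_pow {τ : Equiv.Perm P} {E : P →₀ ℤ} (h : E.mapDomain τ = E) (i : ℕ) (p : P) :
    E ((τ ^ i) p) = E p := by
  induction i with
  | zero => rfl
  | succ n ih =>
    rw [pow_succ', Equiv.Perm.mul_apply, ← ih]
    have h2 := mapDomain_apply τ.injective E ((τ ^ n) p)
    rw [h] at h2
    exact h2

private theorem per_of_ne {τ : Equiv.Perm P} {E : P →₀ ℤ} {m : ℕ} (hE : E ∈ Eff τ m) {p : P}
    (hp : E p ≠ 0) : (τ ^ m.factorial) p = p := by
  classical
  obtain ⟨h0, h1, h2⟩ := hE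
  have hpos : 1 ≤ E p := Int.add_one_le_iff.2 (lt_of_le_of_ne (h0 p) (Ne.symm hp))
  have hninj : ¬ Set.InjOn (fun i => (τ ^ i) p) (Finset.range (m + 1) : Set ℕ) := by
    intro hinj
    have h3 := sum_le_dg E h0 ((Finset.range (m + 1)).image fun i => (τ ^ i) p)
    rw [Finset.sum_image hinj, Finset.sum_congr rfl fun i _ => val_pow h1 i p, Finset.sum_const,
      Finset.card_range, h2, nsmul_eq_mul] at h3
    push_cast at h3
    nlinarith only [h3, hpos, Int.natCast_nonneg m]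
  have hd : ∃ d, 0 < d ∧ d ≤ m ∧ (τ ^ d) p = p := by
    rw [Set.InjOn] at hninj
    push Not at hninj
    obtain ⟨i, hi, j, hj, hij, hne⟩ := hninj
    have key : ∀ i j : ℕ, i < j → j < m + 1 → (τ ^ i) p = (τ ^ j) p →
        ∃ d, 0 < d ∧ d ≤ m ∧ (τ ^ d) p = p := by
      intro i j hij hj he
      refine ⟨j - i, by omega, by omega, ?_⟩
      apply (τ ^ i).injective
      rw [← Equiv.Perm.mul_apply, ← pow_add, he]
      congr 2
      omega
    have hi' : i < m + 1 := by simpa using hi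
    have hj' : j < m + 1 := by simpa using hj
    rcases lt_or_gt_of_ne hne with h | h
    · exact key i j h hj' hij
    · exact key j i h hi' hij.symm
  obtain ⟨d, hd0, hdm, hd⟩ := hd
  obtain ⟨c, hc⟩ := Nat.dvd_factorial hd0 hdm
  rw [hc, pow_mul]
  clear hc
  induction c with
  | zero => rfl
  | succ n ih => rw [pow_succ, Equiv.Perm.mul_apply, hd, ih]

theorem eff_finite (τ : Equiv.Perm P)
    (hfin : ∀ n : ℕ, 0 < n → {p | (τ ^ n) p = p}.Finite) (m : ℕ) : (Eff τ m).Finite := by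
  classical
  have hF := hfin m.factorial m.factorial_pos
  refine (Set.finite_Icc (0 : P →₀ ℤ) (Finsupp.indicator hF.toFinset fun _ _ => (m : ℤ))).subset ?_
  intro E hE
  refine ⟨hE.1, fun p => ?_⟩
  by_cases hp : (τ ^ m.factorial) p = p
  · rw [Finsupp.indicator_of_mem (hF.mem_toFinset.2 hp)]
    have h := sum_le_dg E hE.1 {p}
    rwa [Finset.sum_singleton, hE.2.2] at h
  · rw [Finsupp.indicator_of_notMem (fun h => hp (hF.mem_toFinset.1 h))]
    by_contra h
    exact hp (per_of_ne hE (fun h0 => h h0.le))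

theorem eff_zero (τ : Equiv.Perm P) : Eff τ 0 = {0} := by
  ext E
  rw [Set.mem_singleton_iff]
  constructor
  · rintro ⟨h0, -, h2⟩
    ext p
    have h := sum_le_dg E h0 {p}
    rw [Finset.sum_singleton, h2] at h
    exact le_antisymm h (h0 p)
  · rintro rfl
    exact ⟨le_rfl, mapDomain_zero, by rw [map_zero]; rfl⟩

theorem ac_zero {R : Type*} [CommRing R] (τ : Equiv.Perm P) (χ : (P →₀ ℤ) → R) :
    ac τ χ 0 = χ 0 := by
  rw [ac, eff_zero, finsum_mem_singleton]

end Vale.Agent.P019P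
end

section

/-!
# Counting effective divisors in classes
-/

namespace Vale.Agent.P019P

open Finsupp

variable {P : Type*}

namespace ZDat

variable (Z : ZDat P)

theorem fin_pow (n : ℕ) (hn : 0 < n) (m : ℕ) (hm : 0 < m) :
    {p | ((Z.σ ^ n) ^ m) p = p}.Finite := by
  rw [← pow_mul]
  exact Z.fin _ (Nat.mul_pos hn hm)

/-- Frobenius-invariant classes of degree `M`. -/
def PM (n : ℕ) (M : ℤ) : Set Z.Pic := {x | Z.deg x = M ∧ (Z.s ^ n) x = x}

/-- the number of invariant classes of degree zero. -/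
noncomputable def hh (n : ℕ) : ℕ := Nat.card {x : Z.J // (Z.sJ ^ n) x = x}

theorem ZCntA_sigma_pow_P0 (n : ℕ) : (Z.σ ^ n) Z.P0 = Z.P0 := by
  induction n with
  | zero => rfl
  | succ n ih => rw [pow_succ, Equiv.Perm.mul_apply, Z.fix0, ih]

theorem ZCntA_add_mem (n : ℕ) {M : ℤ} {x : Z.Pic} (hx : x ∈ Z.PM n M) (k : ℤ) :
    x + Z.cl (single Z.P0 k) ∈ Z.PM n (M + k) := by
  refine ⟨?_, ?_⟩
  · rw [map_add, hx.1, Z.deg_cl, dg_single]
  · rw [map_add, hx.2, Z.s_pow_cl, Finsupp.mapDomain_single, ZCntA_sigma_pow_P0]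

theorem ZCntA_fibre_set (n : ℕ) (M : ℕ) (D : P →₀ ℤ) (hD : Z.cl D ∈ Z.PM n M) :
    {E | E ∈ Eff (Z.σ ^ n) M ∧ Z.cl E = Z.cl D} =
      {E : P →₀ ℤ | 0 ≤ E ∧ E.mapDomain (Z.σ ^ n) = E ∧ E - D ∈ Z.prin} := by
  ext E
  constructor
  · rintro ⟨⟨h1, h2, _⟩, h4⟩
    exact ⟨h1, h2, Z.cl_eq.1 h4⟩
  · rintro ⟨h1, h2, h3⟩
    have h4 : Z.cl E = Z.cl D := Z.cl_eq.2 h3
    refine ⟨⟨h1, h2, ?_⟩, h4⟩
    rw [← Z.deg_cl, h4]
    exact hD.1

theorem fibre (n : ℕ) (hn : 0 < n) (M : ℕ) (x : Z.Pic) (hx : x ∈ Z.PM n M) :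
    {E | E ∈ Eff (Z.σ ^ n) M ∧ Z.cl E = x}.ncard * (Z.q ^ n - 1) = Z.q ^ (n * Z.ll x) - 1 := by
  obtain ⟨D, rfl⟩ := Z.cl_surj x
  have h1 : D.mapDomain (Z.σ ^ n) - D ∈ Z.prin := by
    have h := hx.2
    rw [Z.s_pow_cl] at h
    exact Z.cl_eq.1 h
  have h2 := Z.count n hn D h1
  rw [Z.ll_cl, ← h2, Z.ZCntA_fibre_set n M D hx]
  rfl

theorem ZCntA_nonempty (n : ℕ) (hn : 0 < n) (M : ℕ) (hM : Z.g ≤ M) (x : Z.Pic)
    (hx : x ∈ Z.PM n M) : ∃ E ∈ Eff (Z.σ ^ n) M, Z.cl E = x := by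
  have h1 := Z.fibre n hn M x hx
  have h2 : 0 < Z.ll x := by
    refine Z.ll_pos x ?_
    rw [hx.1]
    exact_mod_cast hM
  have h3 : 1 < Z.q ^ (n * Z.ll x) :=
    Nat.one_lt_pow (Nat.mul_pos hn h2).ne' (lt_of_lt_of_le one_lt_two Z.two_le)
  have h4 : {E | E ∈ Eff (Z.σ ^ n) M ∧ Z.cl E = x}.ncard ≠ 0 := by
    intro h
    rw [h, zero_mul] at h1
    omega
  obtain ⟨E, hE⟩ := Set.nonempty_of_ncard_ne_zero h4
  exact ⟨E, hE.1, hE.2⟩

theorem ZCntA_PM_finite_nat (n : ℕ) (hn : 0 < n) (M : ℕ) (hM : Z.g ≤ M) :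
    (Z.PM n M).Finite := by
  have h1 : (Eff (Z.σ ^ n) M).Finite := eff_finite _ (Z.fin_pow n hn) M
  refine (h1.image Z.cl).subset ?_
  intro x hx
  obtain ⟨E, hE, h⟩ := Z.ZCntA_nonempty n hn M hM x hx
  exact ⟨E, hE, h⟩

theorem PM_finite (n : ℕ) (hn : 0 < n) (M : ℤ) : (Z.PM n M).Finite := by
  obtain ⟨k, M', hk, hM'⟩ : ∃ (k : ℤ) (M' : ℕ), M + k = M' ∧ Z.g ≤ M' := by
    refine ⟨(Z.g : ℤ) - M, Z.g, ?_, le_rfl⟩
    ring
  have h1 := Z.ZCntA_PM_finite_nat n hn M' hM'
  rw [← hk] at h1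
  refine Set.Finite.of_injOn (f := fun x => x + Z.cl (single Z.P0 k)) ?_ ?_ h1
  · intro x hx
    exact Z.ZCntA_add_mem n hx k
  · intro x _ y _ hxy
    exact add_right_cancel hxy

theorem sJ_fin (n : ℕ) (hn : 0 < n) : {x : Z.J | (Z.sJ ^ n) x = x}.Finite := by
  refine Set.Finite.of_injOn (f := fun x : Z.J => (x : Z.Pic)) ?_ ?_ (Z.PM_finite n hn 0)
  · intro x hx
    refine ⟨x.2, ?_⟩
    have h : (Z.sJ ^ n) x = x := hx
    change (Z.s ^ n) (x : Z.Pic) = x
    rw [← Z.coe_sJ_pow, h]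
  · intro x _ y _ hxy
    exact Subtype.ext hxy

theorem card_PM (n : ℕ) (M : ℤ) : (Z.PM n M).ncard = Z.hh n := by
  unfold hh
  rw [← Nat.card_coe_set_eq]
  symm
  have hmem : ∀ x : {x : Z.J // (Z.sJ ^ n) x = x},
      ((x.1 : Z.J) : Z.Pic) + Z.cl (single Z.P0 M) ∈ Z.PM n M := by
    intro x
    have h0 : ((x.1 : Z.J) : Z.Pic) ∈ Z.PM n 0 := by
      refine ⟨x.1.2, ?_⟩
      rw [← Z.coe_sJ_pow, x.2]
    have h := Z.ZCntA_add_mem n h0 M
    rwa [zero_add] at h
  refine Nat.card_eq_of_bijective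
    (fun x => (⟨((x.1 : Z.J) : Z.Pic) + Z.cl (single Z.P0 M), hmem x⟩ : Z.PM n M)) ⟨?_, ?_⟩
  · intro x y hxy
    have h := congrArg (fun z : Z.PM n M => (z : Z.Pic)) hxy
    exact Subtype.ext (Subtype.ext (add_right_cancel h))
  · rintro ⟨y, hy⟩
    have h0 := Z.ZCntA_add_mem n hy (-M)
    rw [add_neg_cancel] at h0
    have h1 : Z.deg (y + Z.cl (single Z.P0 (-M))) = 0 := h0.1
    refine ⟨⟨⟨y + Z.cl (single Z.P0 (-M)), h1⟩, ?_⟩, ?_⟩
    · apply Subtype.ext
      rw [Z.coe_sJ_pow]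
      exact h0.2
    · apply Subtype.ext
      change y + Z.cl (single Z.P0 (-M)) + Z.cl (single Z.P0 M) = y
      rw [add_assoc, ← map_add, ← single_add, neg_add_cancel, single_zero, map_zero, add_zero]

theorem hh_pos (n : ℕ) (hn : 0 < n) : 0 < Z.hh n := by
  unfold hh
  have : Nonempty {x : Z.J // (Z.sJ ^ n) x = x} := ⟨⟨0, map_zero _⟩⟩
  have : Finite {x : Z.J // (Z.sJ ^ n) x = x} := (Z.sJ_fin n hn).to_subtype
  exact Nat.card_pos

theorem kappa_mem (n : ℕ) : Z.cl Z.κ ∈ Z.PM n (2 * (Z.g : ℤ) - 2) := by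
  refine ⟨?_, ?_⟩
  · rw [Z.deg_cl, Z.dg_kappa]
  · induction n with
    | zero => rfl
    | succ n ih =>
      rw [pow_succ]
      change (Z.s ^ n) (Z.s (Z.cl Z.κ)) = Z.cl Z.κ
      rw [Z.s_kappa, ih]

theorem ac_eq {R : Type*} [CommRing R] (n : ℕ) (hn : 0 < n) (χ : Z.Pic → R) (M : ℕ) :
    ((Z.q : R) ^ n - 1) * ac (Z.σ ^ n) (fun D => χ (Z.cl D)) M =
      ∑ᶠ x ∈ Z.PM n M, χ x * ((Z.q : R) ^ (n * Z.ll x) - 1) := by
  classical
  have hF : (Eff (Z.σ ^ n) M).Finite := eff_finite _ (Z.fin_pow n hn) M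
  have hG : (Z.PM n M).Finite := Z.PM_finite n hn M
  have hq1 : ∀ m : ℕ, 1 ≤ Z.q ^ m := fun m =>
    Nat.one_le_pow _ _ (lt_of_lt_of_le zero_lt_two Z.two_le)
  unfold ac
  rw [finsum_mem_eq_finite_toFinset_sum _ hF, finsum_mem_eq_finite_toFinset_sum _ hG]
  have hmaps : ∀ E ∈ hF.toFinset, Z.cl E ∈ hG.toFinset := by
    intro E hE
    rw [Set.Finite.mem_toFinset] at hE ⊢
    refine ⟨?_, ?_⟩
    · rw [Z.deg_cl]
      exact hE.2.2
    · rw [Z.s_pow_cl, hE.2.1]
  rw [← Finset.sum_fiberwise_of_maps_to hmaps, Finset.mul_sum]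
  refine Finset.sum_congr rfl fun x hx => ?_
  rw [Set.Finite.mem_toFinset] at hx
  have h1 : ∑ E ∈ hF.toFinset with Z.cl E = x, χ (Z.cl E) =
      ((hF.toFinset.filter (fun E => Z.cl E = x)).card : R) * χ x := by
    rw [Finset.sum_congr rfl (g := fun _ => χ x)
      (fun E hE => by rw [(Finset.mem_filter.1 hE).2]), Finset.sum_const, nsmul_eq_mul]
  have h2 : (hF.toFinset.filter (fun E => Z.cl E = x)).card =
      {E | E ∈ Eff (Z.σ ^ n) M ∧ Z.cl E = x}.ncard := by
    rw [← Set.ncard_coe_finset]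
    congr 1
    ext E
    simp
  have h3 := Z.fibre n hn M x hx
  have h4 : (({E | E ∈ Eff (Z.σ ^ n) M ∧ Z.cl E = x}.ncard : ℕ) : R) * ((Z.q : R) ^ n - 1) =
      (Z.q : R) ^ (n * Z.ll x) - 1 := by
    have h5 := congrArg (fun k : ℕ => (k : R)) h3
    rw [Nat.cast_mul, Nat.cast_sub (hq1 _), Nat.cast_sub (hq1 _)] at h5
    push_cast at h5
    exact h5
  rw [h1, h2, ← h4]
  ring

end ZDat

end Vale.Agent.P019P
end

section

/-!
# The coefficients of the zeta functions
-/

namespace Vale.Agent.P019P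

open Finsupp

variable {P : Type*}

namespace ZDat

variable (Z : ZDat P)

theorem an_large (n : ℕ) (hn : 0 < n) (M : ℕ) (hM : 2 * Z.g ≤ M + 1) :
    ac (Z.σ ^ n) (fun _ => (1 : ℤ)) M * ((Z.q : ℤ) ^ n - 1) =
      Z.hh n * (((Z.q : ℤ) ^ n) ^ (M + 1 - Z.g) - 1) := by
  have h := Z.ac_eq (R := ℤ) n hn (fun _ => 1) M
  rw [mul_comm, h]
  have hll : ∀ x ∈ Z.PM n M, Z.ll x = M + 1 - Z.g := by
    intro x hx
    have h1 := Z.ll_large x (by rw [hx.1]; omega)
    rw [hx.1] at h1
    omega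
  have h2 : ∑ᶠ x ∈ Z.PM n M, (1 : ℤ) * ((Z.q : ℤ) ^ (n * Z.ll x) - 1) =
      ∑ᶠ x ∈ Z.PM n M, (((Z.q : ℤ) ^ n) ^ (M + 1 - Z.g) - 1) := by
    refine finsum_mem_congr rfl fun x hx => ?_
    rw [one_mul, hll x hx, pow_mul]
  rw [h2, finsum_mem_eq_finite_toFinset_sum _ (Z.PM_finite n hn M), Finset.sum_const,
    nsmul_eq_mul, ← Set.ncard_eq_toFinset_card _ (Z.PM_finite n hn M), Z.card_PM]

theorem an_crit (n : ℕ) (hn : 0 < n) (hg : 0 < Z.g) :
    ac (Z.σ ^ n) (fun _ => (1 : ℤ)) (2 * Z.g - 2) * ((Z.q : ℤ) ^ n - 1) =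
      ((Z.hh n : ℤ) - 1) * (((Z.q : ℤ) ^ n) ^ (Z.g - 1) - 1) + (((Z.q : ℤ) ^ n) ^ Z.g - 1) := by
  classical
  have h := Z.ac_eq (R := ℤ) n hn (fun _ => 1) (2 * Z.g - 2)
  rw [mul_comm, h]
  have hc : ((2 * Z.g - 2 : ℕ) : ℤ) = 2 * (Z.g : ℤ) - 2 := by omega
  rw [hc]
  have hfin := Z.PM_finite n hn (2 * (Z.g : ℤ) - 2)
  have hk : Z.cl Z.κ ∈ hfin.toFinset := by
    rw [Set.Finite.mem_toFinset]
    exact Z.kappa_mem n
  rw [finsum_mem_eq_finite_toFinset_sum _ hfin, ← Finset.add_sum_erase _ _ hk]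
  have h2 : ∀ x ∈ hfin.toFinset.erase (Z.cl Z.κ),
      (1 : ℤ) * ((Z.q : ℤ) ^ (n * Z.ll x) - 1) = ((Z.q : ℤ) ^ n) ^ (Z.g - 1) - 1 := by
    intro x hx
    rw [Finset.mem_erase, Set.Finite.mem_toFinset] at hx
    have h3 := Z.ll_crit_ne x hx.2.1 hx.1
    have h4 : Z.ll x = Z.g - 1 := by omega
    rw [one_mul, h4, pow_mul]
  rw [Finset.sum_congr rfl h2, Finset.sum_const, nsmul_eq_mul, Finset.card_erase_of_mem hk,
    ← Set.ncard_eq_toFinset_card _ hfin, Z.card_PM, Z.ll_crit_eq, one_mul, pow_mul,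
    Nat.cast_sub (Z.hh_pos n hn)]
  push_cast
  ring

theorem tw_large (n : ℕ) (hn : 0 < n) (χ : Z.Pic → ℂ) (hχ : ∀ x y, χ (x + y) = χ x * χ y)
    (j : Z.Pic) (hj : j ∈ Z.PM n 0) (hj1 : χ j ≠ 1) (M : ℕ) (hM : 2 * Z.g ≤ M + 1) :
    ac (Z.σ ^ n) (fun D => χ (Z.cl D)) M = 0 := by
  have h := Z.ac_eq (R := ℂ) n hn χ M
  have hfin := Z.PM_finite n hn M
  have hll : ∀ x ∈ Z.PM n M, Z.ll x = M + 1 - Z.g := by
    intro x hx
    have h1 := Z.ll_large x (by rw [hx.1]; omega)
    rw [hx.1] at h1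
    omega
  have h2 : ∑ᶠ x ∈ Z.PM n M, χ x * ((Z.q : ℂ) ^ (n * Z.ll x) - 1) =
      (∑ x ∈ hfin.toFinset, χ x) * ((Z.q : ℂ) ^ (n * (M + 1 - Z.g)) - 1) := by
    rw [finsum_mem_eq_finite_toFinset_sum _ hfin, Finset.sum_mul]
    refine Finset.sum_congr rfl fun x hx => ?_
    rw [Set.Finite.mem_toFinset] at hx
    rw [hll x hx]
  have h3 : ∑ x ∈ hfin.toFinset, χ x = χ j * ∑ x ∈ hfin.toFinset, χ x := by
    rw [Finset.mul_sum]
    refine (Finset.sum_bij (fun x _ => j + x) ?_ ?_ ?_ ?_).symm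
    · intro x hx
      rw [Set.Finite.mem_toFinset] at hx ⊢
      refine ⟨by rw [map_add, hj.1, hx.1, zero_add], by rw [map_add, hj.2, hx.2]⟩
    · intro x _ y _ hxy
      exact add_left_cancel hxy
    · intro x hx
      rw [Set.Finite.mem_toFinset] at hx
      refine ⟨-j + x, ?_, by abel⟩
      rw [Set.Finite.mem_toFinset]
      refine ⟨by rw [map_add, map_neg, hj.1, hx.1, neg_zero, zero_add],
        by rw [map_add, map_neg, hj.2, hx.2]⟩
    · intro x _
      rw [hχ]
  have h4 : ∑ x ∈ hfin.toFinset, χ x = 0 := by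
    have h5 : (1 - χ j) * ∑ x ∈ hfin.toFinset, χ x = 0 := by
      rw [sub_mul, one_mul, ← h3, sub_self]
    exact (mul_eq_zero.1 h5).resolve_left (sub_ne_zero.2 (Ne.symm hj1))
  rw [h2, h4, zero_mul] at h
  refine (mul_eq_zero.1 h).resolve_left ?_
  have h6 : (1 : ℕ) < Z.q ^ n := Nat.one_lt_pow hn.ne' (lt_of_lt_of_le one_lt_two Z.two_le)
  intro h7
  have h8 : ((Z.q ^ n : ℕ) : ℂ) = ((1 : ℕ) : ℂ) := by
    push_cast
    exact sub_eq_zero.1 h7
  have h9 := Nat.cast_injective h8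
  omega

end ZDat

end Vale.Agent.P019P
end

section

/-!
# The Euler product of the zeta function, as a counting identity
-/

namespace Vale.Agent.P019P

open Finsupp

variable {P : Type*}

theorem eulB_dg_eq (D : P →₀ ℤ) {S : Finset P} (h : D.support ⊆ S) : dg D = ∑ p ∈ S, D p := by
  unfold dg
  rw [Finsupp.liftAddHom_apply, Finsupp.sum]
  simp only [AddMonoidHom.id_apply]
  exact Finset.sum_subset h (fun p _ hp => by simpa using hp)

theorem eulB_dg_nonneg {D : P →₀ ℤ} (h : 0 ≤ D) : 0 ≤ dg D := by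
  rw [eulB_dg_eq D (Finset.Subset.refl _)]
  exact Finset.sum_nonneg fun p _ => h p

theorem eulB_inv {τ : Equiv.Perm P} {E : P →₀ ℤ} (h : E.mapDomain τ = E) (q : P) :
    E (τ q) = E q := by
  conv_lhs => rw [← h]
  exact Finsupp.mapDomain_apply τ.injective E q

theorem eulB_inv_pow {τ : Equiv.Perm P} {E : P →₀ ℤ} (h : E.mapDomain τ = E) (q : P) (i : ℕ) :
    E ((τ ^ i) q) = E q := by
  induction i with
  | zero => simp
  | succ i ih => rw [pow_succ', Equiv.Perm.mul_apply, eulB_inv h, ih]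

/-- the orbit divisor. -/
noncomputable def eulB_orb (τ : Equiv.Perm P) (p : P) (r : ℕ) : P →₀ ℤ :=
  ∑ i ∈ Finset.range r, single ((τ ^ i) p) 1

theorem eulB_orb_inv (τ : Equiv.Perm P) (p : P) (r : ℕ) (hr : (τ ^ r) p = p) :
    (eulB_orb τ p r).mapDomain τ = eulB_orb τ p r := by
  unfold eulB_orb
  rw [Finsupp.mapDomain_finsetSum]
  simp only [Finsupp.mapDomain_single]
  have h1 : ∀ i, τ ((τ ^ i) p) = (τ ^ (i + 1)) p := fun i => by
    rw [pow_succ', Equiv.Perm.mul_apply]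
  simp only [h1]
  have h2 := Finset.sum_range_succ (fun i => (single ((τ ^ i) p) (1 : ℤ))) r
  have h3 := Finset.sum_range_succ' (fun i => (single ((τ ^ i) p) (1 : ℤ))) r
  rw [h2, hr] at h3
  simp only [pow_zero, Equiv.Perm.one_apply] at h3
  exact (add_right_cancel h3).symm

theorem eulB_orb_self {τ : Equiv.Perm P} {p : P} {r : ℕ} (hr0 : 0 < r)
    (hmin : ∀ i, 0 < i → i < r → (τ ^ i) p ≠ p) : eulB_orb τ p r p = 1 := by
  classical
  unfold eulB_orb
  rw [Finsupp.finsetSum_apply, Finset.sum_eq_single 0]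
  · simp
  · intro i hi h0
    rw [Finsupp.single_apply, if_neg (hmin i (Nat.pos_of_ne_zero h0) (Finset.mem_range.1 hi))]
  · intro h
    exact absurd (Finset.mem_range.2 hr0) h

theorem eulB_orb_nonneg (τ : Equiv.Perm P) (p : P) (r : ℕ) : 0 ≤ eulB_orb τ p r := by
  classical
  intro q
  unfold eulB_orb
  rw [Finsupp.finsetSum_apply]
  refine Finset.sum_nonneg fun i _ => ?_
  rw [Finsupp.single_apply]
  split_ifs <;> simp

theorem eulB_orb_le {τ : Equiv.Perm P} {p : P} {r : ℕ} (hr0 : 0 < r) (hr : (τ ^ r) p = p)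
    (hmin : ∀ i, 0 < i → i < r → (τ ^ i) p ≠ p) {D : P →₀ ℤ} (hD : 0 ≤ D)
    (hDi : D.mapDomain τ = D) (hp : D p ≠ 0) : eulB_orb τ p r ≤ D := by
  classical
  intro q
  by_cases hq : ∃ i : ℕ, (τ ^ i) p = q
  · obtain ⟨i, rfl⟩ := hq
    rw [eulB_inv_pow (eulB_orb_inv τ p r hr), eulB_inv_pow hDi, eulB_orb_self hr0 hmin]
    have h1 : 0 ≤ D p := hD p
    omega
  · have h0 : eulB_orb τ p r q = 0 := by
      unfold eulB_orb
      rw [Finsupp.finsetSum_apply]
      refine Finset.sum_eq_zero fun i _ => ?_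
      rw [Finsupp.single_apply, if_neg (fun h => hq ⟨i, h⟩)]
    rw [h0]
    exact hD q

theorem eulB_dg_orb (τ : Equiv.Perm P) (p : P) (r : ℕ) : dg (eulB_orb τ p r) = r := by
  unfold eulB_orb dg
  rw [map_sum]
  simp

theorem eulB_chi_pow {R : Type*} [CommRing R] {τ : Equiv.Perm P} {χ : (P →₀ ℤ) → R}
    (hχτ : ∀ p, χ (single (τ p) 1) = χ (single p 1)) (p : P) (i : ℕ) :
    χ (single ((τ ^ i) p) 1) = χ (single p 1) := by
  induction i with
  | zero => simp
  | succ i ih => rw [pow_succ', Equiv.Perm.mul_apply, hχτ, ih]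

theorem eulB_chi_orb {R : Type*} [CommRing R] {τ : Equiv.Perm P} {χ : (P →₀ ℤ) → R}
    (hχ0 : χ 0 = 1) (hχ : ∀ D E, χ (D + E) = χ D * χ E)
    (hχτ : ∀ p, χ (single (τ p) 1) = χ (single p 1)) (p : P) (r : ℕ) :
    χ (eulB_orb τ p r) = χ (single p 1) ^ r := by
  induction r with
  | zero => simp [eulB_orb, hχ0]
  | succ r ih =>
    have e : eulB_orb τ p (r + 1) = eulB_orb τ p r + single ((τ ^ r) p) 1 := by
      unfold eulB_orb
      rw [Finset.sum_range_succ]
    rw [e, hχ, ih, eulB_chi_pow hχτ, pow_succ]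

/-- removing an orbit. -/
theorem eulB_sub {τ : Equiv.Perm P} {p : P} {r : ℕ} (hr0 : 0 < r) (hr : (τ ^ r) p = p)
    (hmin : ∀ i, 0 < i → i < r → (τ ^ i) p ≠ p) {M : ℕ} {D : P →₀ ℤ} (hD : D ∈ Eff τ M)
    (hp : D p ≠ 0) : r ≤ M ∧ D - eulB_orb τ p r ∈ Eff τ (M - r) := by
  obtain ⟨h1, h2, h3⟩ := hD
  have h4 : 0 ≤ D - eulB_orb τ p r := sub_nonneg.2 (eulB_orb_le hr0 hr hmin h1 h2 hp)
  have h5 : dg (D - eulB_orb τ p r) = (M : ℤ) - r := by rw [map_sub, h3, eulB_dg_orb]
  have h6 := eulB_dg_nonneg h4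
  rw [h5] at h6
  have h7 : r ≤ M := by omega
  refine ⟨h7, h4, ?_, ?_⟩
  · have e : D - eulB_orb τ p r = D + -(eulB_orb τ p r) := sub_eq_add_neg _ _
    have e2 : (-(eulB_orb τ p r)).mapDomain τ = -(eulB_orb τ p r) := by
      have := eulB_orb_inv τ p r hr
      have h8 : (eulB_orb τ p r + -(eulB_orb τ p r)).mapDomain τ = 0 := by
        rw [add_neg_cancel, Finsupp.mapDomain_zero]
      rw [Finsupp.mapDomain_add, this] at h8
      exact (neg_eq_of_add_eq_zero_right h8).symm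
    rw [e, Finsupp.mapDomain_add, h2, e2]
  · rw [h5, Nat.cast_sub h7]

/-- adding an orbit. -/
theorem eulB_add {τ : Equiv.Perm P} {p : P} {r : ℕ} (hr : (τ ^ r) p = p) {M : ℕ} (hrM : r ≤ M)
    {D : P →₀ ℤ} (hD : D ∈ Eff τ (M - r)) : D + eulB_orb τ p r ∈ Eff τ M := by
  obtain ⟨h1, h2, h3⟩ := hD
  refine ⟨add_nonneg h1 (eulB_orb_nonneg τ p r), ?_, ?_⟩
  · rw [Finsupp.mapDomain_add, h2, eulB_orb_inv τ p r hr]
  · rw [map_add, h3, eulB_dg_orb, Nat.cast_sub hrM, sub_add_cancel]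

/-- the weighted number of points. -/
theorem eulB_step {R : Type*} [CommRing R] {τ : Equiv.Perm P}
    (hfin : ∀ n : ℕ, 0 < n → {p | (τ ^ n) p = p}.Finite) {χ : (P →₀ ℤ) → R} (hχ0 : χ 0 = 1)
    (hχ : ∀ D E, χ (D + E) = χ D * χ E) (hχτ : ∀ p, χ (single (τ p) 1) = χ (single p 1))
    {p : P} {r : ℕ} (hr0 : 0 < r) (hr : (τ ^ r) p = p)
    (hmin : ∀ i, 0 < i → i < r → (τ ^ i) p ≠ p) {M : ℕ} (hrM : r ≤ M) :
    ∑ D ∈ (eff_finite τ hfin M).toFinset, ((D p : ℤ) : R) * χ D =
      χ (single p 1) ^ r * ((∑ D ∈ (eff_finite τ hfin (M - r)).toFinset, ((D p : ℤ) : R) * χ D) +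
        ac τ χ (M - r)) := by
  have hac : ac τ χ (M - r) = ∑ D ∈ (eff_finite τ hfin (M - r)).toFinset, χ D := by
    unfold ac
    exact finsum_mem_eq_finite_toFinset_sum _ _
  rw [hac, ← Finset.sum_add_distrib, Finset.mul_sum]
  symm
  refine Finset.sum_of_injOn (fun D => D + eulB_orb τ p r) ?_ ?_ ?_ ?_
  · intro D _ E _ h
    exact add_right_cancel h
  · intro D hD
    rw [Finset.mem_coe, Set.Finite.mem_toFinset] at hD ⊢
    exact eulB_add hr hrM hD
  · intro D hD hn
    rw [Set.Finite.mem_toFinset] at hD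
    by_cases hp : D p = 0
    · rw [hp]; simp
    · exfalso
      refine hn ⟨D - eulB_orb τ p r, ?_, sub_add_cancel _ _⟩
      rw [Finset.mem_coe, Set.Finite.mem_toFinset]
      exact (eulB_sub hr0 hr hmin hD hp).2
  · intro D _
    rw [hχ, eulB_chi_orb hχ0 hχ hχτ, Finsupp.add_apply, eulB_orb_self hr0 hmin]
    push_cast
    ring

theorem eulB_step0 {R : Type*} [CommRing R] {τ : Equiv.Perm P}
    (hfin : ∀ n : ℕ, 0 < n → {p | (τ ^ n) p = p}.Finite) {χ : (P →₀ ℤ) → R}
    {p : P} {r : ℕ} (hr0 : 0 < r) (hr : (τ ^ r) p = p)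
    (hmin : ∀ i, 0 < i → i < r → (τ ^ i) p ≠ p) {M : ℕ} (hrM : M < r) :
    ∑ D ∈ (eff_finite τ hfin M).toFinset, ((D p : ℤ) : R) * χ D = 0 := by
  refine Finset.sum_eq_zero fun D hD => ?_
  rw [Set.Finite.mem_toFinset] at hD
  by_cases hp : D p = 0
  · rw [hp]; simp
  · exact absurd (eulB_sub hr0 hr hmin hD hp).1 (not_le.2 hrM)

theorem eulB_dvd {τ : Equiv.Perm P} {p : P} {r : ℕ} (hr : (τ ^ r) p = p)
    (m : ℕ) : (τ ^ (r + m)) p = p ↔ (τ ^ m) p = p := by
  rw [add_comm, pow_add, Equiv.Perm.mul_apply, hr]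

open Classical in
/-- the contribution of one point. -/
theorem eulB_point {R : Type*} [CommRing R] {τ : Equiv.Perm P}
    (hfin : ∀ n : ℕ, 0 < n → {p | (τ ^ n) p = p}.Finite) {χ : (P →₀ ℤ) → R} (hχ0 : χ 0 = 1)
    (hχ : ∀ D E, χ (D + E) = χ D * χ E) (hχτ : ∀ p, χ (single (τ p) 1) = χ (single p 1))
    {p : P} {r : ℕ} (hr0 : 0 < r) (hr : (τ ^ r) p = p)
    (hmin : ∀ i, 0 < i → i < r → (τ ^ i) p ≠ p) (M : ℕ) :
    ∑ D ∈ (eff_finite τ hfin M).toFinset, ((D p : ℤ) : R) * χ D =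
      ∑ m ∈ Finset.Icc 1 M, (if (τ ^ m) p = p then χ (single p 1) ^ m else 0) *
        ac τ χ (M - m) := by
  induction M using Nat.strong_induction_on with
  | _ M ih =>
    rcases Nat.lt_or_ge M r with h | h
    · rw [eulB_step0 hfin hr0 hr hmin h]
      symm
      refine Finset.sum_eq_zero fun m hm => ?_
      have h1 := Finset.mem_Icc.1 hm
      rw [if_neg (hmin m (by omega) (by omega)), zero_mul]
    · rw [eulB_step hfin hχ0 hχ hχτ hr0 hr hmin h, ih (M - r) (by omega)]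
      have e1 : Finset.Icc 1 M = Finset.Ico 1 r ∪ Finset.Icc r M := by
        ext x
        simp only [Finset.mem_union, Finset.mem_Icc, Finset.mem_Ico]
        omega
      have e2 : Finset.Icc r M = insert r ((Finset.Icc 1 (M - r)).map (addLeftEmbedding r)) := by
        ext x
        simp only [Finset.mem_insert, Finset.mem_Icc, Finset.mem_map, addLeftEmbedding_apply]
        constructor
        · rintro ⟨h1, h2⟩
          rcases Nat.eq_or_lt_of_le h1 with h3 | h3
          · exact Or.inl h3.symm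
          · exact Or.inr ⟨x - r, ⟨by omega, by omega⟩, by omega⟩
        · rintro (rfl | ⟨y, ⟨h1, h2⟩, rfl⟩)
          · omega
          · omega
      have hd : Disjoint (Finset.Ico 1 r) (Finset.Icc r M) := by
        rw [Finset.disjoint_left]
        intro x hx hx'
        have := Finset.mem_Ico.1 hx
        have := Finset.mem_Icc.1 hx'
        omega
      have hni : r ∉ (Finset.Icc 1 (M - r)).map (addLeftEmbedding r) := by
        simp only [Finset.mem_map, Finset.mem_Icc, addLeftEmbedding_apply, not_exists]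
        omega
      rw [e1, Finset.sum_union hd, e2, Finset.sum_insert hni, Finset.sum_map]
      have z1 : ∑ x ∈ Finset.Ico 1 r, (if (τ ^ x) p = p then χ (single p 1) ^ x else 0) *
          ac τ χ (M - x) = 0 := by
        refine Finset.sum_eq_zero fun m hm => ?_
        have h1 := Finset.mem_Ico.1 hm
        rw [if_neg (hmin m (by omega) (by omega)), zero_mul]
      rw [z1, zero_add, if_pos hr, mul_add, add_comm, Finset.mul_sum]
      congr 1
      refine Finset.sum_congr rfl fun m _ => ?_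
      have e3 : M - (addLeftEmbedding r) m = M - r - m := by
        rw [addLeftEmbedding_apply]; omega
      rw [e3, addLeftEmbedding_apply, eulB_dvd hr, pow_add]
      split_ifs <;> ring

theorem eulB_period {τ : Equiv.Perm P} {M : ℕ} {D : P →₀ ℤ} (hD : D ∈ Eff τ M) {p : P}
    (hp : p ∈ D.support) : ∃ m : ℕ, 0 < m ∧ (τ ^ m) p = p := by
  have h1 : ∀ i : ℕ, (τ ^ i) p ∈ D.support := by
    intro i
    rw [Finsupp.mem_support_iff, eulB_inv_pow hD.2.1]
    exact Finsupp.mem_support_iff.1 hp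
  obtain ⟨i, j, hij, h⟩ := Finite.exists_ne_map_eq_of_infinite
    (fun i : ℕ => (⟨(τ ^ i) p, h1 i⟩ : D.support))
  have h2 : (τ ^ i) p = (τ ^ j) p := congrArg Subtype.val h
  have key : ∀ {i j : ℕ}, i < j → (τ ^ i) p = (τ ^ j) p → ∃ m : ℕ, 0 < m ∧ (τ ^ m) p = p := by
    intro i j hij h
    refine ⟨j - i, by omega, ?_⟩
    have e : j = i + (j - i) := by omega
    rw [e, pow_add, Equiv.Perm.mul_apply] at h
    exact ((τ ^ i).injective h).symm
  rcases Nat.lt_or_gt_of_ne hij with h3 | h3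
  · exact key h3 h2
  · exact key h3 h2.symm

theorem euler {R : Type*} [CommRing R] (τ : Equiv.Perm P)
    (hfin : ∀ n : ℕ, 0 < n → {p | (τ ^ n) p = p}.Finite) (χ : (P →₀ ℤ) → R) (hχ0 : χ 0 = 1)
    (hχ : ∀ D E, χ (D + E) = χ D * χ E) (hχτ : ∀ p, χ (single (τ p) 1) = χ (single p 1)) (M : ℕ) :
    (M : R) * ac τ χ M = ∑ m ∈ Finset.Icc 1 M, sc τ χ m * ac τ χ (M - m) := by
  classical
  set T : ℕ → Finset P := fun m => if h : 0 < m then (hfin m h).toFinset else ∅ with hT
  set S : Finset P := (eff_finite τ hfin M).toFinset.biUnion (fun D => D.support) ∪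
    (Finset.Icc 1 M).biUnion T with hS
  have hac : ac τ χ M = ∑ D ∈ (eff_finite τ hfin M).toFinset, χ D := by
    unfold ac
    exact finsum_mem_eq_finite_toFinset_sum _ _
  have hper : ∀ p ∈ S, ∃ m : ℕ, 0 < m ∧ (τ ^ m) p = p := by
    intro p hp
    rw [hS, Finset.mem_union, Finset.mem_biUnion, Finset.mem_biUnion] at hp
    rcases hp with ⟨D, hD, hp⟩ | ⟨m, hm, hp⟩
    · rw [Set.Finite.mem_toFinset] at hD
      exact eulB_period hD hp
    · have hm0 : 0 < m := (Finset.mem_Icc.1 hm).1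
      simp only [hT, dif_pos hm0, Set.Finite.mem_toFinset, Set.mem_ofPred_eq] at hp
      exact ⟨m, hm0, hp⟩
  have hpt : ∀ p ∈ S, ∑ D ∈ (eff_finite τ hfin M).toFinset, ((D p : ℤ) : R) * χ D =
      ∑ m ∈ Finset.Icc 1 M, (if (τ ^ m) p = p then χ (single p 1) ^ m else 0) *
        ac τ χ (M - m) := by
    intro p hp
    have hex := hper p hp
    exact eulB_point hfin hχ0 hχ hχτ (Nat.find_spec hex).1 (Nat.find_spec hex).2
      (fun i hi0 hi h => Nat.find_min hex hi ⟨hi0, h⟩) M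
  have hsc : ∀ m ∈ Finset.Icc 1 M, sc τ χ m =
      ∑ p ∈ S, if (τ ^ m) p = p then χ (single p 1) ^ m else 0 := by
    intro m hm
    have hm0 : 0 < m := (Finset.mem_Icc.1 hm).1
    have e1 : sc τ χ m = ∑ p ∈ (hfin m hm0).toFinset, χ (single p 1) ^ m := by
      unfold sc
      exact finsum_mem_eq_finite_toFinset_sum _ _
    rw [e1, ← Finset.sum_filter]
    refine Finset.sum_congr ?_ fun _ _ => rfl
    ext p
    rw [Set.Finite.mem_toFinset, Finset.mem_filter, Set.mem_ofPred_eq]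
    constructor
    · intro h
      refine ⟨?_, h⟩
      rw [hS, Finset.mem_union]
      refine Or.inr (Finset.mem_biUnion.2 ⟨m, hm, ?_⟩)
      simp only [hT, dif_pos hm0, Set.Finite.mem_toFinset, Set.mem_ofPred_eq]
      exact h
    · exact fun h => h.2
  calc (M : R) * ac τ χ M = ∑ D ∈ (eff_finite τ hfin M).toFinset, ∑ p ∈ S,
        ((D p : ℤ) : R) * χ D := by
        rw [hac, Finset.mul_sum]
        refine Finset.sum_congr rfl fun D hD => ?_
        have hDS : D.support ⊆ S := by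
          intro p hp
          rw [hS, Finset.mem_union]
          exact Or.inl (Finset.mem_biUnion.2 ⟨D, hD, hp⟩)
        have h1 := eulB_dg_eq D hDS
        rw [Set.Finite.mem_toFinset] at hD
        rw [hD.2.2] at h1
        rw [← Finset.sum_mul]
        congr 1
        have h2 := congrArg (fun z : ℤ => (z : R)) h1
        simpa using h2
    _ = ∑ p ∈ S, ∑ D ∈ (eff_finite τ hfin M).toFinset, ((D p : ℤ) : R) * χ D :=
        Finset.sum_comm
    _ = ∑ p ∈ S, ∑ m ∈ Finset.Icc 1 M, (if (τ ^ m) p = p then χ (single p 1) ^ m else 0) *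
        ac τ χ (M - m) := Finset.sum_congr rfl hpt
    _ = ∑ m ∈ Finset.Icc 1 M, ∑ p ∈ S, (if (τ ^ m) p = p then χ (single p 1) ^ m else 0) *
        ac τ χ (M - m) := Finset.sum_comm
    _ = ∑ m ∈ Finset.Icc 1 M, sc τ χ m * ac τ χ (M - m) := by
        refine Finset.sum_congr rfl fun m hm => ?_
        rw [hsc m hm, Finset.sum_mul]

theorem LD_ac {R : Type*} [CommRing R] (τ : Equiv.Perm P)
    (hfin : ∀ n : ℕ, 0 < n → {p | (τ ^ n) p = p}.Finite) (χ : (P →₀ ℤ) → R) (hχ0 : χ 0 = 1)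
    (hχ : ∀ D E, χ (D + E) = χ D * χ E) (hχτ : ∀ p, χ (single (τ p) 1) = χ (single p 1)) :
    LD (PowerSeries.mk (ac τ χ)) (pos (sc τ χ)) :=
  LD_of_rec _ _ (euler τ hfin χ hχ0 hχ hχτ)

end Vale.Agent.P019P
end

section

/-!
# The class numbers as products over reciprocal roots
-/

namespace Vale.Agent.P019P

open Polynomial

variable {P : Type*}

theorem zhn_ac_cast (τ : Equiv.Perm P)
    (hfin : ∀ n : ℕ, 0 < n → {p | (τ ^ n) p = p}.Finite) (m : ℕ) :
    ((ac τ (fun _ => (1 : ℤ)) m : ℤ) : ℂ) = ac τ (fun _ => (1 : ℂ)) m := by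
  have h := (Int.castAddHom ℂ).map_finsum_mem (fun _ : P →₀ ℤ => (1 : ℤ)) (eff_finite τ hfin m)
  simp only [Int.coe_castAddHom, Int.cast_one] at h
  exact h

theorem zhn_sc_pow (σ : Equiv.Perm P) (n m : ℕ) :
    sc (σ ^ n) (fun _ => (1 : ℂ)) m = sc σ (fun _ => (1 : ℂ)) (n * m) := by
  unfold sc
  rw [pow_mul]
  simp only [one_pow]

/-- the numerator of the zeta function over the extension of degree `n`. -/
theorem ZDat.zhn_L (Z : ZDat P) (n : ℕ) (hn : 0 < n) : ∃ L : ℤ[X], L.natDegree ≤ 2 * Z.g ∧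
    L.coeff 0 = 1 ∧ L.coeff (2 * Z.g) = ((Z.q : ℤ) ^ n) ^ Z.g ∧ L.eval 1 = Z.hh n ∧
    LD (((L.map (Int.castRingHom ℂ) : ℂ[X])) : PowerSeries ℂ)
      (pos fun m => -(1 : ℂ) ^ m + -((Z.q : ℂ) ^ n) ^ m + sc (Z.σ ^ n) (fun _ => (1 : ℂ)) m) := by
  have hQ : (2 : ℤ) ≤ (Z.q : ℤ) ^ n := by
    have h2 : (2 : ℤ) ≤ Z.q := by exact_mod_cast Z.two_le
    calc (2 : ℤ) ≤ (Z.q : ℤ) ^ 1 := by simpa using h2
      _ ≤ (Z.q : ℤ) ^ n := pow_le_pow_right₀ (by linarith) hn
  obtain ⟨L, hd, h0, h1, he, hL⟩ := poly_L (fun m => ac (Z.σ ^ n) (fun _ => (1 : ℤ)) m) Z.g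
    ((Z.q : ℤ) ^ n) (Z.hh n) hQ (ac_zero _ _) (fun M hM => Z.an_large n hn M hM)
    (fun hg => Z.an_crit n hn hg)
  refine ⟨L, hd, h0, h1, he, ?_⟩
  have hmk : PowerSeries.map (Int.castRingHom ℂ)
      (PowerSeries.mk (fun m => ac (Z.σ ^ n) (fun _ => (1 : ℤ)) m)) =
      PowerSeries.mk (ac (Z.σ ^ n) (fun _ => (1 : ℂ))) := by
    ext m
    rw [PowerSeries.coeff_map, PowerSeries.coeff_mk, PowerSeries.coeff_mk]
    exact zhn_ac_cast _ (Z.fin_pow n hn) m
  have e : (((L.map (Int.castRingHom ℂ) : ℂ[X])) : PowerSeries ℂ) =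
      (1 - PowerSeries.C (1 : ℂ) * PowerSeries.X) *
        (1 - PowerSeries.C ((Z.q : ℂ) ^ n) * PowerSeries.X) *
        PowerSeries.mk (ac (Z.σ ^ n) (fun _ => (1 : ℂ))) := by
    rw [coe_map_int, hL, map_mul, map_mul, hmk]
    congr 1
    congr 1
    · simp
    · simp
  rw [e, ← pos_add, ← pos_add]
  exact ((LD_lin (1 : ℂ)).mul (LD_lin ((Z.q : ℂ) ^ n))).mul
    (LD_ac (Z.σ ^ n) (Z.fin_pow n hn) (fun _ => (1 : ℂ)) rfl (fun _ _ => by simp) (fun _ => rfl))

theorem zhn_const (L : ℤ[X]) (h0 : L.coeff 0 = 1) :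
    PowerSeries.constantCoeff (((L.map (Int.castRingHom ℂ) : ℂ[X])) : PowerSeries ℂ) = 1 := by
  rw [← PowerSeries.coeff_zero_eq_constantCoeff_apply, Polynomial.coeff_coe, coeff_map, h0]
  simp

theorem ZDat.zeta (Z : ZDat P) : ∃ (A : Multiset ℂ) (f : ℤ[X]), f.natDegree ≤ 2 * Z.g ∧
    f.coeff 0 = 1 ∧ f.coeff (2 * Z.g) = (Z.q : ℤ) ^ Z.g ∧
    f.map (Int.castRingHom ℂ) = (A.map fun a => 1 - C a * X).prod ∧
    (∀ n, 0 < n → (Z.hh n : ℂ) = (A.map fun a => 1 - a ^ n).prod) ∧
    ∀ m, 0 < m → sc Z.σ (fun _ => (1 : ℂ)) m = 1 + (Z.q : ℂ) ^ m - (A.map fun a => a ^ m).sum := by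
  obtain ⟨f, hd, h0, h1, -, hLD⟩ := Z.zhn_L 1 one_pos
  obtain ⟨A, -, hA⟩ := exists_roots (f.map (Int.castRingHom ℂ)) (2 * Z.g)
    ((natDegree_map_le).trans hd) (by rw [coeff_map, h0]; simp)
  have hsc : ∀ m, 0 < m →
      sc Z.σ (fun _ => (1 : ℂ)) m = 1 + (Z.q : ℂ) ^ m - (A.map fun a => a ^ m).sum := by
    intro m hm
    have hP := LD_prod (R := ℂ) A
    rw [← coe_prod_lin, ← hA] at hP
    have h := LD.right_unique (zhn_const f h0) hP hLD
    have h2 := pos_inj h m hm
    simp only [pow_one, one_pow] at h2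
    linear_combination (-1 : ℂ) * h2
  refine ⟨A, f, hd, h0, ?_, hA, ?_, hsc⟩
  · rw [h1, pow_one]
  · intro n hn
    obtain ⟨L, -, k0, -, ke, kLD⟩ := Z.zhn_L n hn
    have hpos : (pos fun m => -(1 : ℂ) ^ m + -((Z.q : ℂ) ^ n) ^ m +
        sc (Z.σ ^ n) (fun _ => (1 : ℂ)) m) =
        pos fun m => -((A.map fun a => a ^ n).map fun a => a ^ m).sum := by
      apply pos_congr
      intro m hm
      rw [zhn_sc_pow, hsc (n * m) (Nat.mul_pos hn hm), Multiset.map_map]
      have e1 : (A.map fun a => a ^ (n * m)) = A.map ((fun a => a ^ m) ∘ fun a => a ^ n) := by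
        apply Multiset.map_congr rfl
        intro a _
        simp only [Function.comp_apply, pow_mul]
      rw [e1, pow_mul, one_pow]
      ring
    rw [hpos] at kLD
    have hP := LD_prod (R := ℂ) (A.map fun a => a ^ n)
    rw [← coe_prod_lin] at hP
    have hc : PowerSeries.constantCoeff
        (((((A.map fun a => a ^ n).map fun a => 1 - C a * X).prod : ℂ[X])) : PowerSeries ℂ) = 1 := by
      rw [coe_prod_lin, map_multiset_prod, Multiset.map_map]
      apply Multiset.prod_eq_one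
      intro x hx
      obtain ⟨a, -, rfl⟩ := Multiset.mem_map.mp hx
      simp
    have heq := LD.left_unique (zhn_const L k0) hc kLD hP
    have heq2 := Polynomial.coe_injective ℂ heq
    have h3 := congrArg (Polynomial.eval (1 : ℂ)) heq2
    rw [eval_prod_lin, Multiset.map_map] at h3
    have h4 : (L.map (Int.castRingHom ℂ)).eval (1 : ℂ) = (Z.hh n : ℂ) := by
      have h5 : (L.map (Int.castRingHom ℂ)).eval ((Int.castRingHom ℂ) 1) =
          (Int.castRingHom ℂ) (L.eval 1) := by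
        rw [eval_map, eval₂_at_apply]
      rw [ke, map_one] at h5
      rw [h5]
      simp
    rw [h4] at h3
    rw [h3]
    rfl

end Vale.Agent.P019P
end

section

/-!
# Twisted zeta functions
-/

namespace Vale.Agent.P019P

variable {P : Type*}

open Finsupp

theorem ZTw.constantCoeff_prod_lin (A : Multiset ℂ) :
    PowerSeries.constantCoeff
      ((A.map fun a => (1 : PowerSeries ℂ) - PowerSeries.C a * PowerSeries.X).prod) = 1 := by
  rw [map_multiset_prod, Multiset.map_map]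
  apply Multiset.prod_eq_one
  intro x hx
  obtain ⟨a, -, rfl⟩ := Multiset.mem_map.1 hx
  simp

/-- Equality of multisets of reciprocal roots from equality of power sums. -/
theorem ZTw.prod_eq {A B : Multiset ℂ}
    (h : ∀ m, 0 < m → (A.map fun a => a ^ m).sum = (B.map fun a => a ^ m).sum) :
    (A.map fun a => 1 - a).prod = (B.map fun a => 1 - a).prod := by
  have h1 := LD_prod A
  have h2 := LD_prod B
  have h3 : pos (fun m => -(A.map fun a => a ^ m).sum) = pos (fun m => -(B.map fun a => a ^ m).sum)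
      := pos_congr fun m hm => by rw [h m hm]
  rw [h3] at h1
  have h4 := LD.left_unique (ZTw.constantCoeff_prod_lin A) (ZTw.constantCoeff_prod_lin B) h1 h2
  rw [← coe_prod_lin, ← coe_prod_lin] at h4
  have h5 := Polynomial.coe_injective ℂ h4
  rw [← eval_prod_lin, ← eval_prod_lin, h5]

theorem ZDat.no_char (Z : ZDat P) {ℓ : ℕ} (hℓ : 0 < ℓ) (n : ℕ) (hn : 0 < n) (ψ : AddChar Z.J ℂ)
    (hs : ∀ y, ψ ((Z.sJ ^ n) y) = ψ y) (hl : ∀ y, ψ (ℓ • y) = 1) (x : Z.J)
    (hx : (Z.sJ ^ n) x = x) : ψ x = 1 := by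
  by_contra hne
  -- the projection
  have hc0 : Z.deg (Z.cl (single Z.P0 1)) = 1 := by rw [ZDat.deg_cl, dg_single]
  have hP0 : (Z.σ ^ n) Z.P0 = Z.P0 := Equiv.Perm.pow_apply_eq_self_of_apply_eq_self Z.fix0 n
  have hsc0 : (Z.s ^ n) (Z.cl (single Z.P0 1)) = Z.cl (single Z.P0 1) := by
    rw [ZDat.s_pow_cl, mapDomain_single, hP0]
  have hker : ∀ y : Z.Pic, y - Z.deg y • Z.cl (single Z.P0 1) ∈ Z.deg.ker := by
    intro y
    rw [AddMonoidHom.mem_ker, map_sub, map_zsmul, hc0, smul_eq_mul, mul_one, sub_self]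
  let pr : Z.Pic → Z.J := fun y => ⟨y - Z.deg y • Z.cl (single Z.P0 1), hker y⟩
  have pr_add : ∀ y z, pr (y + z) = pr y + pr z := by
    intro y z
    apply Subtype.ext
    change y + z - Z.deg (y + z) • Z.cl (single Z.P0 1) =
      (y - Z.deg y • Z.cl (single Z.P0 1)) + (z - Z.deg z • Z.cl (single Z.P0 1))
    rw [map_add, add_zsmul]
    abel
  have pr_coe : ∀ j : Z.J, pr (j : Z.Pic) = j := by
    intro j
    apply Subtype.ext
    change (j : Z.Pic) - Z.deg (j : Z.Pic) • Z.cl (single Z.P0 1) = j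
    have : Z.deg (j : Z.Pic) = 0 := j.2
    rw [this, zero_zsmul, sub_zero]
  have pr_s : ∀ y, pr ((Z.s ^ n) y) = (Z.sJ ^ n) (pr y) := by
    intro y
    apply Subtype.ext
    rw [ZDat.coe_sJ_pow]
    change (Z.s ^ n) y - Z.deg ((Z.s ^ n) y) • Z.cl (single Z.P0 1) =
      (Z.s ^ n) (y - Z.deg y • Z.cl (single Z.P0 1))
    rw [map_sub, map_zsmul, hsc0, ZDat.deg_s_pow]
  let χ : Z.Pic → ℂ := fun y => ψ (pr y)
  have χ_mul : ∀ y z, χ (y + z) = χ y * χ z := by
    intro y z
    change ψ (pr (y + z)) = _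
    rw [pr_add, AddChar.map_add_eq_mul]
  have χ_zero : χ 0 = 1 := by
    have h0 : pr 0 = 0 := by
      have := pr_add 0 0
      rw [add_zero] at this
      exact left_eq_add.1 this
    change ψ (pr 0) = 1
    rw [h0, AddChar.map_zero_eq_one]
  have χ_s : ∀ y, χ ((Z.s ^ n) y) = χ y := by
    intro y
    change ψ (pr ((Z.s ^ n) y)) = ψ (pr y)
    rw [pr_s, hs]
  have χ_pow : ∀ y, χ y ^ ℓ = 1 := by
    intro y
    change ψ (pr y) ^ ℓ = 1
    rw [← AddChar.map_nsmul_eq_pow, hl]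
  have χ_x : χ (x : Z.Pic) ≠ 1 := by
    change ψ (pr (x : Z.Pic)) ≠ 1
    rw [pr_coe]; exact hne
  have hxPM : (x : Z.Pic) ∈ Z.PM n 0 := by
    refine ⟨x.2, ?_⟩
    rw [← ZDat.coe_sJ_pow, hx]
  have hfin : ∀ m : ℕ, 0 < m → {p | ((Z.σ ^ n) ^ m) p = p}.Finite := Z.fin_pow n hn
  -- the coefficients
  have hlarge := fun M (hM : 2 * Z.g ≤ M + 1) => Z.tw_large n hn χ χ_mul (x : Z.Pic) hxPM χ_x M hM
  have hLD : LD (PowerSeries.mk (ac (Z.σ ^ n) fun D => χ (Z.cl D)))
      (pos (sc (Z.σ ^ n) fun D => χ (Z.cl D))) := by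
    apply LD_ac (Z.σ ^ n) hfin
    · rw [map_zero, χ_zero]
    · intro D E
      rw [map_add, χ_mul]
    · intro p
      have : Z.cl (single ((Z.σ ^ n) p) 1) = (Z.s ^ n) (Z.cl (single p 1)) := by
        rw [ZDat.s_pow_cl, mapDomain_single]
      rw [this, χ_s]
  set a : ℕ → ℂ := ac (Z.σ ^ n) (fun D => χ (Z.cl D)) with ha
  have ha0 : a 0 = 1 := by rw [ha, ac_zero, map_zero, χ_zero]
  let F : Polynomial ℂ := PowerSeries.trunc (2 * Z.g + 1) (PowerSeries.mk a)
  have hFc : ((F : Polynomial ℂ) : PowerSeries ℂ) = PowerSeries.mk a := by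
    ext m
    rw [Polynomial.coeff_coe, PowerSeries.coeff_trunc, PowerSeries.coeff_mk]
    split_ifs with h
    · rfl
    · exact (hlarge m (by omega)).symm
  have hF0 : F.coeff 0 = 1 := by
    rw [PowerSeries.coeff_trunc, if_pos (by omega), PowerSeries.coeff_mk, ha0]
  have hFd : F.natDegree ≤ 2 * Z.g :=
    Nat.lt_succ_iff.1 (PowerSeries.natDegree_trunc_lt (PowerSeries.mk a) (2 * Z.g))
  obtain ⟨B, -, hB⟩ := exists_roots F (2 * Z.g) hFd hF0
  have hB' : PowerSeries.mk a =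
      (B.map fun a => (1 : PowerSeries ℂ) - PowerSeries.C a * PowerSeries.X).prod := by
    rw [← hFc, hB, coe_prod_lin]
  have hsum : ∀ m, 0 < m → sc (Z.σ ^ n) (fun D => χ (Z.cl D)) m = -(B.map fun b => b ^ m).sum := by
    intro m hm
    rw [hB'] at hLD
    exact pos_inj (LD.right_unique (ZTw.constantCoeff_prod_lin B) hLD (LD_prod B)) m hm
  -- the untwisted zeta function
  obtain ⟨A, f, -, -, -, -, hA1, hA2⟩ := Z.zeta
  have hsc : ∀ m, 0 < m → sc (Z.σ ^ n) (fun D => χ (Z.cl D)) (ℓ * m) =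
      sc Z.σ (fun _ => (1 : ℂ)) (n * ℓ * m) := by
    intro m _
    unfold sc
    rw [← pow_mul, ← mul_assoc]
    refine finsum_congr fun p => finsum_congr fun _ => ?_
    rw [pow_mul, χ_pow, one_pow, one_pow]
  have key : ∀ m, 0 < m → (((1 : ℂ) ::ₘ ((Z.q : ℂ) ^ (n * ℓ)) ::ₘ (B.map fun b => b ^ ℓ)).map
      fun a => a ^ m).sum = ((A.map fun a => a ^ (n * ℓ)).map fun a => a ^ m).sum := by
    intro m hm
    have h1 := hsum (ℓ * m) (Nat.mul_pos hℓ hm)
    rw [hsc m hm, hA2 _ (Nat.mul_pos (Nat.mul_pos hn hℓ) hm)] at h1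
    rw [Multiset.map_cons, Multiset.map_cons, Multiset.sum_cons, Multiset.sum_cons,
      Multiset.map_map, Multiset.map_map]
    simp only [Function.comp_def, ← pow_mul, one_pow]
    linear_combination h1
  have h2 := ZTw.prod_eq key
  rw [Multiset.map_cons, Multiset.prod_cons, sub_self, zero_mul, Multiset.map_map] at h2
  have h3 := hA1 (n * ℓ) (Nat.mul_pos hn hℓ)
  have h4 : (Z.hh (n * ℓ) : ℂ) = 0 := by
    rw [h3, h2]
    rfl
  have h5 := Z.hh_pos (n * ℓ) (Nat.mul_pos hn hℓ)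
  rw [Nat.cast_eq_zero] at h4
  omega

end Vale.Agent.P019P
end

section

/-!
# Approximation: evaluation maps, congruences, limits of valuation rings
-/

namespace Vale.Agent.P019P

open Vale.Agent.P019

set_option linter.style.haveILetI false
set_option linter.unusedSectionVars false

open Polynomial Filter

section ev

variable {A B D : Type*} [CommRing A] [CommRing B] [CommRing D]

/-- evaluation of a bivariate polynomial: outer variable at `t`, inner variable at `s`. -/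
noncomputable def apbEv (i : A →+* B) (t s : B) : A[X][X] →+* B :=
  eval₂RingHom (eval₂RingHom i s) t

theorem apbEv_C (i : A →+* B) (t s : B) (P : A[X]) : apbEv i t s (C P) = eval₂ i s P := by
  simp [apbEv]

theorem apbEv_X (i : A →+* B) (t s : B) : apbEv i t s X = t := by
  simp [apbEv]

theorem apbEv_CC (i : A →+* B) (t s : B) (a : A) : apbEv i t s (C (C a)) = i a := by
  simp [apbEv]

theorem apbEv_CX (i : A →+* B) (t s : B) : apbEv i t s (C X) = s := by
  simp [apbEv]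

theorem apbEv_comp (i : A →+* B) (h : B →+* D) (t s : B) :
    h.comp (apbEv i t s) = apbEv (h.comp i) (h t) (h s) := by
  unfold apbEv
  ext <;> simp

end ev

section val

variable {K : Type*} [Field K] {O : ValuationSubring K}

theorem apb_lt_iff {z : K} : O.valuation z < 1 ↔ z = 0 ∨ z⁻¹ ∉ O := by
  by_cases hz : z = 0
  · simp [hz]
  · have h0 : 0 < O.valuation z := zero_lt_iff.2 ((Valuation.ne_zero_iff _).2 hz)
    rw [← O.valuation_le_one_iff, map_inv₀, inv_le_one₀ h0, not_le]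
    simp [hz]

theorem apb_mem_of_lt {z : K} (h : O.valuation z < 1) : z ∈ O :=
  (O.valuation_le_one_iff _).1 h.le

theorem apb_mem_pow {z : K} {n : ℕ} (hn : n ≠ 0) : z ^ n ∈ O ↔ z ∈ O := by
  rw [← O.valuation_le_one_iff, ← O.valuation_le_one_iff, map_pow]
  exact pow_le_one_iff_of_nonneg zero_le hn

theorem apb_eval₂_mem {R : Type*} [CommRing R] {φ : R →+* K} (hφ : ∀ r, φ r ∈ O) {x : K}
    (hx : x ∈ O) (f : R[X]) : eval₂ φ x f ∈ O := by
  rw [eval₂_eq_sum_range]
  exact sum_mem fun i _ => mul_mem (hφ _) (pow_mem hx _)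

/-- congruences pass to polynomials. -/
theorem apb_cong {R : Type*} [CommRing R] {φ ψ : R →+* K} (hφ : ∀ r, φ r ∈ O)
    (hψ : ∀ r, ψ r ∈ O) (h : ∀ r, O.valuation (φ r - ψ r) < 1) {x y : K} (hx : x ∈ O)
    (hy : y ∈ O) (hxy : O.valuation (x - y) < 1) (f : R[X]) :
    O.valuation (eval₂ φ x f - eval₂ ψ y f) < 1 := by
  rw [← rs_eq (apb_eval₂_mem hφ hx f) (apb_eval₂_mem hψ hy f)]
  induction f using Polynomial.induction_on' with
  | add p q hp hq =>
    rw [eval₂_add, eval₂_add, rs_add (apb_eval₂_mem hφ hx p) (apb_eval₂_mem hφ hx q),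
      rs_add (apb_eval₂_mem hψ hy p) (apb_eval₂_mem hψ hy q), hp, hq]
  | monomial n a =>
    rw [eval₂_monomial, eval₂_monomial, rs_mul (hφ a) (pow_mem hx n),
      rs_mul (hψ a) (pow_mem hy n), rs_pow hx, rs_pow hy, (rs_eq hx hy).2 hxy,
      (rs_eq (hφ a) (hψ a)).2 (h a)]

theorem apbEv_mem {R : Type*} [CommRing R] {φ : R →+* K} (hφ : ∀ r, φ r ∈ O) {t s : K}
    (ht : t ∈ O) (hs : s ∈ O) (f : R[X][X]) : apbEv φ t s f ∈ O :=
  apb_eval₂_mem (φ := eval₂RingHom φ s) (fun r => apb_eval₂_mem hφ hs r) ht f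

theorem apbEv_cong {R : Type*} [CommRing R] {φ : R →+* K} (hφ : ∀ r, φ r ∈ O) {t s t' s' : K}
    (ht : t ∈ O) (hs : s ∈ O) (ht' : t' ∈ O) (hs' : s' ∈ O) (htt : O.valuation (t - t') < 1)
    (hss : O.valuation (s - s') < 1) (f : R[X][X]) :
    O.valuation (apbEv φ t s f - apbEv φ t' s' f) < 1 := by
  refine apb_cong (φ := eval₂RingHom φ s) (ψ := eval₂RingHom φ s')
    (fun r => apb_eval₂_mem hφ hs r) (fun r => apb_eval₂_mem hφ hs' r) (fun r => ?_) ht ht' htt f
  refine apb_cong hφ hφ (fun r => ?_) hs hs' hss r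
  rw [sub_self, map_zero]
  exact zero_lt_one

end val

section compos

variable {K : Type*} [Field K] {W : ValuationSubring K}
  {P : ValuationSubring (IsLocalRing.ResidueField W)}

theorem apb_compos_lt {z : K} (hz : z ∈ W) (h : P.valuation (rs W z) < 1) :
    (compos W P).valuation z < 1 := by
  rw [apb_lt_iff]
  by_cases hz0 : z = 0
  · exact Or.inl hz0
  right
  rintro ⟨h1, h2⟩
  have h3 : rs W z * rs W z⁻¹ = 1 := by
    rw [← rs_mul hz h1, mul_inv_cancel₀ hz0, rs_one]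
  have h4 := congrArg P.valuation h3
  rw [map_mul, map_one] at h4
  have h5 : P.valuation (rs W z) * P.valuation (rs W z⁻¹) < 1 :=
    lt_of_le_of_lt (mul_le_of_le_one_right' ((P.valuation_le_one_iff _).2 h2)) h
  rw [h4] at h5
  exact lt_irrefl _ h5

theorem apb_compos_lt' {z : K} (hz : W.valuation z < 1) : (compos W P).valuation z < 1 := by
  have h1 : z ∈ W := apb_mem_of_lt hz
  refine apb_compos_lt h1 ?_
  rw [(rs_eq_zero h1).2 hz, map_zero]
  exact zero_lt_one

end compos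

section lim

variable {K : Type*} [Field K]

/-- ultralimit of valuation rings. -/
noncomputable def apbLim (Wn : ℕ → ValuationSubring K) (𝒰 : Ultrafilter ℕ) :
    ValuationSubring K where
  carrier := {z | ∀ᶠ n in (𝒰 : Filter ℕ), z ∈ Wn n}
  mul_mem' := by
    intro x y hx hy
    filter_upwards [hx, hy] with n h1 h2
    exact mul_mem h1 h2
  one_mem' := Eventually.of_forall fun n => one_mem _
  add_mem' := by
    intro x y hx hy
    filter_upwards [hx, hy] with n h1 h2
    exact add_mem h1 h2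
  zero_mem' := Eventually.of_forall fun n => zero_mem _
  neg_mem' := by
    intro x hx
    filter_upwards [hx] with n h1
    exact neg_mem h1
  mem_or_inv_mem' := by
    intro x
    have h1 : ∀ᶠ n in (𝒰 : Filter ℕ), x ∈ Wn n ∨ x⁻¹ ∈ Wn n :=
      Eventually.of_forall fun n => (Wn n).mem_or_inv_mem x
    exact (Ultrafilter.eventually_or).1 h1

theorem apbLim_mem {Wn : ℕ → ValuationSubring K} {𝒰 : Ultrafilter ℕ} {z : K} :
    z ∈ apbLim Wn 𝒰 ↔ ∀ᶠ n in (𝒰 : Filter ℕ), z ∈ Wn n := Iff.rfl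

theorem apbLim_lt {Wn : ℕ → ValuationSubring K} {𝒰 : Ultrafilter ℕ} {z : K}
    (h : ∀ᶠ n in (𝒰 : Filter ℕ), (Wn n).valuation z < 1) :
    (apbLim Wn 𝒰).valuation z < 1 := by
  rw [apb_lt_iff]
  by_cases hz0 : z = 0
  · exact Or.inl hz0
  right
  intro h1
  rw [apbLim_mem] at h1
  obtain ⟨n, h2, h3⟩ := (h.and h1).exists
  exact (apb_lt_iff.1 h2).resolve_left hz0 h3

end lim

section exist

variable {K : Type*} [Field K]

/-- valuation rings centred at the kernel of a specialization. -/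
theorem apb_exists_val {R k' : Type*} [CommRing R] [CommRing k'] [Nontrivial k'] (f : R →+* K)
    (g : R →+* k') (h : ∀ r, f r = 0 → g r = 0) :
    ∃ W : ValuationSubring K, (∀ r, f r ∈ W) ∧ ∀ r, g r = 0 → W.valuation (f r) < 1 := by
  have hprop : (RingHom.ker g).map f.rangeRestrict ≠ ⊤ := by
    intro h1
    rw [Ideal.eq_top_iff_one, Ideal.mem_map_iff_of_surjective _ f.rangeRestrict_surjective] at h1
    obtain ⟨r, hr, hr1⟩ := h1
    have h2 : f r = 1 := congrArg Subtype.val hr1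
    have h3 := h (r - 1) (by rw [map_sub, h2, map_one, sub_self])
    rw [map_sub, (RingHom.mem_ker).1 hr, map_one, zero_sub, neg_eq_zero] at h3
    exact one_ne_zero h3
  obtain ⟨W, hW1, hW2⟩ := exists_val_of_proper f.range _ hprop
  refine ⟨W, fun r => hW1 _ ⟨r, rfl⟩, fun r hr => ?_⟩
  exact hW2 (f.rangeRestrict r) (Ideal.mem_map_of_mem _ ((RingHom.mem_ker).2 hr))

end exist

end Vale.Agent.P019P
end

section

/-!
# Uniform bounds for the residue curves of a pencil
-/

namespace Vale.Agent.P019P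

open Vale.Agent.P019

set_option linter.style.haveILetI false
set_option linter.unusedSectionVars false

open Polynomial Filter

section apdalg

/-- degree of an element satisfying an equation. -/
theorem apd_minpoly {E L : Type*} [Field E] [Field L] [Algebra E L] {x : L} {n : ℕ} {a : ℕ → E}
    (h0 : ∃ i ∈ Finset.range (n + 1), a i ≠ 0)
    (h : ∑ i ∈ Finset.range (n + 1), algebraMap E L (a i) * x ^ i = 0) :
    IsAlgebraic E x ∧ (minpoly E x).natDegree ≤ n := by
  set p : E[X] := ∑ i ∈ Finset.range (n + 1), C (a i) * X ^ i with hp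
  have hcoef : ∀ i ∈ Finset.range (n + 1), p.coeff i = a i := by
    intro i hi
    rw [hp, finsetSum_coeff]
    simp only [coeff_C_mul_X_pow]
    rw [Finset.sum_eq_single i]
    · rw [if_pos rfl]
    · intro j _ hj
      rw [if_neg (Ne.symm hj)]
    · intro hi'
      exact absurd hi hi'
  have hp0 : p ≠ 0 := by
    obtain ⟨i, hi, hai⟩ := h0
    intro h1
    apply hai
    rw [← hcoef i hi, h1, coeff_zero]
  have hpr : aeval x p = 0 := by
    rw [hp, map_sum, ← h]
    refine Finset.sum_congr rfl fun i _ => ?_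
    rw [map_mul, aeval_C, map_pow, aeval_X]
  have hpd : p.natDegree ≤ n := by
    refine natDegree_sum_le_of_forall_le _ _ fun i hi => ?_
    refine (natDegree_C_mul_X_pow_le _ _).trans ?_
    have := Finset.mem_range.1 hi
    omega
  refine ⟨⟨p, hp0, hpr⟩, ?_⟩
  exact (natDegree_le_of_dvd (minpoly.dvd E x hpr) hp0).trans hpd

/-- polynomial expressions in a non-constant element. -/
theorem apd_ne_zero {L : Type*} [Field L] {k : Subfield L} (hk : RAC k) {x : L} (hx : x ∉ k)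
    {n : ℕ} {a : ℕ → L} (ha : ∀ i, a i ∈ k) (h0 : ∃ i ∈ Finset.range (n + 1), a i ≠ 0) :
    ∑ i ∈ Finset.range (n + 1), a i * x ^ i ≠ 0 := by
  intro h
  apply hx
  apply hk
  refine (apd_minpoly (E := k) (a := fun i => ⟨a i, ha i⟩) (n := n) ?_ h).1
  obtain ⟨i, hi, hai⟩ := h0
  exact ⟨i, hi, fun h1 => hai (congrArg Subtype.val h1)⟩

theorem apd_deg {L : Type*} [Field L] [PerfectField L] {k : Subfield L} (hk : RAC k) {x y z : L}
    (hx : x ∉ k) (hz : z ∉ k) (htop : adj (adj k x) y = ⊤) {m n : ℕ} {c d : ℕ → ℕ → L}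
    (hc : ∀ i j, c i j ∈ k) (hd : ∀ i j, d i j ∈ k)
    (hc0 : ∃ i ∈ Finset.range (m + 1), ∃ j ∈ Finset.range (m + 1), c i j ≠ 0)
    (hd0 : ∃ i ∈ Finset.range (n + 1), ∃ j ∈ Finset.range (n + 1), d i j ≠ 0)
    (hcr : ∑ i ∈ Finset.range (m + 1), ∑ j ∈ Finset.range (m + 1), c i j * x ^ i * z ^ j = 0)
    (hdr : ∑ i ∈ Finset.range (n + 1), ∑ j ∈ Finset.range (n + 1), d i j * x ^ i * y ^ j = 0) :
    Module.finrank (adj k z) L ≤ m * n := by
  set E : Subfield L := adj k z with hE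
  haveI : PerfectField E := perfect_adj _ _
  -- the degree of `x`
  have h1 : IsAlgebraic E x ∧ (minpoly E x).natDegree ≤ m := by
    have hmem : ∀ i, ∑ j ∈ Finset.range (m + 1), c i j * z ^ j ∈ E := fun i =>
      Subfield.sum_mem _ fun j _ => E.mul_mem (le_adj k z (hc i j)) (E.pow_mem (mem_adj k z) j)
    refine apd_minpoly (n := m) (a := fun i => ⟨_, hmem i⟩) ?_ ?_
    · obtain ⟨i, hi, hij⟩ := hc0
      refine ⟨i, hi, fun h => ?_⟩
      exact apd_ne_zero hk hz (fun j => hc i j) hij (congrArg Subtype.val h)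
    · rw [← hcr]
      refine Finset.sum_congr rfl fun i _ => ?_
      change (∑ j ∈ Finset.range (m + 1), c i j * z ^ j) * x ^ i = _
      rw [Finset.sum_mul]
      refine Finset.sum_congr rfl fun j _ => ?_
      ring
  set L₂ : IntermediateField E L := IntermediateField.adjoin E {x} with hL₂
  haveI hL2alg : Algebra.IsAlgebraic E L₂ :=
    IntermediateField.isAlgebraic_adjoin_simple h1.1.isIntegral
  haveI : PerfectField L₂ := Algebra.IsAlgebraic.perfectField (K := E) (L := L₂)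
  haveI : PerfectField L₂.toSubfield := inferInstanceAs (PerfectField L₂)
  have hf1 : Module.finrank E L₂ ≤ m := by
    rw [hL₂, IntermediateField.adjoin.finrank h1.1.isIntegral]
    exact h1.2
  have hkx : adj k x ≤ L₂.toSubfield := by
    refine adj_le ?_ ?_
    · intro e he
      exact L₂.algebraMap_mem ⟨e, le_adj k z he⟩
    · exact IntermediateField.mem_adjoin_simple_self E x
  have h2 : IsAlgebraic L₂ y ∧ (minpoly L₂ y).natDegree ≤ n := by
    have hmem : ∀ j, ∑ i ∈ Finset.range (n + 1), d i j * x ^ i ∈ L₂ := fun j =>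
      hkx (Subfield.sum_mem _ fun i _ => (adj k x).mul_mem (le_adj k x (hd i j))
        ((adj k x).pow_mem (mem_adj k x) i))
    refine apd_minpoly (n := n) (a := fun i => ⟨_, hmem i⟩) ?_ ?_
    · obtain ⟨i, hi, j, hj, hij⟩ := hd0
      refine ⟨j, hj, fun h => ?_⟩
      exact apd_ne_zero hk hx (fun i => hd i j) ⟨i, hi, hij⟩ (congrArg Subtype.val h)
    · rw [← hdr, Finset.sum_comm]
      refine Finset.sum_congr rfl fun j _ => ?_
      change (∑ i ∈ Finset.range (n + 1), d i j * x ^ i) * y ^ j = _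
      rw [Finset.sum_mul]
  have h3 : IntermediateField.adjoin L₂ {y} = ⊤ := by
    set L₃ : IntermediateField L₂ L := IntermediateField.adjoin L₂ {y} with hL₃
    haveI hL3alg : Algebra.IsAlgebraic L₂ L₃ :=
      IntermediateField.isAlgebraic_adjoin_simple h2.1.isIntegral
    haveI : PerfectField L₃ := Algebra.IsAlgebraic.perfectField (K := L₂) (L := L₃)
    haveI : PerfectField L₃.toSubfield := inferInstanceAs (PerfectField L₃)
    have h4 : adj (adj k x) y ≤ L₃.toSubfield := by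
      refine adj_le ?_ ?_
      · intro e he
        exact L₃.algebraMap_mem ⟨e, hkx he⟩
      · exact IntermediateField.mem_adjoin_simple_self L₂ y
    rw [htop] at h4
    rw [eq_top_iff]
    intro e _
    exact h4 (Subfield.mem_top e)
  have hf2 : Module.finrank L₂ L ≤ n := by
    have h4 := IntermediateField.adjoin.finrank h2.1.isIntegral
    rw [h3, IntermediateField.finrank_top'] at h4
    rw [h4]
    exact h2.2
  rw [← Module.finrank_mul_finrank E L₂ L]
  exact Nat.mul_le_mul hf1 hf2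

end apdalg

section apdrel

variable {K : Type*} [Field K]

theorem apd_mvp {k : Subfield K} {t s w : K} (hw : IsAlgebraic (adj (adj k s) t) w) :
    ∃ p : MvPolynomial (Fin 3) k, p ≠ 0 ∧
      ∑ d ∈ p.support, ((p.coeff d : k) : K) * (t ^ d 0 * s ^ d 1 * w ^ d 2) = 0 := by
  have h1 : IsAlgebraic (IntermediateField.adjoin k {t, s}).toSubfield w := by
    set F0 : Subfield K := (IntermediateField.adjoin k {t, s}).toSubfield with hF0
    have hk : k ≤ F0 := fun e he => (IntermediateField.adjoin k {t, s}).algebraMap_mem ⟨e, he⟩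
    have hs : s ∈ F0 := IntermediateField.subset_adjoin k {t, s} (by simp)
    have ht : t ∈ F0 := IntermediateField.subset_adjoin k {t, s} (by simp)
    have h2 : adj k s ≤ pf F0 := pf_mono (Vale.Agent.P019.adj_le hk hs)
    have h3 : adj (adj k s) t ≤ pf F0 := by
      have h4 := pf_mono (Vale.Agent.P019.adj_le h2 (le_pf F0 ht))
      rw [pf_pf] at h4
      exact h4
    exact isAlgebraic_pf.1 (isAlgebraic_mono h3 hw)
  have h2 : IsAlgebraic (Algebra.adjoin k {t, s}) w :=
    IntermediateField.isAlgebraic_adjoin_iff.1 h1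
  by_contra hcon
  push Not at hcon
  have h3 : AlgebraicIndependent k ![t, s, w] := by
    rw [algebraicIndependent_iff]
    intro p hp
    by_contra hp0
    apply hcon p hp0
    rw [MvPolynomial.aeval_def, MvPolynomial.eval₂_eq'] at hp
    rw [← hp]
    refine Finset.sum_congr rfl fun d _ => ?_
    rw [Fin.prod_univ_three]
    rfl
  have h4 := h3.transcendental_adjoin (s := {0, 1}) (i := 2) (by decide)
  apply h4
  have h5 : (![t, s, w] : Fin 3 → K) '' {0, 1} = {t, s} := by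
    rw [Set.image_pair]
    rfl
  rw [h5]
  exact h2

/-- the reduction of an algebraic relation. -/
theorem apd_rel {k : Subfield K} {t s w : K} (hw : IsAlgebraic (adj (adj k s) t) w) :
    ∃ m : ℕ, ∀ᶠ b in ae k, ∀ (W : ValuationSubring K) (hW : TrivOn W k),
      W.valuation (t - b) < 1 → t ∈ W → s ∈ W → w ∈ W →
      ∃ c : ℕ → ℕ → IsLocalRing.ResidueField W, (∀ i j, c i j ∈ bar hW) ∧
        (∃ i ∈ Finset.range (m + 1), ∃ j ∈ Finset.range (m + 1), c i j ≠ 0) ∧
        ∑ i ∈ Finset.range (m + 1), ∑ j ∈ Finset.range (m + 1),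
          c i j * rs W s ^ i * rs W w ^ j = 0 := by
  classical
  obtain ⟨p, hp0, hp⟩ := apd_mvp hw
  set m : ℕ := p.support.sup (fun d => max (d 1) (d 2)) with hm
  have hd1 : ∀ d ∈ p.support, d 1 ∈ Finset.range (m + 1) := fun d hd => by
    have := Finset.le_sup (f := fun d : Fin 3 →₀ ℕ => max (d 1) (d 2)) hd
    rw [Finset.mem_range]
    have h2 : d 1 ≤ max (d 1) (d 2) := le_max_left _ _
    omega
  have hd2 : ∀ d ∈ p.support, d 2 ∈ Finset.range (m + 1) := fun d hd => by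
    have := Finset.le_sup (f := fun d : Fin 3 →₀ ℕ => max (d 1) (d 2)) hd
    rw [Finset.mem_range]
    have h2 : d 2 ≤ max (d 1) (d 2) := le_max_right _ _
    omega
  obtain ⟨e, he⟩ := (MvPolynomial.support_nonempty).2 hp0
  -- the coefficients as polynomials in `t`
  let P : ℕ → ℕ → k[X] := fun i j => ∑ d ∈ p.support with (d 1 = i ∧ d 2 = j),
    C (p.coeff d) * X ^ (d 0)
  have hP : P (e 1) (e 2) ≠ 0 := by
    intro h0
    have h1 := congrArg (fun q => q.coeff (e 0)) h0
    simp only [P, finsetSum_coeff, coeff_C_mul_X_pow, coeff_zero] at h1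
    rw [Finset.sum_eq_single e] at h1
    · rw [if_pos rfl] at h1
      exact (MvPolynomial.mem_support_iff.1 he) h1
    · intro d hd hde
      rw [Finset.mem_filter] at hd
      rw [if_neg]
      intro h2
      apply hde
      ext i
      fin_cases i
      · exact h2.symm
      · exact hd.2.1
      · exact hd.2.2
    · intro h2
      exact absurd (Finset.mem_filter.2 ⟨he, rfl, rfl⟩) h2
  refine ⟨m, ?_⟩
  have hev : ∀ᶠ b in ae k, ∃ hb : b ∈ k, (P (e 1) (e 2)).eval ⟨b, hb⟩ ≠ 0 := by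
    refine frb_ae ?_
    filter_upwards [eval_ne_zero_ae hP] with b hb
    exact ⟨b.2, hb⟩
  filter_upwards [hev] with b hb W hW hlt htW hsW hwW
  obtain ⟨hbk, hb0⟩ := hb
  have hbW : b ∈ W := hW b hbk
  have hres : ∀ q : k, rs W (q : K) = barHom hW q := fun q => rfl
  let c : ℕ → ℕ → k := fun i j => (P i j).eval ⟨b, hbk⟩
  refine ⟨fun i j => rs W (c i j : K), fun i j => rs_mem_bar hW (c i j).2,
    ⟨e 1, hd1 e he, e 2, hd2 e he, ?_⟩, ?_⟩
  · intro h0
    have h1 : barHom hW (c (e 1) (e 2)) = 0 := h0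
    exact hb0 ((map_eq_zero _).1 h1)
  · have hrt : rs W t = rs W b := (rs_eq htW hbW).2 hlt
    have h1 : rs W (∑ d ∈ p.support, ((p.coeff d : k) : K) * (t ^ d 0 * s ^ d 1 * w ^ d 2)) =
        ∑ d ∈ p.support, rs W ((p.coeff d : k) : K) * (rs W b ^ d 0 * rs W s ^ d 1 * rs W w ^ d 2) := by
      have hgen : ∀ S : Finset (Fin 3 →₀ ℕ),
          (∑ d ∈ S, ((p.coeff d : k) : K) * (t ^ d 0 * s ^ d 1 * w ^ d 2)) ∈ W ∧
          rs W (∑ d ∈ S, ((p.coeff d : k) : K) * (t ^ d 0 * s ^ d 1 * w ^ d 2)) =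
          ∑ d ∈ S, rs W ((p.coeff d : k) : K) * (rs W b ^ d 0 * rs W s ^ d 1 * rs W w ^ d 2) := by
        intro S
        induction S using Finset.induction_on with
        | empty =>
          refine ⟨?_, ?_⟩
          · rw [Finset.sum_empty]; exact W.zero_mem
          · rw [Finset.sum_empty, Finset.sum_empty, rs_zero]
        | insert d S hd ih =>
          have hm1 : t ^ d 0 * s ^ d 1 * w ^ d 2 ∈ W :=
            mul_mem (mul_mem (pow_mem htW _) (pow_mem hsW _)) (pow_mem hwW _)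
          have hm2 : ((p.coeff d : k) : K) * (t ^ d 0 * s ^ d 1 * w ^ d 2) ∈ W :=
            mul_mem (hW _ (p.coeff d).2) hm1
          refine ⟨?_, ?_⟩
          · rw [Finset.sum_insert hd]
            exact add_mem hm2 ih.1
          · rw [Finset.sum_insert hd, Finset.sum_insert hd, rs_add hm2 ih.1, ih.2,
              rs_mul (hW _ (p.coeff d).2) hm1,
              rs_mul (mul_mem (pow_mem htW _) (pow_mem hsW _)) (pow_mem hwW _),
              rs_mul (pow_mem htW _) (pow_mem hsW _), rs_pow htW, rs_pow hsW, rs_pow hwW, hrt]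
      exact (hgen _).2
    rw [hp, rs_zero] at h1
    have h2 : ∀ i j, rs W (c i j : K) = ∑ d ∈ p.support,
        if d 1 = i ∧ d 2 = j then rs W ((p.coeff d : k) : K) * rs W b ^ d 0 else 0 := by
      intro i j
      rw [hres]
      simp only [c, P, eval_finsetSum, eval_mul, eval_C, eval_pow, eval_X, map_sum, map_mul,
        map_pow]
      rw [Finset.sum_filter]
      rfl
    rw [h1]
    simp only [h2, Finset.sum_mul]
    rw [Finset.sum_congr rfl fun i _ => Finset.sum_comm, Finset.sum_comm]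
    refine Finset.sum_congr rfl fun d hd => ?_
    rw [Finset.sum_eq_single (d 1), Finset.sum_eq_single (d 2)]
    · rw [if_pos ⟨rfl, rfl⟩]
      ring
    · intro j _ hj
      rw [if_neg (fun h => hj h.2.symm), zero_mul, zero_mul]
    · intro h
      exact absurd (hd2 d hd) h
    · intro i _ hi
      refine Finset.sum_eq_zero fun j _ => ?_
      rw [if_neg (fun h => hi h.1.symm), zero_mul, zero_mul]
    · intro h
      exact absurd (hd1 d hd) h

end apdrel

section apdres

variable {K : Type*} [Field K] [PerfectField K]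

/-- the residue field is generated by the residues of `s` and `θ`. -/
theorem apd_top {k : Subfield K} {W : ValuationSubring K} {π s θ : K}
    (hN : Nice W (adj k s) π θ) (hW : TrivOn W k) :
    adj (adj (bar hW) (rs W s)) (rs W θ) = ⊤ := by
  rw [eq_top_iff, ← bar_adj hW hN.triv]
  intro c _
  obtain ⟨z, hz, rfl⟩ := rs_surj c
  obtain ⟨P, Q, hQ, hPQ⟩ := hN.res z ((W.valuation_le_one_iff z).2 hz)
  have hmem : ∀ R : (adj k s)[X], aeval θ R ∈ W := fun R =>
    aeval_mem hN.mem (fun i => hN.triv _ (R.coeff i).2)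
  have hin : ∀ R : (adj k s)[X], rs W (aeval θ R) ∈ adj (bar hN.triv) (rs W θ) := by
    intro R
    rw [rs_aeval hN.triv hN.mem]
    exact adj0_le_adj _ _ (frp_aeval_mem _ _)
  have h1 : rs W z * rs W (aeval θ Q) = rs W (aeval θ P) := by
    rw [← rs_mul hz (hmem Q), rs_eq (mul_mem hz (hmem Q)) (hmem P)]
    exact hPQ
  have hQ0 : rs W (aeval θ Q) ≠ 0 := (rs_ne_zero (hmem Q)).2 hQ
  rw [eq_div_of_mul_eq hQ0 h1]
  exact Subfield.div_mem _ (hin P) (hin Q)

/-- the residue of `s` is not constant. -/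
theorem apd_notMem {k : Subfield K} {W : ValuationSubring K} {s : K} (hs : ¬ IsAlgebraic k s)
    (hF : TrivOn W (adj k s)) (hW : TrivOn W k) : rs W s ∉ bar hW := by
  intro h
  obtain ⟨e, he, hes⟩ := (mem_bar hW).1 h
  have h1 : e = s := rs_injOn hF (le_adj k s he) (mem_adj k s) hes
  exact hs (isAlgebraic_of_mem (h1 ▸ he))

end apdres

variable {K : Type*} [Field K] [PerfectField K] {ℓ : ℕ} [Fact ℓ.Prime] [NeZero (ℓ : K)]

/-- the residue fields `κ(W)`, `W` over `t = b`, have bounded degree over `k(s)` and over `k(z)`. -/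
theorem Srf.deg_le {k : Subfield K} (hk : IsAlgClosed k) (hfg : FG k (⊤ : Subfield K)) {t s : K}
    (hS : Srf k t s) {z : K} (hz : z ≠ 0) :
    ∃ M : ℕ, ∀ᶠ b in ae k, ∀ W : ValuationSubring K, Over W (adj k s) t b →
      W.valuation z = 1 ∧ ∀ hW : TrivOn W k, rs W z ∉ bar hW →
        Module.finrank (adj (bar hW) (rs W z)) (IsLocalRing.ResidueField W) ≤ M := by
  obtain ⟨θ, hθ⟩ := Frame.nice hS hfg
  obtain ⟨m, hm⟩ := apd_rel (hS.alg z)
  obtain ⟨n, hn⟩ := apd_rel (hS.alg θ)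
  refine ⟨m * n, ?_⟩
  filter_upwards [ae_mono (le_adj k s) hθ, ae_mono (le_adj k s) (Frame.unit hS hz), hm, hn,
    ae_mem k] with b h1 h2 h3 h4 hbk W hO
  have hN := h1 W hO
  have hzv := h2 W hO
  refine ⟨hzv, fun hW hzb => ?_⟩
  have htW : t ∈ W := hO.mem (le_adj k s hbk)
  have hsW : s ∈ W := hO.triv _ (mem_adj k s)
  obtain ⟨c, hc, hc0, hcr⟩ := h3 W hW hO.lt htW hsW (mem_of_val hzv)
  obtain ⟨d, hd, hd0, hdr⟩ := h4 W hW hO.lt htW hsW hN.mem
  haveI : PerfectField (IsLocalRing.ResidueField W) := rs_perfect hW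
  exact apd_deg (RAC_of_isAlgClosed _ (bar_isAlgClosed hW hk)) (apd_notMem hS.ss hO.triv hW) hzb
    (apd_top hN hW) hc hd hc0 hd0 hcr hdr

/-- the genus of the residue fields is bounded. -/
theorem Srf.gen_le {k : Subfield K} (hk : IsAlgClosed k) (hfg : FG k (⊤ : Subfield K)) {t s : K}
    (hS : Srf k t s) :
    ∃ G : ℕ, ∀ᶠ b in ae k, ∀ W : ValuationSubring K, Over W (adj k s) t b →
      ∀ (hW : TrivOn W k) (g : ℕ), CurveRH ℓ (bar hW) g → g ≤ G := by
  obtain ⟨θ, hθ⟩ := Frame.nice hS hfg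
  obtain ⟨n, hn⟩ := apd_rel (hS.alg θ)
  refine ⟨n * n, ?_⟩
  filter_upwards [ae_mono (le_adj k s) hθ, hn, ae_mem k] with b h1 h4 hbk W hO hW g hC
  have hN := h1 W hO
  have htW : t ∈ W := hO.mem (le_adj k s hbk)
  have hsW : s ∈ W := hO.triv _ (mem_adj k s)
  obtain ⟨d, hd, hd0, hdr⟩ := h4 W hW hO.lt htW hsW hN.mem
  exact hC.gb (rs W s) (rs W θ) (apd_notMem hS.ss hO.triv hW) (apd_top hN hW) n n d hd hd0 hdr

end Vale.Agent.P019P
end

section

/-!
# Free subfields
-/

namespace Vale.Agent.P019P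

open Vale.Agent.P019

set_option linter.style.haveILetI false
set_option linter.unusedSectionVars false

open Polynomial Filter

variable {Ω : Type*} [Field Ω]

/-- one step: adjoining a free element keeps linear independence. -/
theorem e4f_step {A N : Subfield Ω} (hN : IsAlgClosed N) (hNA : N ≤ A) {b : Ω}
    (hb : ¬ IsAlgebraic A b) {ι : Type*} [Fintype ι] {p : ι → Ω} (hp : ∀ i, p i ∈ A)
    (hind : ¬ LinearIndependent (rac (adj N b)) p) : ¬ LinearIndependent N p := by
  classical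
  rw [Fintype.not_linearIndependent_iff] at hind ⊢
  obtain ⟨g, hg, i₀, hi₀⟩ := hind
  obtain ⟨P, hPA, -, -, hPB⟩ := exists_one (K := Ω) (Ω := AlgebraicClosure Ω) hN hNA hb
    N.zero_mem
  obtain ⟨j, -, hjmax⟩ := Finset.univ.exists_max_image
    (fun i => P.O.valuation ((g i : rac (adj N b)) : Ω)) ⟨i₀, Finset.mem_univ i₀⟩
  have hj0 : ((g j : rac (adj N b)) : Ω) ≠ 0 := by
    intro h
    have h1 := hjmax i₀ (Finset.mem_univ i₀)
    rw [h, map_zero, le_zero_iff, Valuation.zero_iff] at h1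
    exact hi₀ (Subtype.ext h1)
  have hcO : ∀ i, ((g i : rac (adj N b)) : Ω) / (g j : Ω) ∈ P.O := by
    intro i
    rw [← P.O.valuation_le_one_iff, map_div₀]
    exact div_le_one_of_le₀ (hjmax i (Finset.mem_univ i)) zero_le
  have hcB : ∀ i, ∃ d ∈ N, P.ev (((g i : rac (adj N b)) : Ω) / (g j : Ω)) =
      algebraMap Ω (AlgebraicClosure Ω) d := fun i =>
    hPB _ (hcO i) (mem_rac.1 (Subfield.div_mem _ (g i).2 (g j).2))
  choose d hdN hd using hcB
  refine ⟨fun i => ⟨d i, hdN i⟩, ?_, j, ?_⟩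
  · have h1 : ∑ i, (((g i : rac (adj N b)) : Ω) / (g j : Ω)) * p i = 0 := by
      have h2 : ∑ i, ((g i : rac (adj N b)) : Ω) * p i = 0 := hg
      have h3 : ∑ i, (((g i : rac (adj N b)) : Ω) / (g j : Ω)) * p i =
          (∑ i, ((g i : rac (adj N b)) : Ω) * p i) / (g j : Ω) := by
        rw [Finset.sum_div]
        exact Finset.sum_congr rfl fun i _ => by ring
      rw [h3, h2, zero_div]
    have h4 : ∀ s : Finset ι, (∑ i ∈ s, (((g i : rac (adj N b)) : Ω) / (g j : Ω)) * p i ∈ P.O) ∧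
        P.ev (∑ i ∈ s, (((g i : rac (adj N b)) : Ω) / (g j : Ω)) * p i) =
          algebraMap Ω (AlgebraicClosure Ω) (∑ i ∈ s, d i * p i) := by
      intro s
      induction s using Finset.induction_on with
      | empty => exact ⟨by simp, by simp [P.ev_zero]⟩
      | insert i s his ih =>
        have h5 : (((g i : rac (adj N b)) : Ω) / (g j : Ω)) * p i ∈ P.O :=
          P.O.mul_mem _ _ (hcO i) (hPA _ (hp i)).1
        refine ⟨?_, ?_⟩
        · rw [Finset.sum_insert his]
          exact P.O.add_mem _ _ h5 ih.1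
        · rw [Finset.sum_insert his, Finset.sum_insert his, P.ev_add h5 ih.1, ih.2,
            P.ev_mul (hcO i) (hPA _ (hp i)).1, hd, (hPA _ (hp i)).2, map_add, map_mul]
    have h6 := (h4 Finset.univ).2
    rw [h1, P.ev_zero] at h6
    have h7 : ∑ i, d i * p i = 0 :=
      (map_eq_zero_iff _ (algebraMap Ω (AlgebraicClosure Ω)).injective).1 h6.symm
    exact h7
  · intro h
    have h1 : d j = 0 := congrArg Subtype.val h
    have h2 := hd j
    rw [div_self hj0, P.ev_one, h1, map_zero] at h2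
    exact one_ne_zero h2

/-- free subfields over an algebraically closed one are linearly disjoint. -/
theorem Fre.indep {R P Q : Subfield Ω} (hR : IsAlgClosed R) (hQ : IsAlgClosed Q) (hRP : R ≤ P)
    (hRQ : R ≤ Q) (h : Fre R P Q) {ι : Type*} [Fintype ι] {p : ι → Ω} (hp : ∀ i, p i ∈ P)
    (hind : LinearIndependent R p) : LinearIndependent Q p := by
  classical
  by_contra hcon
  rw [Fintype.not_linearIndependent_iff] at hcon
  obtain ⟨g, hg, i₀, hi₀⟩ := hcon
  have hQR : RAC Q := RAC_of_isAlgClosed Q hQ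
  set T : Finset Ω := Finset.univ.image fun i => (g i : Ω) with hT
  have hTQ : ∀ c ∈ T, c ∈ Q := by
    intro c hc
    obtain ⟨i, -, rfl⟩ := Finset.mem_image.1 hc
    exact (g i).2
  have h0 : ¬ LinearIndependent (rcl R T) p := by
    rw [Fintype.not_linearIndependent_iff]
    refine ⟨fun i => ⟨(g i : Ω), mem_rcl (Finset.mem_image.2 ⟨i, Finset.mem_univ i, rfl⟩)⟩,
      hg, i₀, ?_⟩
    intro h1
    have h2 : ((g i₀ : Q) : Ω) = 0 := congrArg (fun z : rcl R T => (z : Ω)) h1
    exact hi₀ (Subtype.ext h2)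
  refine chain_down (B := Q) (RAC_of_isAlgClosed R hR) (fun N => ¬ LinearIndependent N p)
    ?_ T hTQ h0 hind
  intro S hS b hb hbN hN
  have hNR := rcl_RAC R S
  have hNQ := rcl_le hQR hRQ hS
  have hNc : IsAlgClosed (rcl R S) := isAlgClosed_of_RAC hQ hNR hNQ
  -- independence over `N` from the step over `P ⊔ N`
  exact e4f_step (A := P ⊔ rcl R S) hNc le_sup_right
    (fun h1 => hbN (h _ hNR (le_rcl R S) hNQ b hb h1))
    (fun i => (le_sup_left : P ≤ P ⊔ rcl R S) (hp i)) hN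

/-- `rcl k S` and `rcl k T` are free over `rcl k (S ∩ T)`. -/
theorem rcl_fre [IsAlgClosed Ω] [DecidableEq Ω] {k : Subfield Ω} (hk : IsAlgClosed k)
    {B : Finset Ω} (hB : Indp k B) {S T : Finset Ω} (hS : S ⊆ B) (hT : T ⊆ B) :
    Fre (rcl k (S ∩ T)) (rcl k S) (rcl k T) := by
  intro N hN hlN hNT a ha halg
  have h1 : rcl k S ≤ rcl N (S \ T) := by
    refine rcl_le (rcl_RAC _ _) ((le_rcl k _).trans (hlN.trans (le_rcl _ _))) ?_
    intro c hc
    by_cases hcT : c ∈ T
    · exact le_rcl _ _ (hlN (mem_rcl (Finset.mem_inter.2 ⟨hc, hcT⟩)))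
    · exact mem_rcl (Finset.mem_sdiff.2 ⟨hc, hcT⟩)
  have h2 : a ∈ rcl N (S \ T) :=
    rcl_RAC _ _ a (isAlgebraic_mono (sup_le h1 (le_rcl _ _)) halg)
  have h3 : ∀ X : Finset Ω, X ⊆ S \ T → a ∈ rcl N X → a ∈ N := by
    intro X
    induction X using Finset.induction_on with
    | empty =>
      intro _ h
      rwa [rcl_empty hN] at h
    | insert s X hsX ih =>
      intro hX h
      have hX' : X ⊆ S \ T := fun c hc => hX (Finset.mem_insert_of_mem hc)
      have hs := Finset.mem_sdiff.1 (hX (Finset.mem_insert_self s X))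
      apply ih hX'
      by_contra haX
      rw [rcl_insert] at h
      have h4 : IsAlgebraic (adj (rcl N X) a) s :=
        exchange (fun h5 => haX (rcl_RAC _ _ a h5)) (mem_rac.1 h)
      have h6 : rcl N X ≤ rac (gsp k (T ∪ X)) := by
        refine rcl_le (RAC_rac _) (hNT.trans (rcl_le (RAC_rac _) ?_ ?_)) ?_
        · exact (le_gsp _ _).trans (le_rac _)
        · intro c hc
          exact le_rac _ (mem_gsp (Finset.mem_union_left _ hc))
        · intro c hc
          exact le_rac _ (mem_gsp (Finset.mem_union_right _ hc))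
      have h7 : a ∈ rac (gsp k (T ∪ X)) := by
        refine (rcl_le (RAC_rac _) ?_ ?_ : rcl k T ≤ rac (gsp k (T ∪ X))) ha
        · exact (le_gsp _ _).trans (le_rac _)
        · intro c hc
          exact le_rac _ (mem_gsp (Finset.mem_union_left _ hc))
      have h8 : adj (rcl N X) a ≤ rac (gsp k (T ∪ X)) :=
        (le_rac _).trans (RAC_adj_le (RAC_rac _) h6 h7)
      refine hB (T ∪ X) ?_ s (hS hs.1) ?_ (mem_rac.1 (RAC_rac _ s (isAlgebraic_mono h8 h4)))
      · intro c hc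
        rcases Finset.mem_union.1 hc with hc | hc
        · exact hT hc
        · exact hS (Finset.mem_sdiff.1 (hX' hc)).1
      · intro h9
        rcases Finset.mem_union.1 h9 with h9 | h9
        · exact hs.2 h9
        · exact hsX h9
  exact h3 _ (Finset.Subset.refl _) h2

end Vale.Agent.P019P
end

section

/-!
# A ramification argument
-/

namespace Vale.Agent.P019P

open Vale.Agent.P019

set_option linter.style.haveILetI false
set_option linter.unusedSectionVars false

open Polynomial Filter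

/-- an element `σ` such that infinitely many `σ - c` have the classes of elements of `N` is
algebraic over `N`. -/
theorem ram_alg {κ : Type*} [Field κ] [PerfectField κ] (ℓ : ℕ) [Fact ℓ.Prime] [NeZero (ℓ : κ)]
    {Λ N : Subfield κ} (hΛ : IsAlgClosed Λ) (hfg : FG Λ (⊤ : Subfield κ)) (hΛN : Λ ≤ N) {σ : κ}
    (hinf : {c : κ | c ∈ Λ ∧ ∃ z ∈ N, ∃ h : κ, h ≠ 0 ∧ σ - c = z * h ^ ℓ}.Infinite) :
    IsAlgebraic N σ := by
  classical
  by_contra hσ
  have hN' : N ≤ pf N := le_pf N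
  have hσ' : ¬ IsAlgebraic (pf N) σ := fun h => hσ (isAlgebraic_pf.1 h)
  have hfg' : FG (pf N) (⊤ : Subfield κ) := hfg.mono (hΛN.trans hN') le_top
  have hind : Indp (pf N) {σ} := by
    intro S hS v hv hvS
    rw [Finset.mem_singleton] at hv
    subst hv
    have hS0 : S = ∅ := by
      rcases Finset.subset_singleton_iff.1 hS with h | h
      · exact h
      · exact absurd (by rw [h]; exact Finset.mem_singleton_self _) hvS
    subst hS0
    rw [gsp_empty]
    exact hσ'
  obtain ⟨B, hσB, hB, hBalg⟩ := hind.extend hfg'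
  have hσB' : σ ∈ B := hσB (Finset.mem_singleton_self σ)
  set G := gsp (pf N) (B.erase σ) with hG
  haveI : PerfectField G := gsp_perfect _ _
  have hNG : N ≤ G := hN'.trans (le_gsp _ _)
  have hσG : ¬ IsAlgebraic G σ :=
    hB _ (Finset.erase_subset σ B) σ hσB' (Finset.notMem_erase σ B)
  have halg : ∀ z : κ, IsAlgebraic (adj G σ) z := by
    intro z
    have h1 := hBalg z
    rw [← Finset.insert_erase hσB', gsp_insert] at h1
    exact h1
  obtain ⟨θ, hθ, hθ'⟩ := lemX_gen (hΛN.trans hNG) hfg halg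
  have hae := lemX_unif_ae hσG hθ hθ'
  rw [eventually_cofinite] at hae
  have hbad := hae.image (Subtype.val : G → κ)
  obtain ⟨c, ⟨hcΛ, z, hz, h, hh, hc⟩, hcbad⟩ := (hinf.sdiff hbad).nonempty
  have hcG : c ∈ G := hNG (hΛN hcΛ)
  obtain ⟨W, hW⟩ := exists_over hσG hcG
  have hU : IsUnif W (σ - c) := by
    by_contra hcon
    exact hcbad ⟨⟨c, hcG⟩, fun h1 => hcon (h1 W hW), rfl⟩
  have hz0 : z ≠ 0 := by
    rintro rfl
    exact hU.ne (by rw [hc, zero_mul])
  have h1 : cl ℓ (σ - c) = cl ℓ z := by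
    rw [hc, cl_mul ℓ hz0 (pow_ne_zero _ hh), cl_pow_self, add_zero]
  have h2 : hU.fn ℓ (cl ℓ (σ - c)) = 0 := by
    rw [h1]
    exact hU.fn_unit ℓ z (hW.triv.eq_one (hNG hz) hz0)
  rw [hU.fn_self ℓ] at h2
  exact one_ne_zero h2

end Vale.Agent.P019P
end
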