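import Vale.Agent.P019.MathlibUsed
import Vale.Agent.P019.Bdl.B1

set_option linter.all false

section

/-!
# Linear disjointness and specialization of constants
-/

namespace Vale.Agent.P019

set_option linter.style.haveILetI false

open Polynomial

open scoped TensorProduct

section helpers

variable {K Ω : Type*} [Field K] [Field Ω]

theorem Pl.ev_sum' (P : Pl K Ω) {ι : Type*} (s : Finset ι) (f : ι → K)
    (h : ∀ i ∈ s, f i ∈ P.O) :
    ∑ i ∈ s, f i ∈ P.O ∧ P.ev (∑ i ∈ s, f i) = ∑ i ∈ s, P.ev (f i) := by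
  classical
  induction s using Finset.induction_on with
  | empty => exact ⟨by rw [Finset.sum_empty]; exact P.O.zero_mem, by simp [P.ev_zero]⟩
  | insert a s ha ih =>
    have h1 := ih (fun i hi => h i (Finset.mem_insert_of_mem hi))
    have h2 := h a (Finset.mem_insert_self a s)
    rw [Finset.sum_insert ha, Finset.sum_insert ha]
    exact ⟨P.O.add_mem _ _ h2 h1.1, by rw [P.ev_add h2 h1.1, h1.2]⟩

theorem Pl.U_of_pow (P : Pl K Ω) {x : K} {n : ℕ} (hn : n ≠ 0) (h : P.U (x ^ n)) : P.U x := by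
  rw [P.U_iff] at h ⊢
  rw [map_pow] at h
  rcases lt_trichotomy (P.O.valuation x) 1 with h1 | h1 | h1
  · exact absurd h (pow_lt_one₀ zero_le h1 hn).ne
  · exact h1
  · exact absurd h (one_lt_pow₀ h1 hn).ne'

theorem Pl.inv_of_notMem (P : Pl K Ω) {x : K} (h : x ∉ P.O) : x⁻¹ ∈ P.O ∧ P.ev x⁻¹ = 0 := by
  have h1 : P.O.valuation x⁻¹ < 1 := by
    rw [map_inv₀]
    rw [← P.O.valuation_le_one_iff, not_le] at h
    exact inv_lt_one_of_one_lt₀ h
  exact ⟨P.mem_of_lt h1, P.ev_of_lt h1⟩

theorem Pl.notMem_of_inv (P : Pl K Ω) {x : K} (hx : x ≠ 0) (h : x⁻¹ ∈ P.O)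
    (h' : P.ev x⁻¹ = 0) : x ∉ P.O := by
  intro hO
  have h1 := P.ev_mul hO h
  rw [mul_inv_cancel₀ hx, P.ev_one, h', mul_zero] at h1
  exact one_ne_zero h1

/-- places from graphs. -/
theorem exists_place_graph {C : Type*} [Field C] [IsAlgClosed C] (G : Subring (K × C))
    (hG : IsGr G) : ∃ P : Pl K C, ∀ x c, (x, c) ∈ G → x ∈ P.O ∧ P.ev x = c := by
  let p : G →+* K := (RingHom.fst K C).comp G.subtype
  have hp : Function.Injective p := by
    intro ⟨⟨x, c⟩, hx⟩ ⟨⟨y, d⟩, hy⟩ hxy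
    have hxy' : x = y := hxy
    subst hxy'
    exact Subtype.ext (Prod.ext rfl (hG.unique hx hy))
  let e : G ≃+* p.range := RingEquiv.ofBijective p.rangeRestrict
    ⟨fun a b h => hp (congrArg Subtype.val h), p.rangeRestrict_surjective⟩
  let φ : p.range →+* C := ((RingHom.snd K C).comp G.subtype).comp e.symm.toRingHom
  obtain ⟨O, ψ, h1, h2⟩ := exists_place p.range φ
  refine ⟨⟨O, ψ, h2⟩, ?_⟩
  intro x c hxc
  have hx : x ∈ p.range := ⟨⟨(x, c), hxc⟩, rfl⟩
  obtain ⟨h3, h4⟩ := h1 x hx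
  refine ⟨h3, ?_⟩
  rw [Pl.ev_of_mem _ h3]
  refine h4.trans ?_
  have h5 : e.symm ⟨x, hx⟩ = ⟨(x, c), hxc⟩ := by
    rw [RingEquiv.symm_apply_eq]
    rfl
  change ((e.symm ⟨x, hx⟩ : G) : K × C).2 = c
  rw [h5]

/-- restriction of the values of a place. -/
theorem exists_place_descend [Algebra K Ω] (P0 : Pl K Ω)
    (h : ∀ x ∈ P0.O, ∃ y : K, P0.ev x = algebraMap K Ω y) :
    ∃ P : Pl K K, P.O = P0.O ∧ ∀ x, algebraMap K Ω (P.ev x) = P0.ev x := by
  have hmem : ∀ x : P0.O, P0.ψ x ∈ (algebraMap K Ω).range := by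
    intro x
    obtain ⟨y, hy⟩ := h x x.2
    rw [P0.ev_of_mem x.2] at hy
    exact ⟨y, hy.symm⟩
  let e : K ≃+* (algebraMap K Ω).range := RingEquiv.ofBijective (algebraMap K Ω).rangeRestrict
    ⟨fun a b h => (algebraMap K Ω).injective (congrArg Subtype.val h),
      (algebraMap K Ω).rangeRestrict_surjective⟩
  let ψ : P0.O →+* K := e.symm.toRingHom.comp (P0.ψ.codRestrict (algebraMap K Ω).range hmem)
  have hψ : ∀ x : P0.O, algebraMap K Ω (ψ x) = P0.ψ x := by
    intro x
    have h1 : e (ψ x) = ⟨P0.ψ x, hmem x⟩ := by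
      change e (e.symm _) = _
      rw [RingEquiv.apply_symm_apply]
      rfl
    exact congrArg Subtype.val h1
  let P : Pl K K := ⟨P0.O, ψ, by
    intro x
    rw [← P0.ker, ← hψ]
    exact (map_eq_zero (algebraMap K Ω)).symm⟩
  refine ⟨P, rfl, ?_⟩
  intro x
  by_cases hx : x ∈ P0.O
  · have hx' : x ∈ P.O := hx
    rw [P.ev_of_mem hx', P0.ev_of_mem hx]
    exact hψ ⟨x, hx⟩
  · have hx' : x ∉ P.O := hx
    simp [Pl.ev, hx, hx']

end helpers

namespace Mdl

variable {K : Type*} [Field K] [CharZero K] (M : Mdl K)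

end Mdl

section orth

variable {ℓ : ℕ} {E : Type*} [Field E]

/-- a class is orthogonal to the class of the opposite. -/
theorem orth_neg_self (a : E) : Orth (cl ℓ a) (cl ℓ (-a)) := by
  by_cases ha : a = 0
  · rw [ha, cl_zero]; exact orth_zero_left _
  by_cases ha1 : a = 1
  · rw [ha1, cl_one]; exact orth_zero_left _
  have h1 : (1 : E) - a ≠ 0 := fun h => ha1 (sub_eq_zero.1 h).symm
  have h2 : (1 : E) - a⁻¹ ≠ 0 := by
    intro h
    have h3 := (sub_eq_zero.1 h).symm
    exact ha1 (inv_eq_one.1 h3)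
  have h3 : -a = (1 - a) / (1 - a⁻¹) := by
    rw [eq_div_iff h2]
    field_simp
    ring
  rw [h3, cl_div ℓ h1 h2]
  refine (orth_one_sub a).sub_right ?_
  have h4 := (orth_one_sub (ℓ := ℓ) a⁻¹)
  rw [cl_inv] at h4
  have h5 := h4.neg_left
  rwa [neg_neg] at h5

end orth

namespace Mdl

variable {K : Type*} [Field K] [CharZero K] (M : Mdl K)

/-- data of a specialization to smaller constants. -/
structure SpD (N : Subfield K) (P : Pl K K) : Prop where
  hN : M.Sub N
  id : ∀ x ∈ M.F N, x ∈ P.O ∧ P.ev x = x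
  res : ∀ c ∈ M.k, c ∈ P.O → P.ev c ∈ N
  mem : ∀ x ∈ P.O, P.ev x ∈ M.F N

namespace SpD

variable {M} {N : Subfield K} {P : Pl K K} (D : M.SpD N P)

include D

omit [CharZero K] in
theorem exists_b {z : K} (hz : z ≠ 0) : ∃ b ∈ M.k, b ≠ 0 ∧ P.U (b * z) := by
  obtain ⟨b, hb, hb0, hbU, -⟩ := P.gauss (l := N) (A := M.F N) (B := M.k)
    (Sub.le_F N) D.hN.le (fun a ha => (D.id a ha).1) (by
      intro b hb hbO
      refine ⟨P.ev b, D.res b hb hbO, ?_⟩
      rw [(D.id _ (Sub.le_F N (D.res b hb hbO))).2]) (z := z) (by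
      have h : M.F N ⊔ M.k = ⊤ := by
        rw [eq_top_iff, ← M.sup]
        exact sup_le_sup_right (K0_le N) _
      rw [h]; exact Subfield.mem_top z) hz
  exact ⟨b, hb, hb0, hbU⟩

omit [CharZero K] D in
theorem exists_root (ℓ : ℕ) (hℓ : 0 < ℓ) {b : K} (hb : b ∈ M.k) : ∃ β ∈ M.k, β ^ ℓ = b := by
  haveI := M.ack
  obtain ⟨β, hβ⟩ := IsAlgClosed.exists_pow_nat_eq (⟨b, hb⟩ : M.k) hℓ
  exact ⟨β, β.2, congrArg Subtype.val hβ⟩

variable (ℓ : ℕ)

omit [CharZero K] in
/-- classes of residues do not depend on choices. -/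
theorem cl_ev_eq (hℓ : ℓ ≠ 0) {z z' c w : K} (hU : P.U z) (hU' : P.U z') (hc : c ∈ M.k)
    (h : z = z' * c * w ^ ℓ) :
    cl ℓ (⟨P.ev z, D.mem z hU.1⟩ : M.F N) = cl ℓ (⟨P.ev z', D.mem z' hU'.1⟩ : M.F N) := by
  obtain ⟨β, hβ, rfl⟩ := exists_root ℓ (Nat.pos_of_ne_zero hℓ) hc
  have h1 : (β * w) ^ ℓ = z / z' := by
    rw [h, mul_pow]
    have := hU'.ne_zero
    field_simp
  have h2 : P.U (β * w) := P.U_of_pow hℓ (by rw [h1]; exact hU.div hU')
  have h3 : z = z' * (β * w) ^ ℓ := by rw [h]; ring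
  have h4 : P.ev z = P.ev z' * P.ev (β * w) ^ ℓ := by
    conv_lhs => rw [h3]
    rw [P.ev_mul hU'.1 (pow_mem h2.1 ℓ), P.ev_pow h2.1]
  rw [cl_eq_iff ℓ (by intro h; exact hU.2 (congrArg Subtype.val h))
    (by intro h; exact hU'.2 (congrArg Subtype.val h))]
  refine ⟨⟨P.ev (β * w), D.mem _ h2.1⟩, fun h => h2.2 (congrArg Subtype.val h), ?_⟩
  exact Subtype.ext h4

/-- the specialization map on units. -/
noncomputable def spU (hℓ : ℓ ≠ 0) : Kˣ →* Multiplicative (V ℓ (M.F N)) where
  toFun z := Multiplicative.ofAdd (cl ℓ (⟨P.ev ((D.exists_b z.ne_zero).choose * z),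
    D.mem _ (D.exists_b z.ne_zero).choose_spec.2.2.1⟩ : M.F N))
  map_one' := by
    have h := (D.exists_b (1 : Kˣ).ne_zero).choose_spec
    have hU1 : P.U 1 := P.U_one
    have h1 := D.cl_ev_eq ℓ hℓ h.2.2 hU1 h.1 (w := 1) (by simp)
    rw [h1]
    have h2 : (⟨P.ev 1, D.mem 1 hU1.1⟩ : M.F N) = 1 := Subtype.ext P.ev_one
    rw [h2, cl_one]
    rfl
  map_mul' x y := by
    have hx := (D.exists_b x.ne_zero).choose_spec
    have hy := (D.exists_b y.ne_zero).choose_spec
    have hxy := (D.exists_b (x * y).ne_zero).choose_spec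
    set bx := (D.exists_b x.ne_zero).choose
    set b_y := (D.exists_b y.ne_zero).choose
    set bxy := (D.exists_b (x * y).ne_zero).choose
    have hU := hx.2.2.mul hy.2.2
    have h1 := D.cl_ev_eq ℓ hℓ hxy.2.2 hU
      (M.k.mul_mem hxy.1 (M.k.mul_mem (M.k.inv_mem hx.1) (M.k.inv_mem hy.1))) (w := 1) (by
        have h3 := hx.2.1
        have h4 := hy.2.1
        rw [one_pow, Units.val_mul]
        field_simp)
    rw [h1, ← ofAdd_add]
    have h2 : (⟨P.ev (bx * x * (b_y * y)), D.mem _ hU.1⟩ : M.F N) =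
        ⟨P.ev (bx * x), D.mem _ hx.2.2.1⟩ * ⟨P.ev (b_y * y), D.mem _ hy.2.2.1⟩ :=
      Subtype.ext (P.ev_mul hx.2.2.1 hy.2.2.1)
    rw [h2, cl_mul ℓ (fun h => hx.2.2.2 (congrArg Subtype.val h))
      (fun h => hy.2.2.2 (congrArg Subtype.val h))]

/-- the specialization map on classes. -/
noncomputable def sp (hℓ : ℓ ≠ 0) : V ℓ K →ₗ[ZMod ℓ] V ℓ (M.F N) :=
  AddMonoidHom.toZModLinearMap ℓ
    (MonoidHom.toAdditiveLeft
      (QuotientGroup.lift (powMonoidHom ℓ : Kˣ →* Kˣ).range (D.spU ℓ hℓ) (by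
        rintro _ ⟨y, rfl⟩
        rw [MonoidHom.mem_ker, powMonoidHom_apply, map_pow]
        apply Multiplicative.toAdd.injective
        rw [toAdd_pow, toAdd_one]
        obtain ⟨w, -, hw⟩ := cl_surj ℓ (Multiplicative.toAdd (D.spU ℓ hℓ y))
        rw [← hw, ← cl_pow, cl_pow_self])))

end SpD

variable (ℓ : ℕ) [Fact ℓ.Prime]

omit [CharZero K] in
/-- residues of a simple transcendental extension. -/
theorem residue_adj {P : Pl K K} {N : Subfield K} (hP : ∀ x ∈ N, x ∈ P.O ∧ P.ev x = x) {z : K}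
    (hzO : z ∈ P.O) (hz0 : P.ev z = 0) {x : K} (hx : x ∈ adj N z) (hxO : x ∈ P.O) :
    P.ev x ∈ N := by
  have hev : ∀ p : N[X], aeval z p ∈ P.O ∧ P.ev (aeval z p) = (eval 0 p : N) := by
    intro p
    induction p using Polynomial.induction_on' with
    | add p q hp hq =>
      rw [map_add, eval_add]
      refine ⟨P.O.add_mem _ _ hp.1 hq.1, ?_⟩
      rw [P.ev_add hp.1 hq.1, hp.2, hq.2]
      rfl
    | monomial n a =>
      rw [aeval_monomial]
      have h1 := hP a a.2
      refine ⟨P.O.mul_mem _ _ h1.1 (pow_mem hzO n), ?_⟩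
      change P.ev ((a : K) * z ^ n) = _
      rw [P.ev_mul h1.1 (pow_mem hzO n), P.ev_pow hzO, h1.2, hz0, eval_monomial]
      rcases Nat.eq_zero_or_pos n with hn | hn
      · subst hn; simp
      · rw [zero_pow hn.ne', zero_pow hn.ne', mul_zero, mul_zero]
        rfl
  have hle : adj N z ≤ (IntermediateField.adjoin N {z}).toSubfield := by
    apply adj_le
    · intro y hy
      exact (IntermediateField.adjoin N {z}).algebraMap_mem ⟨y, hy⟩
    · exact IntermediateField.mem_adjoin_simple_self N z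
  have hx' : x ∈ IntermediateField.adjoin N {z} := hle hx
  rw [IntermediateField.mem_adjoin_simple_iff] at hx'
  obtain ⟨r, s, hrs⟩ := hx'
  by_cases hx0 : x = 0
  · rw [hx0, P.ev_zero]; exact N.zero_mem
  have hs0 : aeval z s ≠ 0 := by
    intro h
    rw [h, div_zero] at hrs
    exact hx0 hrs
  have hr0 : aeval z r ≠ 0 := by
    intro h
    rw [h, zero_div] at hrs
    exact hx0 hrs
  have hfac : ∀ p : N[X], aeval z p ≠ 0 → ∃ (n : ℕ) (q : N[X]), aeval z p = z ^ n * aeval z q ∧
      eval 0 q ≠ 0 := by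
    intro p hp
    have hp0 : p ≠ 0 := by
      rintro rfl
      rw [map_zero] at hp
      exact hp rfl
    obtain ⟨q, hq, hq'⟩ := Polynomial.exists_eq_pow_rootMultiplicity_mul_and_not_dvd p hp0 0
    refine ⟨p.rootMultiplicity 0, q, ?_, ?_⟩
    · conv_lhs => rw [hq]
      rw [map_mul, map_pow, map_sub, aeval_X, aeval_C, map_zero, sub_zero]
    · rw [dvd_iff_isRoot] at hq'
      exact hq'
  obtain ⟨a, r', hr, hr'⟩ := hfac r hr0
  obtain ⟨b, s', hs, hs'⟩ := hfac s hs0
  have hUr : P.U (aeval z r') := ⟨(hev r').1, by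
    rw [(hev r').2]
    intro h
    exact hr' (Subtype.ext h)⟩
  have hUs : P.U (aeval z s') := ⟨(hev s').1, by
    rw [(hev s').2]
    intro h
    exact hs' (Subtype.ext h)⟩
  have hzn : z ≠ 0 ∨ (a = 0 ∧ b = 0) := by
    by_cases hz : z = 0
    · right
      subst hz
      constructor
      · by_contra ha
        rw [hr, zero_pow ha, zero_mul] at hr0
        exact hr0 rfl
      · by_contra hb
        rw [hs, zero_pow hb, zero_mul] at hs0
        exact hs0 rfl
    · left; exact hz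
  have hu : P.ev (aeval z r' / aeval z s') ∈ N := by
    rw [P.ev_div hUr.1 hUs, (hev r').2, (hev s').2]
    exact N.div_mem (eval 0 r').2 (eval 0 s').2
  have hs'0 : aeval z s' ≠ 0 := hUs.ne_zero
  rcases le_or_gt b a with hab | hab
  · obtain ⟨n, rfl⟩ := Nat.exists_eq_add_of_le hab
    have h1 : x = z ^ n * (aeval z r' / aeval z s') := by
      rw [hrs, hr, hs]
      rcases hzn with hz | ⟨h1, h2⟩
      · rw [pow_add]
        field_simp
      · have hn : n = 0 := by omega
        subst h2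
        subst hn
        simp
    rw [h1, P.ev_mul (pow_mem hzO n) (hUr.div hUs).1, P.ev_pow hzO, hz0]
    rcases Nat.eq_zero_or_pos n with hn | hn
    · subst hn
      rw [pow_zero, one_mul]
      exact hu
    · rw [zero_pow hn.ne', zero_mul]
      exact N.zero_mem
  · exfalso
    obtain ⟨n, rfl⟩ := Nat.exists_eq_add_of_lt hab
    have hz : z ≠ 0 := by
      rcases hzn with hz | ⟨h1, h2⟩
      · exact hz
      · omega
    have h1 : x * z ^ (n + 1) = aeval z r' / aeval z s' := by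
      rw [hrs, hr, hs]
      field_simp
      ring
    have h2 := (hUr.div hUs).2
    rw [← h1, P.ev_mul hxO (pow_mem hzO _), P.ev_pow hzO, hz0, zero_pow (by omega),
      mul_zero] at h2
    exact h2 rfl

end Mdl

end Vale.Agent.P019
end

section

/-!
# Closed pairs
-/

namespace Vale.Agent.P019

set_option linter.style.haveILetI false

open Polynomial

section ctb

variable {K : Type*} [Field K]

theorem ctb_closure {s : Set K} (hs : s.Countable) : (Subfield.closure s : Set K).Countable := by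
  have h := Subfield.cardinalMk_closure_le_max s
  have h1 : Cardinal.mk s ≤ Cardinal.aleph0 := Cardinal.le_aleph0_iff_set_countable.2 hs
  rw [max_eq_right h1] at h
  exact Cardinal.le_aleph0_iff_set_countable.1 h

theorem ctb_sup {E F : Subfield K} (hE : (E : Set K).Countable) (hF : (F : Set K).Countable) :
    ((E ⊔ F : Subfield K) : Set K).Countable := by
  have h : E ⊔ F ≤ Subfield.closure ((E : Set K) ∪ F) :=
    sup_le (fun x hx => Subfield.subset_closure (Or.inl hx))
      (fun x hx => Subfield.subset_closure (Or.inr hx))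
  exact (ctb_closure (hE.union hF)).mono h

theorem ctb_rac {E : Subfield K} (hE : (E : Set K).Countable) : (rac E : Set K).Countable := by
  haveI : Countable E := hE.to_subtype
  have h := Algebra.IsAlgebraic.cardinalMk_le_max E (algebraicClosure E K)
  have h1 : Cardinal.mk E ≤ Cardinal.aleph0 := Cardinal.mk_le_aleph0
  rw [max_eq_right h1] at h
  exact Cardinal.le_aleph0_iff_set_countable.1 h

/-- a polynomial with coefficients in a subfield witnesses algebraicity. -/
theorem isAlgebraic_of_coeff {E : Subfield K} {z : K} (Q : K[X]) (hQ : Q ≠ 0)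
    (hc : ∀ i, Q.coeff i ∈ E) (hz : Q.eval z = 0) : IsAlgebraic E z := by
  have h1 : Q ∈ lifts E.subtype := by
    rw [lifts_iff_coeff_lifts]
    intro i
    exact ⟨⟨_, hc i⟩, rfl⟩
  obtain ⟨P, hP⟩ := (mem_lifts Q).1 h1
  refine ⟨P, ?_, ?_⟩
  · rintro rfl
    exact hQ (by rw [← hP, Polynomial.map_zero])
  · rw [aeval_def, eval₂_eq_eval_map]
    change eval z (P.map E.subtype) = 0
    rw [hP, hz]

theorem exists_coeff {E : Subfield K} {z : K} (h : IsAlgebraic E z) :
    ∃ Q : K[X], Q ≠ 0 ∧ (∀ i, Q.coeff i ∈ E) ∧ Q.eval z = 0 := by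
  obtain ⟨P, hP, hz⟩ := h
  refine ⟨P.map (algebraMap E K), ?_, ?_, ?_⟩
  · rwa [Ne, Polynomial.map_eq_zero_iff (RingHom.injective _)]
  · intro i
    rw [coeff_map]
    exact (P.coeff i).2
  · rw [← eval₂_eq_eval_map, ← aeval_def, hz]

end ctb

section chain

variable {K : Type*} [Field K]

theorem mem_iSup_chain {N : ℕ → Subfield K} (hN : Monotone N) {z : K} :
    z ∈ (⨆ n, N n) ↔ ∃ n, z ∈ N n :=
  Subfield.mem_iSup_of_directed (hN.directed_le)

theorem finset_chain {N : ℕ → Subfield K} (hN : Monotone N) (S : Finset K)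
    (hS : ∀ s ∈ S, s ∈ (⨆ n, N n)) : ∃ n, ∀ s ∈ S, s ∈ N n := by
  classical
  induction S using Finset.induction_on with
  | empty => exact ⟨0, by simp⟩
  | insert a S _ ih =>
    obtain ⟨n, hn⟩ := ih (fun s hs => hS s (Finset.mem_insert_of_mem hs))
    obtain ⟨m, hm⟩ := (mem_iSup_chain hN).1 (hS a (Finset.mem_insert_self a S))
    refine ⟨max n m, ?_⟩
    intro s hs
    rcases Finset.mem_insert.1 hs with rfl | hs
    · exact hN (le_max_right n m) hm
    · exact hN (le_max_left n m) (hn s hs)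

theorem RAC_iSup {N : ℕ → Subfield K} (hN : Monotone N) (h : ∀ n, RAC (N n)) :
    RAC (⨆ n, N n) := by
  classical
  intro z hz
  obtain ⟨Q, hQ0, hQc, hQz⟩ := exists_coeff hz
  obtain ⟨n, hn⟩ := finset_chain hN (Q.coeffs ∪ {0}) (by
    intro s hs
    rcases Finset.mem_union.1 hs with hs | hs
    · obtain ⟨i, _, hi⟩ := mem_coeffs_iff.1 hs
      rw [hi]; exact hQc i
    · rw [Finset.mem_singleton.1 hs]; exact Subfield.zero_mem _)
  refine (mem_iSup_chain hN).2 ⟨n, h n z (isAlgebraic_of_coeff Q hQ0 ?_ hQz)⟩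
  intro i
  by_cases hi : Q.coeff i = 0
  · rw [hi]; exact Subfield.zero_mem _
  · exact hn _ (Finset.mem_union_left _ (coeff_mem_coeffs hi))

end chain

namespace Mdl

variable {K : Type*} [Field K] (M : Mdl K)

/-- every element comes from a countable field of constants. -/
theorem exists_ctb (z : K) : ∃ S : Set K, S.Countable ∧ (∀ s ∈ S, s ∈ M.k) ∧
    z ∈ M.K0 ⊔ Subfield.closure S := by
  have hz : z ∈ Subfield.closure ((M.K0 : Set K) ∪ M.k) := by
    have h1 : (⊤ : Subfield K) ≤ Subfield.closure ((M.K0 : Set K) ∪ M.k) := by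
      rw [← M.sup]
      exact sup_le (fun x hx => Subfield.subset_closure (Or.inl hx))
        (fun x hx => Subfield.subset_closure (Or.inr hx))
    exact h1 trivial
  induction hz using Subfield.closure_induction with
  | mem x hx =>
    rcases hx with hx | hx
    · exact ⟨∅, Set.countable_empty, by simp, (le_sup_left : M.K0 ≤ _) hx⟩
    · exact ⟨{x}, Set.countable_singleton x, by simpa using hx,
        (le_sup_right : Subfield.closure {x} ≤ M.K0 ⊔ _) (Subfield.subset_closure rfl)⟩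
  | one => exact ⟨∅, Set.countable_empty, by simp, Subfield.one_mem _⟩
  | add x y _ _ hx hy =>
    obtain ⟨S, hS, hSk, hx⟩ := hx
    obtain ⟨T, hT, hTk, hy⟩ := hy
    refine ⟨S ∪ T, hS.union hT, ?_, Subfield.add_mem _ ?_ ?_⟩
    · rintro s (hs | hs)
      exacts [hSk s hs, hTk s hs]
    · exact sup_le_sup_left (Subfield.closure_mono Set.subset_union_left) _ hx
    · exact sup_le_sup_left (Subfield.closure_mono Set.subset_union_right) _ hy
  | neg x _ hx =>
    obtain ⟨S, hS, hSk, hx⟩ := hx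
    exact ⟨S, hS, hSk, Subfield.neg_mem _ hx⟩
  | inv x _ hx =>
    obtain ⟨S, hS, hSk, hx⟩ := hx
    exact ⟨S, hS, hSk, Subfield.inv_mem _ hx⟩
  | mul x y _ _ hx hy =>
    obtain ⟨S, hS, hSk, hx⟩ := hx
    obtain ⟨T, hT, hTk, hy⟩ := hy
    refine ⟨S ∪ T, hS.union hT, ?_, Subfield.mul_mem _ ?_ ?_⟩
    · rintro s (hs | hs)
      exacts [hSk s hs, hTk s hs]
    · exact sup_le_sup_left (Subfield.closure_mono Set.subset_union_left) _ hx
    · exact sup_le_sup_left (Subfield.closure_mono Set.subset_union_right) _ hy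

/-- enlarging a countable field of constants. -/
theorem exists_big (hk : ¬ (M.k : Set K).Countable) {N : Subfield K} (hN : M.Sub N)
    (hc : (N : Set K).Countable) (Z : Set K) (hZ : Z.Countable) :
    ∃ N₂, M.Sub N₂ ∧ (N₂ : Set K).Countable ∧ N ≤ N₂ ∧ (∃ a ∈ N₂, a ∉ N) ∧
      ∀ z ∈ Z, z ∈ M.F N₂ := by
  choose S hS hSk hSz using M.exists_ctb
  obtain ⟨a, hak, haN⟩ : ∃ a ∈ M.k, a ∉ N := by
    by_contra hcon
    push Not at hcon
    exact hk (hc.mono hcon)
  set T : Set K := {a} ∪ ⋃ z ∈ Z, S z with hT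
  have hTc : T.Countable :=
    (Set.countable_singleton a).union (hZ.biUnion (fun z _ => hS z))
  have hTk : Subfield.closure T ≤ M.k := by
    rw [Subfield.closure_le]
    rintro s (hs | hs)
    · rw [Set.mem_singleton_iff.1 hs]; exact hak
    · obtain ⟨z, _, hs⟩ := Set.mem_iUnion₂.1 hs
      exact hSk z s hs
  have h0 : N ≤ rac (N ⊔ Subfield.closure T) := le_sup_left.trans (le_rac _)
  have h1 : Subfield.closure T ≤ rac (N ⊔ Subfield.closure T) := le_sup_right.trans (le_rac _)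
  refine ⟨rac (N ⊔ Subfield.closure T), sub_rac (hN.ge.trans le_sup_left)
    (sup_le hN.le hTk), ctb_rac (ctb_sup hc (ctb_closure hTc)), h0,
    ⟨a, h1 (Subfield.subset_closure (Or.inl rfl)), haN⟩, ?_⟩
  intro z hz
  refine sup_le_sup_left ?_ M.K0 (hSz z)
  refine (Subfield.closure_mono ?_).trans h1
  exact (Set.subset_biUnion_of_mem (u := fun z => S z) hz).trans Set.subset_union_right

variable {M}

end Mdl

section CP

variable {K L : Type*} [Field K] [Field L] {ℓ : ℕ}

/-- closed pairs of countable algebraically closed fields of constants. -/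
structure CP (M : Mdl K) (M' : Mdl L) (Θ : V ℓ K ≃ₗ[ZMod ℓ] V ℓ L) (N : Subfield K)
    (N' : Subfield L) : Prop where
  sub : M.Sub N
  sub' : M'.Sub N'
  ctb : (N : Set K).Countable
  ctb' : (N' : Set L).Countable
  map : ∀ v, v ∈ VS ℓ (M.F N) ↔ Θ v ∈ VS ℓ (M'.F N')
  inf : ∀ S : Finset K, (∀ s ∈ S, s ∈ M.F N) →
    ∃ N₀, M.Sub N₀ ∧ N₀ ≤ N ∧ N₀ ≠ N ∧ (∀ s ∈ S, s ∈ M.F N₀)
  inf' : ∀ S : Finset L, (∀ s ∈ S, s ∈ M'.F N') →
    ∃ N₀, M'.Sub N₀ ∧ N₀ ≤ N' ∧ N₀ ≠ N' ∧ (∀ s ∈ S, s ∈ M'.F N₀)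

/-- the state of the construction. -/
structure St (M : Mdl K) (M' : Mdl L) where
  N : Subfield K
  N' : Subfield L
  sub : M.Sub N
  sub' : M'.Sub N'
  ctb : (N : Set K).Countable
  ctb' : (N' : Set L).Countable

end CP

end Vale.Agent.P019
end

section

/-!
# Intersections of line subspaces
-/

namespace Vale.Agent.P019

open Filter Polynomial

section meet

variable {K : Type*} [Field K] [CharZero K]

end meet

end Vale.Agent.P019
end

section

/-!
# Assembly 1: maximality, the transferred valuations and their triviality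
-/

namespace Vale.Agent.P019

set_option linter.style.haveILetI false

open Polynomial

section consts

variable {K : Type*} [Field K]

theorem asm_pow_eq {k : Subfield K} (hk : IsAlgClosed k) {ℓ : ℕ} (hℓ : 0 < ℓ) {c : K}
    (hc : c ∈ k) : ∃ d ∈ k, d ^ ℓ = c := by
  obtain ⟨d, hd⟩ := IsAlgClosed.exists_pow_nat_eq (⟨c, hc⟩ : k) hℓ
  exact ⟨d, d.2, congrArg Subtype.val hd⟩

theorem cl_const {k : Subfield K} (hk : IsAlgClosed k) {ℓ : ℕ} (hℓ : 0 < ℓ) {c : K}
    (hc : c ∈ k) : cl ℓ c = 0 := by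
  obtain ⟨d, -, rfl⟩ := asm_pow_eq hk hℓ hc
  exact cl_pow_self ℓ d

theorem exists_neg_one {k : Subfield K} (hk : IsAlgClosed k) {ℓ : ℕ} (hℓ : 0 < ℓ) :
    ∃ i : K, i ^ ℓ = -1 := by
  obtain ⟨d, -, h⟩ := asm_pow_eq hk hℓ (k.neg_mem k.one_mem)
  exact ⟨d, h⟩

/-- all nonconstant elements of an algebraic closure of a line generate it. -/
theorem line_swap {k : Subfield K} (hk : RAC k) {x p q : K} (hp : IsAlgebraic (adj k x) p)
    (hpk : p ∉ k) (hq : IsAlgebraic (adj k x) q) : IsAlgebraic (adj k p) q := by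
  have h1 : IsAlgebraic (adj k p) x := exchange (fun h => hpk (hk _ h)) hp
  have h2 : adj k x ≤ rac (adj k p) :=
    adj_le ((le_adj k p).trans (le_rac _)) (mem_rac.2 h1)
  exact isAlgebraic_rac (isAlgebraic_mono h2 hq)

end consts

namespace Mdl

variable {K : Type*} [Field K] [CharZero K] (M : Mdl K)

variable (ℓ : ℕ) [Fact ℓ.Prime]

end Mdl

section WD

variable {K L : Type*} [Field K] [Field L] [CharZero K] [CharZero L] {ℓ : ℕ} [Fact ℓ.Prime]

variable {M : Mdl K} {M' : Mdl L} {Θ : V ℓ K ≃ₗ[ZMod ℓ] V ℓ L} {N : Subfield K} {N' : Subfield L}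
  {t a : K}

end WD

end Vale.Agent.P019
end

section

/-!
# Automorphisms
-/

namespace Vale.Agent.P019

set_option linter.style.haveILetI false

open Polynomial

namespace AutAux

open Cardinal

/-- matching of two supersets of finite families -/
theorem exists_equiv_of_families {A : Type*} {r : ℕ} (y y' : Fin r → A)
    (hy : Function.Injective y) (hy' : Function.Injective y') (t t' : Set A)
    (ht : Set.range y ⊆ t) (ht' : Set.range y' ⊆ t') (h : #t = #t') :
    ∃ e : t ≃ t', ∀ i, (e ⟨y i, ht ⟨i, rfl⟩⟩ : A) = y' i := by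
  classical
  have hr : ∀ z : Fin r → A, Function.Injective z →
      #(Set.range z : Set A) = (r : Cardinal) := by
    intro z hz
    rw [Cardinal.mk_fintype, Set.card_range_of_injective hz, Fintype.card_fin]
  have h1 := hr y hy
  have h1' := hr y' hy'
  have h2 : #(t \ Set.range y : Set A) + #(Set.range y : Set A) = #t :=
    Cardinal.mk_sdiff_add_mk ht
  have h2' : #(t' \ Set.range y' : Set A) + #(Set.range y' : Set A) = #t' :=
    Cardinal.mk_sdiff_add_mk ht'
  have h3 : #(t \ Set.range y : Set A) = #(t' \ Set.range y' : Set A) := by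
    rw [h1] at h2
    rw [h1'] at h2'
    rw [← h2', ← h2] at h
    exact Cardinal.eq_of_add_eq_add_right h Cardinal.natCast_lt_aleph0
  obtain ⟨f⟩ := Cardinal.eq.1 h3
  let g : Set.range y ≃ Set.range y' :=
    (Equiv.ofInjective y hy).symm.trans (Equiv.ofInjective y' hy')
  let e1 : t ≃ (Set.range y : Set A) ⊕ (t \ Set.range y : Set A) :=
    (Equiv.Set.sumDiffSubset ht).symm
  let e2 : t' ≃ (Set.range y' : Set A) ⊕ (t' \ Set.range y' : Set A) :=
    (Equiv.Set.sumDiffSubset ht').symm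
  refine ⟨(e1.trans (Equiv.sumCongr g f)).trans e2.symm, fun i => ?_⟩
  have h4 : e1 ⟨y i, ht ⟨i, rfl⟩⟩ = Sum.inl ⟨y i, ⟨i, rfl⟩⟩ := by
    apply (Equiv.Set.sumDiffSubset ht).injective
    rw [Equiv.apply_symm_apply]
    rfl
  have h5 : g ⟨y i, ⟨i, rfl⟩⟩ = ⟨y' i, ⟨i, rfl⟩⟩ := by
    have h6 : (⟨y i, ⟨i, rfl⟩⟩ : Set.range y) = Equiv.ofInjective y hy i := rfl
    show (Equiv.ofInjective y' hy') ((Equiv.ofInjective y hy).symm _) = _
    rw [h6, Equiv.symm_apply_apply]
    rfl
  rw [Equiv.trans_apply, Equiv.trans_apply, h4, Equiv.sumCongr_apply, Sum.map_inl, h5]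
  rfl

theorem exists_algEquiv_closed {N k : Type*} [Field N] [Field k] [Algebra N k] [IsAlgClosed k]
    {r : ℕ} (y y' : Fin r → k) (hy : AlgebraicIndependent N y) (hy' : AlgebraicIndependent N y') :
    ∃ τ : k ≃ₐ[N] k, ∀ i, τ (y i) = y' i := by
  obtain ⟨t, ht, htb⟩ := exists_isTranscendenceBasis_superset (R := N) hy.to_subtype_range
  obtain ⟨t', ht', htb'⟩ := exists_isTranscendenceBasis_superset (R := N) hy'.to_subtype_range
  obtain ⟨e, he⟩ := exists_equiv_of_families y y' hy.injective hy'.injective t t' ht ht'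
    (htb.cardinalMk_eq htb')
  have htb2 : IsTranscendenceBasis N (fun x : t => ((e x : t') : k)) := by
    have := htb'.comp_equiv e
    exact this
  letI := IsAlgClosed.isAlgClosure_of_transcendence_basis (R := N) (fun x : t => (x : k)) htb
  letI := IsAlgClosed.isAlgClosure_of_transcendence_basis (R := N)
    (fun x : t => ((e x : t') : k)) htb2
  let E : Algebra.adjoin N (Set.range (fun x : t => (x : k))) ≃ₐ[N]
      Algebra.adjoin N (Set.range (fun x : t => ((e x : t') : k))) :=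
    htb.1.aevalEquiv.symm.trans htb2.1.aevalEquiv
  let τ0 : k ≃+* k := IsAlgClosure.equivOfEquiv k k E.toRingEquiv
  have hτ0 : ∀ s, τ0 (algebraMap _ k s) = algebraMap _ k (E s) := fun s =>
    IsAlgClosure.equivOfEquiv_algebraMap k k E.toRingEquiv s
  refine ⟨AlgEquiv.ofRingEquiv (f := τ0) ?_, ?_⟩
  · intro c
    have h1 := hτ0 (algebraMap N _ c)
    rw [AlgEquiv.commutes] at h1
    exact h1
  · intro i
    have h1 : (y i : k) = algebraMap (Algebra.adjoin N (Set.range (fun x : t => (x : k)))) k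
        (htb.1.aevalEquiv (MvPolynomial.X ⟨y i, ht ⟨i, rfl⟩⟩)) := by
      rw [AlgebraicIndependent.algebraMap_aevalEquiv, MvPolynomial.aeval_X]
    show τ0 (y i) = y' i
    rw [h1, hτ0]
    show algebraMap _ k (htb2.1.aevalEquiv (htb.1.aevalEquiv.symm (htb.1.aevalEquiv _))) = _
    rw [AlgEquiv.symm_apply_apply, AlgebraicIndependent.algebraMap_aevalEquiv,
      MvPolynomial.aeval_X, he]


theorem exists_ext_of_inj {A K : Type*} [CommRing A] [Field K] (φ : A →+* K)
    (hφ : Function.Injective φ) (hs : ∀ z : K, ∃ x y, z = φ x / φ y) (h : A ≃+* A) :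
    ∃ σ : K ≃+* K, ∀ a, σ (φ a) = φ (h a) := by
  letI : Algebra A K := φ.toAlgebra
  haveI : FaithfulSMul A K := (faithfulSMul_iff_algebraMap_injective A K).2 hφ
  haveI : IsFractionRing A K := IsFractionRing.of_field A K hs
  exact ⟨IsFractionRing.ringEquivOfRingEquiv h, fun a =>
    IsFractionRing.ringEquivOfRingEquiv_algebraMap h a⟩

open TensorProduct in
theorem tensor_inj {N F k K : Type*} [Field N] [Field F] [Field k] [Field K] [Algebra N F]
    [Algebra N k] [Algebra N K] (f : F →ₐ[N] K) (g : k →ₐ[N] K)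
    (hlin : ∀ (n : ℕ) (b : Fin n → F) (c : Fin n → k), LinearIndependent N b →
      ∑ i, f (b i) * g (c i) = 0 → ∀ i, c i = 0) :
    Function.Injective (Algebra.TensorProduct.productMap f g) := by
  classical
  rw [injective_iff_map_eq_zero]
  intro x hx
  obtain ⟨c, rfl⟩ := TensorProduct.eq_repr_basis_left (Module.Basis.ofVectorSpace N F) x
  set b := Module.Basis.ofVectorSpace N F with hb
  have h1 : c.sum (fun i m => f (b i) * g m) = 0 := by
    rw [← hx, Finsupp.sum, Finsupp.sum, map_sum]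
    refine Finset.sum_congr rfl fun i _ => ?_
    rw [Algebra.TensorProduct.productMap_apply_tmul]
  let e : Fin c.support.card ≃ c.support := c.support.equivFin.symm
  have h2 : ∑ i : Fin c.support.card, f (b (e i)) * g (c (e i)) = 0 := by
    rw [Finsupp.sum, ← Finset.sum_coe_sort] at h1
    rw [← h1]
    exact Equiv.sum_comp e (fun j : c.support => f (b j) * g (c j))
  have h3 := hlin _ (fun i => b (e i)) (fun i => c (e i))
    (b.linearIndependent.comp (fun i => (e i : _)) (Subtype.val_injective.comp e.injective)) h2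
  have h4 : c = 0 := by
    by_contra hne
    obtain ⟨j, hj⟩ := Finsupp.support_nonempty_iff.2 hne
    have h5 := h3 (e.symm ⟨j, hj⟩)
    rw [Equiv.apply_symm_apply] at h5
    exact (Finsupp.mem_support_iff.1 hj) h5
  rw [h4, Finsupp.sum_zero_index]

theorem exists_extension {K : Type*} [Field K] (N F k : Subfield K) (hF : N ≤ F) (hk : N ≤ k)
    (hlin : ∀ (n : ℕ) (g : Fin n → K), (∀ i, g i ∈ F) →
      (∀ c : Fin n → K, (∀ i, c i ∈ N) → ∑ i, c i * g i = 0 → ∀ i, c i = 0) →
      ∀ (c : Fin n → K), (∀ i, c i ∈ k) → ∑ i, c i * g i = 0 → ∀ i, c i = 0)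
    (htop : F ⊔ k = ⊤) (τ : k ≃+* k) (hτ : ∀ c : k, (c : K) ∈ N → τ c = c) :
    ∃ σ : K ≃+* K, (∀ z ∈ F, σ z = z) ∧ ∀ c : k, σ c = τ c := by
  letI : Algebra N F := (Subfield.inclusion hF).toAlgebra
  letI : Algebra N k := (Subfield.inclusion hk).toAlgebra
  let f : F →ₐ[N] K := { F.subtype with commutes' := fun _ => rfl }
  let g : k →ₐ[N] K := { k.subtype with commutes' := fun _ => rfl }
  let τa : k ≃ₐ[N] k := AlgEquiv.ofRingEquiv (f := τ) (fun c => hτ _ c.2)
  have hinj : Function.Injective (Algebra.TensorProduct.productMap f g) := by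
    apply tensor_inj
    intro n b c hb h i
    have h1 := hlin n (fun i => (b i : K)) (fun i => (b i).2) (by
      intro d hd hsum i
      rw [Fintype.linearIndependent_iff] at hb
      have h2 := hb (fun i => ⟨d i, hd i⟩) (by
        apply Subtype.ext
        refine Eq.trans ?_ hsum
        show ((∑ i, (⟨d i, hd i⟩ : N) • b i : F) : K) = _
        rw [AddSubmonoidClass.coe_finsetSum]
        rfl) i
      exact congrArg Subtype.val h2) (fun i => (c i : K)) (fun i => (c i).2) (by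
        rw [← h]
        refine Finset.sum_congr rfl fun i _ => ?_
        exact mul_comm _ _) i
    exact Subtype.ext h1
  have hrange : ∀ z : K, ∃ x y, z = (Algebra.TensorProduct.productMap f g).toRingHom x /
      (Algebra.TensorProduct.productMap f g).toRingHom y := by
    intro z
    have hz : z ∈ Subfield.closure ((F : Set K) ∪ (k : Set K)) := by
      rw [Subfield.closure_union, Subfield.closure_eq, Subfield.closure_eq, htop]
      exact Subfield.mem_top z
    rw [Subfield.mem_closure_iff] at hz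
    obtain ⟨x, hx, y, hy, rfl⟩ := hz
    have hle : Subring.closure ((F : Set K) ∪ (k : Set K)) ≤
        (Algebra.TensorProduct.productMap f g).toRingHom.range := by
      rw [Subring.closure_le]
      rintro w (hw | hw)
      · refine ⟨(⟨w, hw⟩ : F) ⊗ₜ[N] (1 : k), ?_⟩
        show Algebra.TensorProduct.productMap f g _ = w
        rw [Algebra.TensorProduct.productMap_apply_tmul, map_one, mul_one]
        rfl
      · refine ⟨(1 : F) ⊗ₜ[N] (⟨w, hw⟩ : k), ?_⟩
        show Algebra.TensorProduct.productMap f g _ = w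
        rw [Algebra.TensorProduct.productMap_apply_tmul, map_one, one_mul]
        rfl
    obtain ⟨x', hx'⟩ := hle hx
    obtain ⟨y', hy'⟩ := hle hy
    exact ⟨x', y', by rw [hx', hy']⟩
  obtain ⟨σ, hσ⟩ := exists_ext_of_inj (Algebra.TensorProduct.productMap f g).toRingHom hinj hrange
    (Algebra.TensorProduct.congr (AlgEquiv.refl : F ≃ₐ[N] F) τa).toRingEquiv
  refine ⟨σ, ?_, ?_⟩
  · intro z hz
    have h1 := hσ ((⟨z, hz⟩ : F) ⊗ₜ[N] (1 : k))
    have h2 : (Algebra.TensorProduct.productMap f g).toRingHom ((⟨z, hz⟩ : F) ⊗ₜ[N] (1 : k)) =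
        z := by
      show Algebra.TensorProduct.productMap f g _ = z
      rw [Algebra.TensorProduct.productMap_apply_tmul, map_one, mul_one]
      rfl
    have h3 : (Algebra.TensorProduct.congr (AlgEquiv.refl : F ≃ₐ[N] F) τa).toRingEquiv
        ((⟨z, hz⟩ : F) ⊗ₜ[N] (1 : k)) = (⟨z, hz⟩ : F) ⊗ₜ[N] (1 : k) := by
      show Algebra.TensorProduct.congr (AlgEquiv.refl : F ≃ₐ[N] F) τa _ = _
      rw [Algebra.TensorProduct.congr_apply, Algebra.TensorProduct.map_tmul, map_one]
      rfl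
    rw [h3, h2] at h1
    exact h1
  · intro c
    have h1 := hσ ((1 : F) ⊗ₜ[N] c)
    have h2 : ∀ c : k, (Algebra.TensorProduct.productMap f g).toRingHom ((1 : F) ⊗ₜ[N] c) =
        (c : K) := by
      intro c
      show Algebra.TensorProduct.productMap f g _ = _
      rw [Algebra.TensorProduct.productMap_apply_tmul, map_one, one_mul]
      rfl
    have h3 : (Algebra.TensorProduct.congr (AlgEquiv.refl : F ≃ₐ[N] F) τa).toRingEquiv
        ((1 : F) ⊗ₜ[N] c) = (1 : F) ⊗ₜ[N] (τ c) := by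
      show Algebra.TensorProduct.congr (AlgEquiv.refl : F ≃ₐ[N] F) τa _ = _
      rw [Algebra.TensorProduct.congr_apply, Algebra.TensorProduct.map_tmul, map_one]
      rfl
    rw [h3, h2, h2] at h1
    exact h1


end AutAux

namespace Mdl

variable {K : Type*} [Field K] [CharZero K] (M : Mdl K)

end Mdl

end Vale.Agent.P019
end

section

/-!
# Assembly 3: the local field attached to a closed pair
-/

namespace Vale.Agent.P019

set_option linter.style.haveILetI false

open Polynomial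

section localfield

variable {K L : Type*} [Field K] [Field L] [CharZero K] [CharZero L] {ℓ : ℕ} [Fact ℓ.Prime]

variable {M : Mdl K} {M' : Mdl L} {Θ : V ℓ K ≃ₗ[ZMod ℓ] V ℓ L} {N : Subfield K} {N' : Subfield L}

end localfield

end Vale.Agent.P019
end

section
/-!
# Kummer descent
-/

namespace Vale.Agent.P019P

open Vale.Agent.P019

set_option linter.style.haveILetI false

open Polynomial IntermediateField

section span

variable {Ω : Type*} [Field Ω]

/-- a finite Galois extension inside an algebraically closed field containing finitely many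
algebraic elements. -/
theorem exists_galois [IsAlgClosed Ω] (K : Subfield Ω) [PerfectField K] (t : Finset Ω)
    (ht : ∀ b ∈ t, IsAlgebraic K b) :
    ∃ M : IntermediateField K Ω, (∀ b ∈ t, b ∈ M) ∧ FiniteDimensional K M ∧ IsGalois K M ∧
      ∃ R : Set Ω, M = adjoin K R ∧ ∀ r ∈ R, ∃ b ∈ t, aeval r (minpoly K b) = 0 := by
  classical
  let p : K[X] := ∏ b ∈ t, minpoly K b
  have hp : p ≠ 0 := Finset.prod_ne_zero_iff.2 (fun b hb => minpoly.ne_zero (ht b hb).isIntegral)
  haveI hsf : p.IsSplittingField K (adjoin K (p.rootSet Ω)) :=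
    adjoin_rootSet_isSplittingField (IsAlgClosed.splits _)
  refine ⟨adjoin K (p.rootSet Ω), ?_, Polynomial.IsSplittingField.finiteDimensional _ p, ?_,
    p.rootSet Ω, rfl, ?_⟩
  · intro b hb
    apply subset_adjoin
    rw [mem_rootSet]
    refine ⟨hp, ?_⟩
    rw [map_prod]
    exact Finset.prod_eq_zero hb (minpoly.aeval K b)
  · haveI : Normal K (adjoin K (p.rootSet Ω)) := Normal.of_isSplittingField p
    haveI : FiniteDimensional K (adjoin K (p.rootSet Ω)) :=
      Polynomial.IsSplittingField.finiteDimensional _ p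
    exact ⟨⟩
  · intro r hr
    rw [mem_rootSet] at hr
    have h1 := hr.2
    rw [map_prod, Finset.prod_eq_zero_iff] at h1
    exact h1

end span

section kummer

variable {Ω : Type*} [Field Ω]

/-- algebraicity over a smaller subfield is preserved by automorphisms over a bigger one. -/
theorem isAlgebraic_aut {E K : Subfield Ω} (hEK : E ≤ K) {M : IntermediateField K Ω}
    (σ : M ≃ₐ[K] M) {e : M} (he : IsAlgebraic E (e : Ω)) : IsAlgebraic E ((σ e : M) : Ω) := by
  obtain ⟨Q, hQ0, hQ⟩ := he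
  refine ⟨Q, hQ0, ?_⟩
  let Q' : K[X] := Q.map (Subfield.inclusion hEK)
  have key : ∀ y : M, aeval (y : Ω) Q = ((aeval y Q' : M) : Ω) := by
    intro y
    have h1 : ((aeval y Q' : M) : Ω) = aeval (y : Ω) Q' := by
      change M.val (aeval y Q') = aeval (M.val y) Q'
      rw [aeval_algHom_apply]
    rw [h1, aeval_def, aeval_def, eval₂_map]
    rfl
  rw [key] at hQ ⊢
  have h2 : aeval (σ e) Q' = σ (aeval e Q') := by
    rw [← AlgEquiv.coe_toAlgHom, aeval_algHom_apply]
  have h3 : aeval e Q' = 0 := Subtype.ext hQ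
  rw [h2, h3, map_zero]
  rfl

/-- **Kummer descent.** -/
theorem kummer_descent [IsAlgClosed Ω] (ℓ : ℕ) [Fact ℓ.Prime]
    (E K B : Subfield Ω) [PerfectField K] (hEK : E ≤ K) (hac : ∀ z ∈ K, IsAlgebraic E z → z ∈ E)
    (hB : ∀ b ∈ B, IsAlgebraic E b) (ζ : Ω) (hζE : ζ ∈ E) (hζ : IsPrimitiveRoot ζ ℓ)
    {h r : Ω} (hh : h ∈ K) (h0 : h ≠ 0) (hr : r ∈ K ⊔ B) (hrl : r ^ ℓ = h) :
    ∃ e ∈ E, ∃ w ∈ K, h = e * w ^ ℓ := by
  classical
  haveI : NeZero ℓ := ⟨(Fact.out : ℓ.Prime).ne_zero⟩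
  have hBK : ∀ b ∈ B, IsAlgebraic K b := by
    intro b hb
    obtain ⟨Q, hQ0, hQ⟩ := hB b hb
    refine ⟨Q.map (Subfield.inclusion hEK), ?_, ?_⟩
    · rw [Ne, Polynomial.map_eq_zero_iff (RingHom.injective _)]; exact hQ0
    · rw [aeval_def, eval₂_map]; exact hQ
  obtain ⟨t, htB, htr⟩ := Submodule.mem_span_finite_of_mem_span (mem_span_of_mem_sup K B hBK hr)
  obtain ⟨M, htM, hfd, hgal, R, hMR, hR⟩ := exists_galois K t (fun b hb => hBK b (htB hb))
  have hr0 : r ≠ 0 := by
    rintro rfl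
    rw [zero_pow (NeZero.ne ℓ)] at hrl
    exact h0 hrl.symm
  -- `r` in `M`
  have hrM : r ∈ M := by
    have : Submodule.span K (t : Set Ω) ≤ Subalgebra.toSubmodule M.toSubalgebra := by
      rw [Submodule.span_le]
      intro b hb
      exact htM b hb
    exact this htr
  set rM : M := ⟨r, hrM⟩ with hrMdef
  have hrM0 : rM ≠ 0 := fun h' => hr0 (congrArg Subtype.val h')
  -- the character
  have hchar : ∀ σ : M ≃ₐ[K] M, ∃ c : E, c ≠ 0 ∧ σ rM = (algebraMap K M (Subfield.inclusion hEK c)) * rM := by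
    intro σ
    have h1 : (σ rM / rM) ^ ℓ = 1 := by
      have h2 : rM ^ ℓ = algebraMap K M ⟨h, hh⟩ := Subtype.ext hrl
      rw [div_pow, ← map_pow, h2, AlgEquiv.commutes]
      refine div_self ?_
      rw [← h2]; exact pow_ne_zero _ hrM0
    have h2 : (((σ rM / rM : M)) : Ω) ^ ℓ = 1 := by
      have := congrArg (fun x : M => (x : Ω)) h1
      simpa using this
    obtain ⟨i, -, hi⟩ := hζ.eq_pow_of_pow_eq_one h2
    refine ⟨⟨ζ ^ i, pow_mem hζE i⟩, ?_, ?_⟩
    · intro h3
      have : ζ ^ i = 0 := congrArg Subtype.val h3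
      rw [this] at hi
      rw [← hi, zero_pow (NeZero.ne ℓ)] at h2
      exact zero_ne_one h2
    · apply Subtype.ext
      have h3 : ((σ rM : M) : Ω) = ζ ^ i * r := by
        rw [hi]
        have : (((σ rM / rM : M)) : Ω) = ((σ rM : M) : Ω) / r := rfl
        rw [this]
        field_simp
      rw [h3]
      rfl
  choose c hc0 hc using hchar
  -- multiplicativity
  have hcmul : ∀ σ τ : M ≃ₐ[K] M, c (τ * σ) = c τ * c σ := by
    intro σ τ
    have h1 := hc (τ * σ)
    rw [AlgEquiv.mul_apply, hc σ, map_mul, AlgEquiv.commutes, hc τ] at h1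
    have h2 : algebraMap K M (Subfield.inclusion hEK (c (τ * σ))) =
        algebraMap K M (Subfield.inclusion hEK (c τ * c σ)) := by
      apply mul_right_cancel₀ hrM0
      rw [← h1, map_mul, map_mul]
      ring
    have h3 := (algebraMap K M).injective h2
    exact (Subfield.inclusion hEK).injective h3
  -- the projection
  let p : M →ₗ[K] M := ∑ σ : M ≃ₐ[K] M, (Subfield.inclusion hEK (c σ))⁻¹ • σ.toLinearMap
  have hp : ∀ y, p y = ∑ σ : M ≃ₐ[K] M, (Subfield.inclusion hEK (c σ))⁻¹ • σ y := by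
    intro y
    simp [p, LinearMap.sum_apply]
  have hRalg : ∀ r ∈ R, IsAlgebraic E r := by
    intro r hr
    obtain ⟨b, hbt, hb⟩ := hR r hr
    obtain ⟨Q, hQ0, hQ⟩ := hB b (htB hbt)
    refine ⟨Q, hQ0, ?_⟩
    have h1 : minpoly K b ∣ Q.map (Subfield.inclusion hEK) := by
      apply minpoly.dvd
      rw [aeval_def, eval₂_map]
      exact hQ
    obtain ⟨Q', hQ'⟩ := h1
    have h2 : aeval r (Q.map (Subfield.inclusion hEK)) = 0 := by
      rw [hQ', map_mul, hb, zero_mul]
    rw [aeval_def, eval₂_map] at h2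
    exact h2
  -- find `e`
  have hex : ∃ (b : Ω) (hb : b ∈ M), IsAlgebraic E b ∧ p ⟨b, hb⟩ ≠ 0 := by
    by_contra hcon
    push Not at hcon
    have h1 : ∀ y : M, p y = 0 := by
      have h2 : ∀ x ∈ Submodule.span K {y : Ω | y ∈ M ∧ IsAlgebraic E y},
          ∃ hxM : x ∈ M, p ⟨x, hxM⟩ = 0 := by
        intro x hx
        induction hx using Submodule.span_induction with
        | mem x hx => exact ⟨hx.1, hcon x hx.1 hx.2⟩
        | zero => exact ⟨M.zero_mem, map_zero p⟩
        | add x y _ _ hx hy =>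
          obtain ⟨hxM, hx⟩ := hx
          obtain ⟨hyM, hy⟩ := hy
          refine ⟨M.add_mem hxM hyM, ?_⟩
          have := map_add p ⟨x, hxM⟩ ⟨y, hyM⟩
          rw [hx, hy, add_zero] at this
          exact this
        | smul a x _ hx =>
          obtain ⟨hxM, hx⟩ := hx
          refine ⟨M.smul_mem hxM, ?_⟩
          have := map_smul p a ⟨x, hxM⟩
          rw [hx, smul_zero] at this
          exact this
      rintro ⟨y, hy⟩
      refine (h2 y ?_).2
      have h3 : ∀ x ∈ R, IsIntegral K x := by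
        intro x hx
        obtain ⟨b, hbt, hb⟩ := hR x hx
        exact ⟨minpoly K b, minpoly.monic (hBK b (htB hbt)).isIntegral, hb⟩
      have h4 : y ∈ Algebra.adjoin K R := by
        have h5 : (adjoin K R).toSubalgebra = Algebra.adjoin K R :=
          adjoin_toSubalgebra_of_isAlgebraic fun x hx => (h3 x hx).isAlgebraic
        rw [← h5, ← hMR]
        exact hy
      have h6 : R ⊆ M := by
        rw [hMR]
        exact subset_adjoin K R
      rw [← Subalgebra.mem_toSubmodule, Algebra.adjoin_eq_span] at h4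
      refine Submodule.span_mono ?_ h4
      intro x hx
      refine ⟨?_, ?_⟩
      · induction hx using Submonoid.closure_induction with
        | mem x hx => exact h6 hx
        | one => exact M.one_mem
        | mul x y _ _ hx hy => exact M.mul_mem hx hy
      · induction hx using Submonoid.closure_induction with
        | mem x hx => exact hRalg x hx
        | one => exact isAlgebraic_one
        | mul x y _ _ hx hy => exact hx.mul hy
    have h2 := (linearIndependent_monoidHom M M).comp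
      (fun σ : M ≃ₐ[K] M => ((σ : M →+* M) : M →* M)) (fun σ τ h => AlgEquiv.ext fun x =>
        DFunLike.congr_fun h x)
    rw [Fintype.linearIndependent_iff] at h2
    have h3 := h2 (fun σ => algebraMap K M (Subfield.inclusion hEK (c σ))⁻¹) (by
      funext y
      have h4 := h1 y
      rw [hp] at h4
      rw [Finset.sum_apply, Pi.zero_apply, ← h4]
      refine Finset.sum_congr rfl (fun σ _ => ?_)
      rw [Algebra.smul_def]
      rfl) 1
    exact inv_ne_zero (fun h5 => hc0 1 ((map_eq_zero _).1 h5)) ((map_eq_zero _).1 h3)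
  obtain ⟨b, hbM, hbalg, hb⟩ := hex
  set e₀ : M := ⟨b, hbM⟩ with he₀
  set T : M := p e₀ with hT
  have hTtr : ∀ τ : M ≃ₐ[K] M, τ T = algebraMap K M (Subfield.inclusion hEK (c τ)) * T := by
    intro τ
    rw [hT, hp, map_sum, Finset.mul_sum]
    refine Fintype.sum_bijective (fun σ => τ * σ) (Group.mulLeft_bijective τ) _ _ (fun σ => ?_)
    rw [hcmul, Algebra.smul_def, Algebra.smul_def, map_mul, AlgEquiv.commutes,
      AlgEquiv.mul_apply, map_mul, mul_inv, map_mul, ← mul_assoc, ← mul_assoc, ← map_mul,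
      mul_inv_cancel₀, map_one, one_mul]
    intro h2
    exact hc0 τ ((map_eq_zero _).1 h2)
  -- `r / T` is in `K`
  have hw : ∃ w : K, algebraMap K M w = rM / T := by
    have : rM / T ∈ (⊥ : IntermediateField K M) := by
      rw [IsGalois.mem_bot_iff_fixed]
      intro τ
      rw [map_div₀, hTtr, hc, mul_div_mul_left]
      intro h2
      exact hc0 τ ((map_eq_zero _).1 ((map_eq_zero _).1 h2))
    exact IntermediateField.mem_bot.1 this
  have hTl : ∃ w : K, algebraMap K M w = T ^ ℓ := by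
    have : T ^ ℓ ∈ (⊥ : IntermediateField K M) := by
      rw [IsGalois.mem_bot_iff_fixed]
      intro τ
      have h1 : (algebraMap K M (Subfield.inclusion hEK (c τ))) ^ ℓ = 1 := by
        have h2 : rM ^ ℓ = algebraMap K M ⟨h, hh⟩ := Subtype.ext hrl
        have h3 : τ (rM ^ ℓ) = rM ^ ℓ := by rw [h2, AlgEquiv.commutes]
        rw [map_pow, hc, mul_pow] at h3
        exact mul_right_cancel₀ (pow_ne_zero ℓ hrM0) (h3.trans (one_mul _).symm)
      rw [map_pow, hTtr, mul_pow, h1, one_mul]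
    exact IntermediateField.mem_bot.1 this
  obtain ⟨w, hw⟩ := hw
  obtain ⟨e, he⟩ := hTl
  -- `T` algebraic over `E`
  have hTalg : IsAlgebraic E ((T : M) : Ω) := by
    have h1 : ((T : M) : Ω) = ∑ σ : M ≃ₐ[K] M, (((c σ : E) : Ω))⁻¹ * ((σ e₀ : M) : Ω) := by
      rw [hT, hp, ← IntermediateField.coe_val, map_sum]
      refine Finset.sum_congr rfl (fun σ _ => ?_)
      rfl
    rw [h1]
    have h2 : ∀ σ ∈ (Finset.univ : Finset (M ≃ₐ[K] M)),
        (((c σ : E) : Ω))⁻¹ * ((σ e₀ : M) : Ω) ∈ integralClosure E Ω := by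
      intro σ _
      refine Subalgebra.mul_mem _ ?_ ?_
      · have : (((c σ : E) : Ω))⁻¹ = algebraMap E Ω (c σ)⁻¹ := by simp; rfl
        rw [this]
        exact Subalgebra.algebraMap_mem _ _
      · exact (isAlgebraic_aut hEK σ hbalg).isIntegral
    have h3 : (∑ σ : M ≃ₐ[K] M, (((c σ : E) : Ω))⁻¹ * ((σ e₀ : M) : Ω)) ∈ integralClosure E Ω :=
      Subalgebra.sum_mem _ h2
    exact IsIntegral.isAlgebraic h3
  refine ⟨(e : Ω), ?_, (w : Ω), w.2, ?_⟩
  · apply hac _ e.2
    have h1 : (e : Ω) = ((T : M) : Ω) ^ ℓ := congrArg (fun x : M => (x : Ω)) he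
    rw [h1]
    exact hTalg.pow ℓ
  · have h1 : (e : Ω) = ((T : M) : Ω) ^ ℓ := congrArg (fun x : M => (x : Ω)) he
    have h2 : (w : Ω) = r / ((T : M) : Ω) := congrArg (fun x : M => (x : Ω)) hw
    have hT0 : ((T : M) : Ω) ≠ 0 := fun h3 => hb (Subtype.ext h3)
    rw [h1, h2, div_pow, hrl]
    field_simp

end kummer

end Vale.Agent.P019P
end

section

/-!
# Linear disjointness and specialization of constants
-/

namespace Vale.Agent.P019P

open Vale.Agent.P019

set_option linter.style.haveILetI false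

open Polynomial

open scoped TensorProduct

section helpers

variable {K Ω : Type*} [Field K] [Field Ω]

end helpers

namespace Mdl

variable {K : Type*} [Field K] [PerfectField K] (M : Mdl K)

theorem mem_of_mem_F {N : Subfield K} (hN : M.Sub N) {a : K} (ha : a ∈ M.k) (h : a ∈ M.F N) :
    a ∈ N := M.free N hN.rac hN.ge hN.le a ha (isAlgebraic_of_mem h)

/-- S31 the function field over smaller constants is finitely generated over them. -/
theorem fg_F {N : Subfield K} (hN : M.Sub N) : FG N (M.F N) := by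
  obtain ⟨S, hS⟩ := M.fg
  haveI := hN.perfect
  haveI := hN.perfect_F
  refine ⟨S, ?_⟩
  apply le_antisymm
  · refine sup_le ?_ (le_sup_left.trans (le_pf _))
    rw [hS]
    exact pf_mono (sup_le_sup_right hN.ge _)
  · refine pf_le (sup_le (Sub.le_F N) ?_)
    refine le_trans ?_ (K0_le N)
    rw [hS]
    exact le_sup_right.trans (le_pf _)


theorem lin_step {N : Subfield K} (hN : M.Sub N) {z : K} (hz : z ∈ M.k) (hzN : z ∉ N) {n : ℕ}
    (g : Fin n → K) (hg : ∀ i, g i ∈ M.F N)
    (hli : ∀ c : Fin n → K, (∀ i, c i ∈ N) → ∑ i, c i * g i = 0 → ∀ i, c i = 0)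
    (c : Fin n → K) (hc : ∀ i, c i ∈ rac (adj N z)) (h : ∑ i, c i * g i = 0) :
    ∀ i, c i = 0 := by
  by_contra hcon
  push Not at hcon
  obtain ⟨i0, hi0⟩ := hcon
  have hzA : ¬ IsAlgebraic (M.F N) z := fun h => hzN (M.free N hN.rac hN.ge hN.le z hz h)
  obtain ⟨P, hP1, hP2, hP3, hP4⟩ := exists_one (Ω := AlgebraicClosure K) hN.isAlgClosed
    (Sub.le_F N) hzA N.zero_mem
  haveI : Nonempty (Fin n) := ⟨i0⟩
  obtain ⟨j, hj⟩ := Finite.exists_max (fun i => P.O.valuation (c i))
  have hj0 : c j ≠ 0 := by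
    intro h0
    have h1 := hj i0
    simp only [h0, map_zero] at h1
    exact hi0 ((map_eq_zero _).1 (le_antisymm h1 zero_le))
  have hO : ∀ i, c i / c j ∈ P.O := by
    intro i
    rw [← P.O.valuation_le_one_iff, map_div₀]
    exact div_le_one_of_le₀ (hj i) zero_le
  have hr : ∀ i, ∃ d ∈ N, P.ev (c i / c j) = algebraMap K (AlgebraicClosure K) d := by
    intro i
    apply hP4 _ (hO i)
    exact mem_rac.1 ((rac (adj N z)).div_mem (hc i) (hc j))
  choose d hd hd' using hr
  have hs : ∑ i, (c i / c j) * g i = 0 := by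
    have h1 : ∑ i, (c i / c j) * g i = (∑ i, c i * g i) / c j := by
      rw [Finset.sum_div]
      refine Finset.sum_congr rfl (fun i _ => ?_)
      ring
    rw [h1, h, zero_div]
  have hev := (P.ev_sum' Finset.univ (fun i => (c i / c j) * g i)
    (fun i _ => P.O.mul_mem _ _ (hO i) (hP1 _ (hg i)).1)).2
  rw [hs, P.ev_zero] at hev
  have hsum : ∑ i, d i * g i = 0 := by
    apply (algebraMap K (AlgebraicClosure K)).injective
    rw [map_sum, map_zero, hev]
    refine Finset.sum_congr rfl (fun i _ => ?_)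
    rw [P.ev_mul (hO i) (hP1 _ (hg i)).1, hd' i, (hP1 _ (hg i)).2, map_mul]
  have hdj := hli d hd hsum j
  have h2 := hd' j
  rw [div_self hj0, P.ev_one, hdj, map_zero] at h2
  exact one_ne_zero h2

theorem lin_ext {N : Subfield K} (hN : M.Sub N) {n : ℕ} (g : Fin n → K)
    (hg : ∀ i, g i ∈ M.F N)
    (hli : ∀ c : Fin n → K, (∀ i, c i ∈ N) → ∑ i, c i * g i = 0 → ∀ i, c i = 0)
    (T : Finset K) (hT : ∀ c ∈ T, c ∈ M.k) :
    ∃ N' : Subfield K, M.Sub N' ∧ N ≤ N' ∧ (∀ c ∈ T, c ∈ N') ∧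
      ∀ c : Fin n → K, (∀ i, c i ∈ N') → ∑ i, c i * g i = 0 → ∀ i, c i = 0 := by
  classical
  induction T using Finset.induction_on with
  | empty => exact ⟨N, hN, le_rfl, by simp, hli⟩
  | insert a T ha ih =>
    obtain ⟨N', h1, h2, h3, h4⟩ := ih (fun c hc => hT c (Finset.mem_insert_of_mem hc))
    by_cases haN : a ∈ N'
    · refine ⟨N', h1, h2, ?_, h4⟩
      intro c hc
      rcases Finset.mem_insert.1 hc with rfl | hc
      · exact haN
      · exact h3 c hc
    · have hak := hT a (Finset.mem_insert_self a T)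
      refine ⟨rac (adj N' a), sub_rac (h1.ge.trans (le_adj N' a)) (adj_le h1.le hak),
        h2.trans ((le_adj N' a).trans (le_rac _)), ?_, ?_⟩
      · intro c hc
        rcases Finset.mem_insert.1 hc with rfl | hc
        · exact le_rac _ (mem_adj N' _)
        · exact le_rac _ (le_adj N' a (h3 c hc))
      · exact M.lin_step h1 hak haN g (fun i => F_mono h2 (hg i)) h4

/-- S32 linear disjointness. -/
theorem lin_disj {N : Subfield K} (hN : M.Sub N) {n : ℕ} (g : Fin n → K)
    (hg : ∀ i, g i ∈ M.F N)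
    (hli : ∀ c : Fin n → K, (∀ i, c i ∈ N) → ∑ i, c i * g i = 0 → ∀ i, c i = 0)
    (c : Fin n → K) (hc : ∀ i, c i ∈ M.k) (h : ∑ i, c i * g i = 0) : ∀ i, c i = 0 := by
  classical
  obtain ⟨N', h1, h2, h3, h4⟩ := M.lin_ext hN g hg hli (Finset.univ.image c) (by
    intro x hx
    obtain ⟨i, -, rfl⟩ := Finset.mem_image.1 hx
    exact hc i)
  exact h4 c (fun i => h3 _ (Finset.mem_image_of_mem c (Finset.mem_univ i))) h

/-- a specialization of the constants preserves linear relations. -/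
theorem spec_wd {N : Subfield K} (hN : M.Sub N) (P1 : Pl K N)
    (h1 : ∀ c : N, (c : K) ∈ P1.O ∧ P1.ev (c : K) = c) {n : ℕ} :
    ∀ (g c : Fin n → K), (∀ i, g i ∈ M.F N) → (∀ i, c i ∈ M.k ∧ c i ∈ P1.O) →
      ∑ i, c i * g i = 0 → ∑ i, (P1.ev (c i) : K) * g i = 0 := by
  induction n with
  | zero => intro g c _ _ _; simp
  | succ n ih =>
    intro g c hg hc h
    by_cases hall : ∀ i, c i = 0
    · have h2 : ∀ i, (P1.ev (c i) : K) * g i = 0 := by
        intro i
        rw [hall i, P1.ev_zero]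
        simp
      simp [h2]
    · have hex : ∃ d : Fin (n + 1) → K, (∀ i, d i ∈ N) ∧ ∑ i, d i * g i = 0 ∧ ∃ j, d j ≠ 0 := by
        by_contra hcon
        apply hall
        apply M.lin_disj hN g hg _ c (fun i => (hc i).1) h
        intro d hd hs i
        by_contra hi
        exact hcon ⟨d, hd, hs, i, hi⟩
      obtain ⟨d, hd, hds, j, hj⟩ := hex
      let d' : Fin n → N := fun i => ⟨d (j.succAbove i), hd _⟩ / ⟨d j, hd j⟩
      have hd' : ∀ i, ((d' i : N) : K) = d (j.succAbove i) / d j := fun i => rfl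
      rw [Fin.sum_univ_succAbove _ j] at h hds ⊢
      have hgj : g j = - ∑ i, (d' i : K) * g (j.succAbove i) := by
        have h3 : ∑ i, (d' i : K) * g (j.succAbove i) =
            (∑ i, d (j.succAbove i) * g (j.succAbove i)) / d j := by
          rw [Finset.sum_div]
          refine Finset.sum_congr rfl (fun i _ => ?_)
          rw [hd']
          ring
        rw [h3]
        field_simp
        linear_combination hds
      have hcO : ∀ i, c (j.succAbove i) - (d' i : K) * c j ∈ P1.O := by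
        intro i
        exact sub_mem (hc _).2 (P1.O.mul_mem _ _ (h1 (d' i)).1 (hc j).2)
      have h4 := ih (fun i => g (j.succAbove i)) (fun i => c (j.succAbove i) - (d' i : K) * c j)
        (fun i => hg _)
        (fun i => ⟨sub_mem (hc _).1 (M.k.mul_mem (hN.le (d' i).2) (hc j).1), hcO i⟩) (by
          have h5 : ∑ i, (c (j.succAbove i) - (d' i : K) * c j) * g (j.succAbove i) =
              ∑ i, c (j.succAbove i) * g (j.succAbove i) -
                c j * ∑ i, (d' i : K) * g (j.succAbove i) := by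
            rw [Finset.mul_sum, ← Finset.sum_sub_distrib]
            refine Finset.sum_congr rfl (fun i _ => ?_)
            ring
          rw [h5]
          linear_combination h - c j * hgj)
      have h6 : ∀ i, (P1.ev (c (j.succAbove i) - (d' i : K) * c j) : K) =
          (P1.ev (c (j.succAbove i)) : K) - (d' i : K) * (P1.ev (c j) : K) := by
        intro i
        rw [P1.ev_sub (hc _).2 (P1.O.mul_mem _ _ (h1 (d' i)).1 (hc j).2),
          P1.ev_mul (h1 (d' i)).1 (hc j).2, (h1 (d' i)).2]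
        rfl
      simp only [h6] at h4
      have h7 : ∑ i, ((P1.ev (c (j.succAbove i)) : K) - (d' i : K) * (P1.ev (c j) : K)) *
          g (j.succAbove i) = ∑ i, (P1.ev (c (j.succAbove i)) : K) * g (j.succAbove i) -
            (P1.ev (c j) : K) * ∑ i, (d' i : K) * g (j.succAbove i) := by
        rw [Finset.mul_sum, ← Finset.sum_sub_distrib]
        refine Finset.sum_congr rfl (fun i _ => ?_)
        ring
      rw [h7] at h4
      linear_combination h4 + (P1.ev (c j) : K) * hgj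

/-- the graph of a specialization. -/
noncomputable def specGraph (N : Subfield K) (P1 : Pl K N) : Subring (K × AlgebraicClosure K) :=
  Subring.closure {p | ∃ g ∈ M.F N, ∃ c ∈ M.k, c ∈ P1.O ∧
    p = (c * g, algebraMap K (AlgebraicClosure K) ((P1.ev c : K) * g))}

theorem specGraph_mem {N : Subfield K} (P1 : Pl K N) {p : K × AlgebraicClosure K}
    (hp : p ∈ M.specGraph N P1) :
    ∃ (n : ℕ) (g c : Fin n → K), (∀ i, g i ∈ M.F N) ∧ (∀ i, c i ∈ M.k ∧ c i ∈ P1.O) ∧
      p = (∑ i, c i * g i,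
        algebraMap K (AlgebraicClosure K) (∑ i, (P1.ev (c i) : K) * g i)) := by
  unfold specGraph at hp
  rw [Subring.mem_closure_iff] at hp
  induction hp using AddSubgroup.closure_induction with
  | mem x hx =>
    have h1 : ∃ g ∈ M.F N, ∃ c ∈ M.k, c ∈ P1.O ∧
        x = (c * g, algebraMap K (AlgebraicClosure K) ((P1.ev c : K) * g)) := by
      induction hx using Submonoid.closure_induction with
      | mem x hx => exact hx
      | one =>
        refine ⟨1, (M.F N).one_mem, 1, M.k.one_mem, P1.O.one_mem, ?_⟩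
        rw [P1.ev_one]
        simp
        rfl
      | mul x y _ _ hx hy =>
        obtain ⟨g, hg, c, hc, hcO, rfl⟩ := hx
        obtain ⟨g', hg', c', hc', hcO', rfl⟩ := hy
        refine ⟨g * g', (M.F N).mul_mem hg hg', c * c', M.k.mul_mem hc hc',
          P1.O.mul_mem _ _ hcO hcO', ?_⟩
        rw [P1.ev_mul hcO hcO', Prod.mk_mul_mk, ← map_mul]
        refine Prod.ext ?_ ?_
        · change c * g * (c' * g') = c * c' * (g * g')
          ring
        · change algebraMap K _ _ = algebraMap K _ _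
          congr 1
          push_cast
          ring
    obtain ⟨g, hg, c, hc, hcO, rfl⟩ := h1
    exact ⟨1, fun _ => g, fun _ => c, fun _ => hg, fun _ => ⟨hc, hcO⟩, by simp⟩
  | zero => exact ⟨0, fun _ => 0, fun _ => 0, fun i => i.elim0, fun i => i.elim0, by simp; rfl⟩
  | add x y _ _ hx hy =>
    obtain ⟨n, g, c, hg, hc, rfl⟩ := hx
    obtain ⟨m, g', c', hg', hc', rfl⟩ := hy
    refine ⟨n + m, Fin.append g g', Fin.append c c', ?_, ?_, ?_⟩
    · intro i
      refine Fin.addCases (fun i => ?_) (fun i => ?_) i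
      · rw [Fin.append_left]; exact hg i
      · rw [Fin.append_right]; exact hg' i
    · intro i
      refine Fin.addCases (fun i => ?_) (fun i => ?_) i
      · rw [Fin.append_left]; exact hc i
      · rw [Fin.append_right]; exact hc' i
    · rw [Prod.mk_add_mk, ← map_add, Fin.sum_univ_add, Fin.sum_univ_add]
      simp only [Fin.append_left, Fin.append_right]
  | neg x _ hx =>
    obtain ⟨n, g, c, hg, hc, rfl⟩ := hx
    refine ⟨n, fun i => - g i, c, fun i => (M.F N).neg_mem (hg i), hc, ?_⟩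
    simp only [mul_neg, Finset.sum_neg_distrib, map_neg, Prod.neg_mk]

/-- specialization of constants, general form. -/
theorem exists_spec {N : Subfield K} (hN : M.Sub N) (P1 : Pl K N)
    (h1 : ∀ c : N, (c : K) ∈ P1.O ∧ P1.ev (c : K) = c) :
    ∃ P : Pl K K, (∀ x ∈ M.F N, x ∈ P.O ∧ P.ev x = x) ∧ (∀ c ∈ M.k, c ∈ P.O → P.ev c ∈ N) ∧
      (∀ c ∈ M.k, c ∈ P1.O → c ∈ P.O ∧ P.ev c = (P1.ev c : K)) ∧
      (∀ x ∈ P.O, P.ev x ∈ M.F N) := by
  have hGr : IsGr (M.specGraph N P1) := by
    intro c hc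
    obtain ⟨n, g, d, hg, hd, he⟩ := M.specGraph_mem P1 hc
    rw [Prod.mk.injEq] at he
    rw [he.2, M.spec_wd hN P1 h1 g d hg hd he.1.symm, map_zero]
  obtain ⟨P0, hP0⟩ := exists_place_graph _ hGr
  have hF : ∀ x ∈ M.F N, x ∈ P0.O ∧ P0.ev x = algebraMap K (AlgebraicClosure K) x := by
    intro x hx
    apply hP0
    apply Subring.subset_closure
    refine ⟨x, hx, 1, M.k.one_mem, P1.O.one_mem, ?_⟩
    rw [P1.ev_one]
    simp
  have hk : ∀ c ∈ M.k, c ∈ P1.O → c ∈ P0.O ∧
      P0.ev c = algebraMap K (AlgebraicClosure K) (P1.ev c : K) := by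
    intro c hc hcO
    apply hP0
    apply Subring.subset_closure
    refine ⟨1, (M.F N).one_mem, c, hc, hcO, ?_⟩
    simp
  have hk' : ∀ c ∈ M.k, c ∈ P0.O → c ∈ P1.O := by
    intro c hc hcO
    by_contra hcon
    have h2 := P1.inv_of_notMem hcon
    have h3 := hk c⁻¹ (M.k.inv_mem hc) h2.1
    rw [h2.2] at h3
    have hc0 : c ≠ 0 := by
      rintro rfl
      exact hcon P1.O.zero_mem
    exact P0.notMem_of_inv hc0 h3.1 (by rw [h3.2]; simp) hcO
  have hres : ∀ x ∈ P0.O, ∃ y ∈ M.F N, P0.ev x = algebraMap K (AlgebraicClosure K) y := by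
    intro x hx
    by_cases hx0 : x = 0
    · exact ⟨0, (M.F N).zero_mem, by rw [hx0, P0.ev_zero, map_zero]⟩
    obtain ⟨b, hb, hb0, hbU, a, ha, hab⟩ := P0.gauss (l := N) (A := M.F N) (B := M.k)
      (Sub.le_F N) hN.le (fun a ha => (hF a ha).1) (by
        intro b hb hbO
        refine ⟨(P1.ev b : K), (P1.ev b).2, ?_⟩
        rw [(hk b hb (hk' b hb hbO)).2, (hF _ (Sub.le_F N (P1.ev b).2)).2]) (z := x) (by
        have : M.F N ⊔ M.k = ⊤ := by
          rw [eq_top_iff, ← M.sup]
          exact sup_le_sup_right (K0_le N) _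
        rw [this]; exact Subfield.mem_top x) hx0
    by_cases hbO : b ∈ P0.O
    · have h2 := P0.ev_mul hbO hx
      have h3 : P0.ev b ≠ 0 := by
        intro h4
        rw [h4, zero_mul] at h2
        exact hbU.2 h2
      have h4 := (hk b hb (hk' b hb hbO)).2
      refine ⟨a / (P1.ev b : K), (M.F N).div_mem ha (Sub.le_F N (P1.ev b).2), ?_⟩
      rw [map_div₀, ← h4, ← (hF a ha).2, ← hab, h2]
      field_simp
    · have h2 := P0.inv_of_notMem hbO
      refine ⟨0, (M.F N).zero_mem, ?_⟩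
      have h3 : x = b⁻¹ * (b * x) := by field_simp
      rw [h3, P0.ev_mul h2.1 hbU.1, h2.2, zero_mul, map_zero]
  obtain ⟨P, hPO, hPev⟩ := exists_place_descend P0 (fun x hx => by
    obtain ⟨y, -, h⟩ := hres x hx
    exact ⟨y, h⟩)
  have hinj := (algebraMap K (AlgebraicClosure K)).injective
  refine ⟨P, ?_, ?_, ?_, ?_⟩
  · intro x hx
    refine ⟨by rw [hPO]; exact (hF x hx).1, hinj ?_⟩
    rw [hPev, (hF x hx).2]
  · intro c hc hcO
    rw [hPO] at hcO
    have h2 : P.ev c = (P1.ev c : K) := hinj (by rw [hPev, (hk c hc (hk' c hc hcO)).2])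
    rw [h2]
    exact (P1.ev c).2
  · intro c hc hcO
    refine ⟨by rw [hPO]; exact (hk c hc hcO).1, hinj ?_⟩
    rw [hPev, (hk c hc hcO).2]
  · intro x hx
    rw [hPO] at hx
    obtain ⟨y, hy, h⟩ := hres x hx
    have h2 : P.ev x = y := hinj (by rw [hPev, h])
    rw [h2]
    exact hy

/-- S33 specialization of constants. -/
theorem exists_sp {N : Subfield K} (hN : M.Sub N) {z : K} (hz : z ∈ M.k) (hzN : z ∉ N) :
    ∃ P : Pl K K, (∀ x ∈ M.F N, x ∈ P.O ∧ P.ev x = x) ∧ (∀ c ∈ M.k, c ∈ P.O → P.ev c ∈ N) ∧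
      (z ∈ P.O ∧ P.ev z = 0) ∧ (∀ x ∈ P.O, P.ev x ∈ M.F N) := by
  haveI := hN.isAlgClosed
  have hzt : ¬ IsAlgebraic N z := fun h => hzN (hN.rac z h)
  let G : Subring (K × N) :=
    (RingHom.prod (aeval z : N[X] →ₐ[N] K).toRingHom (Polynomial.evalRingHom (0 : N))).range
  have hG : IsGr G := by
    rintro c ⟨p, hp⟩
    rw [RingHom.prod_apply, Prod.mk.injEq] at hp
    have h1 : p = 0 := by
      by_contra hne
      exact hzt ⟨p, hne, hp.1⟩
    rw [← hp.2, h1, map_zero]
  obtain ⟨P1, hP1⟩ := exists_place_graph G hG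
  have h1 : ∀ c : N, (c : K) ∈ P1.O ∧ P1.ev (c : K) = c := by
    intro c
    apply hP1
    refine ⟨C c, ?_⟩
    rw [RingHom.prod_apply]
    refine Prod.ext ?_ ?_
    · change aeval z (C c) = (c : K)
      rw [aeval_C]
      rfl
    · change eval 0 (C c) = c
      rw [eval_C]
  have h2 : z ∈ P1.O ∧ P1.ev z = 0 := by
    apply hP1
    refine ⟨X, ?_⟩
    rw [RingHom.prod_apply]
    refine Prod.ext ?_ ?_
    · change aeval z X = z
      rw [aeval_X]
    · change eval 0 X = 0
      rw [eval_X]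
  obtain ⟨P, hP1', hP2, hP3, hP4⟩ := M.exists_spec hN P1 h1
  refine ⟨P, hP1', hP2, ?_, hP4⟩
  have h3 := hP3 z hz h2.1
  rw [h2.2] at h3
  exact ⟨h3.1, by rw [h3.2]; rfl⟩

/-- S33' specialization of constants, without a chosen constant. -/
theorem exists_sp' {N : Subfield K} (hN : M.Sub N) :
    ∃ P : Pl K K, (∀ x ∈ M.F N, x ∈ P.O ∧ P.ev x = x) ∧ (∀ c ∈ M.k, c ∈ P.O → P.ev c ∈ N) ∧
      (∀ x ∈ P.O, P.ev x ∈ M.F N) := by
  haveI := hN.isAlgClosed
  let G : Subring (K × N) := (RingHom.prod (algebraMap N K) (RingHom.id N)).range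
  have hG : IsGr G := by
    rintro c ⟨p, hp⟩
    rw [RingHom.prod_apply, Prod.mk.injEq] at hp
    have h1 : p = 0 := (algebraMap N K).injective (by rw [hp.1, map_zero])
    rw [← hp.2, h1, map_zero]
  obtain ⟨P1, hP1⟩ := exists_place_graph G hG
  have h1 : ∀ c : N, (c : K) ∈ P1.O ∧ P1.ev (c : K) = c := by
    intro c
    apply hP1
    exact ⟨c, rfl⟩
  obtain ⟨P, hP1', hP2, hP3, hP4⟩ := M.exists_spec hN P1 h1
  exact ⟨P, hP1', hP2, hP4⟩

/-- S34 -/
theorem RAC_F {N : Subfield K} (hN : M.Sub N) : RAC (M.F N) := by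
  obtain ⟨P, hP1, -, hP3⟩ := M.exists_sp' hN
  intro z hz
  have hzO : z ∈ P.O := P.mem_of_isAlgebraic (M.F N) (fun x hx => (hP1 x hx).1) hz
  have he := hP3 z hzO
  by_contra hcon
  have hw0 : z - P.ev z ≠ 0 := by
    intro h
    apply hcon
    rw [sub_eq_zero.1 h]
    exact he
  have hwalg : IsAlgebraic (M.F N) (z - P.ev z) :=
    hz.sub (isAlgebraic_of_mem he)
  have h1 : (z - P.ev z)⁻¹ ∈ P.O :=
    P.mem_of_isAlgebraic (M.F N) (fun x hx => (hP1 x hx).1) hwalg.inv
  have h2 : z - P.ev z ∈ P.O := sub_mem hzO (hP1 _ he).1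
  have h3 : P.ev (z - P.ev z) = 0 := by
    rw [P.ev_sub hzO (hP1 _ he).1, (hP1 _ he).2, sub_self]
  have h4 := P.ev_mul h2 h1
  rw [mul_inv_cancel₀ hw0, P.ev_one, h3, zero_mul] at h4
  exact one_ne_zero h4

end Mdl

section orth

variable {ℓ : ℕ} {E : Type*} [Field E]

end orth

namespace Mdl

variable {K : Type*} [Field K] [PerfectField K] (M : Mdl K)

/-- data of a specialization to smaller constants. -/
structure SpD (N : Subfield K) (P : Pl K K) : Prop where
  hN : M.Sub N
  id : ∀ x ∈ M.F N, x ∈ P.O ∧ P.ev x = x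
  res : ∀ c ∈ M.k, c ∈ P.O → P.ev c ∈ N
  mem : ∀ x ∈ P.O, P.ev x ∈ M.F N

namespace SpD

variable {M} {N : Subfield K} {P : Pl K K} (D : M.SpD N P)

include D

theorem exists_b {z : K} (hz : z ≠ 0) : ∃ b ∈ M.k, b ≠ 0 ∧ P.U (b * z) := by
  obtain ⟨b, hb, hb0, hbU, -⟩ := P.gauss (l := N) (A := M.F N) (B := M.k)
    (Sub.le_F N) D.hN.le (fun a ha => (D.id a ha).1) (by
      intro b hb hbO
      refine ⟨P.ev b, D.res b hb hbO, ?_⟩
      rw [(D.id _ (Sub.le_F N (D.res b hb hbO))).2]) (z := z) (by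
      have h : M.F N ⊔ M.k = ⊤ := by
        rw [eq_top_iff, ← M.sup]
        exact sup_le_sup_right (K0_le N) _
      rw [h]; exact Subfield.mem_top z) hz
  exact ⟨b, hb, hb0, hbU⟩

omit D in
theorem exists_root (ℓ : ℕ) (hℓ : 0 < ℓ) {b : K} (hb : b ∈ M.k) : ∃ β ∈ M.k, β ^ ℓ = b := by
  haveI := M.ack
  obtain ⟨β, hβ⟩ := IsAlgClosed.exists_pow_nat_eq (⟨b, hb⟩ : M.k) hℓ
  exact ⟨β, β.2, congrArg Subtype.val hβ⟩

variable (ℓ : ℕ)

/-- classes of residues do not depend on choices. -/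
theorem cl_ev_eq (hℓ : ℓ ≠ 0) {z z' c w : K} (hU : P.U z) (hU' : P.U z') (hc : c ∈ M.k)
    (h : z = z' * c * w ^ ℓ) :
    cl ℓ (⟨P.ev z, D.mem z hU.1⟩ : M.F N) = cl ℓ (⟨P.ev z', D.mem z' hU'.1⟩ : M.F N) := by
  obtain ⟨β, hβ, rfl⟩ := exists_root ℓ (Nat.pos_of_ne_zero hℓ) hc
  have h1 : (β * w) ^ ℓ = z / z' := by
    rw [h, mul_pow]
    have := hU'.ne_zero
    field_simp
  have h2 : P.U (β * w) := P.U_of_pow hℓ (by rw [h1]; exact hU.div hU')
  have h3 : z = z' * (β * w) ^ ℓ := by rw [h]; ring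
  have h4 : P.ev z = P.ev z' * P.ev (β * w) ^ ℓ := by
    conv_lhs => rw [h3]
    rw [P.ev_mul hU'.1 (pow_mem h2.1 ℓ), P.ev_pow h2.1]
  rw [cl_eq_iff ℓ (by intro h; exact hU.2 (congrArg Subtype.val h))
    (by intro h; exact hU'.2 (congrArg Subtype.val h))]
  refine ⟨⟨P.ev (β * w), D.mem _ h2.1⟩, fun h => h2.2 (congrArg Subtype.val h), ?_⟩
  exact Subtype.ext h4

/-- the specialization map on units. -/
noncomputable def spU (hℓ : ℓ ≠ 0) : Kˣ →* Multiplicative (V ℓ (M.F N)) where
  toFun z := Multiplicative.ofAdd (cl ℓ (⟨P.ev ((D.exists_b z.ne_zero).choose * z),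
    D.mem _ (D.exists_b z.ne_zero).choose_spec.2.2.1⟩ : M.F N))
  map_one' := by
    have h := (D.exists_b (1 : Kˣ).ne_zero).choose_spec
    have hU1 : P.U 1 := P.U_one
    have h1 := D.cl_ev_eq ℓ hℓ h.2.2 hU1 h.1 (w := 1) (by simp)
    rw [h1]
    have h2 : (⟨P.ev 1, D.mem 1 hU1.1⟩ : M.F N) = 1 := Subtype.ext P.ev_one
    rw [h2, cl_one]
    rfl
  map_mul' x y := by
    have hx := (D.exists_b x.ne_zero).choose_spec
    have hy := (D.exists_b y.ne_zero).choose_spec
    have hxy := (D.exists_b (x * y).ne_zero).choose_spec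
    set bx := (D.exists_b x.ne_zero).choose
    set b_y := (D.exists_b y.ne_zero).choose
    set bxy := (D.exists_b (x * y).ne_zero).choose
    have hU := hx.2.2.mul hy.2.2
    have h1 := D.cl_ev_eq ℓ hℓ hxy.2.2 hU
      (M.k.mul_mem hxy.1 (M.k.mul_mem (M.k.inv_mem hx.1) (M.k.inv_mem hy.1))) (w := 1) (by
        have h3 := hx.2.1
        have h4 := hy.2.1
        rw [one_pow, Units.val_mul]
        field_simp)
    rw [h1, ← ofAdd_add]
    have h2 : (⟨P.ev (bx * x * (b_y * y)), D.mem _ hU.1⟩ : M.F N) =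
        ⟨P.ev (bx * x), D.mem _ hx.2.2.1⟩ * ⟨P.ev (b_y * y), D.mem _ hy.2.2.1⟩ :=
      Subtype.ext (P.ev_mul hx.2.2.1 hy.2.2.1)
    rw [h2, cl_mul ℓ (fun h => hx.2.2.2 (congrArg Subtype.val h))
      (fun h => hy.2.2.2 (congrArg Subtype.val h))]

/-- the specialization map on classes. -/
noncomputable def sp (hℓ : ℓ ≠ 0) : V ℓ K →ₗ[ZMod ℓ] V ℓ (M.F N) :=
  AddMonoidHom.toZModLinearMap ℓ
    (MonoidHom.toAdditiveLeft
      (QuotientGroup.lift (powMonoidHom ℓ : Kˣ →* Kˣ).range (D.spU ℓ hℓ) (by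
        rintro _ ⟨y, rfl⟩
        rw [MonoidHom.mem_ker, powMonoidHom_apply, map_pow]
        apply Multiplicative.toAdd.injective
        rw [toAdd_pow, toAdd_one]
        obtain ⟨w, -, hw⟩ := cl_surj ℓ (Multiplicative.toAdd (D.spU ℓ hℓ y))
        rw [← hw, ← cl_pow, cl_pow_self])))

theorem sp_cl (hℓ : ℓ ≠ 0) {z b : K} (hz : z ≠ 0) (hb : b ∈ M.k) (hU : P.U (b * z)) :
    D.sp ℓ hℓ (cl ℓ z) = cl ℓ (⟨P.ev (b * z), D.mem _ hU.1⟩ : M.F N) := by
  have h0 : cl ℓ z = V.mk ℓ (Units.mk0 z hz) := cl_of_ne ℓ hz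
  rw [h0]
  change (D.spU ℓ hℓ (Units.mk0 z hz)).toAdd = _
  have h := (D.exists_b (Units.mk0 z hz).ne_zero).choose_spec
  change cl ℓ (⟨P.ev ((D.exists_b (Units.mk0 z hz).ne_zero).choose * z), _⟩ : M.F N) = _
  have hb0 : b ≠ 0 := by
    rintro rfl
    rw [zero_mul] at hU
    exact hU.ne_zero rfl
  refine D.cl_ev_eq ℓ hℓ h.2.2 hU (M.k.mul_mem h.1 (M.k.inv_mem hb)) (w := 1) ?_
  generalize (D.exists_b (Units.mk0 z hz).ne_zero).choose = b'
  change b' * z = b * z * (b' * b⁻¹) * 1 ^ ℓ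
  rw [one_pow]
  field_simp

theorem sp_cl_self (hℓ : ℓ ≠ 0) {x : K} (hx : x ∈ M.F N) :
    D.sp ℓ hℓ (cl ℓ x) = cl ℓ (⟨x, hx⟩ : M.F N) := by
  by_cases hx0 : x = 0
  · subst hx0
    have h1 : (⟨0, hx⟩ : M.F N) = 0 := rfl
    rw [cl_zero, map_zero, h1, cl_zero]
  have hU : P.U (1 * x) := by
    rw [one_mul]
    exact ⟨(D.id x hx).1, by rw [(D.id x hx).2]; exact hx0⟩
  rw [D.sp_cl ℓ hℓ hx0 M.k.one_mem hU]
  congr 1
  apply Subtype.ext
  change P.ev (1 * x) = x
  rw [one_mul, (D.id x hx).2]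

theorem sp_orth_one_sub (hℓ : ℓ ≠ 0) {x y : K} (hx : x ≠ 0) (hy : y ≠ 0) (hxy : x + y = 1) :
    Orth (D.sp ℓ hℓ (cl ℓ x)) (D.sp ℓ hℓ (cl ℓ y)) := by
  have key : ∀ z : K, z ≠ 0 → ∀ h : z ∈ P.O, P.ev z = 1 → D.sp ℓ hℓ (cl ℓ z) = 0 := by
    intro z hz hzO hz1
    have hU : P.U (1 * z) := by
      rw [one_mul]
      exact ⟨hzO, by rw [hz1]; exact one_ne_zero⟩
    rw [D.sp_cl ℓ hℓ hz M.k.one_mem hU]
    have h2 : (⟨P.ev (1 * z), D.mem _ hU.1⟩ : M.F N) = 1 := Subtype.ext (by
      change P.ev (1 * z) = 1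
      rw [one_mul, hz1])
    rw [h2, cl_one]
  by_cases hxO : x ∈ P.O
  · have hyO : y ∈ P.O := by
      have : y = 1 - x := by rw [← hxy]; ring
      rw [this]
      exact sub_mem P.O.one_mem hxO
    have hs : P.ev x + P.ev y = 1 := by rw [← P.ev_add hxO hyO, hxy, P.ev_one]
    by_cases hx1 : P.ev x = 0
    · rw [key y hy hyO (by rw [← hs, hx1, zero_add])]
      exact orth_zero_right _
    by_cases hy1 : P.ev y = 0
    · rw [key x hx hxO (by rw [← hs, hy1, add_zero])]
      exact orth_zero_left _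
    have hUx : P.U (1 * x) := by rw [one_mul]; exact ⟨hxO, hx1⟩
    have hUy : P.U (1 * y) := by rw [one_mul]; exact ⟨hyO, hy1⟩
    rw [D.sp_cl ℓ hℓ hx M.k.one_mem hUx, D.sp_cl ℓ hℓ hy M.k.one_mem hUy]
    have h3 : (⟨P.ev (1 * y), D.mem _ hUy.1⟩ : M.F N) = 1 - ⟨P.ev (1 * x), D.mem _ hUx.1⟩ :=
      Subtype.ext (by
        change P.ev (1 * y) = 1 - P.ev (1 * x)
        rw [one_mul, one_mul, ← hs]
        ring)
    rw [h3]
    exact orth_one_sub _
  · obtain ⟨b, hb, hb0, hU⟩ := D.exists_b hx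
    have hxi := P.inv_of_notMem hxO
    have hbe : b = x⁻¹ * (b * x) := by field_simp
    have hbO : b ∈ P.O := by rw [hbe]; exact P.O.mul_mem _ _ hxi.1 hU.1
    have hb1 : P.ev b = 0 := by rw [hbe, P.ev_mul hxi.1 hU.1, hxi.2, zero_mul]
    have hye : b * y = b - b * x := by
      have : y = 1 - x := by rw [← hxy]; ring
      rw [this]; ring
    have hyv : P.ev (b * y) = - P.ev (b * x) := by
      rw [hye, P.ev_sub hbO hU.1, hb1, zero_sub]
    have hUy : P.U (b * y) := by
      refine ⟨by rw [hye]; exact sub_mem hbO hU.1, ?_⟩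
      rw [hyv]
      exact neg_ne_zero.2 hU.2
    rw [D.sp_cl ℓ hℓ hx hb hU, D.sp_cl ℓ hℓ hy hb hUy]
    have h3 : (⟨P.ev (b * y), D.mem _ hUy.1⟩ : M.F N) = - ⟨P.ev (b * x), D.mem _ hU.1⟩ :=
      Subtype.ext hyv
    rw [h3]
    exact orth_neg_self _

theorem sp_orth (hℓ : ℓ ≠ 0) {u w : V ℓ K} (h : Orth u w) :
    Orth (D.sp ℓ hℓ u) (D.sp ℓ hℓ w) := by
  have h1 : R ℓ K ≤ (R ℓ (M.F N)).comap (TensorProduct.map (D.sp ℓ hℓ) (D.sp ℓ hℓ)) := by
    unfold R
    rw [Submodule.span_le]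
    rintro _ ⟨x, y, hxy, rfl⟩
    rw [SetLike.mem_coe, Submodule.mem_comap, TensorProduct.map_tmul]
    have h2 := D.sp_orth_one_sub ℓ hℓ x.ne_zero y.ne_zero hxy
    rw [cl_unit, cl_unit] at h2
    exact h2
  have h2 := h1 h
  rw [Submodule.mem_comap, TensorProduct.map_tmul] at h2
  exact h2

end SpD

variable (ℓ : ℕ) [Fact ℓ.Prime] [NeZero (ℓ : K)]

/-- S35 orthogonality descends to smaller constants. -/
theorem orth_descent {N : Subfield K} (hN : M.Sub N) {x y : K} (hx : x ∈ M.F N)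
    (hy : y ∈ M.F N) (h : Orth (cl ℓ x) (cl ℓ y)) :
    Orth (cl ℓ (⟨x, hx⟩ : M.F N)) (cl ℓ (⟨y, hy⟩ : M.F N)) := by
  obtain ⟨P, hP1, hP2, hP3⟩ := M.exists_sp' hN
  have D : M.SpD N P := ⟨hN, hP1, hP2, hP3⟩
  have hℓ : ℓ ≠ 0 := (Fact.out : ℓ.Prime).ne_zero
  have h1 := D.sp_orth ℓ hℓ h
  rwa [D.sp_cl_self ℓ hℓ hx, D.sp_cl_self ℓ hℓ hy] at h1

/-- residues of a simple transcendental extension. -/
theorem residue_adj {P : Pl K K} {N : Subfield K} [PerfectField N] (hP : ∀ x ∈ N, x ∈ P.O ∧ P.ev x = x) {z : K}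
    (hzO : z ∈ P.O) (hz0 : P.ev z = 0) {x : K} (hx : x ∈ adj N z) (hxO : x ∈ P.O) :
    P.ev x ∈ N := by
  obtain ⟨n, hn⟩ := mem_adj_iff.1 hx
  have h1 := Vale.Agent.P019.Mdl.residue_adj hP hzO hz0 hn (pow_mem hxO _)
  rw [P.ev_pow hxO] at h1
  exact mem_of_pow_q h1


/-- S36 -/
theorem VS_inter {N₁ N₂ : Subfield K} (h1 : M.Sub N₁) (h2 : M.Sub N₂) (h12 : N₁ ≤ N₂) {z : K}
    (hz : z ∈ M.k) (hz2 : z ∉ N₂) {u : V ℓ K} (hu2 : u ∈ VS ℓ (M.F N₂))
    (hu1 : u ∈ VS ℓ (M.F (rac (adj N₁ z)))) : u ∈ VS ℓ (M.F N₁) := by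
  haveI := h1.perfect
  have hℓ : ℓ ≠ 0 := (Fact.out : ℓ.Prime).ne_zero
  obtain ⟨P, hP1, hP2, ⟨hzO, hz0⟩, hP3⟩ := M.exists_sp h2 hz hz2
  obtain ⟨g2, hg2, hg20, rfl⟩ := hu2
  obtain ⟨g1, hg1, hg10, he⟩ := hu1
  obtain ⟨h, hh0, hh⟩ := (cl_eq_iff ℓ hg10 hg20).1 he.symm
  have hBk : rac (adj N₁ z) ≤ M.k := M.RAC_k.le (adj_le h1.le hz)
  have hN1 : ∀ x ∈ N₁, x ∈ P.O ∧ P.ev x = x := fun x hx => hP1 x (Sub.le_F N₂ (h12 hx))
  obtain ⟨b, hb, hb0, hbU, a, ha, hab⟩ := P.gauss (l := N₁) (A := M.F N₁)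
    (B := rac (adj N₁ z)) (Sub.le_F N₁) ((le_adj N₁ z).trans (le_rac _))
    (fun a ha => (hP1 a (F_mono h12 ha)).1) (by
      intro b hb hbO
      have h3 : IsAlgebraic N₁ (P.ev b) := P.isAlgebraic_ev (adj N₁ z) N₁
        (fun x hx hxO => residue_adj hN1 hzO hz0 hx hxO) (mem_rac.1 hb) hbO
      have h4 := h1.rac _ h3
      exact ⟨P.ev b, h4, by rw [(hN1 _ h4).2]⟩) (z := g1) (by
      have h3 : M.F (rac (adj N₁ z)) ≤ M.F N₁ ⊔ rac (adj N₁ z) :=
        sup_le ((K0_le N₁).trans le_sup_left) le_sup_right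
      exact h3 hg1) hg10
  have ha' := hP1 a (F_mono h12 ha)
  rw [ha'.2] at hab
  obtain ⟨β, hβ, rfl⟩ := SpD.exists_root (M := M) ℓ (Nat.pos_of_ne_zero hℓ) (hBk hb)
  have hU2 : P.U g2 := ⟨(hP1 g2 hg2).1, by rw [(hP1 g2 hg2).2]; exact hg20⟩
  have h5 : β ^ ℓ * g1 = g2 * (β * h) ^ ℓ := by rw [hh]; ring
  have h6 : P.U (β * h) := by
    apply P.U_of_pow hℓ
    have h7 : (β * h) ^ ℓ = (β ^ ℓ * g1) / g2 := by
      rw [h5]
      field_simp
    rw [h7]
    exact hbU.div hU2
  have h7 : a = g2 * P.ev (β * h) ^ ℓ := by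
    rw [← hab, h5, P.ev_mul hU2.1 (pow_mem h6.1 ℓ), P.ev_pow h6.1, (hP1 g2 hg2).2]
  have ha0 : a ≠ 0 := by
    rw [h7]
    exact mul_ne_zero hg20 (pow_ne_zero _ h6.2)
  refine ⟨a, ha, ha0, ?_⟩
  exact ((cl_eq_iff ℓ ha0 hg20).2 ⟨P.ev (β * h), h6.2, h7⟩).symm

end Mdl

end Vale.Agent.P019P
end

section

/-!
# Galois stability
-/

namespace Vale.Agent.P019P

open Vale.Agent.P019

set_option linter.style.haveILetI false

open Polynomial

section galaux

variable {Ω : Type*} [Field Ω]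

/-- conjugation homomorphisms. -/
theorem exists_conj [IsAlgClosed Ω] {L1 : Subfield Ω} {b b' : Ω} (hb : IsAlgebraic L1 b)
    (hb' : aeval b' (minpoly L1 b) = 0) :
    ∃ τ : rac L1 →+* Ω, (∀ c (hc : c ∈ L1), τ ⟨c, le_rac L1 hc⟩ = c) ∧
      τ ⟨b, mem_rac.2 hb⟩ = b' := by
  haveI : Algebra.IsAlgebraic L1 (algebraicClosure L1 Ω) := algebraicClosure.isAlgebraic L1 Ω
  have h1 := Algebra.IsAlgebraic.range_eval_eq_rootSet_minpoly (F := L1)
    (K := algebraicClosure L1 Ω) Ω (⟨b, mem_algebraicClosure_iff.2 hb⟩ : algebraicClosure L1 Ω)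
  have h2 : b' ∈ (minpoly L1 (⟨b, mem_algebraicClosure_iff.2 hb⟩ :
      algebraicClosure L1 Ω)).rootSet Ω := by
    rw [mem_rootSet]
    have h3 : minpoly L1 (⟨b, mem_algebraicClosure_iff.2 hb⟩ : algebraicClosure L1 Ω) =
        minpoly L1 b := by
      rw [← minpoly.algebraMap_eq (algebraMap (algebraicClosure L1 Ω) Ω).injective]
      rfl
    rw [h3]
    exact ⟨minpoly.ne_zero hb.isIntegral, hb'⟩
  rw [← h1] at h2
  obtain ⟨ψ, hψ⟩ := h2
  let i : rac L1 →+* algebraicClosure L1 Ω :=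
    { toFun := fun z => ⟨z.1, z.2⟩
      map_one' := rfl
      map_mul' := fun _ _ => rfl
      map_zero' := rfl
      map_add' := fun _ _ => rfl }
  refine ⟨ψ.toRingHom.comp i, fun c hc => ?_, hψ⟩
  have h4 := ψ.commutes ⟨c, hc⟩
  exact h4

end galaux

section pigeon

/-- Pigeonhole for two nested equivalence relations. -/
theorem pigeon {α : Type*} (P : α → Prop) (R S : α → α → Prop)
    (hRs : ∀ x y, P x → P y → R x y → R y x)
    (hRt : ∀ x y z, P x → P y → P z → R x y → R y z → R x z) (hRr : ∀ x, P x → R x x)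
    (N N' : ℕ)
    (h1 : ∀ x : Fin (N + 1) → α, (∀ i, P (x i)) → ∃ i j, i ≠ j ∧ R (x i) (x j))
    (h2 : ∀ x : Fin (N' + 1) → α, (∀ i, P (x i)) → (∀ i j, R (x i) (x j)) →
      ∃ i j, i ≠ j ∧ S (x i) (x j))
    (hinf : ∀ M : ℕ, ∃ x : Fin M → α, (∀ i, P (x i)) ∧ ∀ i j, i ≠ j → ¬ S (x i) (x j)) :
    False := by
  classical
  obtain ⟨x, hxP, hx⟩ := hinf (N * N' + 1)
  let s : Setoid (Fin (N * N' + 1)) :=
    { r := fun i j => R (x i) (x j)
      iseqv := ⟨fun i => hRr _ (hxP i), fun {i j} h => hRs _ _ (hxP i) (hxP j) h,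
        fun {i j k} h h' => hRt _ _ _ (hxP i) (hxP j) (hxP k) h h'⟩ }
  let f : Fin (N * N' + 1) → Quotient s := fun i => Quotient.mk s i
  have hf : ∀ i j, f i = f j ↔ R (x i) (x j) := fun i j => Quotient.eq (r := s)
  have hcard : (Finset.univ.image f).card ≤ N := by
    by_contra hcon
    push Not at hcon
    obtain ⟨t, ht, htc⟩ := Finset.exists_subset_card_eq (Nat.succ_le_of_lt hcon)
    have hpre : ∀ q : t, ∃ i, f i = (q : Quotient s) := by
      intro q
      have := ht q.2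
      rw [Finset.mem_image] at this
      obtain ⟨i, -, hi⟩ := this
      exact ⟨i, hi⟩
    choose g hg using hpre
    let e : Fin (N + 1) ≃ t := (Finset.equivFinOfCardEq htc).symm
    obtain ⟨i, j, hij, hR⟩ := h1 (fun i => x (g (e i))) (fun i => hxP _)
    apply hij
    have h3 := (hf _ _).2 hR
    rw [hg, hg] at h3
    exact e.injective (Subtype.ext h3)
  have hlt : (Finset.univ.image f).card * N' < (Finset.univ : Finset (Fin (N * N' + 1))).card := by
    rw [Finset.card_univ, Fintype.card_fin]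
    exact Nat.lt_succ_of_le (Nat.mul_le_mul_right _ hcard)
  obtain ⟨q, -, hq⟩ := Finset.exists_lt_card_fiber_of_mul_lt_card_of_maps_to
    (fun i hi => Finset.mem_image_of_mem f hi) hlt
  obtain ⟨t, ht, htc⟩ := Finset.exists_subset_card_eq (Nat.succ_le_of_lt hq)
  let e : Fin (N' + 1) ≃ t := (Finset.equivFinOfCardEq htc).symm
  have hfe : ∀ i, f (e i : Fin (N * N' + 1)) = q := by
    intro i
    have := ht (e i).2
    rw [Finset.mem_filter] at this
    exact this.2
  obtain ⟨i, j, hij, hS⟩ := h2 (fun i => x (e i : Fin (N * N' + 1))) (fun i => hxP _)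
    (fun i j => (hf _ _).1 ((hfe i).trans (hfe j).symm))
  refine hx _ _ ?_ hS
  intro h3
  exact hij (e.injective (Subtype.ext h3))

end pigeon

section roots

variable {Ω : Type*} [Field Ω] [IsAlgClosed Ω]

end roots

/-- S61 Galois stability. -/
theorem gal {Ω : Type*} [Field Ω] [IsAlgClosed Ω] (ℓ : ℕ) [Fact ℓ.Prime]
    [NeZero (ℓ : Ω)]
    {l1 L1 : Subfield Ω} (hl1 : IsAlgClosed l1) (hfg : FG l1 L1) {b : Ω} (hb : IsAlgebraic L1 b)
    (hbl : b ∉ l1) (X : Set Ω) (hX : ∀ x ∈ X, x ∈ L1 ∧ x ≠ 0)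
    (hinf : ∀ N : ℕ, ∃ x : Fin N → Ω, (∀ i, x i ∈ X) ∧
      ∀ i j, i ≠ j → ¬ ∃ w ∈ L1, x i = x j * w ^ ℓ)
    (hpow : ∀ x ∈ X, ∃ r ∈ L1 ⊔ rac (adj l1 b), r ^ ℓ = x) :
    (∃ y0 ∈ rac (adj l1 b) ⊓ L1, y0 ∉ l1) ∧
    ∀ x ∈ X, ∃ e ∈ rac (adj l1 b) ⊓ L1, ∃ w ∈ L1, x = e * w ^ ℓ := by
  classical
  have hℓ : ℓ.Prime := Fact.out
  haveI : NeZero ℓ := ⟨hℓ.ne_zero⟩
  have hlL : l1 ≤ L1 := hfg.le
  haveI : PerfectField L1 := hfg.perfect
  have hRl : RAC l1 := RAC_of_isAlgClosed l1 hl1
  -- a primitive root of unity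
  obtain ⟨ζ, hζl, hζ⟩ : ∃ ζ ∈ l1, IsPrimitiveRoot ζ ℓ := finK_prim hl1 ℓ
  obtain ⟨B, hBdef⟩ : ∃ B, B = rac (adj l1 b) := ⟨_, rfl⟩
  have hBR : RAC B := by rw [hBdef]; exact RAC_rac _
  haveI : PerfectField B := perfect_of_RAC hBR
  have hbB : b ∈ B := by rw [hBdef]; exact le_rac _ (mem_adj l1 b)
  have hlB : l1 ≤ B := by rw [hBdef]; exact (le_adj l1 b).trans (le_rac _)
  have hBA : B ≤ rac L1 := by
    intro z hz
    rw [hBdef, mem_rac] at hz
    have h1 : adj l1 b ≤ rac L1 := adj_le (hlL.trans (le_rac L1)) (mem_rac.2 hb)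
    exact RAC_rac L1 z (isAlgebraic_mono h1 hz)
  -- STEP 1
  have step1 : ∀ b' : Ω, aeval b' (minpoly L1 b) = 0 → b' ∈ B := by
    intro b' hb'
    by_contra hbB'
    obtain ⟨τ, hτL, hτb⟩ := exists_conj hb hb'
    obtain ⟨B', hB'def⟩ : ∃ B', B' = rac (adj l1 b') := ⟨_, rfl⟩
    have hB'R : RAC B' := by rw [hB'def]; exact RAC_rac _
    have hb'B' : b' ∈ B' := by rw [hB'def]; exact le_rac _ (mem_adj l1 b')
    have hlB' : l1 ≤ B' := by rw [hB'def]; exact (le_adj l1 b').trans (le_rac _)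
    -- image of `B`
    have hadjA : adj l1 b ≤ rac L1 := adj_le (hlL.trans (le_rac L1)) (mem_rac.2 hb)
    have hadj : ∀ c (hc : c ∈ adj l1 b), τ ⟨c, hadjA hc⟩ ∈ adj l1 b' := by
      have h1 : Vale.Agent.P019.adj l1 b ≤
          (Subfield.comap τ (adj l1 b')).map (rac L1).subtype := by
        refine Vale.Agent.P019.adj_le ?_ ?_
        · intro c hc
          refine ⟨⟨c, le_rac L1 (hlL hc)⟩, ?_, rfl⟩
          change τ ⟨c, le_rac L1 (hlL hc)⟩ ∈ adj l1 b'
          rw [hτL c (hlL hc)]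
          exact le_adj l1 b' hc
        · refine ⟨⟨b, mem_rac.2 hb⟩, ?_, rfl⟩
          change τ ⟨b, mem_rac.2 hb⟩ ∈ adj l1 b'
          rw [hτb]
          exact mem_adj l1 b'
      intro c hc
      obtain ⟨n, hn⟩ := mem_adj_iff.1 hc
      obtain ⟨a, ha, hae⟩ := h1 hn
      have h2 : (⟨c, hadjA hc⟩ : rac L1) ^ ringExpChar Ω ^ n = a := Subtype.ext hae.symm
      have h3 : (τ ⟨c, hadjA hc⟩) ^ ringExpChar Ω ^ n ∈ adj l1 b' := by
        rw [← map_pow, h2]
        exact ha
      exact mem_of_pow_q h3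
    have hτB : ∀ c (hc : c ∈ B), τ ⟨c, hBA hc⟩ ∈ B' := by
      intro c hc
      rw [hB'def, mem_rac]
      have hc' : IsAlgebraic (adj l1 b) c := by
        rw [hBdef] at hc
        exact mem_rac.1 hc
      exact isAlgebraic_image τ hadjA hadj (hBA hc) hc'
    -- the big field
    obtain ⟨Λ, hΛdef⟩ : ∃ Λ, Λ = pf (L1 ⊔ Subfield.closure (({b, b'} : Finset Ω) : Set Ω)) :=
      ⟨_, rfl⟩
    have hfgL : FG L1 Λ := ⟨{b, b'}, hΛdef⟩
    have hLΛ : L1 ≤ Λ := hfgL.le
    haveI : PerfectField Λ := hfgL.perfect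
    have hbΛ : b ∈ Λ := by
      rw [hΛdef]
      exact (le_sup_right.trans (le_pf _) : Subfield.closure (({b, b'} : Finset Ω) : Set Ω) ≤ _)
        (Subfield.subset_closure (by simp))
    have hb'Λ : b' ∈ Λ := by
      rw [hΛdef]
      exact (le_sup_right.trans (le_pf _) : Subfield.closure (({b, b'} : Finset Ω) : Set Ω) ≤ _)
        (Subfield.subset_closure (by simp))
    have hfgΛ : FG l1 Λ := hfg.trans hfgL
    -- Kummer descent for both
    have descent : ∀ (C : Subfield Ω) (c : Ω), C = rac (adj l1 c) → c ∈ Λ → ∀ x ∈ X, ∀ r ∈ L1 ⊔ C,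
        r ^ ℓ = x → ∃ e ∈ C ⊓ Λ, ∃ w ∈ Λ, x = e * w ^ ℓ := by
      intro C c hC hcΛ x hx r hr hrx
      have hCR : RAC C := by rw [hC]; exact RAC_rac _
      haveI : PerfectField C := perfect_of_RAC hCR
      have hlC : l1 ≤ C := by rw [hC]; exact (le_adj l1 c).trans (le_rac _)
      have hcC : c ∈ C := by rw [hC]; exact le_rac _ (mem_adj l1 c)
      have hadjC : adj l1 c ≤ C ⊓ Λ :=
        adj_le (le_inf hlC (hlL.trans hLΛ)) (Subfield.mem_inf.2 ⟨hcC, hcΛ⟩)
      refine kummer_descent ℓ (C ⊓ Λ) Λ C inf_le_right ?_ ?_ ζ ?_ hζ (hLΛ (hX x hx).1)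
        (hX x hx).2 (sup_le_sup_right hLΛ C hr) hrx
      · intro z hz hza
        exact Subfield.mem_inf.2 ⟨hCR z (isAlgebraic_mono inf_le_left hza), hz⟩
      · intro z hz
        rw [hC, mem_rac] at hz
        exact isAlgebraic_mono hadjC hz
      · exact hadjC (le_adj l1 c hζl)
    obtain ⟨N, hN⟩ := int_fin ℓ (E₁ := B ⊓ Λ) (E₂ := B' ⊓ Λ) (y := b') hl1 hfgΛ
      (le_inf hlB (hlL.trans hLΛ)) (le_inf hlB' (hlL.trans hLΛ)) inf_le_right inf_le_right
      (Subfield.mem_inf.2 ⟨hb'B', hb'Λ⟩)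
      (fun h => hbB' (hBR b' (isAlgebraic_mono inf_le_left h)))
      (fun z hz => by
        have h1 := (Subfield.mem_inf.1 hz).1
        rw [hB'def, mem_rac] at h1
        exact h1)
    obtain ⟨N', hN'⟩ := fk ℓ hfgL (hlL hζl) hζ
    refine pigeon (fun x => x ∈ X) (fun x y => ∃ w ∈ Λ, x = y * w ^ ℓ)
      (fun x y => ∃ w ∈ L1, x = y * w ^ ℓ) ?_ ?_ ?_ N N' ?_ ?_ hinf
    · rintro x y hx hy ⟨w, hw, h⟩
      have hw0 : w ≠ 0 := by
        rintro rfl
        rw [zero_pow hℓ.ne_zero, mul_zero] at h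
        exact (hX x hx).2 h
      refine ⟨w⁻¹, Λ.inv_mem hw, ?_⟩
      rw [h, inv_pow, mul_inv_cancel_right₀ (pow_ne_zero _ hw0)]
    · rintro x y z - - - ⟨w, hw, h⟩ ⟨w', hw', h'⟩
      refine ⟨w' * w, Λ.mul_mem hw' hw, ?_⟩
      rw [h, h', mul_pow, mul_assoc]
    · intro x _
      exact ⟨1, Λ.one_mem, by rw [one_pow, mul_one]⟩
    · intro x hx
      have h1 : ∀ i, ∃ e ∈ B ⊓ Λ, ∃ w ∈ Λ, x i = e * w ^ ℓ := by
        intro i
        obtain ⟨r, hr, hrx⟩ := hpow (x i) (hx i)
        rw [← hBdef] at hr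
        exact descent B b hBdef hbΛ (x i) (hx i) r hr hrx
      have h2 : ∀ i, ∃ e ∈ B' ⊓ Λ, ∃ w ∈ Λ, x i = e * w ^ ℓ := by
        intro i
        obtain ⟨r, hr, hrx⟩ := hpow (x i) (hx i)
        rw [← hBdef] at hr
        have hrA : r ∈ rac L1 := (sup_le (le_rac L1) hBA) hr
        have h3 := image_sup τ (le_rac L1) hBA hτL hτB hr hrA
        refine descent B' b' hB'def hb'Λ (x i) (hx i) _ h3 ?_
        rw [← map_pow]
        have h4 : (⟨r, hrA⟩ : rac L1) ^ ℓ = ⟨x i, le_rac L1 (hX _ (hx i)).1⟩ := Subtype.ext hrx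
        rw [h4]
        exact hτL _ (hX _ (hx i)).1
      choose e he w hw hew using h1
      choose e' he' w' hw' hew' using h2
      have hw0 : ∀ i, w i ≠ 0 := by
        intro i h0
        have h3 := hew i
        rw [h0, zero_pow hℓ.ne_zero, mul_zero] at h3
        exact (hX _ (hx i)).2 h3
      have he0 : ∀ i, e i ≠ 0 := by
        intro i h0
        have h3 := hew i
        rw [h0, zero_mul] at h3
        exact (hX _ (hx i)).2 h3
      obtain ⟨i, j, hij, v, hv, hv0, hvij⟩ := hN e (fun i => ⟨he i, he0 i, e' i, he' i,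
        w' i / w i, Λ.div_mem (hw' i) (hw i), by
          rw [div_pow, ← mul_div_assoc, ← hew' i, hew i,
            mul_div_cancel_right₀ _ (pow_ne_zero _ (hw0 i))]⟩)
      refine ⟨i, j, hij, v * w i / w j,
        Λ.div_mem (Λ.mul_mem (Subfield.mem_inf.1 hv).2 (hw i)) (hw j), ?_⟩
      rw [hew i, hew j, hvij, div_pow, mul_pow]
      have h4 := pow_ne_zero ℓ (hw0 j)
      field_simp
    · intro x hx hR
      have hx0 : ∀ i, x i ≠ 0 := fun i => (hX _ (hx i)).2
      obtain ⟨i, j, hij, v, hv, hv0, hvij⟩ := hN' (fun i => x i / x 0) (fun i => by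
        obtain ⟨w, hw, h⟩ := hR i 0
        refine ⟨L1.div_mem (hX _ (hx i)).1 (hX _ (hx 0)).1, div_ne_zero (hx0 i) (hx0 0), w, hw, ?_⟩
        rw [h, mul_div_cancel_left₀ _ (hx0 0)])
      refine ⟨i, j, hij, v, hv, ?_⟩
      have h0 := hx0 0
      field_simp at hvij
      exact hvij
  -- STEP 2
  have hbtr : ¬ IsAlgebraic l1 b := fun h => hbl (hRl b h)
  have step2 : ∃ y0 ∈ B ⊓ L1, y0 ∉ l1 := by
    by_contra hcon
    push Not at hcon
    apply hbtr
    have hmon := minpoly.monic hb.isIntegral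
    have hcoef : ∀ i, (((minpoly L1 b).coeff i : L1) : Ω) ∈ l1 := by
      intro i
      apply hcon
      exact Subfield.mem_inf.2 ⟨coeff_mem_of_roots hmon step1 i, ((minpoly L1 b).coeff i).2⟩
    have hlift : minpoly L1 b ∈ Polynomial.lifts (Subfield.inclusion hlL) := by
      rw [Polynomial.lifts_iff_coeff_lifts]
      intro i
      exact ⟨⟨_, hcoef i⟩, Subtype.ext rfl⟩
    obtain ⟨Q, hQ⟩ := hlift
    refine ⟨Q, ?_, ?_⟩
    · rintro rfl
      rw [map_zero] at hQ
      exact hmon.ne_zero hQ.symm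
    · have h1 := minpoly.aeval L1 b
      rw [← hQ, coe_mapRingHom, aeval_def, eval₂_map] at h1
      rw [aeval_def]
      exact h1
  -- STEP 3
  obtain ⟨y0, hy0, hy0l⟩ := step2
  refine ⟨⟨y0, by rw [← hBdef]; exact hy0, hy0l⟩, ?_⟩
  intro x hx
  rw [← hBdef]
  have hy0B : IsAlgebraic (adj l1 b) y0 := by
    have h1 := (Subfield.mem_inf.1 hy0).1
    rw [hBdef, mem_rac] at h1
    exact h1
  have hbalg : IsAlgebraic (adj l1 y0) b := exchange (fun h => hy0l (hRl y0 h)) hy0B
  have hadjE : adj l1 y0 ≤ B ⊓ L1 := adj_le (le_inf hlB hlL) hy0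
  have hBE : ∀ z ∈ B, IsAlgebraic (B ⊓ L1 : Subfield Ω) z := by
    intro z hz
    rw [hBdef, mem_rac] at hz
    have h1 : adj l1 b ≤ rac (adj l1 y0) :=
      adj_le ((le_adj l1 y0).trans (le_rac _)) (mem_rac.2 hbalg)
    have h2 := RAC_rac _ z (isAlgebraic_mono h1 hz)
    exact isAlgebraic_mono hadjE (mem_rac.1 h2)
  obtain ⟨r, hr, hrx⟩ := hpow x hx
  rw [← hBdef] at hr
  exact kummer_descent ℓ (B ⊓ L1) L1 B inf_le_right
    (fun z hz hza => Subfield.mem_inf.2 ⟨hBR z (isAlgebraic_mono inf_le_left hza), hz⟩)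
    hBE ζ (hadjE (le_adj l1 y0 hζl)) hζ (hX x hx).1 (hX x hx).2 hr hrx


end Vale.Agent.P019P
end

section

/-!
# Relative algebraic closedness: algebraic base change
-/

namespace Vale.Agent.P019P

open Vale.Agent.P019

set_option linter.style.haveILetI false
set_option linter.unusedSectionVars false

open Polynomial

section ul1

open IntermediateField

variable {Ω : Type*} [Field Ω]

/-- degrees do not change under base change from `E` to `R`. -/
theorem ul1_natDegree {E R : Subfield Ω} (hER : E ≤ R)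
    (hrac : ∀ z ∈ R, IsAlgebraic E z → z ∈ E) {γ : Ω} (hγ : IsAlgebraic E γ) :
    (minpoly E γ).natDegree ≤ (minpoly R γ).natDegree := by
  letI : Algebra E R := (Subfield.inclusion hER).toAlgebra
  haveI : IsScalarTower E R Ω := IsScalarTower.of_algebraMap_eq' rfl
  have hi : IsIntegral E γ := hγ.isIntegral
  have hiR : IsIntegral R γ := hi.tower_top
  have h1 : minpoly R γ ∣ (minpoly E γ).map (algebraMap E R) := by
    apply minpoly.dvd
    rw [aeval_map_algebraMap, minpoly.aeval]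
  have h2 := integralClosure.mem_lifts_of_monic_of_dvd_map R (minpoly.monic hi)
    (minpoly.monic hiR) h1
  have h3 : minpoly R γ ∈ Polynomial.lifts (algebraMap E R) := by
    rw [Polynomial.lifts_iff_coeff_lifts] at h2 ⊢
    intro i
    obtain ⟨y, hy⟩ := h2 i
    have h4 : IsIntegral E (((minpoly R γ).coeff i : R) : Ω) := by
      rw [← hy]
      exact (y.2 : IsIntegral E (y : R)).algebraMap
    exact ⟨⟨_, hrac _ ((minpoly R γ).coeff i).2 h4.isAlgebraic⟩, Subtype.ext rfl⟩
  obtain ⟨q, hq, hqd, hqm⟩ := Polynomial.lifts_and_natDegree_eq_and_monic h3 (minpoly.monic hiR)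
  rw [← hqd]
  apply Polynomial.natDegree_le_of_dvd _ hqm.ne_zero
  apply minpoly.dvd
  have h5 := minpoly.aeval R γ
  rw [← hq, aeval_map_algebraMap] at h5
  exact h5

/-- primitive elements inside `Ω`. -/
theorem ul1_primitive {E : Subfield Ω} [PerfectField E] (C : Set Ω) (hC : C.Finite)
    (h : ∀ b ∈ C, IsAlgebraic E b) : ∃ b : Ω, IsAlgebraic E b ∧
      IntermediateField.adjoin E C = IntermediateField.adjoin E {b} := by
  haveI : Finite C := hC
  haveI : FiniteDimensional E (IntermediateField.adjoin E C) :=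
    IntermediateField.finiteDimensional_adjoin fun x hx => (h x hx).isIntegral
  haveI : Algebra.IsSeparable E (IntermediateField.adjoin E C) := inferInstance
  obtain ⟨α, hα⟩ := Field.exists_primitive_element E (IntermediateField.adjoin E C)
  refine ⟨(α : Ω), ?_, ?_⟩
  · have h1 : IsIntegral E α := IsIntegral.of_finite E α
    have h2 : IsIntegral E (α : Ω) := h1.map (IntermediateField.adjoin E C).val
    exact h2.isAlgebraic
  · have h1 := congrArg (fun F => F.map (IntermediateField.adjoin E C).val) hα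
    simp only [IntermediateField.adjoin_map, Set.image_singleton] at h1
    rw [← AlgHom.fieldRange_eq_map, IntermediateField.fieldRange_val] at h1
    exact h1.symm

end ul1

/-- if `E` is relatively algebraically closed in `R` and `B` is algebraic over `E`, then `B` is
relatively algebraically closed in the compositum of `R` and `B`. -/
theorem alg_sup {Ω : Type*} [Field Ω] [PerfectField Ω] {E R B : Subfield Ω} [PerfectField E]
    (hER : E ≤ R) (hEB : E ≤ B) (hrac : ∀ z ∈ R, IsAlgebraic E z → z ∈ E)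
    (hB : ∀ b ∈ B, IsAlgebraic E b) {r : Ω} (hr : r ∈ R ⊔ B) (halg : IsAlgebraic E r) :
    r ∈ B := by
  classical
  rw [sup_comm, ← Subfield.closure_eq R] at hr
  obtain ⟨C, hC, hCN⟩ := mem_sup_finite hr
  obtain ⟨b, hb, hbC⟩ := ul1_primitive (E := E) (C : Set Ω) C.finite_toSet fun x hx => hB x (hC hx)
  obtain ⟨γ, hγ, hγC⟩ := ul1_primitive (E := E) {b, r} (Set.toFinite _) (by
    rintro x hx
    rcases hx with rfl | rfl
    · exact hb
    · exact halg)
  have hbR : IsIntegral R b := by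
    letI : Algebra E R := (Subfield.inclusion hER).toAlgebra
    haveI : IsScalarTower E R Ω := IsScalarTower.of_algebraMap_eq' rfl
    exact hb.isIntegral.tower_top
  -- everything lies in `R(b)`
  have hsub : ∀ x ∈ IntermediateField.adjoin E {b}, x ∈ IntermediateField.adjoin R {b} := by
    intro x hx
    induction hx using IntermediateField.adjoin_induction with
    | mem x hx => exact IntermediateField.subset_adjoin R _ hx
    | algebraMap x => exact (IntermediateField.adjoin R {b}).algebraMap_mem ⟨x, hER x.2⟩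
    | add x y _ _ hx hy => exact add_mem hx hy
    | inv x _ hx => exact inv_mem hx
    | mul x y _ _ hx hy => exact mul_mem hx hy
  have hrR : r ∈ IntermediateField.adjoin R {b} := by
    have h1 := hCN (IntermediateField.adjoin E (C : Set Ω)).toSubfield
      (IntermediateField.subset_adjoin E _)
    have h2 : (IntermediateField.adjoin E (C : Set Ω)).toSubfield ⊔ Subfield.closure (R : Set Ω) ≤
        (IntermediateField.adjoin R {b}).toSubfield := by
      refine sup_le ?_ ?_
      · intro x hx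
        rw [hbC] at hx
        exact hsub x hx
      · rw [Subfield.closure_eq]
        intro x hx
        exact (IntermediateField.adjoin R {b}).algebraMap_mem ⟨x, hx⟩
    exact h2 h1
  have hγR : γ ∈ IntermediateField.adjoin R {b} := by
    have h1 : γ ∈ IntermediateField.adjoin E {b, r} := by
      rw [hγC]; exact IntermediateField.mem_adjoin_simple_self E γ
    have h2 : ∀ x ∈ IntermediateField.adjoin E {b, r}, x ∈ IntermediateField.adjoin R {b} := by
      intro x hx
      induction hx using IntermediateField.adjoin_induction with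
      | mem x hx =>
        rcases hx with rfl | hx
        · exact IntermediateField.mem_adjoin_simple_self R _
        · rw [Set.mem_singleton_iff.1 hx]; exact hrR
      | algebraMap x => exact (IntermediateField.adjoin R {b}).algebraMap_mem ⟨x, hER x.2⟩
      | add x y _ _ hx hy => exact add_mem hx hy
      | inv x _ hx => exact inv_mem hx
      | mul x y _ _ hx hy => exact mul_mem hx hy
    exact h2 γ h1
  -- degrees
  have d1 := ul1_natDegree hER hrac hγ
  have d2 : (minpoly R γ).natDegree ≤ (minpoly R b).natDegree := by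
    haveI : FiniteDimensional R (IntermediateField.adjoin R {b}) :=
      IntermediateField.adjoin.finiteDimensional hbR
    rw [← IntermediateField.adjoin.finrank hbR]
    have h1 := minpoly.natDegree_le (A := R) (⟨γ, hγR⟩ : IntermediateField.adjoin R {b})
    rw [IntermediateField.minpoly_eq] at h1
    exact h1
  have d3 : (minpoly R b).natDegree ≤ (minpoly E b).natDegree := by
    letI : Algebra E R := (Subfield.inclusion hER).toAlgebra
    haveI : IsScalarTower E R Ω := IsScalarTower.of_algebraMap_eq' rfl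
    have h1 : minpoly R b ∣ (minpoly E b).map (algebraMap E R) := by
      apply minpoly.dvd
      rw [aeval_map_algebraMap, minpoly.aeval]
    have h2 := Polynomial.natDegree_le_of_dvd h1
      ((minpoly.monic hb.isIntegral).map (algebraMap E R)).ne_zero
    rwa [Polynomial.natDegree_map] at h2
  have hle : IntermediateField.adjoin E {b} ≤ IntermediateField.adjoin E {γ} := by
    rw [← hγC]
    exact IntermediateField.adjoin.mono E _ _ (by simp)
  haveI : FiniteDimensional E (IntermediateField.adjoin E {γ}) :=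
    IntermediateField.adjoin.finiteDimensional hγ.isIntegral
  have heq : IntermediateField.adjoin E {b} = IntermediateField.adjoin E {γ} := by
    apply IntermediateField.eq_of_le_of_finrank_le hle
    rw [IntermediateField.adjoin.finrank hb.isIntegral,
      IntermediateField.adjoin.finrank hγ.isIntegral]
    exact d1.trans (d2.trans d3)
  have hrb : r ∈ IntermediateField.adjoin E {b} := by
    rw [heq, ← hγC]
    exact IntermediateField.subset_adjoin E _ (by simp)
  rw [← hbC] at hrb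
  have hfin : ∀ x ∈ IntermediateField.adjoin E (C : Set Ω), x ∈ B := by
    intro x hx
    induction hx using IntermediateField.adjoin_induction with
    | mem x hx => exact hC hx
    | algebraMap x => exact hEB x.2
    | add x y _ _ hx hy => exact add_mem hx hy
    | inv x _ hx => exact inv_mem hx
    | mul x y _ _ hx hy => exact mul_mem hx hy
  exact hfin r hrb

end Vale.Agent.P019P
end

section

/-!
# Function fields of one variable: definitions
-/

namespace Vale.Agent.P019P

open Polynomial IntermediateField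

section defs

variable (k F : Type*) [Field k] [Field F] [Algebra k F]

/-- function fields of one variable over an algebraically closed field. -/
class CFF : Prop where
  ac : IsAlgClosed k
  ex : ∃ x : F, Transcendental k x ∧ FiniteDimensional k⟮x⟯ F

/-- the places of `F` over `k`. -/
def Plk : Type _ :=
  {O : ValuationSubring F // (∀ a : k, algebraMap k F a ∈ O) ∧ O ≠ ⊤}

end defs

/-- `f` is the normalised additive valuation of `O` (with `f 0 = 0`). -/
structure IsOrd {F : Type*} [Field F] (O : ValuationSubring F) (f : F → ℤ) : Prop where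
  zero : f 0 = 0
  mul : ∀ x y, x ≠ 0 → y ≠ 0 → f (x * y) = f x + f y
  add : ∀ x y, x ≠ 0 → y ≠ 0 → x + y ≠ 0 → min (f x) (f y) ≤ f (x + y)
  mem : ∀ x, x ∈ O ↔ x = 0 ∨ 0 ≤ f x
  one : ∃ π, f π = 1

end Vale.Agent.P019P
end

section

/-!
# Function fields of one variable: field theory
-/

namespace Vale.Agent.P019P

open Polynomial IntermediateField

section

variable {k F : Type*} [Field k] [Field F] [Algebra k F]

theorem adjoin_inv_eq (x : F) : k⟮x⁻¹⟯ = k⟮x⟯ := by
  refine le_antisymm ?_ ?_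
  · exact adjoin_simple_le_iff.2 (inv_mem (mem_adjoin_simple_self k x))
  · refine adjoin_simple_le_iff.2 ?_
    have h := inv_mem (mem_adjoin_simple_self k x⁻¹)
    rwa [inv_inv] at h

theorem adjoin_sub_eq (x : F) (c : k) : k⟮x - algebraMap k F c⟯ = k⟮x⟯ := by
  refine le_antisymm ?_ ?_
  · exact adjoin_simple_le_iff.2 (sub_mem (mem_adjoin_simple_self k x)
      (IntermediateField.algebraMap_mem _ c))
  · refine adjoin_simple_le_iff.2 ?_
    have h := add_mem (mem_adjoin_simple_self k (x - algebraMap k F c))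
      (IntermediateField.algebraMap_mem k⟮x - algebraMap k F c⟯ c)
    rwa [sub_add_cancel] at h

theorem nc_inv {x : F} (hx : ∀ a : k, x ≠ algebraMap k F a) (a : k) : x⁻¹ ≠ algebraMap k F a := by
  intro h
  apply hx a⁻¹
  rw [map_inv₀, ← h, inv_inv]

theorem nc_sub {x : F} (hx : ∀ a : k, x ≠ algebraMap k F a) (c a : k) :
    x - algebraMap k F c ≠ algebraMap k F a := by
  intro h
  apply hx (a + c)
  rw [map_add, ← h, sub_add_cancel]

theorem CFld_essFin {t : F} (h : FiniteDimensional k⟮t⟯ F) : Algebra.EssFiniteType k F := by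
  have h1 : Algebra.EssFiniteType k k⟮t⟯ :=
    essFiniteType_iff.2 ⟨{t}, by simp⟩
  have h2 : Algebra.EssFiniteType k⟮t⟯ F := inferInstance
  exact Algebra.EssFiniteType.comp k k⟮t⟯ F

theorem CFld_basis {t : F} (ht : Transcendental k t) (h : FiniteDimensional k⟮t⟯ F) :
    IsTranscendenceBasis k (fun _ : Unit => t) := by
  have hai : AlgebraicIndependent k (fun _ : Unit => t) := algebraicIndependent_unique_type_iff.2 ht
  rw [isTranscendenceBasis_iff_algebraicIndependent_isAlgebraic]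
  refine ⟨hai, ?_⟩
  have h3 : Algebra.IsAlgebraic k⟮t⟯ F := inferInstance
  have h4 : Set.range (fun _ : Unit => t) = {t} := by ext; simp [eq_comm]
  rw [h4]
  exact (IntermediateField.isAlgebraic_adjoin_iff_top).1 h3

end

theorem CFld_finite {k F : Type*} [Field k] [Field F] [Algebra k F] [CFF k F] {x : F}
    (hx : Transcendental k x) : FiniteDimensional k⟮x⟯ F := by
  obtain ⟨t, ht, hfd⟩ := CFF.ex (k := k) (F := F)
  have hb := CFld_basis ht hfd
  have htr : Cardinal.lift (Cardinal.mk Unit) = Cardinal.lift (Algebra.trdeg k F) :=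
    hb.lift_cardinalMk_eq_trdeg
  have hai : AlgebraicIndependent k (fun _ : Unit => x) := algebraicIndependent_unique_type_iff.2 hx
  have hbx : IsTranscendenceBasis k (fun _ : Unit => x) :=
    hai.isTranscendenceBasis_of_lift_trdeg_le_of_finite htr.ge
  have h4 : Set.range (fun _ : Unit => x) = {x} := by ext; simp [eq_comm]
  have h5 := hbx.isAlgebraic_field
  rw [h4] at h5
  have h6 : Algebra.EssFiniteType k F := CFld_essFin hfd
  have h7 : Algebra.EssFiniteType k⟮x⟯ F := Algebra.EssFiniteType.of_comp k k⟮x⟯ F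
  exact Algebra.finite_of_essFiniteType_of_isAlgebraic

/-- existence of separating elements. -/
theorem exists_sep (k F : Type*) [Field k] [Field F] [Algebra k F] [CFF k F] :
    ∃ x : F, Transcendental k x ∧ FiniteDimensional k⟮x⟯ F ∧ Algebra.IsSeparable k⟮x⟯ F := by
  obtain ⟨t, ht, hfd⟩ := CFF.ex (k := k) (F := F)
  have : Algebra.EssFiniteType k F := CFld_essFin hfd
  have : IsAlgClosed k := CFF.ac (k := k) (F := F)
  obtain ⟨s, hs, hsep⟩ := exists_isTranscendenceBasis_and_isSeparable_of_perfectField k F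
  have hb := CFld_basis ht hfd
  have hcard : Cardinal.lift (Cardinal.mk Unit) = Cardinal.lift (Cardinal.mk s) :=
    hb.lift_cardinalMk_eq hs
  have h1 : s.card = 1 := by
    simpa using hcard.symm
  obtain ⟨x, rfl⟩ := Finset.card_eq_one.1 h1
  have hx : Transcendental k x := hs.1.transcendental ⟨x, by simp⟩
  refine ⟨x, hx, CFld_finite hx, ?_⟩
  rw [Finset.coe_singleton] at hsep
  exact hsep

/-- every non-constant element is transcendental with finite degree. -/
theorem finite_of_notMem {k F : Type*} [Field k] [Field F] [Algebra k F] [CFF k F] {x : F}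
    (hx : ∀ a : k, x ≠ algebraMap k F a) :
    Transcendental k x ∧ FiniteDimensional k⟮x⟯ F := by
  have : IsAlgClosed k := CFF.ac (k := k) (F := F)
  have htr : Transcendental k x := by
    intro halg
    have hint : IsIntegral k x := halg.isIntegral
    obtain ⟨a, ha⟩ := minpoly.mem_range_of_degree_eq_one k x
      (IsAlgClosed.degree_eq_one_of_irreducible k (minpoly.irreducible hint))
    exact hx a ha.symm
  exact ⟨htr, CFld_finite htr⟩

end Vale.Agent.P019P
end

section

/-!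
# The places of a function field are discrete, with residue field `k`
-/

namespace Vale.Agent.P019P

set_option linter.unusedSectionVars false

open Polynomial IntermediateField

namespace AuxCVal

section

variable {K : Type*} [Field K] {O : ValuationSubring K} {f : K → ℤ}

theorem ord_one (hf : IsOrd O f) : f 1 = 0 := by
  have h := hf.mul 1 1 one_ne_zero one_ne_zero
  rw [mul_one] at h
  omega

theorem ord_inv (hf : IsOrd O f) {x : K} (hx : x ≠ 0) : f x⁻¹ = - f x := by
  have h := hf.mul x x⁻¹ hx (inv_ne_zero hx)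
  rw [mul_inv_cancel₀ hx, ord_one hf] at h
  omega

theorem ord_pow (hf : IsOrd O f) {x : K} (hx : x ≠ 0) (n : ℕ) : f (x ^ n) = n * f x := by
  induction n with
  | zero => rw [pow_zero, ord_one hf]; simp
  | succ n ih =>
    rw [pow_succ, hf.mul _ _ (pow_ne_zero _ hx) hx, ih]
    push_cast
    ring

theorem ord_zpow (hf : IsOrd O f) {x : K} (hx : x ≠ 0) (n : ℤ) : f (x ^ n) = n * f x := by
  cases n with
  | ofNat n =>
    rw [Int.ofNat_eq_natCast, zpow_natCast]; exact ord_pow hf hx n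
  | negSucc n =>
    rw [zpow_negSucc, ord_inv hf (pow_ne_zero _ hx), ord_pow hf hx, Int.negSucc_eq]
    push_cast
    ring

end

section

variable {k F : Type*} [Field k] [Field F] [Algebra k F] [CFF k F]

theorem v_cst (P : Plk k F) {c : k} (hc : c ≠ 0) : P.1.valuation (algebraMap k F c) = 1 := by
  have h1 := (P.1.valuation_le_one_iff _).2 (P.2.1 c)
  have h2 := (P.1.valuation_le_one_iff _).2 (P.2.1 c⁻¹)
  have hc' : algebraMap k F c ≠ 0 := by rwa [Ne, map_eq_zero]
  have hpos : 0 < P.1.valuation (algebraMap k F c) := by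
    rw [zero_lt_iff]; exact (Valuation.ne_zero_iff _).2 hc'
  rw [map_inv₀, map_inv₀, inv_le_one₀ hpos] at h2
  exact le_antisymm h1 h2

theorem nc_of_lt (P : Plk k F) {x : F} (hx0 : x ≠ 0) (hx : P.1.valuation x < 1) (a : k) :
    x ≠ algebraMap k F a := by
  rintro rfl
  have ha : a ≠ 0 := by
    rintro rfl
    exact hx0 (map_zero _)
  rw [v_cst P ha] at hx
  exact lt_irrefl _ hx

theorem v_aeval_le (P : Plk k F) {x : F} (hx : P.1.valuation x ≤ 1) (φ : k[X]) :
    P.1.valuation (aeval x φ) ≤ 1 := by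
  have hxm : x ∈ P.1 := (P.1.valuation_le_one_iff _).1 hx
  rw [P.1.valuation_le_one_iff]
  induction φ using Polynomial.induction_on' with
  | add p q hp hq => rw [map_add]; exact add_mem hp hq
  | monomial n a =>
    rw [aeval_monomial]
    exact mul_mem (P.2.1 a) (pow_mem hxm n)

theorem aeval_eq (x : F) (φ : k[X]) :
    aeval x φ = aeval x φ.divX * x + algebraMap k F (φ.coeff 0) := by
  conv_lhs => rw [← divX_mul_X_add φ]
  rw [map_add, map_mul, aeval_X, aeval_C]

theorem v_aeval_zero (P : Plk k F) {x : F} (hx : P.1.valuation x ≤ 1) {φ : k[X]}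
    (h : φ.coeff 0 = 0) : P.1.valuation (aeval x φ) ≤ P.1.valuation x := by
  rw [aeval_eq, h, map_zero, add_zero, map_mul]
  exact mul_le_of_le_one_left' (v_aeval_le P hx _)

theorem v_aeval_one (P : Plk k F) {x : F} (hx : P.1.valuation x < 1) {φ : k[X]}
    (h : φ.coeff 0 ≠ 0) : P.1.valuation (aeval x φ) = 1 := by
  rw [aeval_eq]
  have h1 : P.1.valuation (aeval x φ.divX * x) < 1 := by
    rw [map_mul]
    exact (mul_le_of_le_one_left' (v_aeval_le P hx.le _)).trans_lt hx
  have h2 := v_cst P h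
  rw [Valuation.map_add_eq_of_lt_right _ (by rw [h2]; exact h1), h2]

/-- the valuation ring is not everything. -/
theorem exists_small (P : Plk k F) : ∃ x : F, x ≠ 0 ∧ P.1.valuation x < 1 := by
  have h1 : ∃ w : F, w ∉ P.1 := by
    by_contra hcon
    push Not at hcon
    exact P.2.2 (eq_top_iff.2 fun w _ => hcon w)
  obtain ⟨w, hw⟩ := h1
  have hw0 : w ≠ 0 := by
    rintro rfl
    exact hw (zero_mem _)
  refine ⟨w⁻¹, inv_ne_zero hw0, ?_⟩
  rw [← P.1.valuation_le_one_iff, not_le] at hw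
  rw [map_inv₀]
  exact inv_lt_one_of_one_lt₀ hw

end

end AuxCVal

open AuxCVal

theorem IsOrd.unique {F : Type*} [Field F] {O : ValuationSubring F} {f g : F → ℤ}
    (hf : IsOrd O f) (hg : IsOrd O g) : f = g := by
  have h0 : ∀ w : F, w ≠ 0 → (0 ≤ f w ↔ 0 ≤ g w) := by
    intro w hw
    have h1 := hf.mem w
    have h2 := hg.mem w
    constructor
    · intro h
      exact (h2.1 (h1.2 (Or.inr h))).resolve_left hw
    · intro h
      exact (h1.1 (h2.2 (Or.inr h))).resolve_left hw
  have h1 : ∀ w : F, w ≠ 0 → f w = 0 → g w = 0 := by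
    intro w hw h
    have h2 := (h0 w hw).1 h.ge
    have h3 := (h0 w⁻¹ (inv_ne_zero hw)).1 (by rw [ord_inv hf hw]; omega)
    rw [ord_inv hg hw] at h3
    omega
  obtain ⟨π, hπ⟩ := hf.one
  obtain ⟨π', hπ'⟩ := hg.one
  have hπ0 : π ≠ 0 := by rintro rfl; rw [hf.zero] at hπ; exact zero_ne_one hπ
  have hπ0' : π' ≠ 0 := by rintro rfl; rw [hg.zero] at hπ'; exact zero_ne_one hπ'
  have h2 : ∀ z : F, z ≠ 0 → g z = f z * g π := by
    intro z hz
    have hp : π ^ f z ≠ 0 := zpow_ne_zero _ hπ0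
    have h3 := h1 (z * (π ^ f z)⁻¹) (mul_ne_zero hz (inv_ne_zero hp)) (by
      rw [hf.mul _ _ hz (inv_ne_zero hp), ord_inv hf hp, ord_zpow hf hπ0, hπ]
      ring)
    rw [hg.mul _ _ hz (inv_ne_zero hp), ord_inv hg hp, ord_zpow hg hπ0] at h3
    linarith
  have h4 : 0 ≤ g π := (h0 π hπ0).1 (by rw [hπ]; exact zero_le_one)
  have h5 := h2 π' hπ0'
  rw [hπ'] at h5
  have h6 : g π = 1 := by
    rcases Int.eq_one_or_neg_one_of_mul_eq_one' h5.symm with h | h
    · exact h.2
    · omega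
  funext z
  by_cases hz : z = 0
  · rw [hz, hf.zero, hg.zero]
  · rw [h2 z hz, h6, mul_one]

section

variable {k F : Type*} [Field k] [Field F] [Algebra k F] [CFF k F]

/-- elements whose values are close to each other are independent over `k(x)`. -/
theorem indep_of_val (P : Plk k F) {x : F} (hx0 : x ≠ 0) (hx : P.1.valuation x < 1)
    {ι : Type*} [Fintype ι] {y : ι → F} (hy : ∀ i, y i ≠ 0)
    (hd : ∀ i j, i ≠ j → P.1.valuation (y i) ≠ P.1.valuation (y j))
    (hlt : ∀ i j, P.1.valuation x * P.1.valuation (y i) < P.1.valuation (y j)) :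
    LinearIndependent k⟮x⟯ y := by
  classical
  by_contra hdep
  obtain ⟨htr, -⟩ := finite_of_notMem (nc_of_lt P hx0 hx)
  obtain ⟨φ, ⟨i0, hi0⟩, hsum⟩ := exists_rel htr hdep
  obtain ⟨j, hj, hmax⟩ := Finset.exists_max_image
    (Finset.univ.filter fun i => (φ i).coeff 0 ≠ 0) (fun i => P.1.valuation (y i))
    ⟨i0, by simpa using hi0⟩
  have hj' : (φ j).coeff 0 ≠ 0 := by simpa using hj
  have hyj : P.1.valuation (y j) ≠ 0 := (Valuation.ne_zero_iff _).2 (hy j)
  have hvj : P.1.valuation (aeval x (φ j) * y j) = P.1.valuation (y j) := by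
    rw [map_mul, v_aeval_one P hx hj', one_mul]
  have hrest : P.1.valuation (∑ i ∈ Finset.univ.erase j, aeval x (φ i) * y i) <
      P.1.valuation (y j) := by
    apply Valuation.map_sum_lt _ hyj
    intro i hi
    have hij : i ≠ j := Finset.ne_of_mem_erase hi
    rw [map_mul]
    by_cases h : (φ i).coeff 0 = 0
    · exact (mul_le_mul_left (v_aeval_zero P hx.le h) _).trans_lt (hlt i j)
    · rw [v_aeval_one P hx h, one_mul]
      exact lt_of_le_of_ne (hmax i (by simpa using h)) (hd i j hij)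
  rw [← Finset.add_sum_erase _ _ (Finset.mem_univ j)] at hsum
  rw [eq_neg_of_add_eq_zero_left hsum, Valuation.map_neg] at hvj
  rw [hvj] at hrest
  exact lt_irrefl _ hrest

theorem AuxCVal.exists_cst_of_poly (P : Plk k F) {z : F} (hz : z ∈ P.1) (n : ℕ) :
    ∀ f : k[X], f.natDegree ≤ n → f ≠ 0 → P.1.valuation (aeval z f) < 1 →
      ∃ c : k, P.1.valuation (z - algebraMap k F c) < 1 := by
  have : IsAlgClosed k := CFF.ac F
  induction n with
  | zero =>
    intro f hd hf hv
    exfalso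
    rw [eq_C_of_natDegree_le_zero hd, aeval_C] at hv
    have h0 : f.coeff 0 ≠ 0 := by
      intro h
      apply hf
      rw [eq_C_of_natDegree_le_zero hd, h, C_0]
    rw [v_cst P h0] at hv
    exact lt_irrefl _ hv
  | succ n ih =>
    intro f hd hf hv
    by_cases h0 : f.natDegree = 0
    · exact ih f (by omega) hf hv
    obtain ⟨c, hc⟩ := IsAlgClosed.exists_root f (by
      intro h
      exact h0 (natDegree_eq_of_degree_eq_some h))
    obtain ⟨g, hg⟩ := dvd_iff_isRoot.2 hc
    have hg0 : g ≠ 0 := by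
      rintro rfl
      exact hf (by rw [hg, mul_zero])
    have hdg : f.natDegree = 1 + g.natDegree := by
      rw [hg, natDegree_mul (X_sub_C_ne_zero c) hg0, natDegree_X_sub_C]
    rw [hg, map_mul, map_sub, aeval_X, aeval_C, map_mul] at hv
    have h1 : P.1.valuation (z - algebraMap k F c) ≤ 1 :=
      (P.1.valuation_le_one_iff _).2 (sub_mem hz (P.2.1 c))
    rcases h1.lt_or_eq with h2 | h2
    · exact ⟨c, h2⟩
    · rw [h2, one_mul] at hv
      exact ih g (by omega) hg0 hv

theorem exists_cst' (P : Plk k F) {z : F} (hz : z ∈ P.1) :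
    ∃ c : k, P.1.valuation (z - algebraMap k F c) < 1 := by
  classical
  obtain ⟨x, hx0, hx⟩ := exists_small P
  obtain ⟨htr, hfd⟩ := finite_of_notMem (nc_of_lt P hx0 hx)
  have hdep : ¬ LinearIndependent k⟮x⟯
      (fun i : Fin (Module.finrank k⟮x⟯ F + 1) => z ^ (i : ℕ)) := by
    intro h
    have h1 := h.fintype_card_le_finrank
    rw [Fintype.card_fin] at h1
    omega
  obtain ⟨φ, ⟨i0, hi0⟩, hsum⟩ := exists_rel htr hdep
  have hz1 : P.1.valuation z ≤ 1 := (P.1.valuation_le_one_iff _).2 hz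
  apply exists_cst_of_poly P hz _ (∑ i, C ((φ i).coeff 0) * X ^ (i : ℕ)) le_rfl
  · intro h
    have h1 := congrArg (fun p : k[X] => p.coeff (i0 : ℕ)) h
    simp only [finsetSum_coeff, coeff_C_mul, coeff_X_pow, coeff_zero] at h1
    rw [Finset.sum_eq_single i0] at h1
    · rw [if_pos rfl, mul_one] at h1
      exact hi0 h1
    · intro j _ hj
      rw [if_neg (fun h' => hj (Fin.ext h'.symm)), mul_zero]
    · intro h'
      exact absurd (Finset.mem_univ _) h'
  · have h1 : aeval z (∑ i, C ((φ i).coeff 0) * X ^ (i : ℕ)) =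
        -∑ i, aeval x (φ i).divX * x * z ^ (i : ℕ) := by
      rw [eq_neg_iff_add_eq_zero, map_sum, ← Finset.sum_add_distrib, ← hsum]
      refine Finset.sum_congr rfl fun i _ => ?_
      rw [map_mul, map_pow, aeval_X, aeval_C, aeval_eq x (φ i)]
      ring
    rw [h1, Valuation.map_neg]
    apply Valuation.map_sum_lt _ one_ne_zero
    intro i _
    rw [map_mul, map_mul, map_pow]
    calc P.1.valuation (aeval x (φ i).divX) * P.1.valuation x * P.1.valuation z ^ (i : ℕ)
        ≤ 1 * P.1.valuation x * 1 :=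
          mul_le_mul' (mul_le_mul' (v_aeval_le P hx.le _) le_rfl) (pow_le_one' hz1 _)
      _ = P.1.valuation x := by rw [one_mul, mul_one]
      _ < 1 := hx

theorem AuxCVal.exists_unif (P : Plk k F) : ∃ t : F, t ≠ 0 ∧ P.1.valuation t < 1 ∧
    ∀ z, P.1.valuation z < 1 → P.1.valuation z ≤ P.1.valuation t := by
  obtain ⟨x, hx0, hx⟩ := exists_small P
  obtain ⟨htr, hfd⟩ := finite_of_notMem (nc_of_lt P hx0 hx)
  by_contra hcon
  push Not at hcon
  have hstep : ∀ t : {t : F // t ≠ 0 ∧ P.1.valuation t < 1},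
      ∃ s : {t : F // t ≠ 0 ∧ P.1.valuation t < 1}, P.1.valuation t.1 < P.1.valuation s.1 := by
    rintro ⟨t, ht0, ht⟩
    obtain ⟨z, hz, hz'⟩ := hcon t ht0 ht
    have hz0 : z ≠ 0 := by
      rintro rfl
      rw [map_zero] at hz'
      exact not_lt_zero hz'
    exact ⟨⟨z, hz0, hz⟩, hz'⟩
  choose nx hnx using hstep
  let y : ℕ → {t : F // t ≠ 0 ∧ P.1.valuation t < 1} := fun n => nx^[n] ⟨x, hx0, hx⟩
  have hy : StrictMono fun n => P.1.valuation (y n).1 := by
    apply strictMono_nat_of_lt_succ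
    intro n
    have h1 : y (n + 1) = nx (y n) := Function.iterate_succ_apply' nx n _
    change P.1.valuation (y n).1 < P.1.valuation (y (n + 1)).1
    rw [h1]
    exact hnx _
  have hvx : 0 < P.1.valuation x := by
    rw [zero_lt_iff]; exact (Valuation.ne_zero_iff _).2 hx0
  have h2 := (indep_of_val P hx0 hx (y := fun i : Fin (Module.finrank k⟮x⟯ F + 1) => (y i).1)
    (fun i => (y i).2.1) (fun i j hij h => hij (Fin.ext (hy.injective h)))
    (fun i j => by
      have h3 : P.1.valuation x ≤ P.1.valuation (y j).1 := hy.monotone (Nat.zero_le _)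
      exact (mul_lt_of_lt_one_right hvx (y i).2.2).trans_le h3)).fintype_card_le_finrank
  rw [Fintype.card_fin] at h2
  omega

theorem AuxCVal.exists_pow (P : Plk k F) {t : F} (ht0 : t ≠ 0) (ht : P.1.valuation t < 1)
    (hmax : ∀ z, P.1.valuation z < 1 → P.1.valuation z ≤ P.1.valuation t) {z : F} (hz0 : z ≠ 0)
    (hz : P.1.valuation z ≤ 1) : ∃ m : ℕ, P.1.valuation z = P.1.valuation t ^ m := by
  classical
  rcases hz.lt_or_eq with hz1 | hz1
  swap
  · exact ⟨0, by rw [hz1, pow_zero]⟩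
  have hvt : 0 < P.1.valuation t := by
    rw [zero_lt_iff]; exact (Valuation.ne_zero_iff _).2 ht0
  have hvz : 0 < P.1.valuation z := by
    rw [zero_lt_iff]; exact (Valuation.ne_zero_iff _).2 hz0
  obtain ⟨htr, hfd⟩ := finite_of_notMem (nc_of_lt P hz0 hz1)
  have hanti : StrictAnti fun n : ℕ => P.1.valuation t ^ n := pow_right_strictAnti₀ hvt ht
  have hex : ∃ M : ℕ, ¬ P.1.valuation z ≤ P.1.valuation t ^ M := by
    refine ⟨Module.finrank k⟮z⟯ F + 1, fun hcon => ?_⟩
    have h2 := (indep_of_val P hz0 hz1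
      (y := fun i : Fin (Module.finrank k⟮z⟯ F + 1) => t ^ ((i : ℕ) + 1))
      (fun i => pow_ne_zero _ ht0)
      (fun i j hij h => hij (by
        rw [map_pow, map_pow] at h
        have h3 := hanti.injective h
        exact Fin.ext (by omega)))
      (fun i j => by
        rw [map_pow, map_pow]
        have h3 : P.1.valuation t ^ ((i : ℕ) + 1) < 1 := by
          have := hanti (Nat.succ_pos (i : ℕ))
          simpa using this
        refine (mul_lt_of_lt_one_right hvz h3).trans_le (hcon.trans ?_)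
        have h4 : (j : ℕ) + 1 ≤ Module.finrank k⟮z⟯ F + 1 := j.2
        exact hanti.antitone h4)).fintype_card_le_finrank
    rw [Fintype.card_fin] at h2
    omega
  have hM := Nat.find_spec hex
  have hM0 : Nat.find hex ≠ 0 := by
    intro h
    rw [h, pow_zero] at hM
    exact hM hz
  obtain ⟨m, hm⟩ := Nat.exists_eq_succ_of_ne_zero hM0
  have hPm : P.1.valuation z ≤ P.1.valuation t ^ m := by
    have := Nat.find_min hex (m := m) (by omega)
    exact not_not.1 this
  rw [hm] at hM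
  refine ⟨m, le_antisymm hPm (not_lt.1 fun hlt => hM ?_)⟩
  have h5 : P.1.valuation (z * (t ^ m)⁻¹) < 1 := by
    rw [map_mul, map_inv₀, map_pow, ← div_eq_mul_inv]
    exact (div_lt_one₀ (pow_pos hvt m)).2 hlt
  have h6 := hmax _ h5
  rw [map_mul, map_inv₀, map_pow, ← div_eq_mul_inv, div_le_iff₀ (pow_pos hvt m)] at h6
  rw [Nat.succ_eq_add_one, pow_succ']
  exact h6

theorem exists_isOrd (P : Plk k F) : ∃ f : F → ℤ, IsOrd P.1 f := by
  classical
  obtain ⟨t, ht0, ht, hmax⟩ := exists_unif P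
  have hvt : 0 < P.1.valuation t := by
    rw [zero_lt_iff]; exact (Valuation.ne_zero_iff _).2 ht0
  have hex : ∀ z : F, z ≠ 0 → ∃ n : ℤ, P.1.valuation z = P.1.valuation t ^ n := by
    intro z hz0
    rcases le_total (P.1.valuation z) 1 with h | h
    · obtain ⟨m, hm⟩ := exists_pow P ht0 ht hmax hz0 h
      exact ⟨m, by rw [hm, zpow_natCast]⟩
    · obtain ⟨m, hm⟩ := exists_pow P ht0 ht hmax (inv_ne_zero hz0) (by
        rw [map_inv₀]
        exact inv_le_one_of_one_le₀ h)
      refine ⟨-m, ?_⟩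
      rw [map_inv₀] at hm
      rw [zpow_neg, zpow_natCast, ← hm, inv_inv]
  have hanti : StrictAnti fun n : ℤ => P.1.valuation t ^ n := zpow_right_strictAnti₀ hvt ht
  choose g hg using hex
  let f : F → ℤ := fun z => if h : z = 0 then 0 else g z h
  have hf0 : f 0 = 0 := dif_pos rfl
  have hf : ∀ z : F, z ≠ 0 → P.1.valuation z = P.1.valuation t ^ f z := by
    intro z hz
    have : f z = g z hz := dif_neg hz
    rw [this]
    exact hg z hz
  have huniq : ∀ z : F, z ≠ 0 → ∀ n : ℤ, P.1.valuation z = P.1.valuation t ^ n → f z = n := by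
    intro z hz n hn
    rw [hf z hz] at hn
    exact hanti.injective hn
  refine ⟨f, ⟨hf0, ?_, ?_, ?_, ?_⟩⟩
  · intro x y hx hy
    apply huniq _ (mul_ne_zero hx hy)
    rw [map_mul, hf x hx, hf y hy, zpow_add₀ hvt.ne']
  · intro x y hx hy hxy
    have h1 := P.1.valuation.map_add x y
    rw [hf x hx, hf y hy, hf _ hxy] at h1
    rcases le_max_iff.1 h1 with h | h
    · exact (min_le_left _ _).trans (hanti.le_iff_ge.1 h)
    · exact (min_le_right _ _).trans (hanti.le_iff_ge.1 h)
  · intro x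
    by_cases hx : x = 0
    · rw [hx]
      exact ⟨fun _ => Or.inl rfl, fun _ => zero_mem _⟩
    · have h1 : P.1.valuation x ≤ 1 ↔ 0 ≤ f x := by
        rw [hf x hx, ← zpow_zero (P.1.valuation t)]
        exact hanti.le_iff_ge
      rw [← P.1.valuation_le_one_iff, h1]
      exact ⟨fun h => Or.inr h, fun h => h.resolve_left hx⟩
  · exact ⟨t, huniq t ht0 1 (by rw [zpow_one])⟩

/-- the order at a place. -/
noncomputable def ord (P : Plk k F) : F → ℤ := (exists_isOrd P).choose

theorem ord_spec (P : Plk k F) : IsOrd P.1 (ord P) := (exists_isOrd P).choose_spec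

/-- places are determined by their orders; the residue field is `k`. -/
theorem exists_cst (P : Plk k F) {z : F} (hz : z ∈ P.1) :
    ∃ c : k, z = algebraMap k F c ∨ 0 < ord P (z - algebraMap k F c) := by
  obtain ⟨c, hc⟩ := exists_cst' P hz
  refine ⟨c, ?_⟩
  by_cases h : z = algebraMap k F c
  · exact Or.inl h
  right
  have hw : z - algebraMap k F c ≠ 0 := sub_ne_zero.2 h
  have hO := ord_spec P
  have h1 : 0 ≤ ord P (z - algebraMap k F c) :=
    ((hO.mem _).1 (sub_mem hz (P.2.1 c))).resolve_left hw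
  by_contra hcon
  have h2 : ord P (z - algebraMap k F c) = 0 := by omega
  have h3 : (z - algebraMap k F c)⁻¹ ∈ P.1 :=
    (hO.mem _).2 (Or.inr (by rw [ord_inv hO hw, h2, neg_zero]))
  rw [← P.1.valuation_le_one_iff, map_inv₀, inv_le_one₀ (by
    rw [zero_lt_iff]; exact (Valuation.ne_zero_iff _).2 hw)] at h3
  exact absurd hc (not_lt.2 h3)

end

end Vale.Agent.P019P
end

section

/-!
# Rules for the order at a place
-/

namespace Vale.Agent.P019P

open Polynomial IntermediateField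

section

variable {k F : Type*} [Field k] [Field F] [Algebra k F] [CFF k F]

theorem ord_zero (P : Plk k F) : ord P 0 = 0 := (ord_spec P).zero

theorem ord_mul (P : Plk k F) {x y : F} (hx : x ≠ 0) (hy : y ≠ 0) :
    ord P (x * y) = ord P x + ord P y := (ord_spec P).mul x y hx hy

theorem ord_one (P : Plk k F) : ord P 1 = 0 := by
  have h := ord_mul P (one_ne_zero (α := F)) (one_ne_zero (α := F))
  rw [one_mul] at h
  omega

theorem ord_inv (P : Plk k F) (x : F) : ord P x⁻¹ = -ord P x := by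
  by_cases hx : x = 0
  · rw [hx, inv_zero, ord_zero, neg_zero]
  have h := ord_mul P hx (inv_ne_zero hx)
  rw [mul_inv_cancel₀ hx, ord_one] at h
  omega

theorem ord_neg (P : Plk k F) (x : F) : ord P (-x) = ord P x := by
  have h0 : (-1 : F) ≠ 0 := neg_ne_zero.2 one_ne_zero
  have h1 : ord P (-1) = 0 := by
    have h := ord_mul P h0 h0
    rw [neg_mul_neg, one_mul, ord_one] at h
    omega
  by_cases hx : x = 0
  · rw [hx, neg_zero]
  have h := ord_mul P h0 hx
  rw [neg_one_mul, h1, zero_add] at h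
  exact h

theorem ord_pow (P : Plk k F) (x : F) (n : ℕ) : ord P (x ^ n) = n * ord P x := by
  by_cases hx : x = 0
  · rw [hx, ord_zero, mul_zero]
    rcases Nat.eq_zero_or_pos n with rfl | hn
    · rw [pow_zero, ord_one]
    · rw [zero_pow hn.ne', ord_zero]
  induction n with
  | zero => rw [pow_zero, ord_one, Nat.cast_zero, zero_mul]
  | succ n ih => rw [pow_succ, ord_mul P (pow_ne_zero n hx) hx, ih, Nat.cast_succ, add_mul, one_mul]

theorem ord_zpow (P : Plk k F) (x : F) (n : ℤ) : ord P (x ^ n) = n * ord P x := by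
  cases n with
  | ofNat n => rw [Int.ofNat_eq_natCast, zpow_natCast, ord_pow]
  | negSucc n =>
    rw [zpow_negSucc, ord_inv, ord_pow, Int.negSucc_eq, ← neg_mul]
    push_cast
    rfl

theorem ord_const (P : Plk k F) (a : k) : ord P (algebraMap k F a) = 0 := by
  by_cases ha : a = 0
  · rw [ha, map_zero, ord_zero]
  have h1 : algebraMap k F a ≠ 0 := by rwa [Ne, map_eq_zero]
  have h2 := (((ord_spec P).mem _).1 (P.2.1 a)).resolve_left h1
  have h3 := (((ord_spec P).mem _).1 (P.2.1 a⁻¹)).resolve_left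
    (by rw [map_inv₀]; exact inv_ne_zero h1)
  rw [map_inv₀, ord_inv] at h3
  omega

theorem ord_le_add (P : Plk k F) {x y : F} (hx : x ≠ 0) (hy : y ≠ 0) (h : x + y ≠ 0) :
    min (ord P x) (ord P y) ≤ ord P (x + y) := (ord_spec P).add x y hx hy h

theorem mem_iff_ord (P : Plk k F) (x : F) : x ∈ P.1 ↔ x = 0 ∨ 0 ≤ ord P x :=
  (ord_spec P).mem x

theorem exists_unif (P : Plk k F) : ∃ π : F, π ≠ 0 ∧ ord P π = 1 := by
  obtain ⟨π, h⟩ := (ord_spec P).one
  refine ⟨π, ?_, h⟩
  rintro rfl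
  rw [ord_zero] at h
  exact zero_ne_one h

/-- two places one of which contains the other are equal. -/
theorem Plk.eq_of_le {P Q : Plk k F} (h : ∀ z, z ∈ P.1 → z ∈ Q.1) : P = Q := by
  obtain ⟨π, hπ0, hπ⟩ := exists_unif P
  have key : ∀ u : F, u ≠ 0 → ord P u = 0 → ord Q u = 0 := by
    intro u hu hu0
    have h1 : u ∈ Q.1 := h u ((mem_iff_ord P u).2 (Or.inr hu0.ge))
    have h2 : u⁻¹ ∈ Q.1 := h _ ((mem_iff_ord P _).2 (Or.inr (by rw [ord_inv, hu0, neg_zero])))
    have h3 := ((mem_iff_ord Q u).1 h1).resolve_left hu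
    have h4 := ((mem_iff_ord Q _).1 h2).resolve_left (inv_ne_zero hu)
    rw [ord_inv] at h4
    omega
  have key2 : ∀ z : F, z ≠ 0 → ord Q z = ord P z * ord Q π := by
    intro z hz
    have h1 : π ^ (-ord P z) ≠ 0 := zpow_ne_zero _ hπ0
    have h2 := key (z * π ^ (-ord P z)) (mul_ne_zero hz h1)
      (by rw [ord_mul P hz h1, ord_zpow, hπ, mul_one, add_neg_cancel])
    rw [ord_mul Q hz h1, ord_zpow, neg_mul] at h2
    omega
  obtain ⟨w, hw⟩ : ∃ w, w ∉ Q.1 := by
    by_contra hcon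
    push Not at hcon
    exact Q.2.2 (ValuationSubring.ext _ _ fun z => ⟨fun _ => ValuationSubring.mem_top z,
      fun _ => hcon z⟩)
  have hw0 : w ≠ 0 := by
    rintro rfl
    exact hw (zero_mem _)
  have hwP : ord P w < 0 := by
    by_contra hcon
    exact hw (h w ((mem_iff_ord P w).2 (Or.inr (not_lt.1 hcon))))
  have hwQ : ord Q w < 0 := by
    by_contra hcon
    exact hw ((mem_iff_ord Q w).2 (Or.inr (not_lt.1 hcon)))
  have hπQ : 0 < ord Q π := by
    rw [key2 w hw0] at hwQ
    by_contra hcon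
    exact absurd (mul_nonneg_of_nonpos_of_nonpos hwP.le (not_lt.1 hcon)) (not_le.2 hwQ)
  refine Subtype.ext (ValuationSubring.ext _ _ fun z => ⟨h z, fun hz => ?_⟩)
  by_cases hz0 : z = 0
  · rw [hz0]; exact zero_mem _
  have h1 := ((mem_iff_ord Q z).1 hz).resolve_left hz0
  rw [key2 z hz0] at h1
  exact (mem_iff_ord P z).2 (Or.inr (nonneg_of_mul_nonneg_left h1 hπQ))

/-- the elements of order at least `n` at `P`. -/
def Mge (P : Plk k F) (n : ℤ) : Submodule k F where
  carrier := {z | z = 0 ∨ n ≤ ord P z}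
  zero_mem' := Or.inl rfl
  add_mem' := by
    rintro z w hz hw
    by_cases h1 : z = 0
    · rw [h1, zero_add]; exact hw
    by_cases h2 : w = 0
    · rw [h2, add_zero]; exact hz
    by_cases h3 : z + w = 0
    · exact Or.inl h3
    · exact Or.inr ((le_min (hz.resolve_left h1) (hw.resolve_left h2)).trans
        (ord_le_add P h1 h2 h3))
  smul_mem' := by
    rintro a z hz
    by_cases h1 : z = 0
    · left; rw [h1, smul_zero]
    by_cases h2 : a = 0
    · left; rw [h2, zero_smul]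
    right
    have h3 : algebraMap k F a ≠ 0 := by rwa [Ne, map_eq_zero]
    rw [Algebra.smul_def, ord_mul P h3 h1, ord_const, zero_add]
    exact hz.resolve_left h1

theorem mem_Mge {P : Plk k F} {n : ℤ} {z : F} : z ∈ Mge P n ↔ z = 0 ∨ n ≤ ord P z := Iff.rfl

theorem Mge_mono (P : Plk k F) {m n : ℤ} (h : m ≤ n) : Mge P n ≤ Mge P m := by
  intro z hz
  rcases hz with h0 | h1
  · exact Or.inl h0
  · exact Or.inr (h.trans h1)

theorem mul_mem_Mge {P : Plk k F} {m n : ℤ} {z w : F} (hz : z ∈ Mge P m) (hw : w ∈ Mge P n) :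
    z * w ∈ Mge P (m + n) := by
  by_cases h1 : z = 0
  · left; rw [h1, zero_mul]
  by_cases h2 : w = 0
  · left; rw [h2, mul_zero]
  right
  rw [ord_mul P h1 h2]
  exact add_le_add (hz.resolve_left h1) (hw.resolve_left h2)

/-- multiplication by a nonzero element shifts the orders. -/
theorem mul_mem_Mge_iff {P : Plk k F} {n : ℤ} {z w : F} (hz : z ≠ 0) :
    z * w ∈ Mge P n ↔ w ∈ Mge P (n - ord P z) := by
  by_cases h2 : w = 0
  · rw [h2, mul_zero]
    exact ⟨fun _ => Or.inl rfl, fun _ => Or.inl rfl⟩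
  rw [mem_Mge, mem_Mge, ord_mul P hz h2, mul_eq_zero, or_iff_right hz, sub_le_iff_le_add']

theorem ord_add_of_lt {P : Plk k F} {z w : F} (hz : z ≠ 0) (hw : w ∈ Mge P (ord P z + 1)) :
    z + w ≠ 0 ∧ ord P (z + w) = ord P z := by
  by_cases h1 : w = 0
  · rw [h1, add_zero]; exact ⟨hz, rfl⟩
  have h2 := hw.resolve_left h1
  have h3 : z + w ≠ 0 := by
    intro h
    rw [eq_neg_of_add_eq_zero_right h, ord_neg] at h2
    omega
  refine ⟨h3, ?_⟩
  have h4 := ord_le_add P hz h1 h3
  have h5 := ord_le_add P h3 (neg_ne_zero.2 h1) (by rw [add_neg_cancel_right]; exact hz)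
  rw [add_neg_cancel_right, ord_neg] at h5
  omega

/-- a sum with one dominating term. -/
theorem ord_sum_of_lt {P : Plk k F} {ι : Type*} {s : Finset ι} {f : ι → F} {i : ι} (hi : i ∈ s)
    (h0 : f i ≠ 0) (h : ∀ j ∈ s, j ≠ i → f j ∈ Mge P (ord P (f i) + 1)) :
    ∑ j ∈ s, f j ≠ 0 ∧ ord P (∑ j ∈ s, f j) = ord P (f i) := by
  classical
  rw [← Finset.add_sum_erase s f hi]
  exact ord_add_of_lt h0 (Submodule.sum_mem _ fun j hj =>
    h j (Finset.mem_of_mem_erase hj) (Finset.ne_of_mem_erase hj))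

/-- polynomials in an element of nonnegative order. -/
theorem COrd_aeval_mem {P : Plk k F} {x : F} (hx : 0 ≤ ord P x) (φ : k[X]) :
    aeval x φ ∈ Mge P 0 := by
  rw [Polynomial.aeval_eq_sum_range]
  refine Submodule.sum_mem _ fun i _ => Submodule.smul_mem _ _ (Or.inr ?_)
  rw [ord_pow]
  exact mul_nonneg (Int.natCast_nonneg i) hx

theorem COrd_aeval_divX {P : Plk k F} {x : F} (hx : 0 < ord P x) (φ : k[X]) :
    aeval x φ.divX * x ∈ Mge P (ord P x) := by
  have h := mul_mem_Mge (COrd_aeval_mem hx.le φ.divX) (show x ∈ Mge P (ord P x) from Or.inr le_rfl)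
  rwa [zero_add] at h

omit [CFF k F] in
theorem COrd_aeval_eq (x : F) (φ : k[X]) :
    aeval x φ = algebraMap k F (φ.coeff 0) + aeval x φ.divX * x := by
  conv_lhs => rw [← Polynomial.divX_mul_X_add φ]
  rw [map_add, map_mul, aeval_X, aeval_C, add_comm]

/-- the values of a polynomial at an element of positive order. -/
theorem ord_aeval_of_coeff_ne {P : Plk k F} {x : F} (hx : 0 < ord P x) {φ : k[X]}
    (h : φ.coeff 0 ≠ 0) : aeval x φ ≠ 0 ∧ ord P (aeval x φ) = 0 := by
  rw [COrd_aeval_eq]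
  have h1 : algebraMap k F (φ.coeff 0) ≠ 0 := by rwa [Ne, map_eq_zero]
  have h2 := ord_add_of_lt h1 (P := P) (w := aeval x φ.divX * x)
    (Mge_mono P (by rw [ord_const, zero_add]; exact hx) (COrd_aeval_divX hx φ))
  rw [ord_const] at h2
  exact h2

theorem aeval_mem_of_coeff_eq {P : Plk k F} {x : F} (hx : 0 < ord P x) {φ : k[X]}
    (h : φ.coeff 0 = 0) : aeval x φ ∈ Mge P (ord P x) := by
  rw [COrd_aeval_eq, h, map_zero, zero_add]
  exact COrd_aeval_divX hx φ

theorem aeval_mem_zero {P : Plk k F} {x : F} (hx : 0 ≤ ord P x) (φ : k[X]) :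
    aeval x φ ∈ Mge P 0 := by
  exact COrd_aeval_mem hx φ

/-- `Mge P n / Mge P (n + 1)` is at most one-dimensional. -/
theorem exists_sub_mem {P : Plk k F} {n : ℤ} {z w : F} (hz : z ≠ 0) (hz1 : ord P z = n)
    (hw : w ∈ Mge P n) : ∃ a : k, w - a • z ∈ Mge P (n + 1) := by
  have h1 : z⁻¹ ∈ Mge P (-n) := Or.inr (by rw [ord_inv, hz1])
  have h2 : w * z⁻¹ ∈ Mge P 0 := by
    have h := mul_mem_Mge hw h1
    rwa [add_neg_cancel] at h
  obtain ⟨c, hc⟩ := exists_cst P ((mem_iff_ord P _).2 h2)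
  refine ⟨c, ?_⟩
  have h3 : w - c • z = z * (w * z⁻¹ - algebraMap k F c) := by
    rw [Algebra.smul_def, mul_sub, mul_comm z (w * z⁻¹), mul_assoc, inv_mul_cancel₀ hz, mul_one,
      mul_comm z]
  rw [h3]
  refine mul_mem_Mge (Or.inr hz1.ge) ?_
  rcases hc with hc | hc
  · left; rw [hc, sub_self]
  · right; exact hc

end

end Vale.Agent.P019P
end

section

/-!
# Weak approximation
-/

namespace Vale.Agent.P019P

section

variable {k F : Type*} [Field k] [Field F] [Algebra k F] [CFF k F]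

theorem CAppr_add {P : Plk k F} {x y : F} (hx : x ≠ 0) (hy : y ≠ 0) (h : ord P x ≠ ord P y) :
    x + y ≠ 0 ∧ ord P (x + y) = min (ord P x) (ord P y) := by
  rcases lt_or_gt_of_ne h with h | h
  · have h1 := ord_add_of_lt (P := P) (w := y) hx (mem_Mge.2 (Or.inr (by omega)))
    rw [min_eq_left h.le]
    exact h1
  · have h1 := ord_add_of_lt (P := P) (w := x) hy (mem_Mge.2 (Or.inr (by omega)))
    rw [min_eq_right h.le, add_comm]
    exact h1

theorem CAppr_pair {P Q : Plk k F} (h : P ≠ Q) :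
    ∃ u : F, u ≠ 0 ∧ 0 < ord P u ∧ ord Q u < 0 := by
  have key : ∀ P Q : Plk k F, P ≠ Q → ∃ y : F, y ≠ 0 ∧ 0 ≤ ord P y ∧ ord Q y < 0 := by
    intro P Q h
    by_contra hc
    push Not at hc
    refine h (Plk.eq_of_le fun z hz => ?_)
    rw [mem_iff_ord] at hz ⊢
    by_cases hz0 : z = 0
    · exact Or.inl hz0
    · exact Or.inr (hc z hz0 (hz.resolve_left hz0))
  obtain ⟨y, hy0, hy1, hy2⟩ := key P Q h
  obtain ⟨z, hz0, hz1, hz2⟩ := key Q P h.symm
  refine ⟨y * z⁻¹, mul_ne_zero hy0 (inv_ne_zero hz0), ?_, ?_⟩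
  · rw [ord_mul P hy0 (inv_ne_zero hz0), ord_inv]
    omega
  · rw [ord_mul Q hy0 (inv_ne_zero hz0), ord_inv]
    omega

theorem CAppr_sep (P : Plk k F) (S : Finset (Plk k F)) (hP : P ∉ S) :
    ∃ u : F, u ≠ 0 ∧ 0 < ord P u ∧ ∀ Q ∈ S, ord Q u < 0 := by
  classical
  induction S using Finset.induction_on with
  | empty =>
    obtain ⟨u, hu0, hu1⟩ := exists_unif P
    exact ⟨u, hu0, by omega, fun Q hQ => absurd hQ (Finset.notMem_empty Q)⟩
  | insert Q S hQ ih =>
    rw [Finset.mem_insert, not_or] at hP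
    obtain ⟨y, hy0, hy1, hy2⟩ := ih hP.2
    by_cases hQy : ord Q y < 0
    · refine ⟨y, hy0, hy1, fun R hR => ?_⟩
      rcases Finset.mem_insert.1 hR with rfl | hR
      · exact hQy
      · exact hy2 R hR
    · obtain ⟨z, hz0, hz1, hz2⟩ := CAppr_pair hP.1
      set r : ℕ := 1 + ∑ R ∈ S, (ord R y).natAbs with hr
      have hr1 : 1 ≤ r := Nat.le_add_right _ _
      have hrS : ∀ R ∈ S, (ord R y).natAbs < r := by
        intro R hR
        have := Finset.single_le_sum (f := fun R => (ord R y).natAbs)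
          (fun _ _ => Nat.zero_le _) hR
        omega
      have hzr : z ^ r ≠ 0 := pow_ne_zero r hz0
      have hQ1 : ord Q (z ^ r) < 0 := by
        rw [ord_pow]
        have : (0 : ℤ) < r := by exact_mod_cast hr1
        exact mul_neg_of_pos_of_neg this hz2
      have hQ2 := CAppr_add (P := Q) hy0 hzr (by omega)
      refine ⟨y + z ^ r, hQ2.1, ?_, fun R hR => ?_⟩
      · have h1 := ord_le_add P hy0 hzr hQ2.1
        have h2 : 0 < ord P (z ^ r) := by
          rw [ord_pow]
          have : (0 : ℤ) < r := by exact_mod_cast hr1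
          exact mul_pos this hz1
        exact (lt_min hy1 h2).trans_le h1
      · rcases Finset.mem_insert.1 hR with rfl | hR
        · rw [hQ2.2]
          exact (min_le_right _ _).trans_lt hQ1
        · have h1 : ord R y ≠ ord R (z ^ r) := by
            rw [ord_pow]
            intro h
            have h2 := hrS R hR
            have h3 := hy2 R hR
            rw [h, Int.natAbs_mul, Int.natAbs_natCast] at h2
            have h4 : (ord R z).natAbs = 0 := by
              by_contra h5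
              have : r * 1 ≤ r * (ord R z).natAbs := Nat.mul_le_mul_left r (by omega)
              omega
            rw [Int.natAbs_eq_zero] at h4
            rw [h4, mul_zero] at h
            omega
          rw [(CAppr_add hy0 hzr h1).2]
          exact (min_le_left _ _).trans_lt (hy2 R hR)

theorem CAppr_one (P : Plk k F) (S : Finset (Plk k F)) (hP : P ∉ S) (N : ℤ) :
    ∃ w : F, w - 1 ∈ Mge P N ∧ ∀ Q ∈ S, w ∈ Mge Q N := by
  obtain ⟨u, hu0, hu1, hu2⟩ := CAppr_sep P S hP
  set s : ℕ := 1 + N.toNat with hs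
  have hs1 : (1 : ℤ) ≤ s := by omega
  have hsN : N ≤ s := by omega
  have hv0 : u ^ s ≠ 0 := pow_ne_zero s hu0
  have hPv : (s : ℤ) ≤ ord P (u ^ s) := by
    rw [ord_pow]
    nlinarith
  have hP1 := ord_add_of_lt (P := P) (z := 1) (w := u ^ s) one_ne_zero
    (mem_Mge.2 (Or.inr (by rw [ord_one]; omega)))
  rw [ord_one] at hP1
  refine ⟨(1 + u ^ s)⁻¹, ?_, fun Q hQ => ?_⟩
  · have e : (1 + u ^ s)⁻¹ - 1 = -(u ^ s * (1 + u ^ s)⁻¹) := by
      field_simp [hP1.1]
      ring
    rw [e]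
    have h1 : u ^ s ∈ Mge P (s : ℤ) := mem_Mge.2 (Or.inr hPv)
    have h2 : (1 + u ^ s)⁻¹ ∈ Mge P 0 :=
      mem_Mge.2 (Or.inr (by rw [ord_inv, hP1.2, neg_zero]))
    have h3 := mul_mem_Mge h1 h2
    exact (Mge P N).neg_mem (Mge_mono P (by omega) h3)
  · have hQv : ord Q (u ^ s) ≤ -(s : ℤ) := by
      rw [ord_pow]
      have := hu2 Q hQ
      nlinarith
    have h1 := CAppr_add (P := Q) (x := 1) (y := u ^ s) one_ne_zero hv0
      (by rw [ord_one]; omega)
    refine mem_Mge.2 (Or.inr ?_)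
    rw [ord_inv, h1.2, ord_one, min_eq_right (by omega)]
    omega

theorem weak_appr (S : Finset (Plk k F)) (f : Plk k F → F) (N : ℤ) :
    ∃ z : F, ∀ P ∈ S, z - f P ∈ Mge P N := by
  classical
  set M : ℤ := ∑ P ∈ S, ∑ Q ∈ S, |ord Q (f P)| with hM
  have hMb : ∀ P ∈ S, ∀ Q ∈ S, |ord Q (f P)| ≤ M := by
    intro P hP Q hQ
    have h1 : |ord Q (f P)| ≤ ∑ Q ∈ S, |ord Q (f P)| :=
      Finset.single_le_sum (f := fun Q => |ord Q (f P)|) (fun _ _ => abs_nonneg _) hQ
    have h2 : ∑ Q ∈ S, |ord Q (f P)| ≤ M :=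
      Finset.single_le_sum (f := fun P => ∑ Q ∈ S, |ord Q (f P)|)
        (fun _ _ => Finset.sum_nonneg fun _ _ => abs_nonneg _) hP
    exact h1.trans h2
  have hex : ∀ P : Plk k F, ∃ w : F, w - 1 ∈ Mge P (N + M) ∧
      ∀ Q ∈ S.erase P, w ∈ Mge Q (N + M) := fun P =>
    CAppr_one P (S.erase P) (Finset.notMem_erase P S) (N + M)
  choose w hw1 hw2 using hex
  refine ⟨∑ P ∈ S, f P * w P, fun P hP => ?_⟩
  have hf : ∀ Q ∈ S, f Q ∈ Mge P (-M) := fun Q hQ =>
    mem_Mge.2 (Or.inr (neg_le_of_abs_le (hMb Q hQ P hP)))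
  have e : ∑ Q ∈ S, f Q * w Q - f P = f P * (w P - 1) + ∑ Q ∈ S.erase P, f Q * w Q := by
    rw [← Finset.add_sum_erase S _ hP]
    ring
  rw [e]
  have e2 : -M + (N + M) = N := by ring
  refine (Mge P N).add_mem ?_ ((Mge P N).sum_mem fun Q hQ => ?_)
  · have := mul_mem_Mge (hf P hP) (hw1 P)
    rwa [e2] at this
  · have hQ' := Finset.mem_erase.1 hQ
    have := mul_mem_Mge (hf Q hQ'.2) (hw2 Q P (Finset.mem_erase.2 ⟨hQ'.1.symm, hP⟩))
    rwa [e2] at this

/-- elements with given orders. -/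
theorem exists_ord_eq (S : Finset (Plk k F)) (m : Plk k F → ℤ) :
    ∃ z : F, z ≠ 0 ∧ ∀ P ∈ S, ord P z = m P := by
  rcases S.eq_empty_or_nonempty with rfl | ⟨P0, hP0⟩
  · exact ⟨1, one_ne_zero, fun P hP => absurd hP (Finset.notMem_empty P)⟩
  choose π hπ0 hπ1 using fun P : Plk k F => exists_unif P
  obtain ⟨z, hz⟩ := weak_appr S (fun P => π P ^ m P) (1 + ∑ P ∈ S, |m P|)
  have key : ∀ P ∈ S, z ≠ 0 ∧ ord P z = m P := by
    intro P hP
    have h1 : |m P| ≤ ∑ P ∈ S, |m P| :=
      Finset.single_le_sum (f := fun P => |m P|) (fun _ _ => abs_nonneg _) hP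
    have h2 : ord P (π P ^ m P) = m P := by rw [ord_zpow, hπ1, mul_one]
    have h3 : z - π P ^ m P ∈ Mge P (ord P (π P ^ m P) + 1) := by
      rw [h2]
      exact Mge_mono P (by linarith [le_abs_self (m P)]) (hz P hP)
    have h4 := ord_add_of_lt (zpow_ne_zero (m P) (hπ0 P)) h3
    rw [add_sub_cancel, h2] at h4
    exact h4
  exact ⟨z, (key P0 hP0).1, fun P hP => (key P hP).2⟩

end

end Vale.Agent.P019P
end

section

/-!
# The zeros of a function
-/

namespace Vale.Agent.P019P

open Polynomial IntermediateField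

section

variable {k F : Type*} [Field k] [Field F] [Algebra k F] [CFF k F]

/-- the number of zeros is bounded by the degree. -/
theorem sum_ord_le {x : F} (hx : ∀ a : k, x ≠ algebraMap k F a) (S : Finset (Plk k F))
    (hS : ∀ P ∈ S, 0 < ord P x) : ∑ P ∈ S, ord P x ≤ Module.finrank k⟮x⟯ F := by
  classical
  obtain ⟨hT, hfd⟩ := finite_of_notMem hx
  choose w hw0 hw using fun i : (P : S) × Fin (ord P.1 x).toNat =>
    exists_ord_eq S (fun Q => if Q = i.1.1 then ((i.2 : ℕ) : ℤ) else ord Q x)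
  have hwP : ∀ i, ord i.1.1 (w i) = ((i.2 : ℕ) : ℤ) := fun i => by
    rw [hw i _ i.1.2, if_pos rfl]
  have hli : LinearIndependent k⟮x⟯ w := by
    by_contra hnot
    obtain ⟨φ, ⟨⟨P, a0⟩, h0⟩, hrel⟩ := exists_rel hT hnot
    obtain ⟨a, ha, hmin⟩ := Finset.exists_min_image
      (Finset.univ.filter fun a : Fin (ord P.1 x).toNat => (φ ⟨P, a⟩).coeff 0 ≠ 0)
      (fun a => (a : ℕ)) ⟨a0, by simp only [Finset.mem_filter, Finset.mem_univ, true_and]; exact h0⟩
    rw [Finset.mem_filter] at ha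
    have hPx : 0 < ord P.1 x := hS P.1 P.2
    have hax : ((a : ℕ) : ℤ) < ord P.1 x := by
      have h1 := a.2
      omega
    obtain ⟨h1, h2⟩ := ord_aeval_of_coeff_ne hPx ha.2
    have h3 : aeval x (φ ⟨P, a⟩) * w ⟨P, a⟩ ≠ 0 := mul_ne_zero h1 (hw0 _)
    have h4 : ord P.1 (aeval x (φ ⟨P, a⟩) * w ⟨P, a⟩) = ((a : ℕ) : ℤ) := by
      rw [ord_mul P.1 h1 (hw0 _), h2, zero_add]
      exact hwP ⟨P, a⟩
    refine (ord_sum_of_lt (P := P.1) (s := Finset.univ)
      (f := fun i => aeval x (φ i) * w i) (i := ⟨P, a⟩) (Finset.mem_univ _) h3 ?_).1 hrel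
    rintro ⟨Q, b⟩ - hne
    rw [h4]
    by_cases hQ : Q = P
    · subst hQ
      have hb : w ⟨Q, b⟩ ∈ Mge Q.1 ((b : ℕ) : ℤ) := Or.inr (hwP ⟨Q, b⟩).ge
      by_cases hc : (φ ⟨Q, b⟩).coeff 0 = 0
      · have h5 := mul_mem_Mge (aeval_mem_of_coeff_eq hPx hc) hb
        exact Mge_mono _ (by omega) h5
      · have h5 := mul_mem_Mge (aeval_mem_zero hPx.le (φ ⟨Q, b⟩)) hb
        have h6 := hmin b (by simp only [Finset.mem_filter, Finset.mem_univ, true_and]; exact hc)
        have h7 : (b : ℕ) ≠ (a : ℕ) := fun h8 => hne (by rw [Fin.ext h8])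
        exact Mge_mono _ (by omega) h5
    · have hb : w ⟨Q, b⟩ ∈ Mge P.1 (ord P.1 x) := by
        refine Or.inr (le_of_eq ?_)
        rw [hw ⟨Q, b⟩ P.1 P.2, if_neg]
        exact fun h5 => hQ (Subtype.ext h5.symm)
      have h5 := mul_mem_Mge (aeval_mem_zero hPx.le (φ ⟨Q, b⟩)) hb
      exact Mge_mono _ (by omega) h5
  have hcard := hli.fintype_card_le_finrank
  have h1 : Fintype.card ((P : S) × Fin (ord P.1 x).toNat) = ∑ P ∈ S, (ord P x).toNat := by
    rw [Fintype.card_sigma, ← Finset.sum_coe_sort S]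
    simp only [Fintype.card_fin]
  have h2 : ∑ P ∈ S, ord P x = ((∑ P ∈ S, (ord P x).toNat : ℕ) : ℤ) := by
    rw [Nat.cast_sum]
    exact Finset.sum_congr rfl fun P hP => (Int.toNat_of_nonneg (hS P hP).le).symm
  rw [h2, ← h1]
  exact_mod_cast hcard

theorem zeros_finite {x : F} (hx : ∀ a : k, x ≠ algebraMap k F a) :
    {P : Plk k F | 0 < ord P x}.Finite := by
  by_contra hinf
  obtain ⟨t, ht, hcard⟩ := Set.Infinite.exists_subset_card_eq hinf (Module.finrank k⟮x⟯ F + 1)
  have h1 := sum_ord_le hx t (fun P hP => ht hP)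
  have h2 : ∑ _P ∈ t, (1 : ℤ) ≤ ∑ P ∈ t, ord P x := Finset.sum_le_sum fun P hP => ht hP
  rw [Finset.sum_const, hcard, nsmul_eq_mul, mul_one] at h2
  push_cast at h2
  omega

theorem dv_finite {z : F} (hz : z ≠ 0) : {P : Plk k F | ord P z ≠ 0}.Finite := by
  by_cases hc : ∃ a : k, z = algebraMap k F a
  · obtain ⟨a, rfl⟩ := hc
    refine Set.finite_empty.subset fun P hP => ?_
    exact hP (ord_const P a)
  · push Not at hc
    refine ((zeros_finite hc).union (zeros_finite (nc_inv hc))).subset fun P hP => ?_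
    rcases lt_trichotomy (ord P z) 0 with h | h | h
    · right
      show 0 < ord P z⁻¹
      rw [ord_inv]
      omega
    · exact absurd h hP
    · left
      exact h

/-- the places over `x = c` are finite in number. -/
theorem fib_finite {x : F} (hx : ∀ a : k, x ≠ algebraMap k F a) (c : k) :
    {P : Plk k F | 0 < ord P (x - algebraMap k F c)}.Finite :=
  zeros_finite (nc_sub hx c)

variable (k) in
open Classical in
/-- the divisor of a function. -/
noncomputable def dv (z : F) : Plk k F →₀ ℤ :=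
  if hz : z ≠ 0 then Finsupp.ofSupportFinite (fun P => ord P z) (dv_finite hz) else 0

theorem dv_apply (z : F) (P : Plk k F) : dv k z P = ord P z := by
  unfold dv
  split_ifs with h
  · rfl
  · push Not at h
    rw [h, (ord_spec P).zero]
    rfl

theorem dv_mul {z w : F} (hz : z ≠ 0) (hw : w ≠ 0) : dv k (z * w) = dv k z + dv k w := by
  ext P
  rw [Finsupp.add_apply, dv_apply, dv_apply, dv_apply, ord_mul P hz hw]

theorem dv_inv (z : F) : dv k z⁻¹ = -dv k z := by
  ext P
  rw [Finsupp.neg_apply, dv_apply, dv_apply, ord_inv]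

theorem dv_const (a : k) : dv k (algebraMap k F a) = 0 := by
  ext P
  rw [dv_apply, ord_const, Finsupp.zero_apply]

end

end Vale.Agent.P019P
end

section

/-!
# Existence of zeros and poles
-/

namespace Vale.Agent.P019P

open IntermediateField

section

variable {k F : Type*} [Field k] [Field F] [Algebra k F] [CFF k F]

omit [CFF k F] in
/-- the ring `k[z]` is contained in a valuation ring in which `z` is not a unit. -/
theorem CPole_exists_val {z : F} (hz : Transcendental k z) :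
    ∃ B : ValuationSubring F, (∀ a : k, algebraMap k F a ∈ B) ∧ z ∈ B ∧ z⁻¹ ∉ B := by
  have hz0 : z ≠ 0 := fun h => hz (h ▸ isAlgebraic_zero)
  let A : Subring F := (Polynomial.aeval (R := k) z).range.toSubring
  have hmem : z ∈ A := ⟨Polynomial.X, Polynomial.aeval_X z⟩
  have hI : Ideal.span {(⟨z, hmem⟩ : A)} ≠ ⊤ := by
    intro h
    have h1 : (1 : A) ∈ Ideal.span {(⟨z, hmem⟩ : A)} := by rw [h]; exact Submodule.mem_top
    obtain ⟨w, hw⟩ := Ideal.mem_span_singleton'.1 h1
    obtain ⟨p, hp⟩ := w.2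
    have h2 : (w : F) * z = 1 := congrArg Subtype.val hw
    have h3 : Polynomial.aeval z (p * Polynomial.X - 1) = 0 := by
      rw [map_sub, map_mul, Polynomial.aeval_X, map_one, sub_eq_zero, ← h2]
      congr 1
    have h4 := (transcendental_iff.1 hz) _ h3
    have h5 := congrArg (fun q : Polynomial k => q.coeff 0) h4
    simp at h5
  obtain ⟨B, hB, hB2⟩ := Ideal.image_subset_nonunits_valuationSubring _ hI
  have h1 : z ∈ B.nonunits := hB2 ⟨_, Ideal.subset_span rfl, rfl⟩
  rw [ValuationSubring.mem_nonunits_iff] at h1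
  refine ⟨B, fun a => hB ⟨Polynomial.C a, Polynomial.aeval_C z a⟩, hB hmem, fun h2 => ?_⟩
  rw [← ValuationSubring.valuation_le_one_iff, map_inv₀] at h2
  have h3 : B.valuation z ≠ 0 := (Valuation.ne_zero_iff _).2 hz0
  exact absurd h1 (not_lt.2 ((inv_le_one₀ (zero_lt_iff.2 h3)).1 h2))

theorem exists_zero {z : F} (hz : ∀ a : k, z ≠ algebraMap k F a) : ∃ P : Plk k F, 0 < ord P z := by
  have hz0 : z ≠ 0 := fun h => hz 0 (by rw [h, map_zero])
  obtain ⟨B, h1, h2, h3⟩ := CPole_exists_val (finite_of_notMem hz).1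
  let P : Plk k F := ⟨B, h1, fun h => h3 (h ▸ ValuationSubring.mem_top _)⟩
  refine ⟨P, lt_of_not_ge fun h => h3 ?_⟩
  have h4 : 0 ≤ ord P z⁻¹ := by
    rw [ord_inv]
    omega
  exact ((ord_spec P).mem z⁻¹).2 (Or.inr h4)

theorem exists_pole {z : F} (hz : ∀ a : k, z ≠ algebraMap k F a) : ∃ P : Plk k F, ord P z < 0 := by
  obtain ⟨P, hP⟩ := exists_zero (nc_inv hz)
  rw [ord_inv] at hP
  exact ⟨P, by omega⟩

theorem dv_eq_zero_iff {z : F} (hz : z ≠ 0) : dv k z = 0 ↔ ∃ a : k, z = algebraMap k F a := by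
  constructor
  · intro h
    by_contra hc
    push Not at hc
    obtain ⟨P, hP⟩ := exists_zero hc
    rw [← dv_apply, h, Finsupp.coe_zero, Pi.zero_apply] at hP
    exact lt_irrefl _ hP
  · rintro ⟨a, rfl⟩
    exact dv_const a

variable (k F) in
theorem nonempty_Plk : Nonempty (Plk k F) := by
  obtain ⟨x, hx, _⟩ := CFF.ex (k := k) (F := F)
  obtain ⟨P, _⟩ := exists_zero (k := k) (z := x) fun a h => hx (h ▸ isAlgebraic_algebraMap a)
  exact ⟨P⟩

variable (k F) in
/-- principal divisors. -/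
def prn : AddSubgroup (Plk k F →₀ ℤ) where
  carrier := {D | ∃ z : F, z ≠ 0 ∧ D = dv k z}
  zero_mem' := ⟨1, one_ne_zero, ((dv_eq_zero_iff one_ne_zero).2 ⟨1, (map_one _).symm⟩).symm⟩
  add_mem' := by
    rintro _ _ ⟨z, hz, rfl⟩ ⟨w, hw, rfl⟩
    refine ⟨z * w, mul_ne_zero hz hw, ?_⟩
    ext P
    rw [Finsupp.add_apply, dv_apply, dv_apply, dv_apply, (ord_spec P).mul z w hz hw]
  neg_mem' := by
    rintro _ ⟨z, hz, rfl⟩
    refine ⟨z⁻¹, inv_ne_zero hz, ?_⟩
    ext P
    have h1 := (ord_spec P).mul z z⁻¹ hz (inv_ne_zero hz)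
    have h2 := (ord_spec P).mul 1 1 one_ne_zero one_ne_zero
    rw [mul_inv_cancel₀ hz] at h1
    rw [mul_one] at h2
    rw [Finsupp.neg_apply, dv_apply, dv_apply]
    omega

variable (k) in
/-- the Riemann-Roch space. -/
def LL (D : Plk k F →₀ ℤ) : Submodule k F where
  carrier := {z | z = 0 ∨ ∀ P, -D P ≤ ord P z}
  zero_mem' := Or.inl rfl
  add_mem' := by
    rintro z w hz hw
    by_cases h1 : z = 0
    · rw [h1, zero_add]; exact hw
    by_cases h2 : w = 0
    · rw [h2, add_zero]; exact hz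
    by_cases h3 : z + w = 0
    · exact Or.inl h3
    · right
      intro P
      have h4 := (hz.resolve_left h1) P
      have h5 := (hw.resolve_left h2) P
      exact (le_min h4 h5).trans ((ord_spec P).add z w h1 h2 h3)
  smul_mem' := by
    rintro a z hz
    by_cases h1 : z = 0
    · left; rw [h1, smul_zero]
    by_cases h2 : a = 0
    · left; rw [h2, zero_smul]
    right
    intro P
    have h3 : algebraMap k F a ≠ 0 := by rwa [Ne, map_eq_zero]
    have h4 : dv k (algebraMap k F a) = 0 := (dv_eq_zero_iff h3).2 ⟨a, rfl⟩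
    have h5 : ord P (algebraMap k F a) = 0 := by rw [← dv_apply, h4]; rfl
    rw [Algebra.smul_def, (ord_spec P).mul _ _ h3 h1, h5, zero_add]
    exact (hz.resolve_left h1) P

theorem mem_LL {D : Plk k F →₀ ℤ} {z : F} : z ∈ LL k D ↔ z = 0 ∨ ∀ P, -D P ≤ ord P z := Iff.rfl

theorem mem_LL_iff {D : Plk k F →₀ ℤ} {z : F} : z ∈ LL k D ↔ ∀ P, z ∈ Mge P (-D P) := by
  rw [mem_LL]
  exact forall_or_left.symm

end

end Vale.Agent.P019P
end

section

/-!
# Riemann-Roch spaces: finiteness and elementary estimates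
-/

namespace Vale.Agent.P019P

open IntermediateField

section

variable {k F : Type*} [Field k] [Field F] [Algebra k F] [CFF k F]

theorem LL_mono {D E : Plk k F →₀ ℤ} (h : D ≤ E) : LL k D ≤ LL k E := by
  intro z hz
  rcases mem_LL.1 hz with h0 | h1
  · exact mem_LL.2 (Or.inl h0)
  · exact mem_LL.2 (Or.inr fun P => (neg_le_neg (h P)).trans (h1 P))

theorem LL_zero_le {z : F} (hz : z ∈ LL k (0 : Plk k F →₀ ℤ)) : ∃ a : k, z = algebraMap k F a := by
  by_contra hc
  have hc' : ∀ a : k, z ≠ algebraMap k F a := fun a ha => hc ⟨a, ha⟩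
  obtain ⟨P, hP⟩ := exists_pole hc'
  rcases mem_LL.1 hz with h0 | h1
  · exact hc' 0 (by rw [h0, map_zero])
  · have h2 := h1 P
    rw [Finsupp.zero_apply, neg_zero] at h2
    omega

/-- adding a point adds at most one element. -/
theorem LL_step {D : Plk k F →₀ ℤ} {P : Plk k F} {z w : F}
    (hz : z ∈ LL k (D + Finsupp.single P 1)) (hz' : z ∉ LL k D)
    (hw : w ∈ LL k (D + Finsupp.single P 1)) : ∃ a : k, w - a • z ∈ LL k D := by
  classical
  have hz0 : z ≠ 0 := fun h => hz' (by rw [h]; exact Submodule.zero_mem _)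
  have hzo : ∀ Q, -(D + Finsupp.single P (1 : ℤ)) Q ≤ ord Q z := (mem_LL.1 hz).resolve_left hz0
  have hne : ∀ Q, Q ≠ P → (D + Finsupp.single P (1 : ℤ)) Q = D Q := fun Q hQ => by
    rw [Finsupp.add_apply, Finsupp.single_apply, if_neg (Ne.symm hQ), add_zero]
  have hPP : (D + Finsupp.single P (1 : ℤ)) P = D P + 1 := by
    rw [Finsupp.add_apply, Finsupp.single_eq_same]
  have hzP : ord P z = -D P - 1 := by
    have h1 := hzo P
    rw [hPP] at h1
    by_contra hc
    refine hz' (mem_LL.2 (Or.inr fun Q => ?_))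
    by_cases hQ : Q = P
    · rw [hQ]; omega
    · have h2 := hzo Q
      rw [hne Q hQ] at h2
      exact h2
  have hwM := mem_LL_iff.1 hw
  have hzM := mem_LL_iff.1 hz
  have hwP : w ∈ Mge P (-D P - 1) := by
    have h := hwM P
    rw [hPP] at h
    have e : -(D P + 1) = -D P - 1 := by ring
    rwa [e] at h
  obtain ⟨a, ha⟩ := exists_sub_mem hz0 hzP hwP
  refine ⟨a, mem_LL_iff.2 fun Q => ?_⟩
  by_cases hQ : Q = P
  · rw [hQ]
    have e : -D P - 1 + 1 = -D P := by ring
    rwa [e] at ha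
  · have h1 := hwM Q
    have h2 := hzM Q
    rw [hne Q hQ] at h1 h2
    exact Submodule.sub_mem _ h1 (Submodule.smul_mem _ _ h2)

theorem CL_le_sup {D : Plk k F →₀ ℤ} {P : Plk k F} {z : F}
    (hz : z ∈ LL k (D + Finsupp.single P 1)) (hz' : z ∉ LL k D) :
    LL k (D + Finsupp.single P 1) ≤ LL k D ⊔ Submodule.span k {z} := by
  intro w hw
  obtain ⟨a, ha⟩ := LL_step hz hz' hw
  rw [Submodule.mem_sup]
  exact ⟨w - a • z, ha, a • z, Submodule.smul_mem _ _ (Submodule.mem_span_singleton_self z),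
    by rw [sub_add_cancel]⟩

omit [CFF k F] in
theorem CL_le_single (D : Plk k F →₀ ℤ) (P : Plk k F) : D ≤ D + Finsupp.single P 1 := by
  classical
  intro Q
  rw [Finsupp.add_apply, Finsupp.single_apply]
  split_ifs <;> omega

theorem CL_zero_le_span : LL k (0 : Plk k F →₀ ℤ) ≤ Submodule.span k {(1 : F)} := by
  intro z hz
  obtain ⟨a, rfl⟩ := LL_zero_le hz
  rw [Algebra.algebraMap_eq_smul_one]
  exact Submodule.smul_mem _ _ (Submodule.mem_span_singleton_self _)

instance LL_finite (D : Plk k F →₀ ℤ) : FiniteDimensional k (LL k D) := by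
  classical
  have key : ∀ E : Plk k F →₀ ℤ, 0 ≤ E → FiniteDimensional k (LL k E) := by
    intro E hE
    refine dv_induct (motive := fun E => FiniteDimensional k (LL k E)) (D := 0) ?_ ?_ hE
    · exact Submodule.finiteDimensional_of_le CL_zero_le_span
    · intro E P _ ih
      by_cases h : LL k (E + Finsupp.single P 1) ≤ LL k E
      · exact Submodule.finiteDimensional_of_le h
      · obtain ⟨z, hz, hz'⟩ := Set.not_subset.1 h
        exact Submodule.finiteDimensional_of_le (CL_le_sup hz hz')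
  have h1 : D ≤ D ⊔ 0 := le_sup_left
  have h2 : FiniteDimensional k (LL k (D ⊔ 0)) := key _ le_sup_right
  exact Submodule.finiteDimensional_of_le (LL_mono h1)

theorem l_mono {D E : Plk k F →₀ ℤ} (h : D ≤ E) :
    Module.finrank k (LL k D) ≤ Module.finrank k (LL k E) :=
  Submodule.finrank_mono (LL_mono h)

theorem l_zero : Module.finrank k (LL k (0 : Plk k F →₀ ℤ)) = 1 := by
  have h : LL k (0 : Plk k F →₀ ℤ) = Submodule.span k {(1 : F)} := by
    refine le_antisymm CL_zero_le_span ?_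
    rw [Submodule.span_singleton_le_iff_mem]
    refine mem_LL.2 (Or.inr fun P => ?_)
    rw [ord_one, Finsupp.zero_apply, neg_zero]
  rw [h]
  exact finrank_span_singleton one_ne_zero

/-- the dimension of `LL k D` jumps by one if there is a new element, and not otherwise. -/
theorem l_step_of_mem {D : Plk k F →₀ ℤ} {P : Plk k F} {z : F}
    (hz : z ∈ LL k (D + Finsupp.single P 1)) (hz' : z ∉ LL k D) :
    Module.finrank k (LL k (D + Finsupp.single P 1)) = Module.finrank k (LL k D) + 1 := by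
  have hz0 : z ≠ 0 := fun h => hz' (by rw [h]; exact Submodule.zero_mem _)
  have h1 : LL k (D + Finsupp.single P 1) = LL k D ⊔ Submodule.span k {z} := by
    refine le_antisymm (CL_le_sup hz hz') (sup_le (LL_mono (CL_le_single D P)) ?_)
    rw [Submodule.span_singleton_le_iff_mem]
    exact hz
  have h2 : LL k D ⊓ Submodule.span k {z} = ⊥ := by
    rw [Submodule.eq_bot_iff]
    rintro w ⟨hw1, hw2⟩
    obtain ⟨a, rfl⟩ := Submodule.mem_span_singleton.1 hw2
    by_cases ha : a = 0
    · rw [ha, zero_smul]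
    · exfalso
      apply hz'
      have h3 := Submodule.smul_mem (LL k D) a⁻¹ hw1
      rwa [smul_smul, inv_mul_cancel₀ ha, one_smul] at h3
  have h3 := Submodule.finrank_sup_add_finrank_inf_eq (LL k D) (Submodule.span k {z})
  rw [h2, finrank_bot, add_zero, finrank_span_singleton hz0] at h3
  rw [h1]
  exact h3

theorem l_step_of_eq {D : Plk k F →₀ ℤ} {P : Plk k F}
    (h : LL k (D + Finsupp.single P 1) ≤ LL k D) :
    Module.finrank k (LL k (D + Finsupp.single P 1)) = Module.finrank k (LL k D) :=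
  le_antisymm (Submodule.finrank_mono h) (l_mono (CL_le_single D P))

/-- `l(E) - l(D) ≤ deg E - deg D`. -/
theorem l_sub_le {D E : Plk k F →₀ ℤ} (h : D ≤ E) :
    (Module.finrank k (LL k E) : ℤ) - Module.finrank k (LL k D) ≤ dg E - dg D := by
  refine dv_induct (motive := fun E => (Module.finrank k (LL k E) : ℤ) -
    Module.finrank k (LL k D) ≤ dg E - dg D) (D := D) ?_ ?_ h
  · simp
  · intro E P _ ih
    have h1 : dg (E + Finsupp.single P 1) = dg E + 1 := by
      rw [map_add, dg_sgl]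
    rw [h1]
    by_cases h : LL k (E + Finsupp.single P 1) ≤ LL k E
    · rw [l_step_of_eq h]
      omega
    · obtain ⟨z, hz, hz'⟩ := Set.not_subset.1 h
      rw [l_step_of_mem hz hz']
      push_cast
      omega

/-- linear equivalence. -/
theorem mul_mem_LL_iff {D : Plk k F →₀ ℤ} {z w : F} (hz : z ≠ 0) :
    z * w ∈ LL k D ↔ w ∈ LL k (D + dv k z) := by
  rw [mem_LL, mem_LL, mul_eq_zero, or_iff_right_of_imp (a := z = 0) (fun h => absurd h hz)]
  by_cases hw : w = 0
  · simp [hw]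
  · simp only [hw, false_or]
    refine forall_congr' fun P => ?_
    rw [ord_mul P hz hw, Finsupp.add_apply, dv_apply]
    omega

theorem l_add_dv (D : Plk k F →₀ ℤ) {z : F} (hz : z ≠ 0) :
    Module.finrank k (LL k (D + dv k z)) = Module.finrank k (LL k D) := by
  have h1 : (LL k (D + dv k z)).map (LinearMap.mulLeft k z) = LL k D := by
    ext w
    rw [Submodule.mem_map]
    constructor
    · rintro ⟨u, hu, rfl⟩
      rw [LinearMap.mulLeft_apply]
      exact (mul_mem_LL_iff hz).2 hu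
    · intro hw
      refine ⟨z⁻¹ * w, ?_, ?_⟩
      · rw [← mul_mem_LL_iff hz, mul_inv_cancel_left₀ hz]
        exact hw
      · rw [LinearMap.mulLeft_apply, mul_inv_cancel_left₀ hz]
  have hinj : Function.Injective (LinearMap.mulLeft k z) := by
    intro u v huv
    rw [LinearMap.mulLeft_apply, LinearMap.mulLeft_apply] at huv
    exact mul_left_cancel₀ hz huv
  rw [← h1]
  exact (LinearEquiv.finrank_eq (Submodule.equivMapOfInjective _ hinj _))

/-- a nonzero element of `LL k D` gives an effective divisor. -/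
theorem exists_ne_zero_of_l {D : Plk k F →₀ ℤ} (h : 0 < Module.finrank k (LL k D)) :
    ∃ z : F, z ≠ 0 ∧ 0 ≤ D + dv k z := by
  have hne : LL k D ≠ ⊥ := by
    intro hb
    rw [hb, finrank_bot] at h
    exact lt_irrefl _ h
  obtain ⟨z, hz, hz0⟩ := Submodule.exists_mem_ne_zero_of_ne_bot hne
  refine ⟨z, hz0, fun P => ?_⟩
  have h1 := ((mem_LL.1 hz).resolve_left hz0) P
  rw [Finsupp.zero_apply, Finsupp.add_apply, dv_apply]
  omega

end

end Vale.Agent.P019P
end

section

/-!
# The degree of a principal divisor is zero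
-/

namespace Vale.Agent.P019P

open IntermediateField

section

variable {k F : Type*} [Field k] [Field F] [Algebra k F] [CFF k F]

variable (k) in
/-- the divisor of poles. -/
noncomputable def pol (x : F) : Plk k F →₀ ℤ :=
  (dv k x).mapRange (fun n => max 0 (-n)) (by simp)

theorem pol_apply (x : F) (P : Plk k F) : pol k x P = max 0 (-ord P x) := by
  rw [pol, Finsupp.mapRange_apply, dv_apply]

theorem pol_nonneg (x : F) : 0 ≤ pol k x := by
  intro P
  rw [pol_apply]
  exact le_max_left _ _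

theorem dv_eq_pol_sub (x : F) : dv k x = pol k x⁻¹ - pol k x := by
  ext P
  rw [Finsupp.sub_apply, pol_apply, pol_apply, dv_apply, ord_inv]
  omega

/-- the elements `x ^ j * u i`, for a basis `u` over `k(x)`, lie in the Riemann-Roch space of a
divisor close to `r` times the divisor of poles. -/
theorem cDeg_mem {x : F} (hx : x ≠ 0) {ι : Type*} [Fintype ι] {u : ι → F} (hu : ∀ i, u i ≠ 0)
    {r j : ℕ} (hj : j ≤ r) (i : ι) :
    x ^ j * u i ∈ LL k (r • pol k x + ∑ i, pol k (u i)) := by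
  right
  intro P
  rw [ord_mul P (pow_ne_zero _ hx) (hu i), ord_pow, Finsupp.add_apply, Finsupp.smul_apply,
    pol_apply, Finsupp.finsetSum_apply, nsmul_eq_mul]
  have h1 : pol k (u i) P ≤ ∑ i, pol k (u i) P :=
    Finset.single_le_sum (f := fun i => pol k (u i) P) (fun i _ => pol_nonneg (u i) P)
      (Finset.mem_univ i)
  rw [pol_apply] at h1
  have h2 : (j : ℤ) * -(max 0 (-ord P x)) ≤ j * ord P x :=
    mul_le_mul_of_nonneg_left (by omega) (Int.natCast_nonneg j)
  have h3 : (j : ℤ) * max 0 (-ord P x) ≤ r * max 0 (-ord P x) :=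
    mul_le_mul_of_nonneg_right (by exact_mod_cast hj) (le_max_left _ _)
  rw [mul_neg] at h2
  omega

/-- a lower bound for the dimensions of the Riemann-Roch spaces of the multiples of the divisor of
poles. -/
theorem cDeg_lower {x : F} (hx : ∀ a : k, x ≠ algebraMap k F a) :
    ∃ C : ℤ, ∀ r : ℕ, (r + 1) * (Module.finrank k⟮x⟯ F : ℤ) - C ≤
      Module.finrank k (LL k (r • pol k x)) := by
  obtain ⟨hx1, hx2⟩ := finite_of_notMem hx
  have hx0 : x ≠ 0 := fun h => hx 0 (by rw [h, map_zero])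
  set u := Module.finBasis k⟮x⟯ F with hu
  have hu0 : ∀ i, u i ≠ 0 := fun i => u.ne_zero i
  refine ⟨dg (∑ i, pol k (u i)), fun r => ?_⟩
  have h1 := l_sub_le (k := k) (D := r • pol k x) (E := r • pol k x + ∑ i, pol k (u i))
    (le_add_of_nonneg_right (Finset.sum_nonneg fun i _ => pol_nonneg (u i)))
  rw [map_add] at h1
  have h2 := indep_pow_mul hx1 u.linearIndependent
  let e : Fin (Module.finrank k⟮x⟯ F) × Fin (r + 1) → Fin (Module.finrank k⟮x⟯ F) × ℕ :=
    fun p => (p.1, p.2)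
  have he : Function.Injective e := by
    rintro ⟨a, b⟩ ⟨c, d⟩ h
    rw [Prod.mk.injEq] at h ⊢
    exact ⟨h.1, Fin.ext h.2⟩
  have h3 := h2.comp e he
  have h4 : LinearIndependent k (fun p : Fin (Module.finrank k⟮x⟯ F) × Fin (r + 1) =>
      (⟨x ^ (p.2 : ℕ) * u p.1, cDeg_mem hx0 hu0 (Nat.lt_succ_iff.1 p.2.2) p.1⟩ :
        LL k (r • pol k x + ∑ i, pol k (u i)))) :=
    LinearIndependent.of_comp (LL k (r • pol k x + ∑ i, pol k (u i))).subtype h3
  have h5 := h4.fintype_card_le_finrank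
  rw [Fintype.card_prod, Fintype.card_fin, Fintype.card_fin] at h5
  have h6 : (Module.finrank k⟮x⟯ F : ℤ) * (r + 1) ≤
      Module.finrank k (LL k (r • pol k x + ∑ i, pol k (u i))) := by exact_mod_cast h5
  rw [mul_comm] at h6
  omega

omit [CFF k F] in
theorem cDeg_finrank_inv (x : F) : Module.finrank k⟮x⁻¹⟯ F = Module.finrank k⟮x⟯ F := by
  rw [adjoin_inv_eq]

theorem dg_pol {x : F} (hx : ∀ a : k, x ≠ algebraMap k F a) :
    dg (pol k x) = Module.finrank k⟮x⟯ F := by
  apply le_antisymm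
  · have h1 := sum_ord_le (nc_inv hx) (pol k x).support fun P hP => by
      rw [Finsupp.mem_support_iff, pol_apply] at hP
      rw [ord_inv]
      omega
    rw [cDeg_finrank_inv] at h1
    rw [dg_eq_sum (S := (pol k x).support) fun P hP => Finsupp.notMem_support_iff.1 hP]
    refine le_trans (le_of_eq (Finset.sum_congr rfl fun P hP => ?_)) h1
    rw [Finsupp.mem_support_iff, pol_apply] at hP
    rw [pol_apply, ord_inv]
    omega
  · obtain ⟨C, hC⟩ := cDeg_lower hx
    by_contra hlt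
    rw [not_le] at hlt
    have h0 : (0 : ℤ) ≤ dg (pol k x) := by
      have := dg_mono (pol_nonneg (k := k) x)
      rwa [map_zero] at this
    have h1 := hC (C.toNat + 1)
    have h2 := l_sub_le (k := k) (D := 0) (E := (C.toNat + 1) • pol k x)
      (nsmul_nonneg (pol_nonneg x) _)
    rw [l_zero, map_nsmul, map_zero, nsmul_eq_mul, Nat.cast_one] at h2
    push_cast at h1 h2
    have h3 : C ≤ C.toNat := Int.self_le_toNat C
    have h4 : ((C.toNat : ℤ) + 1 + 1) * (dg (pol k x) + 1) ≤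
        (C.toNat + 1 + 1) * (Module.finrank k⟮x⟯ F : ℤ) :=
      mul_le_mul_of_nonneg_left (by omega) (by omega)
    have h5 : ((C.toNat : ℤ) + 1 + 1) * (dg (pol k x) + 1) =
      (C.toNat + 1) * dg (pol k x) + dg (pol k x) + C.toNat + 2 := by ring
    omega

/-- Riemann's lower bound for the multiples of the divisor of poles. -/
theorem exists_l_pol {x : F} (hx : ∀ a : k, x ≠ algebraMap k F a) :
    ∃ C : ℤ, ∀ r : ℕ, r * (Module.finrank k⟮x⟯ F : ℤ) - C ≤
      Module.finrank k (LL k (r • pol k x)) := by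
  obtain ⟨C, hC⟩ := cDeg_lower hx
  refine ⟨C, fun r => ?_⟩
  have h1 := hC r
  rw [add_mul, one_mul] at h1
  omega

theorem dg_dv (z : F) : dg (dv k z) = 0 := by
  by_cases hz : ∃ a : k, z = algebraMap k F a
  · obtain ⟨a, rfl⟩ := hz
    rw [dv_const, map_zero]
  · rw [not_exists] at hz
    rw [dv_eq_pol_sub, map_sub, dg_pol (nc_inv hz), dg_pol hz, cDeg_finrank_inv, sub_self]

/-- the degree of the fibre. -/
theorem fib_sum {x : F} (hx : ∀ a : k, x ≠ algebraMap k F a) (c : k) :
    ∑ P ∈ (fib_finite hx c).toFinset, ord P (x - algebraMap k F c) = Module.finrank k⟮x⟯ F := by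
  have h1 := dg_pol (nc_inv (nc_sub hx c))
  rw [cDeg_finrank_inv, adjoin_sub_eq, dg_eq_sum (S := (fib_finite hx c).toFinset)] at h1
  · rw [← h1]
    refine Finset.sum_congr rfl fun P hP => ?_
    rw [Set.Finite.mem_toFinset, Set.mem_ofPred_eq] at hP
    rw [pol_apply, ord_inv]
    omega
  · intro P hP
    rw [Set.Finite.mem_toFinset, Set.mem_ofPred_eq] at hP
    rw [pol_apply, ord_inv]
    omega

theorem LL_eq_bot {D : Plk k F →₀ ℤ} (h : dg D < 0) : LL k D = ⊥ := by
  rw [eq_bot_iff]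
  rintro z (hz | hz)
  · exact hz
  · exfalso
    have h1 : 0 ≤ D + dv k z := by
      intro P
      have h2 := hz P
      rw [Finsupp.add_apply, dv_apply, Finsupp.zero_apply]
      omega
    have h3 := dg_mono h1
    rw [map_zero, map_add, dg_dv, add_zero] at h3
    omega

theorem l_eq_zero {D : Plk k F →₀ ℤ} (h : dg D < 0) : Module.finrank k (LL k D) = 0 := by
  rw [LL_eq_bot h, finrank_bot]

variable (k F) in
/-- divisors of large degree. -/
theorem exists_dg_eq (n : ℤ) : ∃ D : Plk k F →₀ ℤ, dg D = n := by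
  obtain ⟨P⟩ := nonempty_Plk k F
  exact ⟨Finsupp.single P n, dg_sgl P n⟩

end

end Vale.Agent.P019P
end

section

/-!
# Riemann's theorem
-/

namespace Vale.Agent.P019P

open IntermediateField

section

variable {k F : Type*} [Field k] [Field F] [Algebra k F] [CFF k F]

theorem CRiem_mono {D E : Plk k F →₀ ℤ} (h : D ≤ E) :
    dg D - Module.finrank k (LL k D) ≤ dg E - Module.finrank k (LL k E) := by
  have h1 := l_sub_le h
  omega

theorem CRiem_dv (D : Plk k F →₀ ℤ) {z : F} (hz : z ≠ 0) :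
    dg (D + dv k z) - Module.finrank k (LL k (D + dv k z)) =
      dg D - Module.finrank k (LL k D) := by
  rw [l_add_dv D hz, map_add, dg_dv, add_zero]

/-- the defect is bounded. -/
theorem CRiem_bdd {B : Plk k F →₀ ℤ} {n C : ℤ} (hn : 0 < n) (hB : dg B = n)
    (hC : ∀ r : ℕ, r * n - C ≤ Module.finrank k (LL k (r • B))) (A : Plk k F →₀ ℤ) :
    dg A - Module.finrank k (LL k A) ≤ C := by
  obtain ⟨A₁, hA, hA0⟩ : ∃ A₁ : Plk k F →₀ ℤ, A ≤ A₁ ∧ 0 ≤ A₁ :=
    ⟨A ⊔ 0, le_sup_left, le_sup_right⟩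
  obtain ⟨r, hr⟩ : ∃ r : ℕ, C + dg A₁ < r := ⟨(C + dg A₁).toNat + 1, by omega⟩
  have hdr : dg (r • B) = r * n := by rw [map_nsmul, hB, nsmul_eq_mul]
  have hrn : (r : ℤ) ≤ r * n := le_mul_of_one_le_right (Int.natCast_nonneg r) hn
  have h1 : (Module.finrank k (LL k (r • B)) : ℤ) - Module.finrank k (LL k (r • B - A₁)) ≤
      dg (r • B) - dg (r • B - A₁) := l_sub_le (sub_le_self _ hA0)
  rw [map_sub] at h1
  have h2 := hC r
  have h3 : 0 < Module.finrank k (LL k (r • B - A₁)) := by omega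
  obtain ⟨z, hz, hz0⟩ := exists_ne_zero_of_l h3
  have h4 : A₁ - dv k z ≤ r • B := by
    rw [← sub_nonneg]
    have e : r • B - (A₁ - dv k z) = r • B - A₁ + dv k z := by abel
    rw [e]
    exact hz0
  have h5 := CRiem_mono hA
  have h6 := CRiem_dv (A₁ - dv k z) hz
  rw [sub_add_cancel] at h6
  have h7 := CRiem_mono h4
  omega

end

/-- Riemann's theorem. -/
theorem exists_riem (k F : Type*) [Field k] [Field F] [Algebra k F] [CFF k F] :
    ∃ g : ℕ, (∀ D : Plk k F →₀ ℤ, dg D + 1 - g ≤ Module.finrank k (LL k D)) ∧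
      ∃ c : ℤ, ∀ D : Plk k F →₀ ℤ, c ≤ dg D →
        (Module.finrank k (LL k D) : ℤ) = dg D + 1 - g := by
  obtain ⟨x, hx, hfd⟩ := CFF.ex (k := k) (F := F)
  have hxc : ∀ a : k, x ≠ algebraMap k F a := by
    rintro a rfl
    exact hx (isAlgebraic_algebraMap a)
  have hn : 0 < (Module.finrank k⟮x⟯ F : ℤ) := by
    exact_mod_cast Module.finrank_pos
  obtain ⟨C, hC⟩ := exists_l_pol hxc
  have hbdd := CRiem_bdd hn (dg_pol hxc) hC
  obtain ⟨m, ⟨A₀, hA₀⟩, hm⟩ := Int.exists_greatest_of_bdd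
    (P := fun m : ℤ => ∃ A : Plk k F →₀ ℤ, dg A - Module.finrank k (LL k A) = m)
    ⟨C, by rintro _ ⟨A, rfl⟩; exact hbdd A⟩ ⟨_, 0, rfl⟩
  have h0 : -1 ≤ m := by
    have h1 := hm _ ⟨0, rfl⟩
    rw [map_zero, l_zero, Nat.cast_one] at h1
    omega
  obtain ⟨g, hg⟩ := Int.eq_ofNat_of_zero_le (show 0 ≤ m + 1 by omega)
  have hlow : ∀ D : Plk k F →₀ ℤ, dg D + 1 - g ≤ Module.finrank k (LL k D) := by
    intro D
    have h1 := hm _ ⟨D, rfl⟩
    omega
  refine ⟨g, hlow, dg A₀ + g, fun D hD => ?_⟩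
  have h1 := hlow (D - A₀)
  rw [map_sub] at h1
  have h2 : 0 < Module.finrank k (LL k (D - A₀)) := by omega
  obtain ⟨z, hz, hz0⟩ := exists_ne_zero_of_l h2
  have h3 : A₀ ≤ D + dv k z := by
    rw [← sub_nonneg]
    have e : D + dv k z - A₀ = D - A₀ + dv k z := by abel
    rw [e]
    exact hz0
  have h4 := CRiem_mono h3
  have h5 := CRiem_dv D hz
  have h6 := hlow D
  omega

end Vale.Agent.P019P
end

section

/-!
# Finitely supported adeles modulo functions
-/

namespace Vale.Agent.P019P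

open IntermediateField

section

variable {k F : Type*} [Field k] [Field F] [Algebra k F] [CFF k F]

/-- the finitely supported adeles which become integral with respect to `D` after subtraction of
a function. -/
noncomputable def KD (D : Plk k F →₀ ℤ) : Submodule k (Plk k F →₀ F) where
  carrier := {β | ∃ z : F, ∀ P, β P - z ∈ Mge P (-D P)}
  zero_mem' := ⟨0, fun P => by simp⟩
  add_mem' := by
    rintro β γ ⟨z, hz⟩ ⟨w, hw⟩
    refine ⟨z + w, fun P => ?_⟩
    have h := add_mem (hz P) (hw P)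
    rwa [← add_sub_add_comm] at h
  smul_mem' := by
    rintro a β ⟨z, hz⟩
    refine ⟨a • z, fun P => ?_⟩
    have h := Submodule.smul_mem _ a (hz P)
    rwa [smul_sub] at h

theorem KD_mono {D E : Plk k F →₀ ℤ} (h : D ≤ E) : KD D ≤ KD E := by
  rintro β ⟨z, hz⟩
  exact ⟨z, fun P => Mge_mono P (neg_le_neg (h P)) (hz P)⟩

theorem exists_mem_KD (D : Plk k F →₀ ℤ) (β : Plk k F →₀ F) :
    ∃ E : Plk k F →₀ ℤ, D ≤ E ∧ β ∈ KD E := by
  classical
  let N : Plk k F →₀ ℤ := Finsupp.onFinset β.support (fun P => -ord P (β P)) (by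
    intro P hP
    rw [Finsupp.mem_support_iff]
    intro h
    apply hP
    show -ord P (β P) = 0
    rw [h, ord_zero, neg_zero])
  have hN : ∀ P, N P = -ord P (β P) := fun P => rfl
  refine ⟨D ⊔ N, le_sup_left, 0, fun P => ?_⟩
  rw [sub_zero, mem_Mge]
  right
  have h1 : N P ≤ (D ⊔ N) P := (le_sup_right : N ≤ D ⊔ N) P
  rw [hN] at h1
  linarith

omit [CFF k F] in
theorem CAd_le (D : Plk k F →₀ ℤ) (P : Plk k F) : D ≤ D + Finsupp.single P 1 := by
  classical
  intro Q
  rw [Finsupp.add_apply, Finsupp.single_apply]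
  split_ifs <;> simp

omit [CFF k F] in
theorem CAd_at (D : Plk k F →₀ ℤ) (P : Plk k F) :
    (D + Finsupp.single P 1 : Plk k F →₀ ℤ) P = D P + 1 := by
  rw [Finsupp.add_apply, Finsupp.single_eq_same]

omit [CFF k F] in
theorem CAd_ne (D : Plk k F →₀ ℤ) {P Q : Plk k F} (h : Q ≠ P) :
    (D + Finsupp.single P 1 : Plk k F →₀ ℤ) Q = D Q := by
  rw [Finsupp.add_apply, Finsupp.single_eq_of_ne h, add_zero]

/-- the step towards `D` at the point `P`, in both cases. -/
theorem CAd_step {D : Plk k F →₀ ℤ} {P : Plk k F} {t : F} (ht : t ≠ 0)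
    (ht1 : ord P t = -D P - 1) {β : Plk k F →₀ F} {w : F}
    (hw : ∀ Q, β Q - w ∈ Mge Q (-(D + Finsupp.single P 1 : Plk k F →₀ ℤ) Q)) :
    (∃ a : k, β P - w - a • t ∈ Mge P (-D P)) ∧ ∀ Q, Q ≠ P → β Q - w ∈ Mge Q (-D Q) := by
  constructor
  · have h1 := hw P
    rw [CAd_at, neg_add'] at h1
    obtain ⟨a, ha⟩ := exists_sub_mem ht ht1 h1
    rw [sub_add_cancel] at ha
    exact ⟨a, ha⟩
  · intro Q hQ
    have h1 := hw Q
    rwa [CAd_ne D hQ] at h1

theorem KD_step_of_mem {D : Plk k F →₀ ℤ} {P : Plk k F} {z : F}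
    (hz : z ∈ LL k (D + Finsupp.single P 1)) (hz' : z ∉ LL k D) :
    KD (D + Finsupp.single P 1) = KD D := by
  have hz0 : z ≠ 0 := by
    rintro rfl
    exact hz' (zero_mem _)
  have hz1 : ∀ Q, -(D + Finsupp.single P 1 : Plk k F →₀ ℤ) Q ≤ ord Q z := (mem_LL.1 hz).resolve_left hz0
  have hne : ∀ Q, Q ≠ P → -D Q ≤ ord Q z := by
    intro Q hQ
    have h1 := hz1 Q
    rwa [CAd_ne D hQ] at h1
  have hP : ord P z = -D P - 1 := by
    have h1 := hz1 P
    rw [CAd_at] at h1
    have h2 : ord P z < -D P := by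
      by_contra hc
      push Not at hc
      apply hz'
      rw [mem_LL]
      right
      intro Q
      by_cases hQ : Q = P
      · rw [hQ]; exact hc
      · exact hne Q hQ
    omega
  refine le_antisymm ?_ (KD_mono (CAd_le D P))
  rintro β ⟨w, hw⟩
  obtain ⟨⟨a, ha⟩, h2⟩ := CAd_step hz0 hP hw
  refine ⟨w + a • z, fun Q => ?_⟩
  rw [← sub_sub]
  by_cases hQ : Q = P
  · rw [hQ]; exact ha
  · exact sub_mem (h2 Q hQ) (Submodule.smul_mem _ a (mem_Mge.2 (Or.inr (hne Q hQ))))

theorem KD_step_of_eq {D : Plk k F →₀ ℤ} {P : Plk k F}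
    (h : LL k (D + Finsupp.single P 1) ≤ LL k D) :
    ∃ e : Plk k F →₀ F, e ∉ KD D ∧ KD (D + Finsupp.single P 1) = KD D ⊔ Submodule.span k {e} := by
  obtain ⟨π, hπ, hπ1⟩ := exists_unif P
  obtain ⟨t, ht, ht1⟩ : ∃ t : F, t ≠ 0 ∧ ord P t = -D P - 1 :=
    ⟨π ^ (-D P - 1), zpow_ne_zero _ hπ, by rw [ord_zpow, hπ1, mul_one]⟩
  have e1 : (Finsupp.single P t : Plk k F →₀ F) P = t := Finsupp.single_eq_same
  have e2 : ∀ Q, Q ≠ P → (Finsupp.single P t : Plk k F →₀ F) Q = 0 := fun Q hQ =>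
    Finsupp.single_eq_of_ne hQ
  refine ⟨Finsupp.single P t, ?_, le_antisymm ?_ ?_⟩
  · rintro ⟨w, hw⟩
    have hwP : t - w ∈ Mge P (-D P) := by
      have h1 := hw P
      rwa [e1] at h1
    have hwL : w ∈ LL k (D + Finsupp.single P 1) := by
      rw [mem_LL_iff]
      intro Q
      by_cases hQ : Q = P
      · subst hQ
        rw [CAd_at, neg_add']
        have h1 : t - w ∈ Mge Q (-D Q - 1) := Mge_mono Q (by omega) hwP
        have h2 : t ∈ Mge Q (-D Q - 1) := mem_Mge.2 (Or.inr ht1.ge)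
        have h3 := sub_mem h2 h1
        rwa [sub_sub_cancel] at h3
      · rw [CAd_ne D hQ]
        have h1 := hw Q
        rw [e2 Q hQ, zero_sub] at h1
        exact neg_mem_iff.1 h1
    have h3 := mem_LL_iff.1 (h hwL) P
    have h4 := add_mem hwP h3
    rw [sub_add_cancel, mem_Mge] at h4
    have h5 := h4.resolve_left ht
    omega
  · rintro β ⟨w, hw⟩
    obtain ⟨⟨a, ha⟩, h2⟩ := CAd_step ht ht1 hw
    rw [Submodule.mem_sup]
    refine ⟨β - a • Finsupp.single P t, ⟨w, fun Q => ?_⟩, a • Finsupp.single P t,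
      Submodule.smul_mem _ _ (Submodule.mem_span_singleton_self _), sub_add_cancel _ _⟩
    rw [Finsupp.sub_apply, Finsupp.smul_apply]
    by_cases hQ : Q = P
    · rw [hQ, e1, sub_right_comm]
      exact ha
    · rw [e2 Q hQ, smul_zero, sub_zero]
      exact h2 Q hQ
  · refine sup_le (KD_mono (CAd_le D P)) ?_
    rw [Submodule.span_singleton_le_iff_mem]
    refine ⟨0, fun Q => ?_⟩
    rw [sub_zero]
    by_cases hQ : Q = P
    · rw [hQ, e1, CAd_at, neg_add']
      exact mem_Mge.2 (Or.inr ht1.ge)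
    · rw [e2 Q hQ]
      exact zero_mem _

/-- the function space attached to `D` is everything if the degree is large. -/
theorem KD_eq_top {g : ℕ} {c : ℤ} (hc : ∀ D : Plk k F →₀ ℤ, c ≤ dg D →
    (Module.finrank k (LL k D) : ℤ) = dg D + 1 - g) {D : Plk k F →₀ ℤ} (hD : c ≤ dg D) :
    KD D = ⊤ := by
  have key : ∀ E : Plk k F →₀ ℤ, D ≤ E → KD E = KD D := by
    intro E hE
    refine dv_induct (motive := fun E => KD E = KD D) rfl (fun E P hDE hEk => ?_) hE
    refine Eq.trans ?_ hEk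
    have h1 : c ≤ dg E := hD.trans (dg_mono hDE)
    have h2 : dg (E + Finsupp.single P 1) = dg E + 1 := by rw [map_add, dg_sgl]
    have h3 := hc E h1
    have h4 := hc (E + Finsupp.single P 1) (by rw [h2]; omega)
    by_cases hle : LL k (E + Finsupp.single P 1) ≤ LL k E
    · exfalso
      have h5 := l_step_of_eq hle
      rw [h5, h2] at h4
      omega
    · rw [SetLike.not_le_iff_exists] at hle
      obtain ⟨z, hz, hz'⟩ := hle
      exact KD_step_of_mem hz hz'
  rw [eq_top_iff]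
  intro β _
  obtain ⟨E, hE, hβ⟩ := exists_mem_KD D β
  rwa [key E hE] at hβ

end

end Vale.Agent.P019P
end

section

/-!
# Weil differentials and the index of speciality
-/

namespace Vale.Agent.P019P

open IntermediateField

section

variable {k F : Type*} [Field k] [Field F] [Algebra k F] [CFF k F]

/-- the differentials which are regular with respect to `D`. -/
noncomputable def Om (D : Plk k F →₀ ℤ) : Submodule k (Module.Dual k (Plk k F →₀ F)) :=
  (KD D).dualAnnihilator

theorem mem_Om {D : Plk k F →₀ ℤ} {ω : Module.Dual k (Plk k F →₀ F)} :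
    ω ∈ Om D ↔ ∀ β ∈ KD D, ω β = 0 := by
  rw [Om, Submodule.mem_dualAnnihilator]

theorem Om_anti {D E : Plk k F →₀ ℤ} (h : D ≤ E) : Om E ≤ Om D :=
  Submodule.dualAnnihilator_anti (KD_mono h)

/-- a subspace which is cut out by one functional has codimension one. -/
theorem COm_cut {K A : Type*} [Field K] [AddCommGroup A] [Module K A] (U U' : Submodule K A)
    (ev : A →ₗ[K] K) (h : ∀ ω, ω ∈ U' ↔ ω ∈ U ∧ ev ω = 0) (ω₀ : A) (h₀ : ω₀ ∈ U)
    (h₁ : ev ω₀ ≠ 0) (hf : FiniteDimensional K U') :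
    FiniteDimensional K U ∧ Module.finrank K U = Module.finrank K U' + 1 := by
  let f : U →ₗ[K] K := ev.domRestrict U
  have hsurj : Function.Surjective f := by
    intro a
    refine ⟨(a / ev ω₀) • ⟨ω₀, h₀⟩, ?_⟩
    change ev ((a / ev ω₀) • ω₀) = a
    rw [map_smul, smul_eq_mul, div_mul_cancel₀ _ h₁]
  have hker : LinearMap.ker f = U'.comap U.subtype := by
    ext ω
    rw [LinearMap.mem_ker, Submodule.mem_comap, Submodule.subtype_apply, h]
    exact ⟨fun h2 => ⟨ω.2, h2⟩, fun h2 => h2.2⟩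
  have hle : U' ≤ U := fun ω hω => ((h ω).1 hω).1
  have hequiv : LinearMap.ker f ≃ₗ[K] U' := by
    rw [hker]
    exact Submodule.comapSubtypeEquivOfLe hle
  have hfk : FiniteDimensional K (LinearMap.ker f) := Module.Finite.equiv hequiv.symm
  have hfq : FiniteDimensional K (U ⧸ LinearMap.ker f) :=
    Module.Finite.equiv (f.quotKerEquivOfSurjective hsurj).symm
  have hfin : FiniteDimensional K U := Module.Finite.of_submodule_quotient (LinearMap.ker f)
  refine ⟨hfin, ?_⟩
  have h1 := LinearMap.finrank_range_add_finrank_ker f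
  rw [LinearMap.range_eq_top.2 hsurj, finrank_top, Module.finrank_self, hequiv.finrank_eq] at h1
  omega

/-- the annihilator of a subspace grows by one dimension if a vector is removed. -/
theorem COm_aux {K V : Type*} [Field K] [AddCommGroup V] [Module K V] (W W' : Submodule K V)
    (e : V) (he : e ∉ W) (hW : W' = W ⊔ Submodule.span K {e})
    (hf : FiniteDimensional K W'.dualAnnihilator) :
    FiniteDimensional K W.dualAnnihilator ∧
      Module.finrank K W.dualAnnihilator = Module.finrank K W'.dualAnnihilator + 1 := by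
  obtain ⟨f, hf1, hf2⟩ := Submodule.exists_dual_map_eq_bot_of_notMem he inferInstance
  refine COm_cut W.dualAnnihilator W'.dualAnnihilator (Module.Dual.eval K V e) ?_ f ?_ hf1 hf
  · intro ω
    rw [Submodule.mem_dualAnnihilator, Submodule.mem_dualAnnihilator]
    constructor
    · intro h
      exact ⟨fun w hw => h w (hW ▸ Submodule.mem_sup_left hw),
        h e (hW ▸ Submodule.mem_sup_right (Submodule.mem_span_singleton_self e))⟩
    · rintro ⟨h1, h2⟩ w hw
      rw [hW, Submodule.mem_sup] at hw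
      obtain ⟨u, hu, v, hv, rfl⟩ := hw
      obtain ⟨a, rfl⟩ := Submodule.mem_span_singleton.1 hv
      have h3 : ω e = 0 := h2
      rw [map_add, map_smul, h3, h1 u hu, smul_zero, add_zero]
  · rw [Submodule.mem_dualAnnihilator]
    intro w hw
    have h4 : f w ∈ W.map f := Submodule.mem_map_of_mem hw
    rw [hf2] at h4
    exact (Submodule.mem_bot K).1 h4

theorem COm_both {g : ℕ} {c : ℤ} (hc : ∀ D : Plk k F →₀ ℤ, c ≤ dg D →
    (Module.finrank k (LL k D) : ℤ) = dg D + 1 - g) (D : Plk k F →₀ ℤ) :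
    FiniteDimensional k (Om D) ∧
    (Module.finrank k (Om D) : ℤ) = Module.finrank k (LL k D) - dg D - 1 + g := by
  have hbig : ∀ D : Plk k F →₀ ℤ, c ≤ dg D → FiniteDimensional k (Om D) ∧
      (Module.finrank k (Om D) : ℤ) = Module.finrank k (LL k D) - dg D - 1 + g := by
    intro D hD
    have h1 : Om D = ⊥ := by rw [Om, KD_eq_top hc hD, Submodule.dualAnnihilator_top]
    rw [h1, hc D hD]
    refine ⟨inferInstance, ?_⟩
    rw [finrank_bot]
    push_cast
    ring
  have hstep : ∀ (D : Plk k F →₀ ℤ) (P : Plk k F),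
      (FiniteDimensional k (Om (D + Finsupp.single P 1)) ∧
      (Module.finrank k (Om (D + Finsupp.single P 1)) : ℤ)
        = Module.finrank k (LL k (D + Finsupp.single P 1)) - dg (D + Finsupp.single P 1) - 1 + g)
      → FiniteDimensional k (Om D) ∧
      (Module.finrank k (Om D) : ℤ) = Module.finrank k (LL k D) - dg D - 1 + g := by
    rintro D P ⟨h1, h2⟩
    rw [map_add, dg_sgl] at h2
    by_cases hle : LL k (D + Finsupp.single P 1) ≤ LL k D
    · obtain ⟨e, he, hKD⟩ := KD_step_of_eq hle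
      have h3 := COm_aux (KD D) _ e he hKD h1
      refine ⟨h3.1, ?_⟩
      have h4 : Module.finrank k (Om D) = Module.finrank k (Om (D + Finsupp.single P 1)) + 1 :=
        h3.2
      rw [l_step_of_eq hle] at h2
      rw [h4]
      push_cast
      linarith
    · obtain ⟨z, hz, hz'⟩ := Set.not_subset.1 hle
      have h3 : Om (D + Finsupp.single P 1) = Om D := by
        rw [Om, Om, KD_step_of_mem hz hz']
      rw [h3] at h1 h2
      rw [l_step_of_mem hz hz'] at h2
      refine ⟨h1, ?_⟩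
      rw [h2]
      push_cast
      ring
  obtain ⟨P⟩ := nonempty_Plk k F
  have hN : ∀ (N : ℕ) (D : Plk k F →₀ ℤ), c ≤ dg D + N → FiniteDimensional k (Om D) ∧
      (Module.finrank k (Om D) : ℤ) = Module.finrank k (LL k D) - dg D - 1 + g := by
    intro N
    induction N with
    | zero => intro D hD; exact hbig D (by simpa using hD)
    | succ n ih =>
      intro D hD
      refine hstep D P (ih _ ?_)
      rw [map_add, dg_sgl]
      push_cast at hD
      linarith
  refine hN (c - dg D).toNat D ?_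
  have := Int.self_le_toNat (c - dg D)
  linarith

theorem Om_finite {g : ℕ} {c : ℤ} (hc : ∀ D : Plk k F →₀ ℤ, c ≤ dg D →
    (Module.finrank k (LL k D) : ℤ) = dg D + 1 - g) (D : Plk k F →₀ ℤ) :
    FiniteDimensional k (Om D) :=
  (COm_both hc D).1

/-- the index of speciality. -/
theorem finrank_Om {g : ℕ} {c : ℤ} (hc : ∀ D : Plk k F →₀ ℤ, c ≤ dg D →
    (Module.finrank k (LL k D) : ℤ) = dg D + 1 - g) (D : Plk k F →₀ ℤ) :
    (Module.finrank k (Om D) : ℤ) = Module.finrank k (LL k D) - dg D - 1 + g :=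
  (COm_both hc D).2

end

end Vale.Agent.P019P
end

section

/-!
# Multiplication of differentials by functions; the divisor of a differential
-/

namespace Vale.Agent.P019P

set_option linter.unusedSectionVars false

open IntermediateField

section

variable {k F : Type*} [Field k] [Field F] [Algebra k F] [CFF k F]

/-- multiplication of a differential by a function. -/
noncomputable def tw (z : F) : Module.Dual k (Plk k F →₀ F) →ₗ[k] Module.Dual k (Plk k F →₀ F) :=
  Module.Dual.transpose (Finsupp.mapRange.linearMap (LinearMap.mulLeft k z))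

theorem tw_apply (z : F) (ω : Module.Dual k (Plk k F →₀ F)) (β : Plk k F →₀ F) :
    tw z ω β = ω (β.mapRange (fun w => z * w) (mul_zero z)) := rfl

theorem tw_mul (z w : F) (ω : Module.Dual k (Plk k F →₀ F)) :
    tw (z * w) ω = tw z (tw w ω) := by
  refine LinearMap.ext fun β => ?_
  rw [tw_apply, tw_apply, tw_apply]
  congr 1
  ext P
  simp only [Finsupp.mapRange_apply]
  ring

theorem tw_add (z w : F) (ω : Module.Dual k (Plk k F →₀ F)) :
    tw (z + w) ω = tw z ω + tw w ω := by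
  refine LinearMap.ext fun β => ?_
  rw [LinearMap.add_apply, tw_apply, tw_apply, tw_apply, ← map_add]
  congr 1
  ext P
  simp only [Finsupp.mapRange_apply, Finsupp.add_apply]
  ring

theorem tw_smul (a : k) (z : F) (ω : Module.Dual k (Plk k F →₀ F)) :
    tw (a • z) ω = a • tw z ω := by
  refine LinearMap.ext fun β => ?_
  rw [LinearMap.smul_apply, tw_apply, tw_apply, ← map_smul]
  congr 1
  ext P
  simp only [Finsupp.mapRange_apply, Finsupp.smul_apply, Algebra.smul_def]
  ring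

theorem tw_one (ω : Module.Dual k (Plk k F →₀ F)) : tw 1 ω = ω := by
  refine LinearMap.ext fun β => ?_
  rw [tw_apply]
  congr 1
  ext P
  simp only [Finsupp.mapRange_apply, one_mul]

theorem CTw_mem {D : Plk k F →₀ ℤ} {z : F} (hz : z ≠ 0) {β : Plk k F →₀ F} :
    β.mapRange (fun w => z * w) (mul_zero z) ∈ KD D ↔ β ∈ KD (D + dv k z) := by
  have key : ∀ (w : F) (P : Plk k F), (z * β P - z * w ∈ Mge P (-D P) ↔
      β P - w ∈ Mge P (-(D + dv k z) P)) := by
    intro w P
    rw [← mul_sub, mul_mem_Mge_iff hz, Finsupp.add_apply, dv_apply]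
    have h : -(D P + ord P z) = -D P - ord P z := by ring
    rw [h]
  constructor
  · rintro ⟨w, hw⟩
    refine ⟨z⁻¹ * w, fun P => (key _ P).1 ?_⟩
    have h := hw P
    rw [Finsupp.mapRange_apply] at h
    rwa [mul_inv_cancel_left₀ hz]
  · rintro ⟨w, hw⟩
    exact ⟨z * w, fun P => (key _ P).2 (hw P)⟩

theorem tw_mem_Om {D : Plk k F →₀ ℤ} {z : F} (hz : z ≠ 0) {ω : Module.Dual k (Plk k F →₀ F)} :
    tw z ω ∈ Om D ↔ ω ∈ Om (D - dv k z) := by
  rw [mem_Om, mem_Om]
  constructor
  · intro h β hβ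
    have h1 : β.mapRange (fun w => z⁻¹ * w) (mul_zero z⁻¹) ∈ KD D := by
      rw [CTw_mem (inv_ne_zero hz), dv_inv, ← sub_eq_add_neg]
      exact hβ
    have h2 := h _ h1
    rw [tw_apply] at h2
    rw [← h2]
    congr 1
    ext P
    simp only [Finsupp.mapRange_apply]
    rw [mul_inv_cancel_left₀ hz]
  · intro h β hβ
    rw [tw_apply]
    apply h
    rw [CTw_mem hz, sub_add_cancel]
    exact hβ

theorem Om_sup {A B : Plk k F →₀ ℤ} {ω : Module.Dual k (Plk k F →₀ F)}
    (h : ω ∈ Om A) (h' : ω ∈ Om B) : ω ∈ Om (A ⊔ B) := by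
  classical
  rw [mem_Om] at h h' ⊢
  rintro β ⟨z, hz⟩
  let β2 : Plk k F →₀ F := Finsupp.onFinset (A.support ∪ B.support)
    (fun P => if A P < B P then β P - z else 0) (by
      intro P hP
      split_ifs at hP with h1
      · rw [Finset.mem_union, Finsupp.mem_support_iff, Finsupp.mem_support_iff]
        by_contra h2
        push Not at h2
        rw [h2.1, h2.2] at h1
        exact lt_irrefl _ h1
      · exact absurd rfl hP)
  have hβ2 : ∀ P, β2 P = if A P < B P then β P - z else 0 := fun P => rfl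
  have h2 : β2 ∈ KD B := by
    refine ⟨0, fun P => ?_⟩
    rw [sub_zero, hβ2]
    split_ifs with h1
    · have h3 := hz P
      rwa [Finsupp.sup_apply, max_eq_right h1.le] at h3
    · exact zero_mem _
  have h1 : β - β2 ∈ KD A := by
    refine ⟨z, fun P => ?_⟩
    rw [Finsupp.sub_apply, hβ2]
    split_ifs with h1
    · rw [sub_sub_cancel, sub_self]
      exact zero_mem _
    · have h3 := hz P
      rw [Finsupp.sup_apply, max_eq_left (not_lt.1 h1)] at h3
      rwa [sub_zero]
  have h3 := h _ h1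
  rw [map_sub, h' _ h2, sub_zero] at h3
  exact h3

/-- the divisor of a differential. -/
theorem exists_dvOm {A : Plk k F →₀ ℤ} {ω : Module.Dual k (Plk k F →₀ F)} (h0 : ω ≠ 0)
    (h : ω ∈ Om A) : ∃ W : Plk k F →₀ ℤ, ∀ D, ω ∈ Om D ↔ D ≤ W := by
  obtain ⟨g, -, c, hc⟩ := exists_riem k F
  have hb : ∀ D : Plk k F →₀ ℤ, ω ∈ Om D → dg D < c := by
    intro D hD
    by_contra hcon
    push Not at hcon
    apply h0
    refine LinearMap.ext fun β => ?_
    have h1 : β ∈ KD D := by rw [KD_eq_top hc hcon]; trivial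
    exact mem_Om.1 hD β h1
  obtain ⟨m, ⟨W, hW, hWm⟩, hmax⟩ := Int.exists_greatest_of_bdd
    (P := fun m => ∃ D : Plk k F →₀ ℤ, ω ∈ Om D ∧ dg D = m)
    ⟨c, by rintro m ⟨D, hD, rfl⟩; exact (hb D hD).le⟩ ⟨_, A, h, rfl⟩
  refine ⟨W, fun D => ⟨fun hD => ?_, fun hD => Om_anti hD hW⟩⟩
  have h1 := hmax _ ⟨W ⊔ D, Om_sup hW hD, rfl⟩
  rw [← hWm] at h1
  have h2 := eq_of_le_of_dg_le (le_sup_left : W ≤ W ⊔ D) h1
  rw [h2]
  exact le_sup_right

end

end Vale.Agent.P019P
end

section

/-!
# Differentials are one-dimensional over the function field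
-/

namespace Vale.Agent.P019P

open IntermediateField

section

variable {k F : Type*} [Field k] [Field F] [Algebra k F] [CFF k F]

private theorem COne_tw_zero (ω : Module.Dual k (Plk k F →₀ F)) : tw 0 ω = 0 := by
  have h := tw_smul (0 : k) (0 : F) ω
  rwa [zero_smul, zero_smul] at h

private theorem COne_tw_mem {A E : Plk k F →₀ ℤ} {ω : Module.Dual k (Plk k F →₀ F)}
    (h : ω ∈ Om A) {x : F} (hx : x ∈ LL k (A + E)) : tw x ω ∈ Om (-E) := by
  by_cases h0 : x = 0
  · rw [h0, COne_tw_zero]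
    exact zero_mem _
  · refine (tw_mem_Om h0).2 (Om_anti (fun P => ?_) h)
    have h1 := (hx.resolve_left h0) P
    rw [Finsupp.add_apply] at h1
    rw [Finsupp.sub_apply, Finsupp.neg_apply, dv_apply]
    omega

/-- the map `x ↦ tw x ω` from a Riemann-Roch space to the differentials. -/
private noncomputable def COne_map {A : Plk k F →₀ ℤ} (E : Plk k F →₀ ℤ)
    {ω : Module.Dual k (Plk k F →₀ F)} (h : ω ∈ Om A) : LL k (A + E) →ₗ[k] Om (-E) where
  toFun x := ⟨tw x.1 ω, COne_tw_mem h x.2⟩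
  map_add' x y := Subtype.ext (tw_add x.1 y.1 ω)
  map_smul' a x := Subtype.ext (tw_smul a x.1 ω)

/-- the differentials form a space of dimension one over `F`. -/
theorem exists_tw {A B : Plk k F →₀ ℤ} {ω ω' : Module.Dual k (Plk k F →₀ F)} (h0 : ω ≠ 0)
    (h : ω ∈ Om A) (h' : ω' ∈ Om B) : ∃ z : F, ω' = tw z ω := by
  by_contra hne
  obtain ⟨g, hmin, c, hc⟩ := exists_riem k F
  obtain ⟨E, hE⟩ := exists_dg_eq k F (max 1 (3 * (g : ℤ) - 2 - dg A - dg B))
  have hinj : Function.Injective ((COne_map E h).coprod (COne_map E h')) := by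
    refine (injective_iff_map_eq_zero _).2 ?_
    rintro ⟨⟨x, hx⟩, ⟨y, hy⟩⟩ hxy
    have h1 : tw x ω + tw y ω' = 0 := congrArg Subtype.val hxy
    have h2 : y = 0 := by
      by_contra h2
      refine hne ⟨y⁻¹ * -x, ?_⟩
      have h3 : tw y ω' = tw (-x) ω := by
        have h4 : tw (x + -x) ω = 0 := by rw [add_neg_cancel, COne_tw_zero]
        rw [tw_add, ← h1] at h4
        exact (add_left_cancel h4).symm
      rw [tw_mul, ← h3, ← tw_mul, inv_mul_cancel₀ h2, tw_one]
    have h3 : x = 0 := by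
      by_contra h3
      refine h0 ?_
      rw [h2, COne_tw_zero, add_zero] at h1
      rw [← tw_one ω, ← inv_mul_cancel₀ h3, tw_mul, h1, map_zero]
    subst h2
    subst h3
    rfl
  have := Om_finite hc (-E)
  have h1 := LinearMap.finrank_le_finrank_of_injective hinj
  rw [Module.finrank_prod] at h1
  have h2 := finrank_Om hc (-E)
  have h3 : dg (-E) < 0 := by
    rw [map_neg, hE]
    have := le_max_left 1 (3 * (g : ℤ) - 2 - dg A - dg B)
    omega
  rw [l_eq_zero h3] at h2
  have h4 := hmin (A + E)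
  have h5 := hmin (B + E)
  rw [map_add] at h4 h5
  rw [map_neg] at h2
  have h6 := le_max_right 1 (3 * (g : ℤ) - 2 - dg A - dg B)
  rw [← hE] at h6
  push_cast at h2
  omega

end

end Vale.Agent.P019P
end

section

/-!
# The Riemann-Roch theorem, the genus
-/

namespace Vale.Agent.P019P

open IntermediateField

theorem CDual_tw_zero {k F : Type*} [Field k] [Field F] [Algebra k F] [CFF k F]
    (ω : Module.Dual k (Plk k F →₀ F)) : tw (0 : F) ω = 0 := by
  have h := tw_add (0 : F) 0 ω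
  rw [add_zero] at h
  exact left_eq_add.mp h

/-- the differentials regular with respect to `D` are the multiples of a fixed one by the
functions in `LL k (W - D)`. -/
theorem CDual_finrank {k F : Type*} [Field k] [Field F] [Algebra k F] [CFF k F]
    {ω : Module.Dual k (Plk k F →₀ F)} {A W : Plk k F →₀ ℤ} (h0 : ω ≠ 0) (hA : ω ∈ Om A)
    (hW : ∀ D, ω ∈ Om D ↔ D ≤ W) (D : Plk k F →₀ ℤ) :
    Module.finrank k (Om D) = Module.finrank k (LL k (W - D)) := by
  have hiff : ∀ z : F, z ≠ 0 → (tw z ω ∈ Om D ↔ z ∈ LL k (W - D)) := by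
    intro z hz
    rw [tw_mem_Om hz, hW, mem_LL]
    constructor
    · intro h
      refine Or.inr fun P => ?_
      have h1 := h P
      rw [Finsupp.sub_apply, dv_apply] at h1
      rw [Finsupp.sub_apply]
      linarith
    · rintro (h | h)
      · exact absurd h hz
      · intro P
        have h1 := h P
        rw [Finsupp.sub_apply] at h1
        rw [Finsupp.sub_apply, dv_apply]
        linarith
  have hmem : ∀ z : LL k (W - D), tw (z : F) ω ∈ Om D := by
    rintro ⟨z, hz⟩
    by_cases h : z = 0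
    · subst h
      change tw (0 : F) ω ∈ Om D
      rw [CDual_tw_zero]
      exact zero_mem _
    · exact (hiff z h).2 hz
  let T : LL k (W - D) →ₗ[k] Om D :=
    { toFun := fun z => ⟨tw (z : F) ω, hmem z⟩
      map_add' := fun z w => Subtype.ext (tw_add (z : F) w ω)
      map_smul' := fun a z => Subtype.ext (tw_smul a (z : F) ω) }
  have hT : Function.Bijective T := by
    constructor
    · rw [injective_iff_map_eq_zero]
      intro z hz
      have h1 : tw (z : F) ω = 0 := congrArg Subtype.val hz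
      by_contra hne
      have h2 : (z : F) ≠ 0 := fun h => hne (Subtype.ext h)
      apply h0
      have h3 : tw (((z : F))⁻¹ * (z : F)) ω = tw ((z : F))⁻¹ (tw (z : F) ω) := tw_mul _ _ _
      rw [inv_mul_cancel₀ h2, tw_one, h1, map_zero] at h3
      exact h3
    · rintro ⟨ω', h'⟩
      obtain ⟨z, hz⟩ := exists_tw h0 hA h'
      by_cases h : z = 0
      · refine ⟨0, Subtype.ext ?_⟩
        rw [map_zero]
        change (0 : Module.Dual k (Plk k F →₀ F)) = ω'
        rw [hz, h, CDual_tw_zero]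
      · refine ⟨⟨z, (hiff z h).1 (hz ▸ h')⟩, Subtype.ext ?_⟩
        exact hz.symm
  exact (LinearEquiv.ofBijective T hT).finrank_eq.symm

/-- the Riemann-Roch theorem. -/
theorem exists_RR (k F : Type*) [Field k] [Field F] [Algebra k F] [CFF k F] :
    ∃ (g : ℕ) (κ : Plk k F →₀ ℤ), ∀ D : Plk k F →₀ ℤ,
      (Module.finrank k (LL k D) : ℤ) - Module.finrank k (LL k (κ - D)) = dg D + 1 - g := by
  obtain ⟨g, _, c, hc⟩ := exists_riem k F
  obtain ⟨D₀, hD₀⟩ := exists_dg_eq k F (-2)
  have h1 : 0 < Module.finrank k (Om D₀) := by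
    have h := finrank_Om hc D₀
    omega
  obtain ⟨ω, hω, hne⟩ : ∃ ω ∈ Om D₀, ω ≠ 0 := by
    have hnt : Nontrivial (Om D₀) := Module.nontrivial_of_finrank_pos h1
    obtain ⟨⟨ω, hω⟩, h⟩ := exists_ne (0 : Om D₀)
    exact ⟨ω, hω, fun h' => h (Subtype.ext h')⟩
  obtain ⟨W, hW⟩ := exists_dvOm hne hω
  refine ⟨g, W, fun D => ?_⟩
  rw [← CDual_finrank hne hω hW D, finrank_Om hc D]
  ring

section

variable (k F : Type*) [Field k] [Field F] [Algebra k F] [CFF k F]

/-- the genus. -/
noncomputable def gen : ℕ := (exists_RR k F).choose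

/-- a canonical divisor. -/
noncomputable def can : Plk k F →₀ ℤ := (exists_RR k F).choose_spec.choose

end

section

variable {k F : Type*} [Field k] [Field F] [Algebra k F] [CFF k F]

theorem RR (D : Plk k F →₀ ℤ) :
    (Module.finrank k (LL k D) : ℤ) - Module.finrank k (LL k (can k F - D)) =
      dg D + 1 - gen k F := (exists_RR k F).choose_spec.choose_spec D

/-- Riemann-Roch for large degree. -/
theorem RR_large {D : Plk k F →₀ ℤ} (h : dg (can k F) < dg D) :
    (Module.finrank k (LL k D) : ℤ) = dg D + 1 - gen k F := by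
  have h1 := RR D
  have h2 : Module.finrank k (LL k (can k F - D)) = 0 :=
    l_eq_zero (by rw [map_sub]; linarith)
  rw [h2] at h1
  simpa using h1

/-- the dimensions attached to the multiples of the divisor of poles. -/
theorem exists_l_pol_eq {x : F} (hx : ∀ a : k, x ≠ algebraMap k F a) :
    ∃ r₀ : ℕ, ∀ r : ℕ, r₀ ≤ r → (Module.finrank k (LL k (r • pol k x)) : ℤ) =
      r * Module.finrank k⟮x⟯ F + 1 - gen k F := by
  have hfd : FiniteDimensional k⟮x⟯ F := (finite_of_notMem hx).2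
  have hpos : 0 < Module.finrank k⟮x⟯ F := Module.finrank_pos
  refine ⟨(dg (can k F) + 1).toNat, fun r hr => ?_⟩
  have hdg : dg (r • pol k x) = r * (Module.finrank k⟮x⟯ F : ℤ) := by
    rw [map_nsmul, dg_pol hx, nsmul_eq_mul]
  rw [← hdg]
  refine RR_large ?_
  rw [hdg]
  have h1 : dg (can k F) + 1 ≤ r := Int.toNat_le.mp hr
  have h2 : (1 : ℤ) ≤ Module.finrank k⟮x⟯ F := by exact_mod_cast hpos
  have h3 : (r : ℤ) * 1 ≤ r * (Module.finrank k⟮x⟯ F : ℤ) :=
    mul_le_mul_of_nonneg_left h2 (Int.natCast_nonneg r)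
  linarith

/-- uniqueness of the genus. -/
theorem gen_unique {g : ℤ} {c : ℤ} (h : ∀ D : Plk k F →₀ ℤ, c ≤ dg D →
    (Module.finrank k (LL k D) : ℤ) = dg D + 1 - g) : g = gen k F := by
  obtain ⟨D, hD⟩ := exists_dg_eq k F (max c (dg (can k F) + 1))
  have h1 := h D (by rw [hD]; exact le_max_left _ _)
  have h2 := RR_large (D := D) (by
    rw [hD]
    exact lt_of_lt_of_le (lt_add_one _) (le_max_right _ _))
  linarith

end

end Vale.Agent.P019P
end

section

/-!
# Invariance of the genus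
-/

namespace Vale.Agent.P019P

section

variable {k F k' F' : Type*} [Field k] [Field F] [Algebra k F] [Field k'] [Field F']
  [Algebra k' F']

/-- transport of a place along a semilinear isomorphism. -/
private def cIsoMap (e : F ≃+* F') (e₀ : k ≃+* k')
    (h : ∀ a, e (algebraMap k F a) = algebraMap k' F' (e₀ a)) (P : Plk k F) : Plk k' F' :=
  ⟨P.1.comap (e.symm : F' →+* F), by
    refine ⟨fun b => ?_, fun ht => P.2.2 ?_⟩
    · rw [ValuationSubring.mem_comap]
      have h1 : (e.symm : F' →+* F) (algebraMap k' F' b) = algebraMap k F (e₀.symm b) := by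
        rw [RingEquiv.coe_toRingHom, RingEquiv.symm_apply_eq, h, RingEquiv.apply_symm_apply]
      rw [h1]
      exact P.2.1 _
    · rw [eq_top_iff]
      intro z _
      have h1 : e z ∈ P.1.comap (e.symm : F' →+* F) := by rw [ht]; exact ValuationSubring.mem_top _
      rw [ValuationSubring.mem_comap, RingEquiv.coe_toRingHom, RingEquiv.symm_apply_apply] at h1
      exact h1⟩

private theorem mem_cIsoMap (e : F ≃+* F') (e₀ : k ≃+* k')
    (h : ∀ a, e (algebraMap k F a) = algebraMap k' F' (e₀ a)) (P : Plk k F) (w : F') :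
    w ∈ (cIsoMap e e₀ h P).1 ↔ e.symm w ∈ P.1 := Iff.rfl

/-- the bijection between the places. -/
private def cIsoEquiv (e : F ≃+* F') (e₀ : k ≃+* k')
    (h : ∀ a, e (algebraMap k F a) = algebraMap k' F' (e₀ a)) : Plk k F ≃ Plk k' F' where
  toFun := cIsoMap e e₀ h
  invFun := cIsoMap e.symm e₀.symm fun b => by
    rw [RingEquiv.symm_apply_eq, h, RingEquiv.apply_symm_apply]
  left_inv P := by
    apply Subtype.ext
    ext z
    rw [mem_cIsoMap, mem_cIsoMap, RingEquiv.symm_symm, RingEquiv.symm_apply_apply]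
  right_inv Q := by
    apply Subtype.ext
    ext w
    rw [mem_cIsoMap, mem_cIsoMap, RingEquiv.symm_symm, RingEquiv.apply_symm_apply]

private theorem ord_cIsoEquiv [CFF k F] [CFF k' F'] (e : F ≃+* F') (e₀ : k ≃+* k')
    (h : ∀ a, e (algebraMap k F a) = algebraMap k' F' (e₀ a)) (P : Plk k F) (z : F) :
    ord (cIsoEquiv e e₀ h P) (e z) = ord P z := by
  have hP := ord_spec P
  have key : IsOrd (cIsoEquiv e e₀ h P).1 fun w => ord P (e.symm w) :=
    { zero := by rw [map_zero]; exact hP.zero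
      mul := fun x y hx hy => by
        rw [map_mul]
        exact hP.mul _ _ (by simpa using hx) (by simpa using hy)
      add := fun x y hx hy hxy => by
        rw [map_add]
        refine hP.add _ _ (by simpa using hx) (by simpa using hy) ?_
        rw [← map_add, map_ne_zero_iff e.symm e.symm.injective]
        exact hxy
      mem := fun x => by
        have h1 : x ∈ (cIsoEquiv e e₀ h P).1 ↔ e.symm x ∈ P.1 := Iff.rfl
        rw [h1, hP.mem]
        simp
      one := by
        obtain ⟨π, hπ⟩ := hP.one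
        exact ⟨e π, by rw [RingEquiv.symm_apply_apply]; exact hπ⟩ }
  have h2 := IsOrd.unique (ord_spec (cIsoEquiv e e₀ h P)) key
  rw [h2]
  simp only [RingEquiv.symm_apply_apply]

private theorem mem_LL_cIso [CFF k F] [CFF k' F'] (e : F ≃+* F') (e₀ : k ≃+* k')
    (h : ∀ a, e (algebraMap k F a) = algebraMap k' F' (e₀ a)) (D : Plk k' F' →₀ ℤ) (z : F) :
    z ∈ LL k (Finsupp.equivMapDomain (cIsoEquiv e e₀ h).symm D) ↔ e z ∈ LL k' D := by
  rw [mem_LL, mem_LL, map_eq_zero_iff e e.injective]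
  refine or_congr Iff.rfl ⟨fun H Q => ?_, fun H P => ?_⟩
  · obtain ⟨P, rfl⟩ := (cIsoEquiv e e₀ h).surjective Q
    rw [ord_cIsoEquiv]
    have := H P
    rwa [Finsupp.equivMapDomain_apply, Equiv.symm_symm] at this
  · rw [Finsupp.equivMapDomain_apply, Equiv.symm_symm, ← ord_cIsoEquiv e e₀ h]
    exact H _

private theorem finrank_cIso [CFF k F] [CFF k' F'] (e : F ≃+* F') (e₀ : k ≃+* k')
    (h : ∀ a, e (algebraMap k F a) = algebraMap k' F' (e₀ a)) (D : Plk k' F' →₀ ℤ) :
    Module.finrank k (LL k (Finsupp.equivMapDomain (cIsoEquiv e e₀ h).symm D)) =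
      Module.finrank k' (LL k' D) := by
  let j : LL k (Finsupp.equivMapDomain (cIsoEquiv e e₀ h).symm D) ≃+ LL k' D :=
    { toFun := fun z => ⟨e z.1, (mem_LL_cIso e e₀ h D z.1).1 z.2⟩
      invFun := fun w => ⟨e.symm w.1, (mem_LL_cIso e e₀ h D _).2 (by
        rw [RingEquiv.apply_symm_apply]; exact w.2)⟩
      left_inv := fun z => Subtype.ext (e.symm_apply_apply z.1)
      right_inv := fun w => Subtype.ext (e.apply_symm_apply w.1)
      map_add' := fun x y => Subtype.ext (map_add e x.1 y.1) }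
  have h1 := lift_rank_eq_of_equiv_equiv (e₀ : k → k') j e₀.bijective (fun a m => by
    apply Subtype.ext
    change e (a • m.1) = e₀ a • e m.1
    rw [Algebra.smul_def, Algebra.smul_def, map_mul, h])
  have h2 := congrArg Cardinal.toNat h1
  rwa [Cardinal.toNat_lift, Cardinal.toNat_lift] at h2

private theorem dg_cIso {A B : Type*} (φ : A ≃ B) (D : A →₀ ℤ) :
    dg (Finsupp.equivMapDomain φ D) = dg D := by
  rw [Finsupp.equivMapDomain_eq_mapDomain]
  unfold dg
  rw [Finsupp.liftAddHom_apply, Finsupp.liftAddHom_apply,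
    Finsupp.sum_mapDomain_index_addMonoidHom]

end

/-- the genus is invariant under (semilinear) isomorphisms. -/
theorem gen_eq {k F k' F' : Type*} [Field k] [Field F] [Algebra k F] [CFF k F]
    [Field k'] [Field F'] [Algebra k' F'] [CFF k' F'] (e : F ≃+* F') (e₀ : k ≃+* k')
    (h : ∀ a, e (algebraMap k F a) = algebraMap k' F' (e₀ a)) : gen k F = gen k' F' := by
  have key : ((gen k F : ℕ) : ℤ) = gen k' F' := by
    refine gen_unique (c := dg (can k F) + 1) fun D hD => ?_
    have h1 := dg_cIso (cIsoEquiv e e₀ h).symm D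
    rw [← finrank_cIso e e₀ h D, ← h1]
    exact RR_large (by rw [h1]; omega)
  exact_mod_cast key

end Vale.Agent.P019P
end

section

/-!
# Dimensions of a filtration with a graded basis
-/

namespace Vale.Agent.P019P

open Polynomial IntermediateField

section

variable {k F : Type*} [Field k] [Field F] [Algebra k F]

theorem CGrD_pow_mem {x : F} {M : ℤ → Submodule k F} (h : Flt x M) {s : ℤ} {z : F}
    (hz : z ∈ M s) (j : ℕ) : x ^ j * z ∈ M (s + j) := by
  induction j with
  | zero => simpa using hz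
  | succ j ih =>
    have h1 := h.mul _ _ ih
    have h2 : x * (x ^ j * z) = x ^ (j + 1) * z := by ring
    have h3 : s + (j : ℤ) + 1 = s + ((j + 1 : ℕ) : ℤ) := by push_cast; ring
    rwa [h2, h3] at h1

/-- the dimensions of a filtration with a graded basis. -/
theorem GrB.finrank_eq {x : F} {M : ℤ → Submodule k F} (h : Flt x M) (hx : Transcendental k x)
    {ι : Type*} [Fintype ι] {e : ι → F} {a : ι → ℕ} (he : GrB x M e a) {r : ℤ}
    (hr : ∀ i, (a i : ℤ) ≤ r) : (Module.finrank k (M r) : ℤ) = ∑ i, (r - a i + 1) := by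
  classical
  let g : (Σ i : ι, Fin (r - a i + 1).toNat) → F := fun p => x ^ (p.2 : ℕ) * e p.1
  have hg : LinearIndependent k g := by
    have h1 := (indep_pow_mul hx he.ind).comp
      (fun p : (Σ i : ι, Fin (r - a i + 1).toNat) => ((p.1, (p.2 : ℕ)) : ι × ℕ)) (by
        rintro ⟨i, j⟩ ⟨i', j'⟩ hij
        simp only [Prod.mk.injEq] at hij
        obtain ⟨hi, hj⟩ := hij
        subst hi
        rw [Fin.ext hj])
    exact h1
  have hspan : Submodule.span k (Set.range g) = M r := by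
    apply le_antisymm
    · rw [Submodule.span_le]
      rintro _ ⟨⟨i, j⟩, rfl⟩
      have h1 := CGrD_pow_mem h (he.mem i) (j : ℕ)
      have hj := j.2
      have h2 : (a i : ℤ) + ((j : ℕ) : ℤ) ≤ r := by omega
      exact h.mono h2 h1
    · intro z hz
      obtain ⟨φ, hφ, hd⟩ := he.span r z hz
      rw [hφ]
      refine Submodule.sum_mem _ fun i _ => ?_
      by_cases h0 : φ i = 0
      · rw [h0, map_zero, zero_mul]
        exact Submodule.zero_mem _
      · rw [aeval_eq_sum_range, Finset.sum_mul]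
        refine Submodule.sum_mem _ fun j hj => ?_
        rw [smul_mul_assoc]
        refine Submodule.smul_mem _ _ (Submodule.subset_span ?_)
        have h1 := hd i h0
        have h2 : j ≤ (φ i).natDegree := Nat.lt_succ_iff.1 (Finset.mem_range.1 hj)
        exact ⟨⟨i, ⟨j, by omega⟩⟩, rfl⟩
  have h1 : Module.finrank k (M r) = ∑ i, (r - a i + 1).toNat := by
    rw [← hspan, finrank_span_eq_card hg, Fintype.card_sigma]
    simp only [Fintype.card_fin]
  rw [h1]
  push_cast
  refine Finset.sum_congr rfl fun i _ => ?_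
  have := hr i
  omega

end

end Vale.Agent.P019P
end

section

/-!
# The filtration by the order of the pole at infinity
-/

namespace Vale.Agent.P019P

open Polynomial IntermediateField

section

variable {k F : Type*} [Field k] [Field F] [Algebra k F] [CFF k F]

variable (k) in
/-- the functions with poles at most `r` times those of `x`. -/
noncomputable def Mr (x : F) (r : ℤ) : Submodule k F := LL k (r • pol k x)

theorem mem_Mr {x : F} {r : ℤ} {z : F} : z ∈ Mr k x r ↔ ∀ P, z ∈ Mge P (-(r * pol k x P)) := by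
  rw [Mr, mem_LL_iff]
  refine forall_congr' fun P => ?_
  rw [Finsupp.smul_apply, smul_eq_mul]

theorem Mr_mul {x : F} {r s : ℤ} {z w : F} (hz : z ∈ Mr k x r) (hw : w ∈ Mr k x s) :
    z * w ∈ Mr k x (r + s) := by
  rw [mem_Mr] at hz hw ⊢
  intro P
  have h := mul_mem_Mge (hz P) (hw P)
  have e : -(r * pol k x P) + -(s * pol k x P) = -((r + s) * pol k x P) := by ring
  rwa [e] at h

theorem flt_Mr {x : F} (hx : ∀ a : k, x ≠ algebraMap k F a) : Flt x (Mr k x) := by
  have hx0 : x ≠ 0 := fun h => hx 0 (by rw [h, map_zero])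
  have hp : ∀ P : Plk k F, 0 ≤ pol k x P := fun P => pol_nonneg x P
  refine ⟨fun r => LL_finite _, fun r hr => ?_, fun r s hrs => ?_, fun r z hz => ?_,
    fun r s z hz hxz => ?_⟩
  · apply LL_eq_bot
    obtain ⟨-, hfin⟩ := finite_of_notMem hx
    have hn : 0 < Module.finrank k⟮x⟯ F := Module.finrank_pos
    rw [map_zsmul, dg_pol hx, smul_eq_mul]
    exact mul_neg_of_neg_of_pos hr (by exact_mod_cast hn)
  · refine LL_mono (fun P => ?_)
    rw [Finsupp.smul_apply, Finsupp.smul_apply]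
    exact mul_le_mul_of_nonneg_right hrs (hp P)
  · have h1 : x ∈ Mr k x 1 := by
      rw [mem_Mr]
      intro P
      right
      rw [one_mul, pol_apply]
      have := le_max_right 0 (-ord P x)
      linarith only [this]
    rw [add_comm]
    exact Mr_mul h1 hz
  · rw [mem_Mr] at hz hxz ⊢
    intro P
    by_cases h : ord P x < 0
    · have h1 : pol k x P = -ord P x := by
        rw [pol_apply]; exact max_eq_right (by linarith only [h])
      have h2 := (mul_mem_Mge_iff hx0).1 (hxz P)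
      have e : -(r * pol k x P) - ord P x = -((r - 1) * pol k x P) := by rw [h1]; ring
      rwa [e] at h2
    · have h1 : pol k x P = 0 := by
        rw [pol_apply]; exact max_eq_left (by linarith only [h])
      have h2 := hz P
      rw [h1, mul_zero] at h2 ⊢
      exact h2

/-- functions without poles outside the poles of `x` belong to the filtration. -/
theorem exists_mem_Mr {x z : F} (h : ∀ P : Plk k F, 0 ≤ ord P x → z ∈ Mge P 0) :
    ∃ r : ℕ, z ∈ Mr k x r := by
  by_cases hz : z = 0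
  · exact ⟨0, hz ▸ zero_mem _⟩
  refine ⟨∑ P ∈ (dv_finite (k := k) hz).toFinset, (ord P z).natAbs, ?_⟩
  rw [mem_Mr]
  intro P
  right
  have hr : (0 : ℤ) ≤ ((∑ P ∈ (dv_finite (k := k) hz).toFinset, (ord P z).natAbs : ℕ) : ℤ) :=
    Int.natCast_nonneg _
  have hP : 0 ≤ pol k x P := pol_nonneg x P
  by_cases h1 : 0 ≤ ord P z
  · have := mul_nonneg hr hP
    linarith only [this, h1]
  · have h2 : ord P x < 0 := by
      by_contra hcon
      rcases mem_Mge.1 (h P (not_lt.1 hcon)) with h3 | h3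
      · exact hz h3
      · exact h1 h3
    have h3 : 1 ≤ pol k x P := by
      rw [pol_apply]
      exact le_max_of_le_right (by omega)
    have h4 : (ord P z).natAbs ≤ ∑ P ∈ (dv_finite (k := k) hz).toFinset, (ord P z).natAbs := by
      refine Finset.single_le_sum (f := fun P => (ord P z).natAbs) (fun _ _ => Nat.zero_le _) ?_
      rw [Set.Finite.mem_toFinset]
      intro h0
      exact h1 h0.ge
    have h5 : ((ord P z).natAbs : ℤ) ≤
        ((∑ P ∈ (dv_finite (k := k) hz).toFinset, (ord P z).natAbs : ℕ) : ℤ) := by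
      exact_mod_cast h4
    have h6 : ((ord P z).natAbs : ℤ) = -ord P z := by omega
    have h7 := mul_le_mul_of_nonneg_left h3 hr
    rw [mul_one] at h7
    linarith only [h5, h6, h7]

/-- existence of a graded basis, with the formula for the sum of the degrees. -/
theorem exists_GrB {x : F} (hx : ∀ a : k, x ≠ algebraMap k F a) :
    ∃ (e : Fin (Module.finrank k⟮x⟯ F) → F) (a : Fin (Module.finrank k⟮x⟯ F) → ℕ),
      GrB x (Mr k x) e a ∧ ∑ i, (a i : ℤ) = Module.finrank k⟮x⟯ F + gen k F - 1 := by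
  obtain ⟨htr, hfin⟩ := finite_of_notMem hx
  obtain ⟨n, e, a, he⟩ := (flt_Mr hx).exists_GrB htr
  obtain ⟨r₀, hr₀⟩ := exists_l_pol_eq hx
  set r₁ : ℕ := r₀ + ∑ i, a i with hr₁
  have key : ∀ r : ℕ, r₁ ≤ r →
      (n : ℤ) * (r + 1) - ∑ i, (a i : ℤ) = r * Module.finrank k⟮x⟯ F + 1 - gen k F := by
    intro r hr
    have h1 := hr₀ r ((Nat.le_add_right _ _).trans hr)
    have h2 := he.finrank_eq (flt_Mr hx) htr (r := (r : ℤ)) (fun i => by
      have : a i ≤ ∑ i, a i :=
        Finset.single_le_sum (f := a) (fun _ _ => Nat.zero_le _) (Finset.mem_univ i)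
      have : a i ≤ r := by omega
      exact_mod_cast this)
    rw [Mr, natCast_zsmul] at h2
    rw [h2] at h1
    rw [← h1]
    have e : ∀ i, ((r : ℤ) - a i + 1) = (r + 1) - a i := fun i => by ring
    simp only [e]
    rw [Finset.sum_sub_distrib, Finset.sum_const, Finset.card_univ, Fintype.card_fin, nsmul_eq_mul]
  have k1 := key r₁ le_rfl
  have k2 := key (r₁ + 1) (Nat.le_succ _)
  have hn : n = Module.finrank k⟮x⟯ F := by
    push_cast at k2
    have : (n : ℤ) = Module.finrank k⟮x⟯ F := by linarith only [k1, k2]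
    exact_mod_cast this
  subst hn
  exact ⟨e, a, he, by linarith only [k1]⟩

end

end Vale.Agent.P019P
end

section

/-!
# Traces
-/

namespace Vale.Agent.P019P

open Polynomial IntermediateField

section

variable {k F : Type*} [Field k] [Field F] [Algebra k F] [CFF k F]
variable {x : F} {n : ℕ} {e : Fin n → F} {a : Fin n → ℕ}

omit [CFF k F] in
theorem CTrc_map_psi (x : F) (p : k[X]) :
    algebraMap k⟮x⟯ F (aeval (AdjoinSimple.gen k x) p) = aeval x p := by
  rw [← aeval_algebraMap_apply, AdjoinSimple.algebraMap_gen]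

omit [CFF k F] in
/-- multiplication matrices are unique. -/
theorem CTrc_uniq (he : LinearIndependent k⟮x⟯ e) (hx : Transcendental k x)
    {φ ψ : Fin n → k[X]} (h : ∑ i, aeval x (φ i) * e i = ∑ i, aeval x (ψ i) * e i) : φ = ψ := by
  have h1 : ∑ i, (aeval (AdjoinSimple.gen k x) (φ i) : k⟮x⟯) • e i =
      ∑ i, (aeval (AdjoinSimple.gen k x) (ψ i) : k⟮x⟯) • e i := by
    simp only [Algebra.smul_def, CTrc_map_psi]
    exact h
  have h2 : ∑ i, ((aeval (AdjoinSimple.gen k x) (φ i) : k⟮x⟯) -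
      aeval (AdjoinSimple.gen k x) (ψ i)) • e i = 0 := by
    simp only [sub_smul, Finset.sum_sub_distrib]
    rw [h1, sub_self]
  have h3 := Fintype.linearIndependent_iff.1 he _ h2
  funext i
  have h4 := congrArg (algebraMap k⟮x⟯ F) (h3 i)
  rw [map_sub, CTrc_map_psi, CTrc_map_psi, map_zero, sub_eq_zero] at h4
  exact transcendental_iff_injective.1 hx h4

/-- the matrix of multiplication by `z` with respect to a graded basis. -/
theorem GrB.exists_mat (he : GrB x (Mr k x) e a) {r : ℤ} {z : F} (hz : z ∈ Mr k x r) :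
    ∃ G : Matrix (Fin n) (Fin n) k[X], (∀ j, z * e j = ∑ i, aeval x (G i j) * e i) ∧
      ∀ i j, G i j ≠ 0 → ((G i j).natDegree : ℤ) + a i ≤ r + a j := by
  have h1 : ∀ j, ∃ φ : Fin n → k[X], z * e j = ∑ i, aeval x (φ i) * e i ∧
      ∀ i, φ i ≠ 0 → ((φ i).natDegree : ℤ) + a i ≤ r + a j := fun j =>
    he.span (r + a j) (z * e j) (Mr_mul hz (he.mem j))
  choose φ h2 h3 using h1
  exact ⟨fun i j => φ j i, h2, fun i j h => h3 j i h⟩

theorem GrB.trace_eq (he : GrB x (Mr k x) e a) (hx : ∀ a : k, x ≠ algebraMap k F a)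
    (hn : n = Module.finrank k⟮x⟯ F) {z : F}
    {G : Matrix (Fin n) (Fin n) k[X]} (hG : ∀ j, z * e j = ∑ i, aeval x (G i j) * e i) :
    algebraMap k⟮x⟯ F (Algebra.trace k⟮x⟯ F z) = aeval x G.trace := by
  classical
  have : FiniteDimensional k⟮x⟯ F := (finite_of_notMem hx).2
  have : Nonempty (Fin n) := by
    have h0 : 0 < n := by
      rw [hn]
      exact Module.finrank_pos
    exact ⟨⟨0, h0⟩⟩
  let b := basisOfLinearIndependentOfCardEqFinrank he.ind (by rw [Fintype.card_fin]; exact hn)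
  have hb : ∀ i, b i = e i := fun i => by
    simp only [b, coe_basisOfLinearIndependentOfCardEqFinrank]
  have h2 : ∀ i j, Algebra.leftMulMatrix b z i j = aeval (AdjoinSimple.gen k x) (G i j) := by
    intro i j
    rw [Algebra.leftMulMatrix_eq_repr_mul]
    have h3 : z * b j = ∑ i, (aeval (AdjoinSimple.gen k x) (G i j) : k⟮x⟯) • b i := by
      simp only [Algebra.smul_def, CTrc_map_psi, hb]
      exact hG j
    rw [h3, b.repr_sum_self]
  rw [Algebra.trace_eq_matrix_trace b, Matrix.trace, Matrix.trace, map_sum, map_sum]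
  refine Finset.sum_congr rfl fun i _ => ?_
  rw [Matrix.diag_apply, Matrix.diag_apply, h2, CTrc_map_psi]

/-- the trace of an element of the filtration is a polynomial of bounded degree. -/
theorem GrB.exists_trace (he : GrB x (Mr k x) e a) (hx : ∀ a : k, x ≠ algebraMap k F a)
    (hn : n = Module.finrank k⟮x⟯ F) {r : ℕ} {z : F} (hz : z ∈ Mr k x r) :
    ∃ τ : k[X], τ.natDegree ≤ r ∧
      algebraMap k⟮x⟯ F (Algebra.trace k⟮x⟯ F z) = aeval x τ := by
  obtain ⟨G, hG, hd⟩ := he.exists_mat hz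
  refine ⟨G.trace, ?_, he.trace_eq hx hn hG⟩
  rw [Matrix.trace]
  refine natDegree_sum_le_of_forall_le _ _ fun i _ => ?_
  rw [Matrix.diag_apply]
  by_cases h : G i i = 0
  · rw [h, natDegree_zero]
    exact Nat.zero_le _
  · have := hd i i h
    omega

/-- a power of an element vanishing over `x = c` is divisible by `x - c`. -/
theorem CTrc_exists_pow (hx : ∀ a : k, x ≠ algebraMap k F a) {r : ℤ} {z : F}
    (hz : z ∈ Mr k x r) {c : k}
    (h0 : ∀ P : Plk k F, 0 < ord P (x - algebraMap k F c) → z ∈ Mge P 1) :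
    ∃ (N s : ℕ) (w : F), w ∈ Mr k x s ∧ z ^ N = (x - algebraMap k F c) * w := by
  classical
  have hxc : x - algebraMap k F c ≠ 0 := sub_ne_zero.2 (hx c)
  have hfin := fib_finite hx c
  obtain ⟨N, hN⟩ : ∃ N : ℕ, ∀ P ∈ hfin.toFinset, ord P (x - algebraMap k F c) ≤ N := by
    refine ⟨hfin.toFinset.sup fun P => (ord P (x - algebraMap k F c)).toNat, fun P hP => ?_⟩
    have h1 := Finset.le_sup (f := fun P => (ord P (x - algebraMap k F c)).toNat) hP
    have h2 : (ord P (x - algebraMap k F c)).toNat ≤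
      hfin.toFinset.sup fun P => (ord P (x - algebraMap k F c)).toNat := h1
    omega
  have hzn : ∀ (P : Plk k F) (m : ℤ), z ∈ Mge P m → ∀ j : ℕ, z ^ j ∈ Mge P (j * m) := by
    intro P m hm j
    induction j with
    | zero =>
      right
      rw [pow_zero, ord_one]
      simp
    | succ j ih =>
      have h1 := mul_mem_Mge ih hm
      rw [pow_succ]
      refine Mge_mono P (le_of_eq ?_) h1
      push_cast
      ring
  obtain ⟨s, hs⟩ := exists_mem_Mr (k := k) (x := x) (z := z ^ N / (x - algebraMap k F c)) (by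
    intro P hP
    have h5 : (x - algebraMap k F c) * (z ^ N / (x - algebraMap k F c)) = z ^ N :=
      mul_div_cancel₀ _ hxc
    rcases lt_or_ge 0 (ord P (x - algebraMap k F c)) with h1 | h1
    · have h2 := hN P (hfin.mem_toFinset.2 h1)
      have h3 := hzn P 1 (h0 P h1) N
      rw [← h5, mul_mem_Mge_iff hxc] at h3
      exact Mge_mono P (by omega) h3
    · have h2 : x - algebraMap k F c ∈ Mge P 0 := by
        refine Submodule.sub_mem _ (Or.inr hP) (Or.inr ?_)
        rw [ord_const]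
      have h3 : 0 ≤ ord P (x - algebraMap k F c) := h2.resolve_left hxc
      have h4 : z ∈ Mge P 0 := by
        have h6 := (mem_Mr.1 hz) P
        rw [pol_apply, max_eq_left (by omega), mul_zero, neg_zero] at h6
        exact h6
      have h7 := hzn P 0 h4 N
      rw [← h5, mul_mem_Mge_iff hxc] at h7
      exact Mge_mono P (by omega) h7)
  exact ⟨N, s, _, hs, (mul_div_cancel₀ _ hxc).symm⟩

omit [CFF k F] in
/-- the product of multiplication matrices. -/
theorem CTrc_mat_mul {z w : F} {A B : Matrix (Fin n) (Fin n) k[X]}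
    (hA : ∀ j, z * e j = ∑ i, aeval x (A i j) * e i)
    (hB : ∀ j, w * e j = ∑ i, aeval x (B i j) * e i) (j : Fin n) :
    z * w * e j = ∑ i, aeval x ((A * B) i j) * e i := by
  rw [mul_assoc, hB, Finset.mul_sum]
  have h1 : ∀ l, z * (aeval x (B l j) * e l) =
      ∑ i, aeval x (A i l) * aeval x (B l j) * e i := by
    intro l
    rw [mul_left_comm, hA, Finset.mul_sum]
    exact Finset.sum_congr rfl fun i _ => by ring
  simp only [h1, Matrix.mul_apply, map_sum, map_mul, Finset.sum_mul]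
  exact Finset.sum_comm

/-- the trace of an element vanishing over `x = c` vanishes at `c`. -/
theorem GrB.trace_eval (he : GrB x (Mr k x) e a) (hx : ∀ a : k, x ≠ algebraMap k F a)
    (hn : n = Module.finrank k⟮x⟯ F) {r : ℤ} {z : F} (hz : z ∈ Mr k x r) {c : k}
    (h0 : ∀ P : Plk k F, 0 < ord P (x - algebraMap k F c) → z ∈ Mge P 1) {τ : k[X]}
    (hτ : algebraMap k⟮x⟯ F (Algebra.trace k⟮x⟯ F z) = aeval x τ) : τ.eval c = 0 := by
  classical
  have htr := (finite_of_notMem hx).1
  obtain ⟨N, s, w, hw, hzw⟩ := CTrc_exists_pow hx hz h0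
  obtain ⟨G, hG, -⟩ := he.exists_mat hz
  obtain ⟨H, hH, -⟩ := he.exists_mat hw
  have h1 : τ = G.trace := by
    have h2 := he.trace_eq hx hn hG
    rw [hτ] at h2
    exact transcendental_iff_injective.1 htr h2
  have hpow : ∀ m : ℕ, ∀ j, z ^ m * e j = ∑ i, aeval x ((G ^ m) i j) * e i := by
    intro m
    induction m with
    | zero =>
      intro j
      rw [pow_zero, pow_zero, one_mul, Finset.sum_eq_single j]
      · rw [Matrix.one_apply_eq, map_one, one_mul]
      · intro i _ hi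
        rw [Matrix.one_apply_ne hi, map_zero, zero_mul]
      · intro h
        exact absurd (Finset.mem_univ j) h
    | succ m ih =>
      intro j
      rw [pow_succ, pow_succ]
      exact CTrc_mat_mul ih hG j
  have hsm : ∀ j, z ^ N * e j = ∑ i, aeval x (((X - C c) • H) i j) * e i := by
    intro j
    rw [hzw, mul_assoc, hH, Finset.mul_sum]
    refine Finset.sum_congr rfl fun i _ => ?_
    rw [Matrix.smul_apply, smul_eq_mul, map_mul, map_sub, aeval_X, aeval_C, mul_assoc]
  have hmat : G ^ N = (X - C c) • H := by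
    ext1 i j
    have h3 := CTrc_uniq he.ind htr (φ := fun i => (G ^ N) i j)
      (ψ := fun i => ((X - C c) • H) i j) ((hpow N j).symm.trans (hsm j))
    exact congrFun h3 i
  have hev : ((evalRingHom c).mapMatrix G) ^ N = 0 := by
    rw [← map_pow, hmat]
    ext i j
    rw [RingHom.mapMatrix_apply, Matrix.map_apply, Matrix.smul_apply, smul_eq_mul, map_mul,
      coe_evalRingHom, eval_sub, eval_X, eval_C, sub_self, zero_mul, Matrix.zero_apply]
  have hnil : IsNilpotent ((evalRingHom c).mapMatrix G).trace :=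
    Matrix.isNilpotent_trace_of_isNilpotent ⟨N, hev⟩
  have h4 := hnil.eq_zero
  rw [h1, ← coe_evalRingHom, Matrix.trace, map_sum]
  rw [Matrix.trace] at h4
  exact h4

end

end Vale.Agent.P019P
end

section

/-!
# Determinants of polynomial matrices
-/

namespace Vale.Agent.P019P

open Polynomial

variable {k : Type*} [Field k] {ι : Type*} [Fintype ι] [DecidableEq ι]

/-- a basis of `ι → k` adapted to a subspace -/
private theorem CDet_basis (N : Submodule k (ι → k)) :
    ∃ (B : Module.Basis ι k (ι → k)) (J : Finset ι), J.card = Module.finrank k N ∧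
      ∀ j ∈ J, B j ∈ N := by
  classical
  obtain ⟨N', hN⟩ := Submodule.exists_isCompl N
  set s := Module.finrank k N
  set t := Module.finrank k N'
  let b := ((Module.finBasis k N).prod (Module.finBasis k N')).map
    (Submodule.prodEquivOfIsCompl N N' hN)
  have hcard : Fintype.card (Fin s ⊕ Fin t) = Fintype.card ι := by
    rw [← Module.finrank_eq_card_basis b, Module.finrank_fintype_fun_eq_card]
  let e : Fin s ⊕ Fin t ≃ ι := Fintype.equivOfCardEq hcard
  refine ⟨b.reindex e, (Finset.univ : Finset (Fin s)).image fun i => e (Sum.inl i), ?_, ?_⟩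
  · rw [Finset.card_image_of_injective _ fun x y h => Sum.inl_injective (e.injective h),
      Finset.card_univ, Fintype.card_fin]
  · intro j hj
    obtain ⟨i, -, rfl⟩ := Finset.mem_image.1 hj
    rw [Module.Basis.reindex_apply, e.symm_apply_apply]
    simp only [b, Module.Basis.map_apply, Module.Basis.prod_apply, Sum.elim_inl,
      Function.comp_apply, Submodule.coe_prodEquivOfIsCompl', LinearMap.coe_inl,
      ZeroMemClass.coe_zero, add_zero]
    exact (Module.finBasis k N i).2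

/-- the determinant of a matrix whose value at `c` has a large kernel. -/
theorem pow_dvd_det (G : Matrix ι ι k[X]) (c : k) (N : Submodule k (ι → k))
    (h : ∀ v ∈ N, (G.map (Polynomial.eval c)).mulVec v = 0) :
    (X - C c) ^ Module.finrank k N ∣ G.det := by
  obtain ⟨B, J, hJ, hB⟩ := CDet_basis N
  let U : Matrix ι ι k := (Pi.basisFun k ι).toMatrix B
  have hU : U * (B.toMatrix (Pi.basisFun k ι)) = 1 :=
    (Pi.basisFun k ι).toMatrix_mul_toMatrix_flip B
  have hdet : U.det ≠ 0 := by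
    intro h0
    have := congrArg Matrix.det hU
    rw [Matrix.det_mul, h0, zero_mul, Matrix.det_one] at this
    exact zero_ne_one this
  let A : Matrix ι ι k[X] := G * U.map C
  have hA : ∀ j ∈ J, ∀ i, (X - C c) ∣ A i j := by
    intro j hj i
    rw [dvd_iff_isRoot, IsRoot.def]
    have h1 := congrFun (h (B j) (hB j hj)) i
    simp only [Matrix.mulVec, dotProduct, Matrix.map_apply, Pi.zero_apply] at h1
    simp only [A, Matrix.mul_apply, Matrix.map_apply, eval_finsetSum, eval_mul, eval_C, U,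
      Module.Basis.toMatrix_apply, Pi.basisFun_repr]
    exact h1
  let v : ι → k[X] := fun j => if j ∈ J then X - C c else 1
  have hv : ∀ i j, v j ∣ A i j := by
    intro i j
    by_cases hj : j ∈ J
    · simp only [v, if_pos hj]
      exact hA j hj i
    · simp only [v, if_neg hj]
      exact one_dvd _
  choose G' hG' using hv
  have e1 : A = fun i j => v j * G' i j := by
    funext i j
    exact hG' i j
  have e2 : A.det = (∏ j, v j) * Matrix.det (fun i j => G' i j) := by
    rw [e1]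
    exact Matrix.det_mul_row v _
  have e3 : (∏ j, v j) = (X - C c) ^ Module.finrank k N := by
    simp only [v]
    rw [Finset.prod_ite_mem, Finset.univ_inter, Finset.prod_const, hJ]
  have e4 : A.det = G.det * C U.det := by
    simp only [A]
    rw [Matrix.det_mul]
    congr 1
    exact (RingHom.map_det C U).symm
  have h5 : (X - C c) ^ Module.finrank k N ∣ G.det * C U.det := by
    rw [← e4, e2, e3]
    exact dvd_mul_right _ _
  have hu : IsUnit (C U.det) := isUnit_C.2 (isUnit_iff_ne_zero.2 hdet)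
  exact (hu.dvd_mul_right).1 h5

theorem natDegree_det_le' (G : Matrix ι ι k[X]) (a b : ι → ℕ)
    (h : ∀ i j, (G i j).natDegree ≤ a i + b j) :
    G.det.natDegree ≤ ∑ i, a i + ∑ j, b j := by
  rw [Matrix.det_apply]
  refine natDegree_sum_le_of_forall_le _ _ fun σ _ => ?_
  have h1 : (Equiv.Perm.sign σ • ∏ i, G (σ i) i).natDegree ≤ (∏ i, G (σ i) i).natDegree := by
    rcases Int.units_eq_one_or (Equiv.Perm.sign σ) with h | h <;> rw [h]
    · simp
    · simp [Units.smul_def]
  refine h1.trans ((natDegree_prod_le _ _).trans ?_)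
  calc ∑ i, (G (σ i) i).natDegree ≤ ∑ i, (a (σ i) + b i) := Finset.sum_le_sum fun i _ => h _ _
    _ = ∑ i, a i + ∑ j, b j := by
      rw [Finset.sum_add_distrib, Equiv.sum_comp σ a]

end Vale.Agent.P019P
end

section

/-!
# The discriminant of a graded basis
-/

namespace Vale.Agent.P019P

open Polynomial IntermediateField

section

variable {k F : Type*} [Field k] [Field F] [Algebra k F] [CFF k F]

/-- vanishing at the points of a finite set is a small number of conditions. -/
theorem finrank_vanish {n : ℕ} {e : Fin n → F} (S : Finset (Plk k F))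
    (he : ∀ P ∈ S, ∀ i, e i ∈ Mge P 0) :
    ∃ N : Submodule k (Fin n → k), n ≤ Module.finrank k N + S.card ∧
      ∀ v ∈ N, ∀ P ∈ S, ∑ i, v i • e i ∈ Mge P 1 := by
  have hres : ∀ P : S, ∀ i, ∃ c : k, e i - algebraMap k F c ∈ Mge P.1 1 := by
    intro P i
    rcases mem_Mge.1 (he P.1 P.2 i) with h0 | h0
    · exact ⟨0, by rw [h0, map_zero, sub_zero]; exact Submodule.zero_mem _⟩
    · obtain ⟨c, hc⟩ := exists_cst P.1 ((mem_iff_ord P.1 _).2 (Or.inr h0))
      refine ⟨c, ?_⟩
      rcases hc with hc | hc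
      · rw [← hc, sub_self]; exact Submodule.zero_mem _
      · exact Or.inr hc
  choose c hc using hres
  refine ⟨LinearMap.ker (Matrix.mulVecLin (Matrix.of c)), ?_, ?_⟩
  · have h1 := LinearMap.finrank_range_add_finrank_ker (Matrix.mulVecLin (Matrix.of c))
    have h2 : Module.finrank k (LinearMap.range (Matrix.mulVecLin (Matrix.of c))) ≤ S.card :=
      (Submodule.finrank_le _).trans
        (by rw [Module.finrank_fintype_fun_eq_card, Fintype.card_coe])
    rw [Module.finrank_fin_fun] at h1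
    omega
  · intro v hv P hP
    have h3 : ∑ i, c ⟨P, hP⟩ i * v i = 0 := congrFun (LinearMap.mem_ker.1 hv) ⟨P, hP⟩
    have h5 : ∑ i, v i • algebraMap k F (c ⟨P, hP⟩ i) = 0 := by
      have h6 : ∀ i, v i • algebraMap k F (c ⟨P, hP⟩ i) =
          algebraMap k F (c ⟨P, hP⟩ i * v i) := by
        intro i
        rw [Algebra.smul_def, ← map_mul, mul_comm]
      rw [Finset.sum_congr rfl fun i _ => h6 i, ← map_sum, h3, map_zero]
    have h4 : ∑ i, v i • e i = ∑ i, v i • (e i - algebraMap k F (c ⟨P, hP⟩ i)) := by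
      simp only [smul_sub]
      rw [Finset.sum_sub_distrib, h5, sub_zero]
    rw [h4]
    exact Submodule.sum_mem _ fun i _ => Submodule.smul_mem _ _ (hc ⟨P, hP⟩ i)

/-- the discriminant. -/
theorem exists_disc {x : F} (hx : ∀ a : k, x ≠ algebraMap k F a) [Algebra.IsSeparable k⟮x⟯ F] :
    ∃ Δ : k[X], Δ ≠ 0 ∧
      (Δ.natDegree : ℤ) ≤ 2 * gen k F - 2 + 2 * Module.finrank k⟮x⟯ F ∧
      ∀ c : k, (X - C c) ^ (Module.finrank k⟮x⟯ F - (fib_finite hx c).toFinset.card) ∣ Δ := by
  classical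
  obtain ⟨e, a, he, ha⟩ := exists_GrB hx
  obtain ⟨-, hfd⟩ := finite_of_notMem hx
  have hmul : ∀ i j, e i * e j ∈ Mr k x ((a i + a j : ℕ) : ℤ) := fun i j => by
    rw [Nat.cast_add]
    exact Mr_mul (he.mem i) (he.mem j)
  choose T hTd hT using fun i j => he.exists_trace hx rfl (hmul i j)
  have hpos : 0 < Module.finrank k⟮x⟯ F := Module.finrank_pos
  have hne : Nonempty (Fin (Module.finrank k⟮x⟯ F)) := ⟨⟨0, hpos⟩⟩
  have hdisc := Algebra.discr_not_zero_of_basis k⟮x⟯
    (basisOfLinearIndependentOfCardEqFinrank he.ind (Fintype.card_fin _))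
  rw [coe_basisOfLinearIndependentOfCardEqFinrank, Algebra.discr_def] at hdisc
  have hdet : algebraMap k⟮x⟯ F (Algebra.traceMatrix k⟮x⟯ e).det =
      aeval x (Matrix.of T).det := by
    rw [RingHom.map_det, AlgHom.map_det]
    congr 1
    ext i j
    change algebraMap k⟮x⟯ F (Algebra.trace k⟮x⟯ F (e i * e j)) = aeval x (T i j)
    exact hT i j
  refine ⟨(Matrix.of T).det, ?_, ?_, ?_⟩
  · intro h0
    rw [h0, map_zero] at hdet
    exact hdisc ((map_eq_zero _).1 hdet)
  · have h1 := natDegree_det_le' (Matrix.of T) a a hTd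
    have h2 : ((Matrix.of T).det.natDegree : ℤ) ≤ ∑ i, (a i : ℤ) + ∑ i, (a i : ℤ) := by
      exact_mod_cast h1
    rw [ha] at h2
    linarith
  · intro c
    have hS : ∀ P ∈ (fib_finite hx c).toFinset, ∀ i, e i ∈ Mge P 0 := by
      intro P hP i
      have h1 : 0 < ord P (x - algebraMap k F c) := (Set.Finite.mem_toFinset (fib_finite hx c)).1 hP
      have h2 : x ∈ Mge P 0 := by
        have h3 : x = (x - algebraMap k F c) + algebraMap k F c := by ring
        rw [h3]
        exact Submodule.add_mem _ (Or.inr h1.le) (Or.inr (ord_const P c).ge)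
      have h4 : 0 ≤ ord P x := by
        rcases h2 with h2 | h2
        · rw [h2, ord_zero]
        · exact h2
      have h5 : pol k x P = 0 := by
        rw [pol_apply]
        exact max_eq_left (by omega)
      have h6 := mem_Mr.1 (he.mem i) P
      rwa [h5, mul_zero, neg_zero] at h6
    obtain ⟨N, hN1, hN2⟩ := finrank_vanish (fib_finite hx c).toFinset hS
    refine (pow_dvd_pow _ (by omega)).trans (pow_dvd_det (Matrix.of T) c N ?_)
    intro v hv
    funext i
    have hsum : e i * ∑ j, v j • e j = ∑ j, v j • (e i * e j) := by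
      rw [Finset.mul_sum]
      exact Finset.sum_congr rfl fun j _ => mul_smul_comm _ _ _
    have hmem : e i * ∑ j, v j • e j ∈ Mr k x ((a i + ∑ j, a j : ℕ) : ℤ) := by
      rw [hsum]
      refine Submodule.sum_mem _ fun j _ => Submodule.smul_mem _ _ ?_
      refine (flt_Mr hx).mono ?_ (hmul i j)
      have h7 := Finset.single_le_sum (f := a) (fun _ _ => Nat.zero_le _) (Finset.mem_univ j)
      exact_mod_cast Nat.add_le_add_left h7 _
    have h0 : ∀ P : Plk k F, 0 < ord P (x - algebraMap k F c) →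
        e i * ∑ j, v j • e j ∈ Mge P 1 := by
      intro P hP
      have hP' : P ∈ (fib_finite hx c).toFinset := (Set.Finite.mem_toFinset (fib_finite hx c)).2 hP
      have h8 := mul_mem_Mge (hS P hP' i) (hN2 v hv P hP')
      rwa [zero_add] at h8
    have hτ : algebraMap k⟮x⟯ F (Algebra.trace k⟮x⟯ F (e i * ∑ j, v j • e j)) =
        aeval x (∑ j, C (v j) * T i j) := by
      rw [hsum, map_sum, map_sum, map_sum]
      refine Finset.sum_congr rfl fun j _ => ?_
      rw [LinearMap.map_smul_of_tower, Algebra.smul_def, map_mul,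
        ← IsScalarTower.algebraMap_apply k k⟮x⟯ F, hT i j, map_mul, aeval_C]
    have h9 := he.trace_eval hx rfl hmem h0 hτ
    rw [eval_finsetSum] at h9
    change ∑ j, (T i j).eval c * v j = 0
    rw [← h9]
    refine Finset.sum_congr rfl fun j _ => ?_
    rw [eval_mul, eval_C, mul_comm]

end

end Vale.Agent.P019P
end

section

/-!
# The inequality of Riemann and Hurwitz
-/

namespace Vale.Agent.P019P

open Polynomial IntermediateField

section

variable {k F : Type*} [Field k] [Field F] [Algebra k F] [CFF k F]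

/-- the fibres have at most `n` points. -/
theorem crh_card_le {x : F} (hx : ∀ a : k, x ≠ algebraMap k F a) (c : k) :
    (fib_finite hx c).toFinset.card ≤ Module.finrank k⟮x⟯ F := by
  have h1 := fib_sum hx c
  have h2 : ((fib_finite hx c).toFinset.card : ℤ) ≤
      ∑ P ∈ (fib_finite hx c).toFinset, ord P (x - algebraMap k F c) := by
    rw [Finset.card_eq_sum_ones, Nat.cast_sum]
    refine Finset.sum_le_sum fun P hP => ?_
    rw [Set.Finite.mem_toFinset] at hP
    have h3 : 0 < ord P (x - algebraMap k F c) := hP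
    push_cast
    omega
  rw [h1] at h2
  exact_mod_cast h2

/-- Riemann-Hurwitz. -/
theorem RH {x : F} (hx : ∀ a : k, x ≠ algebraMap k F a) [Algebra.IsSeparable k⟮x⟯ F]
    (s : Finset k) :
    ∑ c ∈ s, ((Module.finrank k⟮x⟯ F : ℤ) - (fib_finite hx c).toFinset.card) ≤
      2 * gen k F - 2 + 2 * Module.finrank k⟮x⟯ F := by
  classical
  obtain ⟨Δ, hΔ, hdeg, hdvd⟩ := exists_disc hx
  refine le_trans ?_ hdeg
  obtain ⟨r, hr⟩ : ∃ r : k → ℕ, r = fun c =>
      Module.finrank k⟮x⟯ F - (fib_finite hx c).toFinset.card := ⟨_, rfl⟩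
  have hcast : ∀ c ∈ s, ((Module.finrank k⟮x⟯ F : ℤ) - (fib_finite hx c).toFinset.card) =
      ((r c : ℕ) : ℤ) := by
    intro c _
    rw [hr]
    exact (Nat.cast_sub (crh_card_le hx c)).symm
  rw [Finset.sum_congr rfl hcast, ← Nat.cast_sum]
  have hco : (s : Set k).Pairwise (Function.onFun IsCoprime fun c => (X - C c) ^ r c) := by
    intro a _ b _ hab
    exact (Polynomial.isCoprime_X_sub_C_of_isUnit_sub
      ((sub_ne_zero.mpr hab).isUnit)).pow
  have hprod : ∏ c ∈ s, (X - C c) ^ r c ∣ Δ :=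
    Finset.prod_dvd_of_coprime hco fun c _ => by rw [hr]; exact hdvd c
  have h3 := Polynomial.natDegree_le_of_dvd hprod hΔ
  rw [Polynomial.natDegree_prod_of_monic _ _ fun c _ => (monic_X_sub_C c).pow _] at h3
  have h4 : ∀ c ∈ s, ((X - C c) ^ r c).natDegree = r c := fun c _ => by
    rw [Polynomial.natDegree_pow, Polynomial.natDegree_X_sub_C, mul_one]
  rw [Finset.sum_congr rfl h4] at h3
  exact_mod_cast h3

end

end Vale.Agent.P019P
end

section

/-!
# The genus of a plane curve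
-/

namespace Vale.Agent.P019P

open Polynomial IntermediateField

section

variable {k F : Type*} [Field k] [Field F] [Algebra k F] [CFF k F]

private theorem cgb_pow_mem {y : F} {P : Plk k F} (h : 0 ≤ ord P y) (n : ℕ) :
    y ^ n ∈ Mge P 0 := by
  by_cases h0 : y ^ n = 0
  · exact Or.inl h0
  · right
    rw [ord_pow]
    positivity

theorem aeval_mem_pol {x : F} {φ : k[X]} {m : ℕ} (h : φ.natDegree ≤ m) (P : Plk k F) :
    aeval x φ ∈ Mge P (-(m * pol k x P)) := by
  rw [aeval_eq_sum_range]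
  refine Submodule.sum_mem _ fun i hi => Submodule.smul_mem _ _ ?_
  by_cases h0 : x ^ i = 0
  · exact Or.inl h0
  · right
    have h1 : 0 ≤ pol k x P := by rw [pol_apply]; exact le_max_left _ _
    have h2 : -pol k x P ≤ ord P x := by
      rw [pol_apply]
      have := le_max_right 0 (-ord P x)
      linarith
    have hi' : (i : ℤ) ≤ m := by
      have := Finset.mem_range.1 hi
      exact_mod_cast (by omega : i ≤ m)
    rw [ord_pow]
    have h3 : (i : ℤ) * -pol k x P ≤ i * ord P x := mul_le_mul_of_nonneg_left h2 (by positivity)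
    have h4 : (i : ℤ) * pol k x P ≤ m * pol k x P := mul_le_mul_of_nonneg_right hi' h1
    linarith

/-- the integral elements attached to a plane equation. -/
theorem omega_mem {x y : F} {m d : ℕ} {p : ℕ → k[X]} (hp : ∀ i, (p i).natDegree ≤ m)
    (h0 : ∑ i ∈ Finset.range (d + 1), aeval x (p i) * y ^ i = 0) {j : ℕ} (hj : j ≤ d) :
    ∑ i ∈ Finset.range j, aeval x (p (d - j + 1 + i)) * y ^ (i + 1) ∈ LL k (m • pol k x) := by
  rw [mem_LL_iff]
  intro P
  have hD : -(m • pol k x) P = -(m * pol k x P) := by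
    rw [Finsupp.smul_apply, nsmul_eq_mul]
  rw [hD]
  by_cases hy : 0 ≤ ord P y
  · refine Submodule.sum_mem _ fun i _ => ?_
    have := mul_mem_Mge (aeval_mem_pol (x := x) (hp (d - j + 1 + i)) P)
      (cgb_pow_mem hy (i + 1))
    rwa [add_zero] at this
  · have hy0 : y ≠ 0 := by
      rintro rfl
      exact hy (by rw [ord_zero])
    have hyi : 0 ≤ ord P y⁻¹ := by
      rw [ord_inv]
      linarith [not_le.1 hy]
    have hsplit : d + 1 = (d - j + 1) + j := by omega
    rw [hsplit, Finset.sum_range_add] at h0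
    have hye : y ^ (d - j) ≠ 0 := pow_ne_zero _ hy0
    have key : ∑ i ∈ Finset.range j, aeval x (p (d - j + 1 + i)) * y ^ (i + 1)
        = -∑ i ∈ Finset.range (d - j + 1), aeval x (p i) * (y⁻¹) ^ (d - j - i) := by
      apply mul_left_cancel₀ hye
      have e1 : y ^ (d - j) * ∑ i ∈ Finset.range j, aeval x (p (d - j + 1 + i)) * y ^ (i + 1)
          = ∑ i ∈ Finset.range j, aeval x (p (d - j + 1 + i)) * y ^ (d - j + 1 + i) := by
        rw [Finset.mul_sum]
        refine Finset.sum_congr rfl fun i _ => ?_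
        rw [mul_left_comm, ← pow_add, show d - j + (i + 1) = d - j + 1 + i by ring]
      have e2 : y ^ (d - j) * ∑ i ∈ Finset.range (d - j + 1), aeval x (p i) * (y⁻¹) ^ (d - j - i)
          = ∑ i ∈ Finset.range (d - j + 1), aeval x (p i) * y ^ i := by
        rw [Finset.mul_sum]
        refine Finset.sum_congr rfl fun i hi => ?_
        have hi' : i ≤ d - j := Nat.lt_succ_iff.1 (Finset.mem_range.1 hi)
        have e3 : y ^ (d - j) = y ^ (d - j - i) * y ^ i := by
          rw [← pow_add, Nat.sub_add_cancel hi']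
        have e4 : y ^ (d - j - i) * (y⁻¹) ^ (d - j - i) = 1 := by
          rw [← mul_pow, mul_inv_cancel₀ hy0, one_pow]
        rw [e3, mul_left_comm]
        congr 1
        rw [mul_right_comm, e4, one_mul]
      rw [e1, mul_neg, e2]
      exact eq_neg_of_add_eq_zero_right h0
    rw [key]
    refine Submodule.neg_mem _ (Submodule.sum_mem _ fun i _ => ?_)
    have := mul_mem_Mge (aeval_mem_pol (x := x) (hp i) P) (cgb_pow_mem hyi (d - j - i))
    rwa [add_zero] at this

/-- lower bound of a Riemann-Roch space from a family independent over `k(x)`. -/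
theorem le_finrank_of_indep {x : F} (hx : Transcendental k x) {n m r : ℕ} {ω : Fin n → F}
    (hω : ∀ j, ω j ∈ LL k (m • pol k x)) (hr : m ≤ r)
    (hind : LinearIndependent k⟮x⟯ (Fin.cons 1 ω : Fin (n + 1) → F)) :
    (r + 1) + n * (r - m + 1) ≤ Module.finrank k (LL k (r • pol k x)) := by
  have h1 := indep_pow_mul hx hind
  let g : Fin (r + 1) ⊕ (Fin n × Fin (r - m + 1)) → Fin (n + 1) × ℕ :=
    Sum.elim (fun i => ((0 : Fin (n + 1)), (i : ℕ))) (fun q => (q.1.succ, (q.2 : ℕ)))
  have hg : Function.Injective g := by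
    rintro (i | ⟨i, i'⟩) (j | ⟨j, j'⟩) hij
    · simp only [g, Sum.elim_inl, Prod.mk.injEq, true_and] at hij
      exact congrArg _ (Fin.ext hij)
    · simp only [g, Sum.elim_inl, Sum.elim_inr, Prod.mk.injEq] at hij
      exact absurd hij.1.symm (Fin.succ_ne_zero j)
    · simp only [g, Sum.elim_inl, Sum.elim_inr, Prod.mk.injEq] at hij
      exact absurd hij.1 (Fin.succ_ne_zero i)
    · simp only [g, Sum.elim_inr, Prod.mk.injEq] at hij
      rw [Fin.succ_injective _ hij.1, Fin.ext hij.2]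
  have h2 := h1.comp g hg
  have hmem : ∀ q, x ^ (g q).2 * (Fin.cons 1 ω : Fin (n + 1) → F) (g q).1
      ∈ LL k (r • pol k x) := by
    have hD : ∀ (s : ℕ) (P : Plk k F), -(s • pol k x) P = -(s * pol k x P) := fun s P => by
      rw [Finsupp.smul_apply, nsmul_eq_mul]
    rintro (i | ⟨j, i⟩)
    · simp only [g, Sum.elim_inl, Fin.cons_zero, mul_one]
      rw [mem_LL_iff]
      intro P
      rw [hD]
      have := aeval_mem_pol (k := k) (x := x) (φ := X ^ (i : ℕ)) (m := r)
        (by rw [natDegree_X_pow]; omega) P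
      rwa [map_pow, aeval_X] at this
    · simp only [g, Sum.elim_inr, Fin.cons_succ]
      rw [mem_LL_iff]
      intro P
      rw [hD]
      have h3 := aeval_mem_pol (k := k) (x := x) (φ := X ^ (i : ℕ)) (m := r - m)
        (by rw [natDegree_X_pow]; omega) P
      rw [map_pow, aeval_X] at h3
      have h4 := mem_LL_iff.1 (hω j) P
      rw [hD] at h4
      have h5 := mul_mem_Mge h3 h4
      have h6 : -(((r - m : ℕ) : ℤ) * pol k x P) + -(m * pol k x P) = -(r * pol k x P) := by
        rw [Nat.cast_sub hr]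
        ring
      rwa [h6] at h5
  have h7 : LinearIndependent k (fun q => (⟨_, hmem q⟩ : LL k (r • pol k x))) := by
    apply LinearIndependent.of_comp (LL k (r • pol k x)).subtype
    exact h2
  have h8 := h7.fintype_card_le_finrank
  rwa [Fintype.card_sum, Fintype.card_prod, Fintype.card_fin, Fintype.card_fin,
    Fintype.card_fin] at h8

/-- polynomials of distinct small degrees give independent values. -/
private theorem cgb_indep {K L : Type*} [Field K] [Field L] [Algebra K L] {y : L} {N : ℕ}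
    (hN : N ≤ (minpoly K y).natDegree) (W : Fin N → K[X])
    (h1 : ∀ i : Fin N, (W i).coeff i ≠ 0) (h2 : ∀ (i : Fin N) (t : ℕ), (i : ℕ) < t →
      (W i).coeff t = 0) : LinearIndependent K (fun i => aeval y (W i)) := by
  classical
  rw [Fintype.linearIndependent_iff]
  intro c hc
  set Q : K[X] := ∑ i, C (c i) * W i with hQ
  have hQy : aeval y Q = 0 := by
    rw [hQ, map_sum, ← hc]
    refine Finset.sum_congr rfl fun i _ => ?_
    rw [map_mul, aeval_C, Algebra.smul_def]
  have hQc : ∀ t, Q.coeff t = ∑ i, c i * (W i).coeff t := by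
    intro t
    rw [hQ, finsetSum_coeff]
    simp only [coeff_C_mul]
  have hQ0 : Q = 0 := by
    by_contra hne
    have h3 : (minpoly K y).natDegree ≤ Q.natDegree :=
      natDegree_le_natDegree (minpoly.degree_le_of_ne_zero K y hne hQy)
    have h4 := hQc Q.natDegree
    rw [Finset.sum_eq_zero] at h4
    · exact hne (leadingCoeff_eq_zero.1 h4)
    · intro i _
      rw [h2 i _ (by omega), mul_zero]
  by_contra hcon
  push Not at hcon
  obtain ⟨i0, hi0⟩ := hcon
  obtain ⟨i, hi, hmax⟩ := Finset.exists_max_image (Finset.univ.filter fun i => c i ≠ 0)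
    (fun i => (i : ℕ)) ⟨i0, by simp [hi0]⟩
  rw [Finset.mem_filter] at hi
  have h4 := hQc i
  rw [hQ0, coeff_zero, Finset.sum_eq_single i] at h4
  · exact mul_ne_zero hi.2 (h1 i) h4.symm
  · intro j _ hji
    rcases lt_or_gt_of_ne (fun h => hji (Fin.ext h) : (j : ℕ) ≠ i) with h | h
    · rw [h2 j i h, mul_zero]
    · have : c j = 0 := by
        by_contra hcj
        have := hmax j (by simp [hcj])
        omega
      rw [this, zero_mul]
  · intro h
    exact absurd (Finset.mem_univ i) h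

/-- the degree of the minimal polynomial from an equation. -/
private theorem cgb_deg {K L : Type*} [Field K] [Field L] [Algebra K L] {y : L} {d : ℕ}
    {q : ℕ → K} (hqd : q d ≠ 0)
    (h0 : ∑ j ∈ Finset.range (d + 1), algebraMap K L (q j) * y ^ j = 0) :
    (minpoly K y).natDegree ≤ d := by
  classical
  set Q : K[X] := ∑ j ∈ Finset.range (d + 1), C (q j) * X ^ j with hQ
  have hQc : Q.coeff d = q d := by
    rw [hQ]
    simp only [finsetSum_coeff, coeff_C_mul, coeff_X_pow]
    rw [Finset.sum_eq_single d]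
    · simp
    · intro b _ hb
      rw [if_neg (Ne.symm hb), mul_zero]
    · intro h2
      exact absurd (Finset.mem_range.2 (Nat.lt_succ_self d)) h2
  have hQ0 : Q ≠ 0 := by
    intro h
    rw [h, coeff_zero] at hQc
    exact hqd hQc.symm
  have hQy : aeval y Q = 0 := by
    rw [hQ, map_sum, ← h0]
    refine Finset.sum_congr rfl fun j _ => ?_
    rw [map_mul, map_pow, aeval_C, aeval_X]
  have h3 : (minpoly K y).natDegree ≤ Q.natDegree :=
    natDegree_le_natDegree (minpoly.degree_le_of_ne_zero K y hQ0 hQy)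
  have h4 : Q.natDegree ≤ d := by
    refine natDegree_sum_le_of_forall_le _ _ fun i hi => ?_
    exact (natDegree_C_mul_X_pow_le _ _).trans (Nat.lt_succ_iff.1 (Finset.mem_range.1 hi))
  omega

/-- the integral elements are independent together with `1`. -/
private theorem cgb_omega_indep {K L : Type*} [Field K] [Field L] [Algebra K L] {y : L} {d M : ℕ}
    {q : ℕ → K} (hqd : q d ≠ 0) (hM : M + 1 ≤ (minpoly K y).natDegree) (hMd : M + 1 ≤ d) :
    LinearIndependent K (Fin.cons 1 (fun j : Fin M => ∑ i ∈ Finset.range ((j : ℕ) + 1),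
      algebraMap K L (q (d - ((j : ℕ) + 1) + 1 + i)) * y ^ (i + 1)) : Fin (M + 1) → L) := by
  classical
  set W : Fin (M + 1) → K[X] := Fin.cons 1 (fun j : Fin M =>
    ∑ i ∈ Finset.range ((j : ℕ) + 1), C (q (d - ((j : ℕ) + 1) + 1 + i)) * X ^ (i + 1)) with hW
  have hWv : (Fin.cons 1 (fun j : Fin M => ∑ i ∈ Finset.range ((j : ℕ) + 1),
      algebraMap K L (q (d - ((j : ℕ) + 1) + 1 + i)) * y ^ (i + 1)) : Fin (M + 1) → L)
      = (fun i => aeval y (W i)) := by
    funext i
    refine Fin.cases ?_ (fun j => ?_) i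
    · simp only [hW, Fin.cons_zero, map_one]
    · simp only [hW, Fin.cons_succ, map_sum, map_mul, map_pow, aeval_C, aeval_X]
  rw [hWv]
  refine cgb_indep hM W ?_ ?_
  · intro i
    refine Fin.cases ?_ (fun j => ?_) i
    · simp only [hW, Fin.cons_zero, Fin.val_zero, coeff_one_zero]
      exact one_ne_zero
    · simp only [hW, Fin.cons_succ, Fin.val_succ, finsetSum_coeff, coeff_C_mul, coeff_X_pow]
      rw [Finset.sum_eq_single (j : ℕ)]
      · have hj := j.2
        rw [if_pos rfl, mul_one, show d - ((j : ℕ) + 1) + 1 + j = d by omega]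
        exact hqd
      · intro b _ hb
        rw [if_neg (by omega), mul_zero]
      · intro h2
        exact absurd (Finset.mem_range.2 (Nat.lt_succ_self _)) h2
  · intro i
    refine Fin.cases ?_ (fun j => ?_) i
    · intro t ht
      simp only [hW, Fin.cons_zero]
      rw [coeff_one, if_neg]
      rintro rfl
      exact absurd ht (lt_irrefl _)
    · intro t ht
      rw [Fin.val_succ] at ht
      simp only [hW, Fin.cons_succ, finsetSum_coeff, coeff_C_mul, coeff_X_pow]
      refine Finset.sum_eq_zero fun b hb => ?_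
      rw [Finset.mem_range] at hb
      rw [if_neg (by omega), mul_zero]

omit [CFF k F] in
/-- the equation as a polynomial in `y`, normalised. -/
private theorem cgb_top {x y : F} {m n : ℕ} {a : ℕ → ℕ → k}
    (hne : ∃ i ∈ Finset.range (m + 1), ∃ j ∈ Finset.range (n + 1), a i j ≠ 0)
    (h0 : ∑ i ∈ Finset.range (m + 1), ∑ j ∈ Finset.range (n + 1),
      algebraMap k F (a i j) * x ^ i * y ^ j = 0) :
    ∃ (p : ℕ → k[X]) (d : ℕ), (∀ j, (p j).natDegree ≤ m) ∧ d ≤ n ∧ p d ≠ 0 ∧
      ∑ j ∈ Finset.range (d + 1), aeval x (p j) * y ^ j = 0 := by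
  classical
  set p : ℕ → k[X] := fun j => ∑ i ∈ Finset.range (m + 1), C (a i j) * X ^ i with hpdef
  have hpdeg : ∀ j, (p j).natDegree ≤ m := by
    intro j
    refine natDegree_sum_le_of_forall_le _ _ fun i hi => ?_
    exact (natDegree_C_mul_X_pow_le _ _).trans (Nat.lt_succ_iff.1 (Finset.mem_range.1 hi))
  have hpval : ∀ j, aeval x (p j) = ∑ i ∈ Finset.range (m + 1), algebraMap k F (a i j) * x ^ i := by
    intro j
    simp only [hpdef, map_sum, map_mul, map_pow, aeval_C, aeval_X]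
  have hsum : ∑ j ∈ Finset.range (n + 1), aeval x (p j) * y ^ j = 0 := by
    rw [← h0, Finset.sum_comm]
    refine Finset.sum_congr rfl fun j _ => ?_
    rw [hpval, Finset.sum_mul]
  obtain ⟨d, hdn, hd0, hdtop⟩ : ∃ d, d ≤ n ∧ p d ≠ 0 ∧ ∀ j, d < j → j ≤ n → p j = 0 := by
    obtain ⟨i, hi, j, hj, hij⟩ := hne
    have hpj : p j ≠ 0 := by
      intro h
      apply hij
      have h1 : (p j).coeff i = a i j := by
        simp only [hpdef, finsetSum_coeff, coeff_C_mul, coeff_X_pow]
        rw [Finset.sum_eq_single i]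
        · simp
        · intro b _ hb
          rw [if_neg (Ne.symm hb), mul_zero]
        · intro h2
          exact absurd hi h2
      rw [← h1, h, coeff_zero]
    refine ⟨Nat.findGreatest (fun j => p j ≠ 0) n, Nat.findGreatest_le n,
      Nat.findGreatest_spec (P := fun j => p j ≠ 0) (Nat.lt_succ_iff.1 (Finset.mem_range.1 hj)) hpj,
      fun l hl hln => ?_⟩
    have := Nat.findGreatest_is_greatest hl hln
    simpa using this
  refine ⟨p, d, hpdeg, hdn, hd0, ?_⟩
  rw [← hsum]
  refine Finset.sum_subset (Finset.range_mono (by omega)) fun j hj hj' => ?_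
  rw [Finset.mem_range] at hj hj'
  rw [hdtop j (by omega) (by omega), map_zero, zero_mul]

private theorem cgb_arith {r m n M g N : ℕ} (hrm : m ≤ r) (hM : N = M + 1) (hn : N ≤ n)
    (l : ℕ) (h5 : (r + 1) + M * (r - m + 1) ≤ l) (h6 : (l : ℤ) = r * N + 1 - g) : g ≤ m * n := by
  have h7 : ((r : ℤ) + 1) + M * (r - m + 1) ≤ r * N + 1 - g := by
    rw [← h6]
    have : (((r + 1) + M * (r - m + 1) : ℕ) : ℤ) = ((r : ℤ) + 1) + M * (r - m + 1) := by
      push_cast [Nat.cast_sub hrm]
      ring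
    rw [← this]
    exact_mod_cast h5
  have h8 : (g : ℤ) ≤ M * (m - 1) := by
    rw [hM] at h7
    push_cast at h7
    linarith [h7]
  have h9 : (M : ℤ) ≤ n := by
    have : M ≤ n := by omega
    exact_mod_cast this
  have h10 : (g : ℤ) ≤ m * n := by
    have h11 : (M : ℤ) * m ≤ n * m := mul_le_mul_of_nonneg_right h9 (by positivity)
    have h12 : (0 : ℤ) ≤ M := by positivity
    linarith
  exact_mod_cast h10

/-- bound of the genus by the bidegree of a plane model. -/
theorem gen_le {x y : F} (hx : ∀ a : k, x ≠ algebraMap k F a)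
    (htop : IntermediateField.adjoin k {x, y} = ⊤) {m n : ℕ} {a : ℕ → ℕ → k}
    (hne : ∃ i ∈ Finset.range (m + 1), ∃ j ∈ Finset.range (n + 1), a i j ≠ 0)
    (h0 : ∑ i ∈ Finset.range (m + 1), ∑ j ∈ Finset.range (n + 1),
      algebraMap k F (a i j) * x ^ i * y ^ j = 0) : gen k F ≤ m * n := by
  obtain ⟨hxt, hfin⟩ := finite_of_notMem hx
  obtain ⟨p, d, hpdeg, hdn, hd0, hsumd⟩ := cgb_top hne h0
  have hN1 : 1 ≤ Module.finrank k⟮x⟯ F := Module.finrank_pos
  have hKtop : k⟮x⟯⟮y⟯ = ⊤ := by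
    have h1 : (k⟮x⟯⟮y⟯).restrictScalars k = ⊤ := by
      rw [adjoin_simple_adjoin_simple]
      exact htop
    exact IntermediateField.restrictScalars_eq_top_iff.1 h1
  have hmin : (minpoly k⟮x⟯ y).natDegree = Module.finrank k⟮x⟯ F :=
    (Field.primitive_element_iff_minpoly_natDegree_eq k⟮x⟯ y).1 hKtop
  have hqval : ∀ φ : k[X], algebraMap k⟮x⟯ F (aeval (AdjoinSimple.gen k x) φ) = aeval x φ := by
    intro φ
    have h1 := aeval_algebraMap_apply F (AdjoinSimple.gen k x) φ
    rw [← h1, AdjoinSimple.algebraMap_gen]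
  have hqd : aeval (AdjoinSimple.gen k x) (p d) ≠ 0 := by
    intro h
    have h1 := hqval (p d)
    rw [h, map_zero] at h1
    exact hd0 ((transcendental_iff.1 hxt) _ h1.symm)
  have hNd : Module.finrank k⟮x⟯ F ≤ d := by
    rw [← hmin]
    refine cgb_deg (q := fun j => aeval (AdjoinSimple.gen k x) (p j)) hqd ?_
    simp only [hqval]
    exact hsumd
  obtain ⟨M, hM⟩ : ∃ M, Module.finrank k⟮x⟯ F = M + 1 :=
    ⟨Module.finrank k⟮x⟯ F - 1, by omega⟩
  have hmin' : M + 1 ≤ (minpoly k⟮x⟯ y).natDegree := by omega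
  have hind := cgb_omega_indep (L := F) (y := y)
    (q := fun j => aeval (AdjoinSimple.gen k x) (p j)) (M := M) hqd hmin' (by omega)
  simp only [hqval] at hind
  obtain ⟨r₀, hr₀⟩ := exists_l_pol_eq hx
  have hrm : m ≤ max r₀ m := le_max_right _ _
  have h5 := le_finrank_of_indep hxt (m := m) (fun j : Fin M =>
    omega_mem hpdeg hsumd (j := (j : ℕ) + 1) (by have := j.2; omega)) hrm hind
  exact cgb_arith hrm hM (by omega) _ h5 (hr₀ _ (le_max_left _ _))

end

end Vale.Agent.P019P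
end

section

/-!
# Function fields with a given perfect closure
-/

namespace Vale.Agent.P019P

open Vale.Agent.P019

set_option linter.style.haveILetI false
set_option linter.unusedSectionVars false

open Polynomial IntermediateField

/-- finitely generated algebraic extensions are finite. -/
theorem finite_of_ess {K L : Type*} [Field K] [Field L] [Algebra K L] [Algebra.EssFiniteType K L]
    (h : ∀ z : L, IsAlgebraic K z) : FiniteDimensional K L := by
  obtain ⟨s, hs⟩ := IntermediateField.fg_top K L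
  have h1 := IntermediateField.finiteDimensional_adjoin (S := (s : Set L)) (K := K)
    fun x _ => (h x).isIntegral
  rw [hs] at h1
  exact Module.Finite.equiv (IntermediateField.topEquiv (F := K) (E := L)).toLinearEquiv

variable {F : Type*} [Field F] {k : Subfield F}

/-- elements outside the constants are transcendental. -/
theorem transc_of_notMem (hk : IsAlgClosed k) {x : F} (hx : x ∉ k) : ¬ IsAlgebraic k x :=
  fun h => hx (RAC_of_isAlgClosed k hk x h)

theorem Cv.isAlgebraic (h : Cv k) {x : F} (hx : x ∉ k) (z : F) : IsAlgebraic (adj k x) z := by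
  obtain ⟨y, hy, hy'⟩ := h.ex
  have hx' := transc_of_notMem h.ac hx
  have h1 : IsAlgebraic (adj k x) y := exchange hx' (hy' x)
  have h2 : ∀ w ∈ adj k y, IsAlgebraic (adj k x) w := by
    intro w hw
    have h3 : y ∈ rac (adj k x) := mem_rac.2 h1
    have h4 : Vale.Agent.P019.adj k y ≤ rac (adj k x) :=
      Vale.Agent.P019.adj_le ((le_adj k x).trans (le_rac _)) h3
    obtain ⟨n, hn⟩ := mem_adj_iff.1 hw
    exact IsAlgebraic.of_pow (pow_pos (expChar_pos F (ringExpChar F)) n) (mem_rac.1 (h4 hn))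
  have h3 : adj k y ≤ rac (adj k x) := fun w hw => mem_rac.2 (h2 w hw)
  exact isAlgebraic_rac (isAlgebraic_mono h3 (hy' z))

theorem isAlgebraic_coe (F0 : IntermediateField k F) (x z : F0)
    (h : IsAlgebraic (adj k (x : F)) (z : F)) : IsAlgebraic k⟮x⟯ z := by
  have h1 := isAlgebraic_adj.1 h
  let g : F0 →+* F := algebraMap F0 F
  let f0 : k⟮x⟯ →+* F := g.comp (algebraMap k⟮x⟯ F0)
  have hf0 : ∀ w : k⟮x⟯, f0 w ∈ Vale.Agent.P019.adj k (x : F) := by
    intro w
    let E : IntermediateField k F0 :=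
      { (Vale.Agent.P019.adj k (x : F)).comap g with
        algebraMap_mem' := fun a => (Vale.Agent.P019.le_adj k (x : F)) a.2 }
    have hE : k⟮x⟯ ≤ E := by
      rw [IntermediateField.adjoin_simple_le_iff]
      exact Vale.Agent.P019.mem_adj k (x : F)
    exact hE w.2
  let f : k⟮x⟯ →+* Vale.Agent.P019.adj k (x : F) :=
    f0.codRestrict (Vale.Agent.P019.adj k (x : F)) hf0
  refine IsAlgebraic.of_ringHom_of_comp_eq (S := Vale.Agent.P019.adj k (x : F)) (B := F) f g h1
    ?_ g.injective ?_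
  · intro a
    have h2 : Vale.Agent.P019.adj k (x : F) ≤ f0.fieldRange := by
      refine Vale.Agent.P019.adj_le ?_ ?_
      · intro b hb
        exact ⟨algebraMap k k⟮x⟯ ⟨b, hb⟩, rfl⟩
      · exact ⟨AdjoinSimple.gen k x, rfl⟩
    obtain ⟨b, hb⟩ := h2 a.2
    exact ⟨b, Subtype.ext hb⟩
  · rfl

/-- finitely generated subfields containing a nonconstant are function fields. -/
theorem cff_of (h : Cv k) (F0 : IntermediateField k F) (hF : F0.FG) {x : F} (hxF : x ∈ F0)
    (hx : x ∉ k) : CFF k F0 := by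
  haveI : Algebra.EssFiniteType k F0 := IntermediateField.essFiniteType_iff.2 hF
  let x0 : F0 := ⟨x, hxF⟩
  haveI : Algebra.EssFiniteType k⟮x0⟯ F0 := Algebra.EssFiniteType.of_comp k k⟮x0⟯ F0
  refine ⟨h.ac, x0, ?_, ?_⟩
  · intro h1
    apply transc_of_notMem h.ac hx
    exact h1.algebraMap (A := F)
  · exact finite_of_ess fun z => isAlgebraic_coe F0 x0 z (h.isAlgebraic hx _)

/-- existence of function fields with the given perfect closure. -/
theorem exists_model (h : Cv k) : ∃ F0 : IntermediateField k F, F0.FG ∧ CFF k F0 ∧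
    IsPurelyInseparable F0 F := by
  classical
  obtain ⟨S, hS⟩ := h.fg
  obtain ⟨x, hx, -⟩ := h.ex
  let T : Finset F := insert x S
  let F0 : IntermediateField k F := IntermediateField.adjoin k (T : Set F)
  have hFG : F0.FG := ⟨T, rfl⟩
  have hx0 : x ∈ F0 := IntermediateField.subset_adjoin k _ (by simp [T])
  refine ⟨F0, hFG, cff_of h F0 hFG hx0 hx, ?_⟩
  haveI : ExpChar F0 (ringExpChar F) :=
    (algebraMap F0 F).expChar (algebraMap F0 F).injective _
  rw [isPurelyInseparable_iff_pow_mem F0 (ringExpChar F)]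
  intro z
  have h1 : z ∈ pf (k ⊔ Subfield.closure (S : Set F)) := by
    rw [← hS]; trivial
  obtain ⟨n, hn⟩ := mem_pf.1 h1
  have h2 : k ⊔ Subfield.closure (S : Set F) ≤ F0.toSubfield := by
    refine sup_le ?_ (Subfield.closure_le.2 ?_)
    · intro a ha
      exact F0.algebraMap_mem ⟨a, ha⟩
    · intro a ha
      exact IntermediateField.subset_adjoin k _ (by simp [T, Finset.mem_coe.1 ha])
  exact ⟨n, ⟨_, h2 hn⟩, rfl⟩

end Vale.Agent.P019P
end

section

/-!
# Finitely generated models of the perfect field of functions of a curve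
-/

namespace Vale.Agent.P019P

open Vale.Agent.P019

set_option linter.style.haveILetI false
set_option linter.unusedSectionVars false

open Polynomial IntermediateField

/-- `E` is a finitely generated field with perfect closure `F`. -/
structure Mod {F : Type*} [Field F] (k : Subfield F) (E : IntermediateField k F) : Prop where
  fg : E.FG
  pf : ∀ z : F, ∃ n : ℕ, z ^ ringExpChar F ^ n ∈ E

variable {F : Type*} [Field F] [PerfectField F] {k : Subfield F}

theorem Mod.of_pure {E : IntermediateField k F} (hfg : E.FG) [IsPurelyInseparable E F] :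
    Mod k E := by
  refine ⟨hfg, fun z => ?_⟩
  haveI : ExpChar E (ringExpChar F) := (algebraMap E F).expChar (algebraMap E F).injective _
  obtain ⟨n, w, hw⟩ := (isPurelyInseparable_iff_pow_mem E (ringExpChar F)).1
    (inferInstance : IsPurelyInseparable E F) z
  refine ⟨n, ?_⟩
  rw [← hw]
  exact w.2

theorem Cv.exists_mod (h : Cv k) : ∃ E : IntermediateField k F, Mod k E := by
  obtain ⟨E, hfg, _, hpi⟩ := exists_model h
  exact ⟨E, Mod.of_pure hfg⟩

theorem Mod.cff (h : Cv k) {E : IntermediateField k F} (hE : Mod k E) : CFF k E := by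
  obtain ⟨x, hx, _⟩ := h.ex
  obtain ⟨n, hn⟩ := hE.pf x
  refine cff_of h E hE.fg hn fun h1 => hx ?_
  have h2 : IsAlgebraic k (x ^ ringExpChar F ^ n) := isAlgebraic_of_mem h1
  exact RAC_of_isAlgClosed k h.ac x
    (IsAlgebraic.of_pow (pow_pos (expChar_pos F (ringExpChar F)) n) h2)

end Vale.Agent.P019P
end

section

/-!
# Models over which a given element is separating
-/

namespace Vale.Agent.P019P

open Vale.Agent.P019

set_option linter.style.haveILetI false
set_option linter.unusedSectionVars false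

open Polynomial IntermediateField

variable {F : Type*} [Field F] [PerfectField F] {k : Subfield F}

theorem CSep_mem_adj0 {x z : F} : z ∈ Vale.Agent.P019.adj k x ↔ z ∈ k⟮x⟯ := by
  have h1 : Vale.Agent.P019.adj k x = (k⟮x⟯).toSubfield := by
    apply le_antisymm
    · refine Vale.Agent.P019.adj_le ?_ (mem_adjoin_simple_self k x)
      intro a ha
      exact (k⟮x⟯).algebraMap_mem ⟨a, ha⟩
    · rw [adjoin_toSubfield, Subfield.closure_le]
      rintro a (⟨b, rfl⟩ | ha)
      · exact Vale.Agent.P019.le_adj k x b.2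
      · rw [Set.mem_singleton_iff] at ha
        rw [ha]
        exact Vale.Agent.P019.mem_adj k x
  rw [h1]
  exact mem_toSubfield k⟮x⟯ z

theorem CSep_algebraic (h : Cv k) {x : F} (hx : x ∉ k) (z : F) : IsAlgebraic k⟮x⟯ z := by
  obtain ⟨x0, -, hall⟩ := h.ex
  have hRAC : RAC k := RAC_of_isAlgClosed _ h.ac
  have hxa : ¬ IsAlgebraic k x := fun hcon => hx (hRAC x hcon)
  have h1 : IsAlgebraic (adj k x) x0 := exchange hxa (hall x)
  have h2 : adj k x0 ≤ rac (adj k x) :=
    adj_le ((le_adj k x).trans (le_rac _)) (mem_rac.2 h1)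
  have h3 : IsAlgebraic (adj k x) z := isAlgebraic_rac (isAlgebraic_mono h2 (hall z))
  have h4 : IsAlgebraic (Vale.Agent.P019.adj k x) z := isAlgebraic_adj.1 h3
  obtain ⟨Q, hQ0, hQ⟩ := h4
  let φ : Vale.Agent.P019.adj k x →+* k⟮x⟯ :=
    { toFun := fun a => ⟨a.1, CSep_mem_adj0.1 a.2⟩
      map_one' := rfl
      map_mul' := fun _ _ => rfl
      map_zero' := rfl
      map_add' := fun _ _ => rfl }
  refine ⟨Q.map φ, ?_, ?_⟩
  · rw [Ne, Polynomial.map_eq_zero_iff φ.injective]
    exact hQ0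
  · rw [aeval_def, eval₂_map]
    exact hQ

/-- transport from `k(x)` inside `F` to `k(x)` inside the model. -/
theorem CSep_transport {x : F} (E' : IntermediateField k⟮x⟯ F) [Algebra.IsSeparable k⟮x⟯ E']
    (hxE : x ∈ E'.restrictScalars k) :
    Algebra.IsSeparable k⟮(⟨x, hxE⟩ : E'.restrictScalars k)⟯ (E'.restrictScalars k) ∧
      Module.finrank k⟮x⟯ E' =
        Module.finrank k⟮(⟨x, hxE⟩ : E'.restrictScalars k)⟯ (E'.restrictScalars k) := by
  have hmem : ∀ a : E'.restrictScalars k,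
      a ∈ k⟮(⟨x, hxE⟩ : E'.restrictScalars k)⟯ ↔ a.1 ∈ k⟮x⟯ := by
    intro a
    rw [← mem_lift, lift_adjoin_simple]
  let i : k⟮x⟯ ≃+* k⟮(⟨x, hxE⟩ : E'.restrictScalars k)⟯ :=
    { toFun := fun a => ⟨⟨a.1, E'.algebraMap_mem a⟩, (hmem _).2 a.2⟩
      invFun := fun b => ⟨b.1.1, (hmem _).1 b.2⟩
      left_inv := fun _ => rfl
      right_inv := fun _ => rfl
      map_mul' := fun _ _ => rfl
      map_add' := fun _ _ => rfl }
  let j : E' ≃+* E'.restrictScalars k :=
    { toFun := fun a => ⟨a.1, a.2⟩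
      invFun := fun a => ⟨a.1, a.2⟩
      left_inv := fun _ => rfl
      right_inv := fun _ => rfl
      map_mul' := fun _ _ => rfl
      map_add' := fun _ _ => rfl }
  constructor
  · exact Algebra.IsSeparable.of_equiv_equiv i j (RingHom.ext fun _ => rfl)
  · exact Algebra.finrank_eq_of_equiv_equiv i j (RingHom.ext fun _ => rfl)

theorem CSep_deg (K0 K1 E L : Type*) [Field K0] [Field K1] [Field E] [Field L] [Algebra K0 K1]
    [Algebra K0 E] [Algebra K0 L] [Algebra K1 L] [Algebra E L] [IsScalarTower K0 K1 L]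
    [IsScalarTower K0 E L] [Algebra.IsAlgebraic K1 L] [Algebra.IsAlgebraic E L]
    [IsPurelyInseparable K0 K1] [Algebra.IsSeparable K1 L] [Algebra.IsSeparable K0 E]
    [IsPurelyInseparable E L] : Module.finrank K1 L = Module.finrank K0 E := by
  have h2 := Field.finSepDegree_mul_finSepDegree_of_isAlgebraic K0 K1 L
  rw [IsPurelyInseparable.finSepDegree_eq_one, one_mul,
    Field.finSepDegree_eq_finrank_of_isSeparable] at h2
  have h3 := Field.finSepDegree_mul_finSepDegree_of_isAlgebraic K0 E L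
  rw [IsPurelyInseparable.finSepDegree_eq_one E L, mul_one,
    Field.finSepDegree_eq_finrank_of_isSeparable] at h3
  rw [h2, h3]

theorem CSep_pc (K0 L : Type*) [Field K0] [Field L] [Algebra K0 L] [PerfectField L]
    [Algebra.IsAlgebraic K0 L] (E : IntermediateField K0 L) [Algebra.IsSeparable K0 E]
    [IsPurelyInseparable E L] :
    Module.finrank (perfectClosure K0 L) L = Module.finrank K0 E := by
  haveI : Algebra.IsAlgebraic (perfectClosure K0 L) L :=
    Algebra.IsAlgebraic.tower_top (K := K0) _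
  haveI : Algebra.IsAlgebraic E L := Algebra.IsAlgebraic.tower_top (K := K0) _
  exact CSep_deg K0 (perfectClosure K0 L) E L

theorem CSep_congr {A : Subfield F} {K0 : Type*} [Field K0] [Algebra K0 F]
    (B : IntermediateField K0 F) (h : ∀ z, z ∈ A ↔ z ∈ B) :
    Module.finrank A F = Module.finrank B F := by
  let i : A ≃+* B :=
    { toFun := fun a => ⟨a.1, (h _).1 a.2⟩
      invFun := fun a => ⟨a.1, (h _).2 a.2⟩
      left_inv := fun _ => rfl
      right_inv := fun _ => rfl
      map_mul' := fun _ _ => rfl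
      map_add' := fun _ _ => rfl }
  exact Algebra.finrank_eq_of_equiv_equiv i (RingEquiv.refl F) (RingHom.ext fun _ => rfl)

theorem CSep_mem {x : F} (z : F) : z ∈ adj k x ↔ z ∈ perfectClosure k⟮x⟯ F := by
  haveI e0 : ExpChar k⟮x⟯ (ringExpChar F) :=
    (algebraMap k⟮x⟯ F).expChar (algebraMap k⟮x⟯ F).injective _
  rw [mem_adj_iff, mem_perfectClosure_iff_pow_mem (ringExpChar F)]
  refine exists_congr fun n => ?_
  rw [CSep_mem_adj0]
  exact ⟨fun hz => ⟨⟨_, hz⟩, rfl⟩, fun ⟨a, ha⟩ => ha ▸ a.2⟩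

theorem CSep_adj {x : F} :
    Module.finrank (adj k x) F = Module.finrank (perfectClosure k⟮x⟯ F) F :=
  CSep_congr (A := adj k x) _ CSep_mem

theorem CSep_finrank (h : Cv k) {x : F} (hx : x ∉ k) (E' : IntermediateField k⟮x⟯ F)
    [Algebra.IsSeparable k⟮x⟯ E'] (hpi : ∀ z : F, ∃ n : ℕ, z ^ ringExpChar F ^ n ∈ E') :
    Module.finrank (adj k x) F = Module.finrank k⟮x⟯ E' := by
  haveI : Algebra.IsAlgebraic k⟮x⟯ F := ⟨CSep_algebraic h hx⟩
  haveI e1 : ExpChar E' (ringExpChar F) :=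
    (algebraMap E' F).expChar (algebraMap E' F).injective _
  haveI : IsPurelyInseparable E' F := by
    rw [isPurelyInseparable_iff_pow_mem E' (ringExpChar F)]
    intro z
    obtain ⟨n, hn⟩ := hpi z
    exact ⟨n, ⟨_, hn⟩, rfl⟩
  rw [CSep_adj]
  exact CSep_pc k⟮x⟯ F E'

theorem CSep_aux (h : Cv k) {x : F} (hx : x ∉ k) :
    ∃ (E : IntermediateField k F) (hxE : x ∈ E), Mod k E ∧
      Algebra.IsSeparable k⟮(⟨x, hxE⟩ : E)⟯ E ∧
      Module.finrank (adj k x) F = Module.finrank k⟮(⟨x, hxE⟩ : E)⟯ E ∧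
      0 < Module.finrank (adj k x) F := by
  classical
  haveI : Algebra.IsAlgebraic k⟮x⟯ F := ⟨CSep_algebraic h hx⟩
  haveI e0 : ExpChar k⟮x⟯ (ringExpChar F) :=
    (algebraMap k⟮x⟯ F).expChar (algebraMap k⟮x⟯ F).injective _
  haveI e2 : ExpChar (separableClosure k⟮x⟯ F) (ringExpChar F) :=
    (algebraMap (separableClosure k⟮x⟯ F) F).expChar
      (algebraMap (separableClosure k⟮x⟯ F) F).injective _
  obtain ⟨E0, hE0⟩ := h.exists_mod
  obtain ⟨S, hS⟩ := hE0.fg
  have hsep : ∀ s : F, ∃ n : ℕ, s ^ ringExpChar F ^ n ∈ separableClosure k⟮x⟯ F := by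
    intro s
    obtain ⟨n, a, ha⟩ := IsPurelyInseparable.pow_mem (separableClosure k⟮x⟯ F) (ringExpChar F) s
    exact ⟨n, ha ▸ a.2⟩
  choose f hf using hsep
  set n := S.sup f with hn
  have hfn : ∀ s ∈ S, s ^ ringExpChar F ^ n ∈ separableClosure k⟮x⟯ F := by
    intro s hs
    obtain ⟨m, hm⟩ := Nat.exists_eq_add_of_le (Finset.le_sup (f := f) hs)
    rw [← hn] at hm
    rw [hm, pow_add, pow_mul]
    exact pow_mem (hf s) _
  set T : Finset F := S.image fun s => s ^ ringExpChar F ^ n with hT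
  set E' : IntermediateField k⟮x⟯ F := adjoin k⟮x⟯ (T : Set F) with hE'
  have hTsep : ∀ t ∈ (T : Set F), IsSeparable k⟮x⟯ t := by
    intro t ht
    obtain ⟨s, hs, rfl⟩ := Finset.mem_image.1 (Finset.mem_coe.1 ht)
    exact mem_separableClosure_iff.1 (hfn s hs)
  haveI : Algebra.IsSeparable k⟮x⟯ E' := (isSeparable_adjoin_iff_isSeparable _ _).2 hTsep
  have hxE : x ∈ E'.restrictScalars k :=
    E'.algebraMap_mem ⟨x, mem_adjoin_simple_self k x⟩
  have hpi : ∀ z : F, ∃ m : ℕ, z ^ ringExpChar F ^ m ∈ E' := by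
    intro z
    obtain ⟨m, hm⟩ := hE0.pf z
    refine ⟨m + n, ?_⟩
    rw [pow_add, pow_mul]
    have hG : E0.toSubfield ≤ (E'.toSubfield).comap (iterateFrobenius F (ringExpChar F) n) := by
      rw [← hS, adjoin_toSubfield, Subfield.closure_le]
      rintro a (⟨b, rfl⟩ | ha)
      · change iterateFrobenius F (ringExpChar F) n (algebraMap k F b) ∈ E'
        rw [iterateFrobenius_def, ← map_pow]
        exact (E'.restrictScalars k).algebraMap_mem _
      · change iterateFrobenius F (ringExpChar F) n a ∈ E'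
        rw [iterateFrobenius_def]
        exact subset_adjoin _ _ (Finset.mem_coe.2 (Finset.mem_image_of_mem _ ha))
    have h1 := hG (show z ^ ringExpChar F ^ m ∈ E0.toSubfield from hm)
    change iterateFrobenius F (ringExpChar F) n (z ^ ringExpChar F ^ m) ∈ E' at h1
    rwa [iterateFrobenius_def] at h1
  have hfin : FiniteDimensional k⟮x⟯ E' :=
    finiteDimensional_adjoin fun t ht => (hTsep t ht).isIntegral
  obtain ⟨h1, h2⟩ := CSep_transport E' hxE
  have h3 := CSep_finrank h hx E' hpi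
  refine ⟨E'.restrictScalars k, hxE, ⟨?_, hpi⟩, h1, h3.trans h2, ?_⟩
  · rw [hE', adjoin_adjoin_left]
    refine ⟨insert x T, ?_⟩
    rw [Finset.coe_insert, Set.insert_eq]
  · rw [h3]
    exact Module.finrank_pos

theorem Cv.exists_sepMod (h : Cv k) {x : F} (hx : x ∉ k) :
    ∃ (E : IntermediateField k F) (hxE : x ∈ E), Mod k E ∧
      Algebra.IsSeparable k⟮(⟨x, hxE⟩ : E)⟯ E ∧
      Module.finrank (adj k x) F = Module.finrank k⟮(⟨x, hxE⟩ : E)⟯ E := by
  obtain ⟨E, hxE, h1, h2, h3, _⟩ := CSep_aux h hx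
  exact ⟨E, hxE, h1, h2, h3⟩

/-- finiteness of `F` over `k(x)`. -/
theorem Cv.finite (h : Cv k) {x : F} (hx : x ∉ k) : Module.Finite (adj k x) F := by
  obtain ⟨_, _, _, _, _, h4⟩ := CSep_aux h hx
  exact Module.finite_of_finrank_pos h4

end Vale.Agent.P019P
end

section

/-!
# The places of the perfect field and those of a model
-/

namespace Vale.Agent.P019P

open Vale.Agent.P019

set_option linter.style.haveILetI false
set_option linter.unusedSectionVars false

open Polynomial IntermediateField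

variable {F : Type*} [Field F] [PerfectField F] {k : Subfield F}

private theorem vs_of_pow {K : Type*} [Field K] (O : ValuationSubring K) {z : K} {m : ℕ}
    (hm : m ≠ 0) (h : z ^ m ∈ O) : z ∈ O := by
  rw [← O.valuation_le_one_iff] at h ⊢
  rw [map_pow] at h
  by_contra hcon
  push Not at hcon
  exact absurd h (not_le.2 (one_lt_pow₀ hcon hm))

private theorem CPlc_qpos (F : Type*) [Field F] (n : ℕ) : ringExpChar F ^ n ≠ 0 :=
  (pow_pos (expChar_pos F _) n).ne'

/-- the valuation ring of the perfect field above a valuation ring of a model. -/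
private noncomputable def CPlc_up {E : IntermediateField k F} (hE : Mod k E)
    (A : ValuationSubring E) : ValuationSubring F where
  carrier := {z | ∃ (n : ℕ) (e : E), (e : F) = z ^ ringExpChar F ^ n ∧ e ∈ A}
  zero_mem' := ⟨0, 0, by simp, A.zero_mem⟩
  one_mem' := ⟨0, 1, by simp, A.one_mem⟩
  add_mem' := by
    rintro z w ⟨n, e, he, hA⟩ ⟨m, e', he', hA'⟩
    refine ⟨n + m, e ^ ringExpChar F ^ m + e' ^ ringExpChar F ^ n, ?_,
      A.add_mem _ _ (pow_mem hA _) (pow_mem hA' _)⟩
    rw [add_pow_expChar_pow]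
    push_cast
    rw [he, he', ← pow_mul, ← pow_mul, ← pow_add, ← pow_add, Nat.add_comm m n]
  mul_mem' := by
    rintro z w ⟨n, e, he, hA⟩ ⟨m, e', he', hA'⟩
    refine ⟨n + m, e ^ ringExpChar F ^ m * e' ^ ringExpChar F ^ n, ?_,
      A.mul_mem _ _ (pow_mem hA _) (pow_mem hA' _)⟩
    rw [mul_pow]
    push_cast
    rw [he, he', ← pow_mul, ← pow_mul, ← pow_add, ← pow_add, Nat.add_comm m n]
  neg_mem' := by
    rintro z ⟨n, e, he, hA⟩
    rcases Nat.even_or_odd (ringExpChar F ^ n) with h | h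
    · exact ⟨n, e, by rw [he, h.neg_pow], hA⟩
    · exact ⟨n, -e, by push_cast; rw [he, h.neg_pow], A.neg_mem _ hA⟩
  mem_or_inv_mem' := by
    intro z
    obtain ⟨n, hn⟩ := hE.pf z
    rcases A.mem_or_inv_mem (⟨_, hn⟩ : E) with h | h
    · exact Or.inl ⟨n, _, rfl, h⟩
    · refine Or.inr ⟨n, _, ?_, h⟩
      rw [inv_pow]
      rfl

private theorem CPlc_coe_mem_up {E : IntermediateField k F} {hE : Mod k E}
    {A : ValuationSubring E} {z : E} : (z : F) ∈ CPlc_up hE A ↔ z ∈ A := by
  constructor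
  · rintro ⟨n, e, he, hA⟩
    have h1 : e = z ^ ringExpChar F ^ n := Subtype.ext (by rw [he]; rfl)
    rw [h1] at hA
    exact vs_of_pow A (CPlc_qpos F n) hA
  · intro h
    exact ⟨0, z, by simp, h⟩

/-- the places of the perfect field correspond to the places of a model. -/
theorem Mod.exists_plc (h : Cv k) {E : IntermediateField k F} (hE : Mod k E) :
    ∃ φ : Plk k E ≃ {O : ValuationSubring F // O ∈ Plc k},
      ∀ (P : Plk k E) (z : E), z ∈ P.1 ↔ (z : F) ∈ (φ P).1 := by
  refine ⟨{ toFun := fun P => ⟨CPlc_up hE P.1, ?_, ?_⟩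
            invFun := fun O => ⟨O.1.comap (algebraMap E F), ?_, ?_⟩
            left_inv := ?_
            right_inv := ?_ }, fun P z => (CPlc_coe_mem_up (hE := hE) (A := P.1) (z := z)).symm⟩
  · intro c hc
    have h1 : ((algebraMap k E ⟨c, hc⟩ : E) : F) ∈ CPlc_up hE P.1 :=
      CPlc_coe_mem_up.2 (P.2.1 ⟨c, hc⟩)
    exact h1
  · intro htop
    apply P.2.2
    rw [eq_top_iff]
    intro z _
    have h1 : (z : F) ∈ CPlc_up hE P.1 := by rw [htop]; trivial
    exact CPlc_coe_mem_up.1 h1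
  · intro a
    exact O.2.1 (a : F) a.2
  · intro htop
    apply O.2.2
    rw [eq_top_iff]
    intro z _
    obtain ⟨n, hn⟩ := hE.pf z
    have h1 : (⟨_, hn⟩ : E) ∈ O.1.comap (algebraMap E F) := by rw [htop]; trivial
    exact vs_of_pow O.1 (CPlc_qpos F n) h1
  · intro P
    apply Subtype.ext
    ext z
    exact CPlc_coe_mem_up (hE := hE)
  · intro O
    apply Subtype.ext
    ext z
    constructor
    · rintro ⟨n, e, he, hA⟩
      have h1 : (e : F) ∈ O.1 := hA
      rw [he] at h1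
      exact vs_of_pow O.1 (CPlc_qpos F n) h1
    · intro hz
      obtain ⟨n, hn⟩ := hE.pf z
      refine ⟨n, ⟨_, hn⟩, rfl, ?_⟩
      exact pow_mem hz (ringExpChar F ^ n)

variable {ℓ : ℕ} [Fact ℓ.Prime] [NeZero (ℓ : F)]

theorem Mod.val_lt_one_iff {E : IntermediateField k F} [CFF k E] {P : Plk k E}
    {O : ValuationSubring F} (hO : ∀ z : E, z ∈ P.1 ↔ (z : F) ∈ O) (z : E) :
    O.valuation (z : F) < 1 ↔ z = 0 ∨ 0 < ord P z := by
  by_cases hz : z = 0
  · subst hz
    simp
  have hz' : (z : F) ≠ 0 := by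
    intro h
    exact hz (Subtype.ext h)
  have hv : O.valuation (z : F) ≠ 0 := (Valuation.ne_zero_iff _).2 hz'
  have h3 : 1 ≤ O.valuation (z : F) ↔ O.valuation ((z⁻¹ : E) : F) ≤ 1 := by
    rw [show ((z⁻¹ : E) : F) = (z : F)⁻¹ from rfl, map_inv₀,
      inv_le_one₀ (zero_lt_iff.2 hv)]
  rw [← not_le, h3, O.valuation_le_one_iff, ← hO, mem_iff_ord, ord_inv]
  simp [hz]

end Vale.Agent.P019P
end

section

/-!
# Purely inseparable extensions of degree `p` of function fields
-/

namespace Vale.Agent.P019P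

set_option linter.style.haveILetI false
set_option linter.unusedSectionVars false

open Polynomial IntermediateField

/-- a subfield over which the field is purely inseparable of degree `p` consists of the
`p`-th powers. -/
theorem frob_step {k E : Type*} [Field k] [Field E] [Algebra k E] [CFF k E] {p : ℕ}
    [Fact p.Prime] [CharP E p] (S : Subfield E) (hS : ∀ a : k, algebraMap k E a ∈ S) {z : E}
    (hz : z ∉ S) (hzp : z ^ p ∈ S) (htop : S ⊔ Subfield.closure {z} = ⊤) (a : E) :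
    a ∈ S ↔ ∃ b : E, b ^ p = a := by
  have hp : p.Prime := Fact.out
  -- the subfield of `p`-th powers
  obtain ⟨P, hP⟩ : ∃ P : Subfield E, P = (frobenius E p).fieldRange := ⟨_, rfl⟩
  have hPm : ∀ x : E, x ∈ P ↔ ∃ b : E, b ^ p = x := by
    intro x
    rw [hP, RingHom.mem_fieldRange]
    rfl
  have hPS : P ≤ S := by
    have h1 : S ⊔ Subfield.closure {z} ≤ S.comap (frobenius E p) := by
      refine sup_le (fun x hx => ?_) ?_
      · rw [Subfield.mem_comap, frobenius_def]
        exact pow_mem hx p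
      · rw [Subfield.closure_le, Set.singleton_subset_iff]
        simpa [frobenius_def] using hzp
    intro x hx
    obtain ⟨b, rfl⟩ := (hPm x).1 hx
    have h2 : b ∈ S.comap (frobenius E p) := h1 (by rw [htop]; exact Subfield.mem_top b)
    simpa [frobenius_def] using h2
  haveI hac : IsAlgClosed k := CFF.ac E
  have hkP : ∀ c : k, algebraMap k E c ∈ P := by
    intro c
    obtain ⟨d, hd⟩ := IsAlgClosed.exists_pow_nat_eq c hp.pos
    exact (hPm _).2 ⟨algebraMap k E d, by rw [← map_pow, hd]⟩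
  obtain ⟨t, ht, hfin, hsep⟩ := exists_sep k E
  -- `P (t) = E`
  let A : IntermediateField P E := P⟮t⟯
  have hA : A = ⊤ := by
    have hkA : ∀ c : k⟮t⟯, algebraMap k⟮t⟯ E c ∈ A.toSubfield := by
      intro c
      have h1 : k⟮t⟯.toSubfield ≤ A.toSubfield := by
        rw [IntermediateField.adjoin_toSubfield, Subfield.closure_le]
        rintro x (⟨c, rfl⟩ | hx)
        · exact A.algebraMap_mem ⟨algebraMap k E c, hkP c⟩
        · rw [Set.mem_singleton_iff.1 hx]
          exact mem_adjoin_simple_self P t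
      exact h1 c.2
    let B : IntermediateField k⟮t⟯ E :=
      { A.toSubfield with algebraMap_mem' := hkA }
    haveI : Algebra.IsSeparable B E := Algebra.isSeparable_tower_top_of_isSeparable k⟮t⟯ B E
    haveI : CharP B p := inferInstance
    haveI : IsPurelyInseparable B E := by
      rw [isPurelyInseparable_iff_pow_mem B p]
      intro x
      refine ⟨1, ⟨⟨x ^ p ^ 1, ?_⟩, rfl⟩⟩
      show x ^ p ^ 1 ∈ A
      rw [pow_one]
      exact A.algebraMap_mem ⟨x ^ p, (hPm _).2 ⟨x, rfl⟩⟩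
    rw [eq_top_iff]
    intro x _
    obtain ⟨y, hy⟩ := IsPurelyInseparable.surjective_algebraMap_of_isSeparable B E x
    have := y.2
    rw [← hy]
    exact this
  have htP : t ∉ P := by
    intro h
    have h1 : A = ⊥ := by
      rw [eq_bot_iff]
      exact adjoin_simple_le_iff.2 (IntermediateField.mem_bot.2 ⟨⟨t, h⟩, rfl⟩)
    apply hz
    apply hPS
    have h2 : z ∈ (⊥ : IntermediateField P E) := by rw [← h1, hA]; trivial
    obtain ⟨y, hy⟩ := IntermediateField.mem_bot.1 h2
    rw [← hy]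
    exact y.2
  have hfr : Module.finrank P E = p := by
    have hirr : Irreducible (X ^ p - C (⟨t ^ p, (hPm _).2 ⟨t, rfl⟩⟩ : P)) := by
      refine X_pow_sub_C_irreducible_of_prime hp fun b hb => htP ?_
      have h1 : (b : E) ^ p = t ^ p := congrArg (fun x : P => (x : E)) hb
      have h2 : (b : E) = t := frobenius_inj E p h1
      rw [← h2]
      exact b.2
    have hmin : minpoly P t = X ^ p - C (⟨t ^ p, (hPm _).2 ⟨t, rfl⟩⟩ : P) := by
      symm
      refine minpoly.eq_of_irreducible_of_monic hirr ?_ (monic_X_pow_sub_C _ hp.ne_zero)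
      simp only [map_sub, map_pow, aeval_X, aeval_C]
      exact sub_self _
    have hint : IsIntegral P t := by
      by_contra h
      have := minpoly.eq_zero h
      rw [hmin] at this
      exact X_pow_sub_C_ne_zero hp.pos _ this
    have h3 := IntermediateField.adjoin.finrank hint
    rw [hmin, natDegree_X_pow_sub_C] at h3
    have h4 : Module.finrank P A = p := h3
    rw [hA, IntermediateField.finrank_top'] at h4
    exact h4
  -- the intermediate field `S`
  let S' : IntermediateField P E :=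
    { S with algebraMap_mem' := fun x => hPS x.2 }
  have hmul := Module.finrank_mul_finrank P S' E
  rw [hfr] at hmul
  have hdvd : Module.finrank P S' ∣ p := ⟨_, hmul.symm⟩
  rcases (Nat.dvd_prime hp).1 hdvd with h1 | h1
  · constructor
    · intro ha
      have h2 : S' = ⊥ := IntermediateField.finrank_eq_one_iff.1 h1
      have h3 : a ∈ S' := ha
      rw [h2] at h3
      obtain ⟨y, hy⟩ := IntermediateField.mem_bot.1 h3
      exact (hPm a).1 (by rw [← hy]; exact y.2)
    · rintro hb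
      exact hPS ((hPm a).2 hb)
  · exfalso
    rw [h1] at hmul
    have h2 : Module.finrank S' E = 1 := by
      have := Nat.eq_of_mul_eq_mul_left hp.pos (hmul.trans (mul_one p).symm)
      exact this
    have h3 : S' = ⊤ := by
      have h4 : Module.finrank P S' = Module.finrank P E := by rw [h1, hfr]
      haveI : FiniteDimensional P E := Module.finite_of_finrank_pos (by rw [hfr]; exact hp.pos)
      exact IntermediateField.eq_of_le_of_finrank_eq le_top
        (by rw [h4, IntermediateField.finrank_top'])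
    apply hz
    have h5 : z ∈ S' := by rw [h3]; trivial
    exact h5

end Vale.Agent.P019P
end

section

/-!
# The genus of the function fields with a given perfect closure
-/

namespace Vale.Agent.P019P

open Vale.Agent.P019

set_option linter.style.haveILetI false
set_option linter.unusedSectionVars false

open Polynomial IntermediateField

variable {F : Type*} [Field F] {k : Subfield F}

theorem fg_of_cff (E : IntermediateField k F) [CFF k E] : E.FG := by
  obtain ⟨x, _, hfin⟩ := CFF.ex (k := k) (F := E)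
  haveI : Algebra.EssFiniteType k k⟮x⟯ :=
    IntermediateField.essFiniteType_iff.2 ⟨{x}, by rw [Finset.coe_singleton]⟩
  haveI : Algebra.EssFiniteType k⟮x⟯ E := inferInstance
  haveI : Algebra.EssFiniteType k E := Algebra.EssFiniteType.comp k k⟮x⟯ E
  exact IntermediateField.essFiniteType_iff.1 inferInstance

theorem exists_nonconst (E : IntermediateField k F) [CFF k E] : ∃ x ∈ E, x ∉ k := by
  obtain ⟨x, hx, _⟩ := CFF.ex (k := k) (F := E)
  refine ⟨x, x.2, fun h => hx ?_⟩
  have h1 : x = algebraMap k E ⟨x, h⟩ := Subtype.ext rfl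
  rw [h1]
  exact isAlgebraic_algebraMap _

theorem cff_le (h : Cv k) {E E' : IntermediateField k F} [CFF k E] (hE : E ≤ E') (hE' : E'.FG) :
    CFF k E' := by
  obtain ⟨x, hx, hxk⟩ := exists_nonconst E
  exact cff_of h E' hE' (hE hx) hxk

/-- one step. -/
theorem gen_step {E E' : IntermediateField k F} [CFF k E] [CFF k E'] {z : F}
    (hz : z ^ ringExpChar F ∈ E) (hE : E' = E ⊔ k⟮z⟯) : gen k E' = gen k E := by
  by_cases hzE : z ∈ E
  · have h1 : E' = E := by
      rw [hE, sup_eq_left, IntermediateField.adjoin_simple_le_iff]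
      exact hzE
    subst h1
    rfl
  have hle : E ≤ E' := hE ▸ le_sup_left
  have hzE' : z ∈ E' := by
    rw [hE]
    exact (le_sup_right : k⟮z⟯ ≤ E ⊔ k⟮z⟯) (IntermediateField.mem_adjoin_simple_self k z)
  have hq : ringExpChar F ≠ 1 := by
    intro h1
    rw [h1, pow_one] at hz
    exact hzE hz
  obtain ⟨p, hp⟩ := CharP.exists F
  have hpq : ringExpChar F = p ∧ p.Prime := by
    have h1 : ringExpChar F = max p 1 := by rw [ringExpChar, ringChar.eq F p]
    rcases CharP.char_is_prime_or_zero F p with h2 | h2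
    · exact ⟨by rw [h1]; exact max_eq_left h2.one_lt.le, h2⟩
    · subst h2
      exact absurd (by rw [h1]; simp) hq
  rw [hpq.1] at hz
  haveI : Fact p.Prime := ⟨hpq.2⟩
  haveI : CharP E' p := (algebraMap E' F).charP (algebraMap E' F).injective p
  haveI : CharP k p := (algebraMap k F).charP (algebraMap k F).injective p
  let S : Subfield E' := E.toSubfield.comap (algebraMap E' F)
  have hS : ∀ a : k, algebraMap k E' a ∈ S := fun a => E.algebraMap_mem a
  have htop : S ⊔ Subfield.closure {(⟨z, hzE'⟩ : E')} = ⊤ := by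
    set T : Subfield E' := S ⊔ Subfield.closure {(⟨z, hzE'⟩ : E')} with hT
    let M : IntermediateField k F :=
      { T.map (algebraMap E' F) with
        algebraMap_mem' := fun a => ⟨algebraMap k E' a, (le_sup_left : S ≤ T) (hS a), rfl⟩ }
    have hM : E' ≤ M := by
      rw [hE]
      refine sup_le ?_ ?_
      · intro w hw
        exact ⟨⟨w, hle hw⟩, (le_sup_left : S ≤ T) hw, rfl⟩
      · rw [IntermediateField.adjoin_simple_le_iff]
        exact ⟨⟨z, hzE'⟩, (le_sup_right : Subfield.closure {(⟨z, hzE'⟩ : E')} ≤ T)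
          (Subfield.subset_closure rfl), rfl⟩
    rw [eq_top_iff]
    rintro w -
    obtain ⟨v, hv, hvw⟩ := hM w.2
    have h1 : v = w := Subtype.ext hvw
    rw [← h1]
    exact hv
  have hstep := frob_step (k := k) (p := p) S hS (z := ⟨z, hzE'⟩) hzE hz htop
  have hpowmem : ∀ b : E', (b : F) ^ p ∈ E := fun b => (hstep (b ^ p)).2 ⟨b, rfl⟩
  let e1 : E' →+* E :=
    ((frobenius F p).comp (algebraMap E' F)).codRestrict E.toSubfield hpowmem
  have he1 : Function.Bijective e1 := by
    refine ⟨e1.injective, ?_⟩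
    intro a
    obtain ⟨b, hb⟩ := (hstep ⟨a, hle a.2⟩).1 a.2
    refine ⟨b, Subtype.ext ?_⟩
    have h2 : (b : F) ^ p = (a : F) := congrArg Subtype.val hb
    exact h2
  haveI : IsAlgClosed k := CFF.ac E
  haveI : PerfectRing k p := PerfectField.toPerfectRing p
  refine gen_eq (RingEquiv.ofBijective e1 he1) (frobeniusEquiv k p) ?_
  intro a
  apply Subtype.ext
  change ((algebraMap k E' a : E') : F) ^ p = ((frobeniusEquiv k p a : k) : F)
  rw [frobeniusEquiv_apply, frobenius_def]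
  rfl

theorem gen_steps (h : Cv k) (n : ℕ) : ∀ {E E' : IntermediateField k F} [CFF k E] [CFF k E']
    {z : F}, z ^ ringExpChar F ^ n ∈ E → E' = E ⊔ k⟮z⟯ → gen k E' = gen k E := by
  induction n with
  | zero =>
    intro E E' _ _ z hz hE
    rw [pow_zero, pow_one] at hz
    have h1 : E' = E := by
      rw [hE, sup_eq_left, IntermediateField.adjoin_simple_le_iff]
      exact hz
    subst h1
    rfl
  | succ n ih =>
    intro E E' _ _ z hz hE
    set w := z ^ ringExpChar F with hw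
    have hwn : w ^ ringExpChar F ^ n ∈ E := by
      rw [hw, ← pow_mul, ← pow_succ']
      exact hz
    have hFG : (E ⊔ k⟮w⟯).FG := fg_sup (fg_of_cff E) ⟨{w}, by rw [Finset.coe_singleton]⟩
    haveI : CFF k (E ⊔ k⟮w⟯ : IntermediateField k F) := cff_le h le_sup_left hFG
    have h1 : gen k (E ⊔ k⟮w⟯ : IntermediateField k F) = gen k E := ih hwn rfl
    rw [← h1]
    refine gen_step (z := z) ?_ ?_
    · exact (le_sup_right : k⟮w⟯ ≤ E ⊔ k⟮w⟯) (IntermediateField.mem_adjoin_simple_self k w)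
    · rw [hE, sup_assoc]
      congr 1
      rw [eq_comm, sup_eq_right, IntermediateField.adjoin_simple_le_iff]
      exact pow_mem (IntermediateField.mem_adjoin_simple_self k z) _

theorem gen_adjoin (h : Cv k) {E : IntermediateField k F} [CFF k E] [IsPurelyInseparable E F]
    (T : Finset F) : ∀ (E' : IntermediateField k F) [CFF k E'],
    E' = E ⊔ IntermediateField.adjoin k (T : Set F) → gen k E' = gen k E := by
  classical
  induction T using Finset.induction_on with
  | empty =>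
    intro E' _ hE
    have h1 : E' = E := by simpa using hE
    subst h1
    rfl
  | insert z T _ ih =>
    intro E' _ hE
    have hFG : (E ⊔ IntermediateField.adjoin k (T : Set F)).FG := fg_sup (fg_of_cff E) ⟨T, rfl⟩
    haveI : CFF k (E ⊔ IntermediateField.adjoin k (T : Set F) : IntermediateField k F) :=
      cff_le h le_sup_left hFG
    rw [← ih _ rfl]
    haveI : ExpChar E (ringExpChar F) := (algebraMap E F).expChar (algebraMap E F).injective _
    obtain ⟨n, w, hw⟩ := (isPurelyInseparable_iff_pow_mem E (ringExpChar F)).1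
      (inferInstance : IsPurelyInseparable E F) z
    refine gen_steps h n (z := z) ?_ ?_
    · rw [← hw]
      exact (le_sup_left : E ≤ _) w.2
    · rw [hE, sup_assoc]
      congr 1
      rw [← IntermediateField.adjoin_union, Finset.coe_insert, Set.union_singleton]

/-- the genus does not depend on the model. -/
theorem gen_model_eq (h : Cv k) (F0 F1 : IntermediateField k F) [CFF k F0] [CFF k F1]
    [IsPurelyInseparable F0 F] [IsPurelyInseparable F1 F] : gen k F0 = gen k F1 := by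
  obtain ⟨T0, hT0⟩ := fg_of_cff F0
  obtain ⟨T1, hT1⟩ := fg_of_cff F1
  have hFG : (F0 ⊔ F1).FG := fg_sup (fg_of_cff F0) (fg_of_cff F1)
  haveI : CFF k (F0 ⊔ F1 : IntermediateField k F) := cff_le h le_sup_left hFG
  have h0 : gen k (F0 ⊔ F1 : IntermediateField k F) = gen k F0 :=
    gen_adjoin h T1 (F0 ⊔ F1) (by rw [hT1])
  have h1 : gen k (F0 ⊔ F1 : IntermediateField k F) = gen k F1 :=
    gen_adjoin h T0 (F0 ⊔ F1) (by rw [hT0, sup_comm])
  rw [← h0, h1]

end Vale.Agent.P019P
end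

section

/-!
# Separable models
-/

namespace Vale.Agent.P019P

open Vale.Agent.P019

set_option linter.style.haveILetI false
set_option linter.unusedSectionVars false

open Polynomial IntermediateField

variable {F : Type*} [Field F] {k : Subfield F}

namespace AuxGSep

theorem adj0_le (x : F) : Vale.Agent.P019.adj k x ≤ (k⟮x⟯).toSubfield := by
  refine Vale.Agent.P019.adj_le ?_ ?_
  · intro b hb
    exact (k⟮x⟯).algebraMap_mem ⟨b, hb⟩
  · exact IntermediateField.mem_adjoin_simple_self k x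

theorem le_adj0 (x : F) : (k⟮x⟯).toSubfield ≤ Vale.Agent.P019.adj k x := by
  let E : IntermediateField k F :=
    { (Vale.Agent.P019.adj k x) with
      algebraMap_mem' := fun a => (Vale.Agent.P019.le_adj k x) a.2 }
  have hE : k⟮x⟯ ≤ E := by
    rw [IntermediateField.adjoin_simple_le_iff]
    exact Vale.Agent.P019.mem_adj k x
  exact hE

theorem alg_K0 (h : Cv k) {x : F} (hx : x ∉ k) (z : F) : IsAlgebraic k⟮x⟯ z := by
  have h1 := isAlgebraic_mono (adj0_le x) (isAlgebraic_adj.1 (h.isAlgebraic hx z))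
  exact h1

/-- the separable closure of `k(x)` is finite over `k(x)`. -/
theorem finite_sep (h : Cv k) {x : F} (hx : x ∉ k) :
    FiniteDimensional k⟮x⟯ (separableClosure k⟮x⟯ F) := by
  obtain ⟨F0, ⟨T, hT⟩, -, h3⟩ := exists_model h
  haveI : ExpChar F0 (ringExpChar F) :=
    (algebraMap F0 F).expChar (algebraMap F0 F).injective _
  haveI : ExpChar k⟮x⟯ (ringExpChar F) :=
    (algebraMap k⟮x⟯ F).expChar (algebraMap k⟮x⟯ F).injective _
  rw [isPurelyInseparable_iff_pow_mem F0 (ringExpChar F)] at h3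
  let G : IntermediateField k⟮x⟯ F := IntermediateField.adjoin k⟮x⟯ (T : Set F)
  haveI : FiniteDimensional k⟮x⟯ G :=
    IntermediateField.finiteDimensional_adjoin fun z _ => (alg_K0 h hx z).isIntegral
  have h4 : F0 ≤ G.restrictScalars k := by
    rw [← hT, IntermediateField.adjoin_le_iff]
    exact IntermediateField.subset_adjoin k⟮x⟯ (T : Set F)
  have h5 : separableClosure k⟮x⟯ F ≤ G := by
    intro z hz
    obtain ⟨n, y, hy⟩ := h3 z
    have h6 := IntermediateField.adjoin_simple_eq_adjoin_pow_expChar_pow_of_isSeparable k⟮x⟯ F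
      (mem_separableClosure_iff.1 hz) (ringExpChar F) n
    have h7 : (k⟮x⟯)⟮z⟯ ≤ G := by
      rw [h6, IntermediateField.adjoin_simple_le_iff, ← hy]
      exact h4 y.2
    exact h7 (IntermediateField.mem_adjoin_simple_self _ z)
  exact Submodule.finiteDimensional_of_le
    (S₁ := Subalgebra.toSubmodule (separableClosure k⟮x⟯ F).toSubalgebra)
    (S₂ := Subalgebra.toSubmodule G.toSubalgebra) h5

/-- a primitive element. -/
theorem exists_prim_sep (h : Cv k) {x : F} (hx : x ∉ k) :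
    ∃ y : F, separableClosure k⟮x⟯ F = (k⟮x⟯)⟮y⟯ := by
  haveI := finite_sep h hx
  obtain ⟨y, hy⟩ := Field.exists_primitive_element k⟮x⟯ (separableClosure k⟮x⟯ F)
  refine ⟨y, ?_⟩
  rw [← IntermediateField.lift_adjoin_simple, hy, IntermediateField.lift_top]

theorem map_gen (F1 : IntermediateField k F) {x : F} (hx1 : x ∈ F1) :
    (k⟮(⟨x, hx1⟩ : F1)⟯).map F1.val = k⟮x⟯ := by
  rw [IntermediateField.adjoin_map]
  simp

noncomputable def eqv (F1 : IntermediateField k F) {x : F} (hx1 : x ∈ F1) :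
    k⟮x⟯ ≃+* k⟮(⟨x, hx1⟩ : F1)⟯ :=
  ((IntermediateField.equivMap (k⟮(⟨x, hx1⟩ : F1)⟯) F1.val).trans
    (IntermediateField.equivOfEq (map_gen F1 hx1))).symm.toRingEquiv

theorem eqv_symm_coe (F1 : IntermediateField k F) {x : F} (hx1 : x ∈ F1)
    (z : k⟮(⟨x, hx1⟩ : F1)⟯) : (((eqv F1 hx1).symm z : k⟮x⟯) : F) = ((z : F1) : F) := rfl

theorem eqv_coe (F1 : IntermediateField k F) {x : F} (hx1 : x ∈ F1) (z : k⟮x⟯) :
    (((eqv F1 hx1 z : k⟮(⟨x, hx1⟩ : F1)⟯) : F1) : F) = z := by
  rw [← eqv_symm_coe F1 hx1, RingEquiv.symm_apply_apply]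

/-- the degree over the perfect closure of `k(x)`. -/
theorem deg_le [PerfectField F] {x y : F} (hal : ∀ z : F, IsAlgebraic k⟮x⟯ z)
    (hy : ∀ z : F, ∃ n : ℕ, z ^ ringExpChar F ^ n ∈ (k⟮x⟯)⟮y⟯) :
    Module.Finite (adj k x) F ∧
      Module.finrank (adj k x) F ≤ Module.finrank k⟮x⟯ (k⟮x⟯)⟮y⟯ := by
  have hle : (k⟮x⟯).toSubfield ≤ adj k x := (le_adj0 x).trans (adj0_le_adj k x)
  have hle' : ∀ z : k⟮x⟯, (z : F) ∈ adj k x := fun z => hle z.2
  letI : Algebra k⟮x⟯ (adj k x) :=
    ((algebraMap k⟮x⟯ F).codRestrict (adj k x) hle').toAlgebra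
  haveI : IsScalarTower k⟮x⟯ (adj k x) F := IsScalarTower.of_algebraMap_eq fun z => rfl
  have hal' : ∀ z : F, IsAlgebraic (adj k x) z := fun z => (hal z).tower_top (adj k x)
  have hG : (adj k x)⟮y⟯ = ⊤ := by
    haveI : Algebra.IsAlgebraic (adj k x) (adj k x)⟮y⟯ :=
      ⟨fun z => isAlgebraic_iff.2 (hal' z)⟩
    haveI : PerfectField (adj k x)⟮y⟯ := Algebra.IsAlgebraic.perfectField (adj k x)
    haveI : PerfectField ((adj k x)⟮y⟯).toSubfield := this
    have h1 : ∀ z ∈ (k⟮x⟯)⟮y⟯, z ∈ (adj k x)⟮y⟯ := by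
      have h2 : (k⟮x⟯)⟮y⟯ ≤ ((adj k x)⟮y⟯).restrictScalars k⟮x⟯ := by
        rw [IntermediateField.adjoin_simple_le_iff]
        exact IntermediateField.mem_adjoin_simple_self (adj k x) y
      exact fun z hz => h2 hz
    refine top_unique fun z _ => ?_
    obtain ⟨n, hn⟩ := hy z
    have h2 : z ^ ringExpChar F ^ n ∈ ((adj k x)⟮y⟯).toSubfield := h1 _ hn
    exact mem_of_pow_q (E := ((adj k x)⟮y⟯).toSubfield) h2
  have hfin : Module.Finite (adj k x) (adj k x)⟮y⟯ :=
    IntermediateField.adjoin.finiteDimensional (hal' y).isIntegral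
  have hdeg := IntermediateField.adjoin.finrank (hal' y).isIntegral
  have hdeg0 := IntermediateField.adjoin.finrank (hal y).isIntegral
  rw [hG] at hfin hdeg
  refine ⟨Module.Finite.equiv
    (IntermediateField.topEquiv (F := adj k x) (E := F)).toLinearEquiv, ?_⟩
  rw [IntermediateField.finrank_top'] at hdeg
  rw [hdeg, hdeg0]
  have h3 := minpoly.dvd_map_of_isScalarTower k⟮x⟯ (adj k x) y
  have h4 := Polynomial.natDegree_le_of_dvd h3
    (Polynomial.map_ne_zero (minpoly.ne_zero (hal y).isIntegral))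
  rwa [Polynomial.natDegree_map] at h4

end AuxGSep

open AuxGSep

/-- a model which is separable over `k(x)`. -/
theorem exists_sep_model [PerfectField F] (h : Cv k) {x : F} (hx : x ∉ k) :
    ∃ (F1 : IntermediateField k F) (hx1 : x ∈ F1), F1.FG ∧ CFF k F1 ∧ IsPurelyInseparable F1 F ∧
      Algebra.IsSeparable k⟮(⟨x, hx1⟩ : F1)⟯ F1 ∧ Module.Finite (adj k x) F ∧
      Module.finrank (adj k x) F ≤ Module.finrank k⟮(⟨x, hx1⟩ : F1)⟯ F1 := by
  let S : IntermediateField k⟮x⟯ F := separableClosure k⟮x⟯ F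
  haveI hS : FiniteDimensional k⟮x⟯ S := finite_sep h hx
  obtain ⟨y, hy⟩ : ∃ y : F, S = (k⟮x⟯)⟮y⟯ := exists_prim_sep h hx
  haveI hal : Algebra.IsAlgebraic k⟮x⟯ F := ⟨alg_K0 h hx⟩
  haveI hins : IsPurelyInseparable S F := separableClosure.isPurelyInseparable _ _
  haveI hsep : Algebra.IsSeparable k⟮x⟯ S := separableClosure.isSeparable _ _
  haveI : ExpChar S (ringExpChar F) :=
    (algebraMap S F).expChar (algebraMap S F).injective _
  let F1 : IntermediateField k F := S.restrictScalars k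
  have hx1 : x ∈ F1 := S.algebraMap_mem ⟨x, IntermediateField.mem_adjoin_simple_self k x⟩
  have hFG : F1.FG := by
    have h1 : F1 = k⟮x, y⟯ := by
      rw [← IntermediateField.adjoin_simple_adjoin_simple, ← hy]
    rw [h1]
    exact IntermediateField.fg_adjoin_of_finite (Set.toFinite _)
  let e₂ : S ≃+* F1 := RingEquiv.refl S
  have hcomp : (algebraMap k⟮(⟨x, hx1⟩ : F1)⟯ F1).comp (eqv F1 hx1).toRingHom =
      e₂.toRingHom.comp (algebraMap k⟮x⟯ S) := by
    ext z
    exact eqv_coe F1 hx1 z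
  have hfr : Module.finrank k⟮x⟯ S = Module.finrank k⟮(⟨x, hx1⟩ : F1)⟯ F1 :=
    Algebra.finrank_eq_of_equiv_equiv (eqv F1 hx1) e₂ hcomp
  have hcomp' : ((algebraMap k⟮(⟨x, hx1⟩ : F1)⟯ F1).comp ↑(eqv F1 hx1)) =
      (↑e₂ : S →+* F1).comp (algebraMap k⟮x⟯ S) := hcomp
  refine ⟨F1, hx1, hFG, cff_of h F1 hFG hx1 hx, hins,
    Algebra.IsSeparable.of_equiv_equiv (eqv F1 hx1) e₂ hcomp', ?_⟩
  rw [← hfr, hy]
  refine deg_le (alg_K0 h hx) fun z => ?_
  obtain ⟨n, w, hw⟩ := (isPurelyInseparable_iff_pow_mem S (ringExpChar F)).1 hins z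
  refine ⟨n, ?_⟩
  rw [← hy, ← hw]
  exact w.2

end Vale.Agent.P019P
end

section

/-!
# The consequence of Riemann-Hurwitz used for residue curves
-/

namespace Vale.Agent.P019P

set_option linter.style.haveILetI false
set_option linter.unusedSectionVars false

open Polynomial IntermediateField

namespace AuxGRH

/-- counting: positive integers, at most `N` of them prime to `ℓ ≥ 2`. -/
theorem two_card_le {α : Type*} (A : Finset α) (f : α → ℤ) (hf : ∀ P ∈ A, 0 < f P) {ℓ : ℕ}
    (hℓ : 2 ≤ ℓ) (N : ℕ) (hN : {P | P ∈ A ∧ ¬ (ℓ : ℤ) ∣ f P}.encard ≤ N) :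
    2 * (A.card : ℤ) ≤ ∑ P ∈ A, f P + N := by
  classical
  have h1 : {P | P ∈ A ∧ ¬ (ℓ : ℤ) ∣ f P} = ((A.filter fun P => ¬ (ℓ : ℤ) ∣ f P : Finset α) : Set α) := by
    ext P
    simp
  rw [h1, Set.encard_coe_eq_coe_finsetCard] at hN
  have h2 : (A.filter fun P => ¬ (ℓ : ℤ) ∣ f P).card ≤ N := by exact_mod_cast hN
  have h3 : ∀ P ∈ A, (2 : ℤ) - (if ¬ (ℓ : ℤ) ∣ f P then 1 else 0) ≤ f P := by
    intro P hP
    have h4 := hf P hP
    split_ifs with h5
    · have h6 : (ℓ : ℤ) ≤ f P := Int.le_of_dvd h4 h5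
      have h7 : (2 : ℤ) ≤ ℓ := by exact_mod_cast hℓ
      omega
    · omega
  have h4 := Finset.sum_le_sum h3
  rw [Finset.sum_sub_distrib, Finset.sum_const, nsmul_eq_mul] at h4
  have h5 : (∑ P ∈ A, (if ¬ (ℓ : ℤ) ∣ f P then (1 : ℤ) else 0)) =
      ((A.filter fun P => ¬ (ℓ : ℤ) ∣ f P).card : ℤ) := by
    rw [Finset.card_filter]
    push_cast
    rfl
  have h6 : ((A.filter fun P => ¬ (ℓ : ℤ) ∣ f P).card : ℤ) ≤ N := by exact_mod_cast h2
  rw [h5] at h4
  linarith

end AuxGRH

/-- five points with at most `N` places of order prime to `ℓ` in each fibre. -/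
theorem rh_five {k F : Type*} [Field k] [Field F] [Algebra k F] [CFF k F] {x : F}
    (hx : ∀ a : k, x ≠ algebraMap k F a) [Algebra.IsSeparable k⟮x⟯ F] {ℓ : ℕ} (hℓ : 2 ≤ ℓ)
    (N : ℕ) (s : Finset k) (hs : s.card = 5)
    (hN : ∀ c ∈ s, {P : Plk k F | 0 < ord P (x - algebraMap k F c) ∧
      ¬ (ℓ : ℤ) ∣ ord P (x - algebraMap k F c)}.encard ≤ N) :
    Module.finrank k⟮x⟯ F ≤ 4 * gen k F + 5 * N := by
  have key := RH hx s
  set n : ℕ := Module.finrank k⟮x⟯ F with hn
  have h1 : ∀ c ∈ s, (n : ℤ) - N ≤ 2 * ((n : ℤ) - (fib_finite hx c).toFinset.card) := by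
    intro c hc
    have h2 := AuxGRH.two_card_le (fib_finite hx c).toFinset
      (fun P => ord P (x - algebraMap k F c))
      (fun P hP => by simpa using hP) hℓ N (by
        refine le_trans (le_of_eq ?_) (hN c hc)
        congr 1
        ext P
        simp)
    rw [fib_sum hx c] at h2
    linarith
  have h2 := Finset.sum_le_sum h1
  rw [Finset.sum_const, hs, nsmul_eq_mul, ← Finset.mul_sum] at h2
  have h3 : (n : ℤ) ≤ 4 * gen k F + 5 * N := by
    push_cast at h2
    linarith
  exact_mod_cast h3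

end Vale.Agent.P019P
end

section

/-!
# Places of a perfect field and of a function field with this perfect closure
-/

namespace Vale.Agent.P019P

open Vale.Agent.P019

set_option linter.style.haveILetI false
set_option linter.unusedSectionVars false

open Polynomial IntermediateField

namespace AuxFPl

theorem mem_of_pow {K : Type*} [Field K] (O : ValuationSubring K) {w : K} {n : ℕ} (hn : n ≠ 0)
    (h : w ^ n ∈ O) : w ∈ O := by
  rw [← O.valuation_le_one_iff] at h ⊢
  by_contra hcon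
  push Not at hcon
  have h2 := one_lt_pow₀ hcon hn
  rw [← map_pow] at h2
  exact absurd h (not_le.2 h2)

theorem q_pow_ne (F : Type*) [Field F] (n : ℕ) : ringExpChar F ^ n ≠ 0 :=
  pow_ne_zero _ (expChar_pos F (ringExpChar F)).ne'

variable {F : Type*} [Field F] {k : Subfield F} (F0 : IntermediateField k F)

theorem exists_low [IsPurelyInseparable F0 F] (z : F) :
    ∃ (n : ℕ) (w : F0), (w : F) = z ^ ringExpChar F ^ n := by
  haveI : ExpChar F0 (ringExpChar F) :=
    (algebraMap F0 F).expChar (algebraMap F0 F).injective (ringExpChar F)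
  obtain ⟨n, w, hw⟩ := IsPurelyInseparable.pow_mem F0 (ringExpChar F) z
  exact ⟨n, w, hw⟩

variable {F0}

theorem mem_iff (O : ValuationSubring F0) {z : F} {n : ℕ} {w : F0}
    (h : (w : F) = z ^ ringExpChar F ^ n) :
    (∃ (m : ℕ) (v : F0), v ∈ O ∧ (v : F) = z ^ ringExpChar F ^ m) ↔ w ∈ O := by
  constructor
  · rintro ⟨m, v, hv, hvz⟩
    apply mem_of_pow O (q_pow_ne F m)
    have h1 : w ^ ringExpChar F ^ m = v ^ ringExpChar F ^ n := by
      apply Subtype.ext
      rw [SubmonoidClass.coe_pow, SubmonoidClass.coe_pow, h, hvz, ← pow_mul, ← pow_mul,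
        mul_comm]
    rw [h1]
    exact pow_mem hv _
  · intro hw
    exact ⟨n, w, hw, h⟩

end AuxFPl

variable {F : Type*} [Field F] {k : Subfield F} (F0 : IntermediateField k F) [CFF k F0]
  [IsPurelyInseparable F0 F]

/-- the valuation ring of `F` over a valuation ring of `F0`. -/
noncomputable def vExt (O : ValuationSubring F0) : ValuationSubring F where
  carrier := {z | ∃ (n : ℕ) (w : F0), w ∈ O ∧ (w : F) = z ^ ringExpChar F ^ n}
  mul_mem' := by
    rintro z z' ⟨n, w, hw, hz⟩ ⟨n', w', hw', hz'⟩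
    refine ⟨n + n', w ^ ringExpChar F ^ n' * w' ^ ringExpChar F ^ n,
      mul_mem (pow_mem hw _) (pow_mem hw' _), ?_⟩
    rw [MulMemClass.coe_mul, SubmonoidClass.coe_pow, SubmonoidClass.coe_pow, hz, hz', mul_pow,
      ← pow_mul, ← pow_mul, ← pow_add, ← pow_add, add_comm n' n]
  one_mem' := ⟨0, 1, one_mem O, by simp⟩
  add_mem' := by
    rintro z z' ⟨n, w, hw, hz⟩ ⟨n', w', hw', hz'⟩
    refine ⟨n + n', w ^ ringExpChar F ^ n' + w' ^ ringExpChar F ^ n,
      add_mem (pow_mem hw _) (pow_mem hw' _), ?_⟩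
    rw [AddMemClass.coe_add, SubmonoidClass.coe_pow, SubmonoidClass.coe_pow, hz, hz',
      add_pow_expChar_pow, ← pow_mul, ← pow_mul, ← pow_add, ← pow_add, add_comm n' n]
  zero_mem' := ⟨0, 0, zero_mem O, by simp⟩
  neg_mem' := by
    rintro z ⟨n, w, hw, hz⟩
    refine ⟨n, (-1) ^ ringExpChar F ^ n * w, mul_mem (pow_mem (neg_mem (one_mem O)) _) hw, ?_⟩
    rw [neg_pow z, ← hz]
    rfl
  mem_or_inv_mem' := by
    intro z
    obtain ⟨n, w, hw⟩ := AuxFPl.exists_low F0 z
    rcases O.mem_or_inv_mem w with h | h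
    · exact Or.inl ⟨n, w, h, hw⟩
    · refine Or.inr ⟨n, w⁻¹, h, ?_⟩
      rw [inv_pow, ← hw]
      rfl

theorem AuxFPl.mem_vExt (O : ValuationSubring F0) {z : F} {n : ℕ} {w : F0}
    (h : (w : F) = z ^ ringExpChar F ^ n) : z ∈ vExt F0 O ↔ w ∈ O := AuxFPl.mem_iff O h

theorem AuxFPl.mem_vExt' (O : ValuationSubring F0) (w : F0) : (w : F) ∈ vExt F0 O ↔ w ∈ O :=
  AuxFPl.mem_vExt F0 O (n := 0) (by rw [pow_zero, pow_one])

/-- places of `F` and places of `F0`. -/
noncomputable def plRes : Plc k ≃ Plk k F0 where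
  toFun O := ⟨O.1.comap (algebraMap F0 F), by
    refine ⟨fun a => O.2.1 a a.2, fun h => O.2.2 ?_⟩
    rw [eq_top_iff]
    intro z _
    obtain ⟨n, w, hw⟩ := AuxFPl.exists_low F0 z
    apply AuxFPl.mem_of_pow O.1 (AuxFPl.q_pow_ne F n)
    rw [← hw]
    have h1 : w ∈ O.1.comap (algebraMap F0 F) := by rw [h]; exact ValuationSubring.mem_top w
    exact h1⟩
  invFun P := ⟨vExt F0 P.1, by
    refine ⟨fun a ha => ⟨0, algebraMap k F0 ⟨a, ha⟩, P.2.1 _, ?_⟩, fun h => P.2.2 ?_⟩
    · rw [pow_zero, pow_one]; rfl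
    · rw [eq_top_iff]
      intro w _
      rw [← AuxFPl.mem_vExt' F0, h]
      exact ValuationSubring.mem_top _⟩
  left_inv := by
    intro O
    apply Subtype.ext
    ext z
    obtain ⟨n, w, hw⟩ := AuxFPl.exists_low F0 z
    change z ∈ vExt F0 (O.1.comap (algebraMap F0 F)) ↔ _
    rw [AuxFPl.mem_vExt F0 _ hw]
    change (w : F) ∈ O.1 ↔ _
    rw [hw]
    exact ⟨AuxFPl.mem_of_pow O.1 (AuxFPl.q_pow_ne F n), fun h => pow_mem h _⟩
  right_inv := by
    intro P
    apply Subtype.ext
    ext w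
    exact AuxFPl.mem_vExt' F0 P.1 w

theorem mem_plRes (O : Plc k) (z : F0) : z ∈ (plRes F0 O).1 ↔ (z : F) ∈ O.1 := Iff.rfl

namespace AuxFPl

theorem ord_one {K : Type*} [Field K] {O : ValuationSubring K} {f : K → ℤ} (hf : IsOrd O f) :
    f 1 = 0 := by
  have h := hf.mul 1 1 one_ne_zero one_ne_zero
  rw [mul_one] at h
  omega

theorem ord_pow {K : Type*} [Field K] {O : ValuationSubring K} {f : K → ℤ} (hf : IsOrd O f)
    {x : K} (hx : x ≠ 0) (n : ℕ) : f (x ^ n) = n * f x := by
  induction n with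
  | zero => rw [pow_zero, ord_one hf]; simp
  | succ n ih =>
    rw [pow_succ, hf.mul _ _ (pow_ne_zero _ hx) hx, ih]
    push_cast
    ring

theorem ord_inv {K : Type*} [Field K] {O : ValuationSubring K} {f : K → ℤ} (hf : IsOrd O f)
    {x : K} (hx : x ≠ 0) : f x⁻¹ = - f x := by
  have h := hf.mul x x⁻¹ hx (inv_ne_zero hx)
  rw [mul_inv_cancel₀ hx, ord_one hf] at h
  omega

theorem ord_zpow {K : Type*} [Field K] {O : ValuationSubring K} {f : K → ℤ} (hf : IsOrd O f)
    {x : K} (hx : x ≠ 0) (n : ℤ) : f (x ^ n) = n * f x := by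
  cases n with
  | ofNat n =>
    rw [Int.ofNat_eq_natCast, zpow_natCast]; exact ord_pow hf hx n
  | negSucc n =>
    rw [zpow_negSucc, ord_inv hf (pow_ne_zero _ hx), ord_pow hf hx, Int.negSucc_eq]
    push_cast
    ring

theorem ord_eq_zero_iff {K : Type*} [Field K] {O : ValuationSubring K} {f : K → ℤ}
    (hf : IsOrd O f) {x : K} (hx : x ≠ 0) : f x = 0 ↔ O.valuation x = 1 := by
  have h1 := hf.mem x
  have h2 := hf.mem x⁻¹
  rw [ord_inv hf hx] at h2
  have h3 : O.valuation x⁻¹ ≤ 1 ↔ 1 ≤ O.valuation x := by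
    rw [map_inv₀]
    have hpos : 0 < O.valuation x := by
      rw [zero_lt_iff]; exact (Valuation.ne_zero_iff _).2 hx
    exact inv_le_one₀ hpos
  rw [← O.valuation_le_one_iff] at h1 h2
  rw [h3] at h2
  have hx' := inv_ne_zero hx
  constructor
  · intro h
    apply le_antisymm
    · rw [h1]; right; omega
    · rw [h2]; right; omega
  · intro h
    have h4 := h1.1 h.le
    have h5 := h2.1 h.ge
    have h6 := h4.resolve_left hx
    have h7 := h5.resolve_left hx'
    omega

end AuxFPl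

/-- unramified classes. -/
theorem cl_mem_UC_iff {ℓ : ℕ} [Fact ℓ.Prime] [NeZero (ℓ : F)] (O : Plc k) {z : F0} (hz : z ≠ 0) :
    cl ℓ (z : F) ∈ UC ℓ O.1 ↔ (ℓ : ℤ) ∣ ord (plRes F0 O) z := by
  have hO := ord_spec (plRes F0 O)
  set f := ord (plRes F0 O) with hf
  have hzF : (z : F) ≠ 0 := fun h => hz (Subtype.ext h)
  rw [mem_UC]
  constructor
  · rintro ⟨w, hw, hzw⟩
    have hw0 : w ≠ 0 := by rintro rfl; rw [map_zero] at hw; exact zero_ne_one hw
    obtain ⟨t, ht0, hzt⟩ := (cl_eq_iff ℓ hzF hw0).1 hzw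
    obtain ⟨n, W, hW⟩ := AuxFPl.exists_low F0 w
    obtain ⟨m, T, hT⟩ := AuxFPl.exists_low F0 t
    have hW0 : W ≠ 0 := by
      rintro rfl
      exact pow_ne_zero _ hw0 hW.symm
    have hT0 : T ≠ 0 := by
      rintro rfl
      exact pow_ne_zero _ ht0 hT.symm
    have key : z ^ ringExpChar F ^ (n + m) =
        W ^ ringExpChar F ^ m * (T ^ ringExpChar F ^ n) ^ ℓ := by
      apply Subtype.ext
      rw [MulMemClass.coe_mul, SubmonoidClass.coe_pow, SubmonoidClass.coe_pow,
        SubmonoidClass.coe_pow, SubmonoidClass.coe_pow, hW, hT, hzt, mul_pow]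
      congr 1
      · rw [← pow_mul, pow_add]
      · rw [← pow_mul, ← pow_mul, ← pow_mul, pow_add]
        congr 1
        ring
    have hWu : (plRes F0 O).1.valuation W = 1 := by
      have h1 : ∀ x : F0, (plRes F0 O).1.valuation x ≤ 1 ↔ O.1.valuation (x : F) ≤ 1 := by
        intro x
        rw [ValuationSubring.valuation_le_one_iff, ValuationSubring.valuation_le_one_iff]
        exact mem_plRes F0 O x
      have h2 : O.1.valuation (W : F) = 1 := by
        rw [hW, map_pow, hw, one_pow]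
      have h3 := (h1 W).2 h2.le
      have h4 := (h1 W⁻¹).2 (by
        have : ((W⁻¹ : F0) : F) = (W : F)⁻¹ := rfl
        rw [this, map_inv₀, h2, inv_one])
      apply le_antisymm h3
      rw [map_inv₀] at h4
      have hpos : 0 < (plRes F0 O).1.valuation W := by
        rw [zero_lt_iff]; exact (Valuation.ne_zero_iff _).2 hW0
      exact (inv_le_one₀ hpos).1 h4
    have hfW : f W = 0 := (AuxFPl.ord_eq_zero_iff hO hW0).2 hWu
    have h5 := congrArg f key
    rw [AuxFPl.ord_pow hO hz, hO.mul _ _ (pow_ne_zero _ hW0) (pow_ne_zero _ (pow_ne_zero _ hT0)),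
      AuxFPl.ord_pow hO hW0, hfW, mul_zero, zero_add, AuxFPl.ord_pow hO (pow_ne_zero _ hT0)] at h5
    have h6 : (ℓ : ℤ) ∣ ((ringExpChar F ^ (n + m) : ℕ) : ℤ) * f z := ⟨_, h5⟩
    have hq := q_ne_zero ℓ F
    have hp : Prime (ℓ : ℤ) := Nat.prime_iff_prime_int.1 (Fact.out : ℓ.Prime)
    rcases hp.dvd_or_dvd h6 with h7 | h7
    · exfalso
      rw [Nat.cast_pow] at h7
      have h8 := hp.dvd_of_dvd_pow h7
      apply hq
      rw [ZMod.natCast_eq_zero_iff]
      exact_mod_cast h8
    · exact h7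
  · rintro ⟨m, hm⟩
    obtain ⟨π, hπ⟩ := hO.one
    have hπ0 : π ≠ 0 := by
      rintro rfl
      rw [hO.zero] at hπ
      exact zero_ne_one hπ
    have hw0 : z * ((π ^ m) ^ ℓ)⁻¹ ≠ 0 :=
      mul_ne_zero hz (inv_ne_zero (pow_ne_zero _ (zpow_ne_zero _ hπ0)))
    have hfw : f (z * ((π ^ m) ^ ℓ)⁻¹) = 0 := by
      rw [hO.mul _ _ hz (inv_ne_zero (pow_ne_zero _ (zpow_ne_zero _ hπ0))),
        AuxFPl.ord_inv hO (pow_ne_zero _ (zpow_ne_zero _ hπ0)),
        AuxFPl.ord_pow hO (zpow_ne_zero _ hπ0), AuxFPl.ord_zpow hO hπ0, hπ, hm]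
      ring
    have hu := (AuxFPl.ord_eq_zero_iff hO hw0).1 hfw
    set w : F0 := z * ((π ^ m) ^ ℓ)⁻¹ with hwdef
    refine ⟨(w : F), ?_, ?_⟩
    · have h1 : ∀ x : F0, (plRes F0 O).1.valuation x ≤ 1 ↔ O.1.valuation (x : F) ≤ 1 := by
        intro x
        rw [ValuationSubring.valuation_le_one_iff, ValuationSubring.valuation_le_one_iff]
        exact mem_plRes F0 O x
      have h3 := (h1 w).1 hu.le
      have h4 := (h1 w⁻¹).1 (by rw [map_inv₀, hu, inv_one])
      apply le_antisymm h3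
      have h5 : ((w⁻¹ : F0) : F) = (w : F)⁻¹ := rfl
      rw [h5, map_inv₀] at h4
      have hpos : 0 < O.1.valuation (w : F) := by
        rw [zero_lt_iff]
        exact (Valuation.ne_zero_iff _).2 (fun h => hw0 (Subtype.ext h))
      exact (inv_le_one₀ hpos).1 h4
    · have hwF : (w : F) ≠ 0 := fun h => hw0 (Subtype.ext h)
      have hπF : ((π ^ m : F0) : F) ≠ 0 := fun h => zpow_ne_zero m hπ0 (Subtype.ext h)
      rw [cl_eq_iff ℓ hzF hwF]
      refine ⟨((π ^ m : F0) : F), hπF, ?_⟩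
      have h1 : z = w * (π ^ m) ^ ℓ := by
        rw [hwdef, inv_mul_cancel_right₀ (pow_ne_zero _ (zpow_ne_zero _ hπ0))]
      have h2 := congrArg (fun x : F0 => (x : F)) h1
      exact h2

end Vale.Agent.P019P
end

section

/-!
# Effective divisors in a class, divisors of degree zero
-/

namespace Vale.Agent.P019P

open Polynomial IntermediateField

variable {k F : Type*} [Field k] [Field F] [Algebra k F] [CFF k F]

namespace AuxFEff

theorem fe_dv_one : dv k (1 : F) = 0 :=
  (dv_eq_zero_iff one_ne_zero).2 ⟨1, (map_one _).symm⟩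

theorem fe_dg_sum {α : Type*} (D : α →₀ ℤ) : dg D = ∑ P ∈ D.support, D P := by
  unfold dg
  rw [Finsupp.liftAddHom_apply]
  rfl

theorem fe_dg_nonneg {α : Type*} {D : α →₀ ℤ} (hD : 0 ≤ D) : 0 ≤ dg D := by
  rw [fe_dg_sum]
  exact Finset.sum_nonneg fun P _ => hD P

theorem fe_eq_zero {α : Type*} {D : α →₀ ℤ} (hD : 0 ≤ D) (h0 : dg D = 0) : D = 0 := by
  rw [fe_dg_sum, Finset.sum_eq_zero_iff_of_nonneg fun P _ => hD P] at h0
  ext P
  by_cases hP : P ∈ D.support
  · exact h0 P hP
  · exact Finsupp.notMem_support_iff.1 hP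

end AuxFEff

open AuxFEff

theorem dv_eq_iff {z w : F} (hz : z ≠ 0) (hw : w ≠ 0) :
    dv k z = dv k w ↔ ∃ a : k, a ≠ 0 ∧ w = a • z := by
  have h1 : dv k (w * z⁻¹) = dv k w - dv k z := by
    rw [dv_mul hw (inv_ne_zero hz), dv_inv, sub_eq_add_neg]
  have h2 : w * z⁻¹ ≠ 0 := mul_ne_zero hw (inv_ne_zero hz)
  constructor
  · intro h
    have h3 : dv k (w * z⁻¹) = 0 := by rw [h1, h, sub_self]
    obtain ⟨a, ha⟩ := (dv_eq_zero_iff h2).1 h3
    have h4 : w = a • z := by
      rw [Algebra.smul_def, ← ha, mul_assoc, inv_mul_cancel₀ hz, mul_one]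
    refine ⟨a, ?_, h4⟩
    rintro rfl
    exact hw (by rw [h4, zero_smul])
  · rintro ⟨a, ha, h4⟩
    have h5 : w * z⁻¹ = algebraMap k F a := by
      rw [h4, Algebra.smul_def, mul_assoc, mul_inv_cancel₀ hz, mul_one]
    have h6 : dv k (w * z⁻¹) = 0 := (dv_eq_zero_iff h2).2 ⟨a, h5⟩
    rw [h1] at h6
    exact (sub_eq_zero.1 h6).symm

theorem mem_LL_dv {D : Plk k F →₀ ℤ} {z : F} (hz : z ≠ 0) : z ∈ LL k D ↔ 0 ≤ D + dv k z := by
  constructor
  · intro h P
    have h1 := (Or.resolve_left h hz) P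
    rw [Finsupp.add_apply, dv_apply]
    show 0 ≤ _
    linarith
  · intro h
    right
    intro P
    have h1 := h P
    rw [Finsupp.add_apply, dv_apply] at h1
    have h2 : (0 : Plk k F →₀ ℤ) P = 0 := rfl
    rw [h2] at h1
    linarith

/-- effective divisors in a class and functions. -/
theorem eff_iff {D E : Plk k F →₀ ℤ} :
    (0 ≤ E ∧ E - D ∈ prn k F) ↔ ∃ z ∈ LL k D, z ≠ 0 ∧ E = D + dv k z := by
  constructor
  · rintro ⟨hE, z, hz, h⟩
    have h1 : E = D + dv k z := by rw [← h]; abel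
    exact ⟨z, (mem_LL_dv hz).2 (by rw [← h1]; exact hE), hz, h1⟩
  · rintro ⟨z, hzD, hz, h1⟩
    refine ⟨by rw [h1]; exact (mem_LL_dv hz).1 hzD, z, hz, ?_⟩
    rw [h1]
    abel

/-- there is a place. -/
theorem exists_place_cff (k F : Type*) [Field k] [Field F] [Algebra k F] [CFF k F] :
    Nonempty (Plk k F) := by
  obtain ⟨x, hx, _⟩ := CFF.ex (k := k) (F := F)
  have hx0 : x ≠ 0 := by
    rintro rfl
    exact hx (isAlgebraic_zero)
  have h1 : dv k x ≠ 0 := by
    intro h
    obtain ⟨a, ha⟩ := (dv_eq_zero_iff hx0).1 h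
    exact hx (by rw [ha]; exact isAlgebraic_algebraMap a)
  obtain ⟨P, _⟩ := Finsupp.ne_iff.1 h1
  exact ⟨P⟩

theorem LL_neg {D : Plk k F →₀ ℤ} (hD : dg D < 0) : Module.finrank k (LL k D) = 0 := by
  have h : LL k D = ⊥ := by
    rw [Submodule.eq_bot_iff]
    intro z hz
    by_contra hz0
    have h1 := fe_dg_nonneg ((mem_LL_dv hz0).1 hz)
    rw [map_add, dg_dv, add_zero] at h1
    linarith
  rw [h]
  exact finrank_bot k F

theorem LL_prin {D : Plk k F →₀ ℤ} (hD : D ∈ prn k F) : Module.finrank k (LL k D) = 1 := by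
  obtain ⟨u, hu, rfl⟩ := hD
  have h : LL k (dv k u) = Submodule.span k {u⁻¹} := by
    apply le_antisymm
    · intro z hz
      by_cases hz0 : z = 0
      · rw [hz0]
        exact Submodule.zero_mem _
      have h1 := (mem_LL_dv hz0).1 hz
      have h2 : dg (dv k u + dv k z) = 0 := by rw [map_add, dg_dv, dg_dv, add_zero]
      have h3 := fe_eq_zero h1 h2
      rw [← dv_mul hu hz0] at h3
      obtain ⟨a, ha⟩ := (dv_eq_zero_iff (mul_ne_zero hu hz0)).1 h3
      rw [Submodule.mem_span_singleton]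
      refine ⟨a, ?_⟩
      rw [Algebra.smul_def, ← ha, mul_comm u z, mul_assoc, mul_inv_cancel₀ hu, mul_one]
    · rw [Submodule.span_singleton_le_iff_mem]
      rw [mem_LL_dv (inv_ne_zero hu), dv_inv, add_neg_cancel]
  rw [h]
  exact finrank_span_singleton (inv_ne_zero hu)

theorem LL_zero {D : Plk k F →₀ ℤ} (hD : dg D = 0) (hD' : D ∉ prn k F) :
    Module.finrank k (LL k D) = 0 := by
  have h : LL k D = ⊥ := by
    rw [Submodule.eq_bot_iff]
    intro z hz
    by_contra hz0
    have h1 := (mem_LL_dv hz0).1 hz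
    have h2 : dg (D + dv k z) = 0 := by rw [map_add, dg_dv, hD, add_zero]
    have h3 := fe_eq_zero h1 h2
    apply hD'
    refine ⟨z⁻¹, inv_ne_zero hz0, ?_⟩
    rw [dv_inv]
    exact eq_neg_of_add_eq_zero_left h3
  rw [h]
  exact finrank_bot k F

end Vale.Agent.P019P
end

section

/-!
# Classes of a perfect field and of a function field with this perfect closure
-/

namespace Vale.Agent.P019P

open Vale.Agent.P019

set_option linter.style.haveILetI false
set_option linter.unusedSectionVars false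

open Polynomial IntermediateField

variable {F : Type*} [Field F] {k : Subfield F} (F0 : IntermediateField k F) [CFF k F0]
  [IsPurelyInseparable F0 F]

namespace AuxFCl

/-- every element has a `q`-power in `F0`. -/
theorem exists_pow_mem (w : F) : ∃ (n : ℕ) (z : F0), (z : F) = w ^ ringExpChar F ^ n := by
  haveI : ExpChar F0 (ringExpChar F) :=
    (algebraMap F0 F).expChar (algebraMap F0 F).injective _
  obtain ⟨n, z, hz⟩ := IsPurelyInseparable.pow_mem F0 (ringExpChar F) w
  exact ⟨n, z, hz⟩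

end AuxFCl

/-- every class is the class of an element of `F0`. -/
theorem exists_cl {ℓ : ℕ} [Fact ℓ.Prime] [NeZero (ℓ : F)] (v : V ℓ F) :
    ∃ z : F0, z ≠ 0 ∧ cl ℓ (z : F) = v := by
  obtain ⟨w, hw0, hw⟩ := cl_surj ℓ v
  obtain ⟨n, z, hz⟩ := AuxFCl.exists_pow_mem F0 w
  have hz0 : z ≠ 0 := by
    rintro rfl
    have h1 : w ^ ringExpChar F ^ n = 0 := by rw [← hz]; rfl
    exact hw0 (eq_zero_of_pow_eq_zero h1)
  have hu := q_pow_ne_zero ℓ F n
  set c : ZMod ℓ := ((ringExpChar F ^ n : ℕ) : ZMod ℓ)⁻¹ with hc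
  refine ⟨z ^ c.val, pow_ne_zero _ hz0, ?_⟩
  have h2 : ((z ^ c.val : F0) : F) = (z : F) ^ c.val := rfl
  rw [h2, cl_pow, hz, cl_pow, hw, ← Nat.cast_smul_eq_nsmul (ZMod ℓ), ← Nat.cast_smul_eq_nsmul (ZMod ℓ),
    smul_smul, ZMod.natCast_val, ZMod.cast_id, hc, inv_mul_cancel₀ hu, one_smul]

/-- the elements of `F0` with trivial class. -/
theorem cl_coe_eq_zero {ℓ : ℕ} [Fact ℓ.Prime] [NeZero (ℓ : F)] {z : F0} (hz : z ≠ 0) :
    cl ℓ (z : F) = 0 ↔ ∃ w : F0, w ≠ 0 ∧ z = w ^ ℓ := by
  constructor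
  · intro h
    have hzF : (z : F) ≠ 0 := fun h0 => hz (Subtype.ext h0)
    obtain ⟨t, ht0, ht⟩ := (cl_eq_zero_iff ℓ hzF).1 h
    obtain ⟨n, T, hT⟩ := AuxFCl.exists_pow_mem F0 t
    have hT0 : T ≠ 0 := by
      rintro rfl
      have h1 : t ^ ringExpChar F ^ n = 0 := by rw [← hT]; rfl
      exact ht0 (eq_zero_of_pow_eq_zero h1)
    have h1 : z ^ ringExpChar F ^ n = T ^ ℓ := by
      apply Subtype.ext
      change (z : F) ^ ringExpChar F ^ n = (T : F) ^ ℓ
      rw [hT, ← ht, ← pow_mul, ← pow_mul, mul_comm]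
    have hcop : IsCoprime ((ringExpChar F ^ n : ℕ) : ℤ) (ℓ : ℤ) := by
      rw [Nat.isCoprime_iff_coprime]
      apply Nat.Coprime.symm
      rw [(Fact.out : ℓ.Prime).coprime_iff_not_dvd]
      intro hd
      exact q_pow_ne_zero ℓ F n ((ZMod.natCast_eq_zero_iff _ _).2 hd)
    obtain ⟨a, b, hab⟩ := hcop
    refine ⟨T ^ a * z ^ b, mul_ne_zero (zpow_ne_zero _ hT0) (zpow_ne_zero _ hz), ?_⟩
    rw [mul_pow, ← zpow_natCast, ← zpow_natCast, ← zpow_mul, mul_comm a, zpow_mul, zpow_natCast, ← h1,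
      ← zpow_natCast z, ← zpow_mul, ← zpow_mul, ← zpow_add₀ hz, mul_comm _ a, hab, zpow_one]
  · rintro ⟨w, hw0, rfl⟩
    exact cl_pow_self ℓ (w : F)

namespace AuxFCl

theorem cl_smul {ℓ : ℕ} [Fact ℓ.Prime] [NeZero (ℓ : F)] {a : k} (ha : a ≠ 0) {z : F0}
    (hz : z ≠ 0) : cl ℓ ((a • z : F0) : F) = cl ℓ (z : F) := by
  haveI : IsAlgClosed k := CFF.ac (k := k) (F := F0)
  obtain ⟨b, hb⟩ := IsAlgClosed.exists_pow_nat_eq a (Fact.out : ℓ.Prime).pos
  have h1 : ((a • z : F0) : F) = (b : F) ^ ℓ * (z : F) := by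
    rw [← hb]
    rfl
  have hb0 : (b : F) ≠ 0 := by
    intro h
    have h2 : b = 0 := Subtype.ext h
    rw [h2, zero_pow (Fact.out : ℓ.Prime).pos.ne'] at hb
    exact ha hb.symm
  have hzF : (z : F) ≠ 0 := fun h0 => hz (Subtype.ext h0)
  rw [h1, cl_mul ℓ (pow_ne_zero _ hb0) hzF, cl_pow_self, zero_add]

theorem cl_eq_of_dv {ℓ : ℕ} [Fact ℓ.Prime] [NeZero (ℓ : F)] {z w : F0} (hz : z ≠ 0) (hw : w ≠ 0)
    (h : dv k z = dv k w) : cl ℓ (z : F) = cl ℓ (w : F) := by
  obtain ⟨a, ha, rfl⟩ := (dv_eq_iff hz hw).1 h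
  exact (cl_smul F0 ha hz).symm

theorem dv_pow {z : F0} (hz : z ≠ 0) (n : ℕ) : dv k (z ^ n) = n • dv k z := by
  induction n with
  | zero => rw [pow_zero, zero_smul, AuxFEff.fe_dv_one]
  | succ n ih => rw [pow_succ, dv_mul (pow_ne_zero n hz) hz, ih, succ_nsmul]

end AuxFCl

/-- the class of a principal divisor. -/
theorem exists_clHom (ℓ : ℕ) [Fact ℓ.Prime] [NeZero (ℓ : F)] :
    ∃ f : prn k F0 →+ V ℓ F, (∀ z : F0, (hz : z ≠ 0) → f ⟨dv k z, z, hz, rfl⟩ = cl ℓ (z : F)) ∧
      Function.Surjective f ∧ ∀ D : prn k F0, f D = 0 ↔ ∃ E : prn k F0, D = ℓ • E := by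
  classical
  have hD : ∀ D : prn k F0, ∃ z : F0, z ≠ 0 ∧ (D : Plk k F0 →₀ ℤ) = dv k z := fun D => D.2
  choose s hs0 hs using hD
  let f : prn k F0 →+ V ℓ F := AddMonoidHom.mk' (fun D => cl ℓ (s D : F)) (by
    intro D E
    have h1 : dv k (s (D + E)) = dv k (s D * s E) := by
      rw [← hs, dv_mul (hs0 D) (hs0 E), ← hs, ← hs]
      rfl
    have h2 := AuxFCl.cl_eq_of_dv (ℓ := ℓ) F0 (hs0 _) (mul_ne_zero (hs0 D) (hs0 E)) h1
    have hzD : (s D : F) ≠ 0 := fun h0 => hs0 D (Subtype.ext h0)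
    have hzE : (s E : F) ≠ 0 := fun h0 => hs0 E (Subtype.ext h0)
    change cl ℓ (s (D + E) : F) = cl ℓ (s D : F) + cl ℓ (s E : F)
    rw [h2, ← cl_mul ℓ hzD hzE]
    rfl)
  have hf : ∀ z : F0, (hz : z ≠ 0) → f ⟨dv k z, z, hz, rfl⟩ = cl ℓ (z : F) := by
    intro z hz
    exact AuxFCl.cl_eq_of_dv F0 (hs0 _) hz (hs _).symm
  refine ⟨f, hf, ?_, ?_⟩
  · intro v
    obtain ⟨z, hz, hv⟩ := exists_cl F0 v
    exact ⟨⟨dv k z, z, hz, rfl⟩, (hf z hz).trans hv⟩
  · intro D
    constructor
    · intro h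
      have h1 : cl ℓ (s D : F) = 0 := h
      obtain ⟨w, hw0, hw⟩ := (cl_coe_eq_zero F0 (hs0 D)).1 h1
      refine ⟨⟨dv k w, w, hw0, rfl⟩, ?_⟩
      apply Subtype.ext
      change (D : Plk k F0 →₀ ℤ) = ℓ • dv k w
      rw [hs D, ← AuxFCl.dv_pow F0 hw0, ← hw]
    · rintro ⟨E, rfl⟩
      rw [map_nsmul]
      change ℓ • cl ℓ (s E : F) = 0
      rw [← cl_pow, cl_pow_self]

end Vale.Agent.P019P
end

section

/-!
# Locally finite automorphisms: the tower of fixed groups
-/

namespace Vale.Agent.P019P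

/-- the orders of the fixed groups grow like those of an abelian variety. -/
structure Grow (ℓ N : ℕ) (h : ℕ → ℕ) : Prop where
  pos : ∀ n, 0 < n → 0 < h n
  ex : ∃ n0 : ℕ, 0 < n0 ∧
    (∀ n, 0 < n → n0 ∣ n → padicValNat ℓ (h (n * ℓ)) = padicValNat ℓ (h n) + N) ∧
    (∀ n r, 0 < n → n0 ∣ n → ¬ ℓ ∣ r → padicValNat ℓ (h (n * r)) = padicValNat ℓ (h n))

/-- the tower of `ℓ`-primary fixed groups. -/
structure Tower {J : Type*} [AddCommGroup J] (φ : AddMonoid.End J) (ℓ N c : ℕ) : Prop where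
  card : ∀ m : ℕ, Nat.card {x : J // (φ ^ ℓ ^ m) x = x ∧ ∃ k : ℕ, ℓ ^ k • x = 0} = ℓ ^ (c + N * m)
  ex : ∀ x : J, (∃ k : ℕ, ℓ ^ k • x = 0) → ∃ m : ℕ, (φ ^ ℓ ^ m) x = x

/-- the `ℓ`-primary part of a finite abelian group has `ℓ ^ v` elements (multiplicative form). -/
theorem zgA_primary_mul {G : Type*} [CommGroup G] [Finite G] {ℓ : ℕ} (hℓ : ℓ.Prime) :
    Nat.card {x : G // ∃ k : ℕ, x ^ ℓ ^ k = 1} = ℓ ^ padicValNat ℓ (Nat.card G) := by
  have := Fact.mk hℓ
  obtain ⟨P⟩ : Nonempty (Sylow ℓ G) := inferInstance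
  have hu := Sylow.unique_of_normal P inferInstance
  have hcard := Sylow.card_eq_multiplicity P
  rw [Nat.factorization_def _ hℓ] at hcard
  rw [← hcard]
  apply Nat.card_congr
  refine Equiv.subtypeEquivRight fun x => ?_
  constructor
  · rintro ⟨k, hk⟩
    have hz : IsPGroup ℓ (Subgroup.zpowers x) := by
      rintro ⟨y, hy⟩
      obtain ⟨j, rfl⟩ := Subgroup.mem_zpowers_iff.1 hy
      refine ⟨k, ?_⟩
      ext
      simp only [Subgroup.coe_pow, Subgroup.coe_one]
      rw [← zpow_natCast, ← zpow_mul, mul_comm, zpow_mul, zpow_natCast, hk, one_zpow]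
    obtain ⟨Q, hQ⟩ := hz.exists_le_sylow
    have hQP : Q = P := Subsingleton.elim _ _
    rw [← hQP]
    exact hQ (Subgroup.mem_zpowers x)
  · intro hx
    obtain ⟨k, hk⟩ := P.isPGroup' ⟨x, hx⟩
    refine ⟨k, ?_⟩
    have := congrArg Subtype.val hk
    simpa using this

/-- the `ℓ`-primary part of a finite abelian group has `ℓ ^ v` elements. -/
theorem zgA_primary {F : Type*} [AddCommGroup F] [Finite F] {ℓ : ℕ} (hℓ : ℓ.Prime) :
    Nat.card {x : F // ∃ k : ℕ, ℓ ^ k • x = 0} = ℓ ^ padicValNat ℓ (Nat.card F) := by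
  have : Finite (Multiplicative F) := inferInstanceAs (Finite F)
  exact zgA_primary_mul (G := Multiplicative F) hℓ

/-- the fixed points of an endomorphism. -/
def ZgAFixed {J : Type*} [AddCommGroup J] (φ : AddMonoid.End J) : AddSubgroup J where
  carrier := {x | φ x = x}
  zero_mem' := map_zero φ
  add_mem' := by
    intro a b ha hb
    simp only [Set.mem_ofPred_eq] at *
    rw [map_add, ha, hb]
  neg_mem' := by
    intro a ha
    simp only [Set.mem_ofPred_eq] at *
    rw [map_neg, ha]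

theorem zgA_fixed_primary {J : Type*} [AddCommGroup J] (φ : AddMonoid.End J) {ℓ : ℕ}
    (hℓ : ℓ.Prime) (hfin : {x : J | φ x = x}.Finite) :
    Nat.card {x : J // φ x = x ∧ ∃ k : ℕ, ℓ ^ k • x = 0} =
      ℓ ^ padicValNat ℓ (Nat.card {x : J // φ x = x}) := by
  have : Finite (ZgAFixed φ) := hfin
  have h := zgA_primary (F := ZgAFixed φ) hℓ
  have e1 : Nat.card (ZgAFixed φ) = Nat.card {x : J // φ x = x} := rfl
  rw [← e1, ← h]
  refine Nat.card_congr ?_
  refine ⟨fun x => ⟨⟨x.1, x.2.1⟩, ?_⟩, fun y => ⟨y.1.1, y.1.2, ?_⟩, fun x => rfl, fun y => rfl⟩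
  · obtain ⟨k, hk⟩ := x.2.2
    exact ⟨k, Subtype.ext hk⟩
  · obtain ⟨k, hk⟩ := y.2
    exact ⟨k, congrArg Subtype.val hk⟩

theorem zgA_fix_pow {J : Type*} [AddCommGroup J] (φ : AddMonoid.End J) {x : J} (hx : φ x = x)
    (r : ℕ) : (φ ^ r) x = x := by
  induction r with
  | zero => simp
  | succ r ih =>
    rw [pow_succ]
    change (φ ^ r) (φ x) = x
    rw [hx, ih]

theorem exists_tower {J : Type*} [AddCommGroup J] (s : AddMonoid.End J) {ℓ N : ℕ}
    (hℓ : ℓ.Prime) (hper : ∀ x : J, ∃ n : ℕ, 0 < n ∧ (s ^ n) x = x)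
    (hfin : ∀ n : ℕ, 0 < n → {x : J | (s ^ n) x = x}.Finite)
    (hg : Grow ℓ N (fun n => Nat.card {x : J // (s ^ n) x = x})) :
    ∃ n0 c : ℕ, Tower (s ^ n0) ℓ N c := by
  obtain ⟨hpos, n0, hn0, hg1, hg2⟩ := hg
  have hl0 : 0 < ℓ := hℓ.pos
  have hstep : ∀ m : ℕ, padicValNat ℓ (Nat.card {x : J // (s ^ (n0 * ℓ ^ m)) x = x}) =
      padicValNat ℓ (Nat.card {x : J // (s ^ n0) x = x}) + N * m := by
    intro m
    induction m with
    | zero => simp
    | succ m ih =>
      have h := hg1 (n0 * ℓ ^ m) (by positivity) (Dvd.intro _ rfl)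
      rw [pow_succ, ← mul_assoc, h, ih]
      ring
  refine ⟨n0, padicValNat ℓ (Nat.card {x : J // (s ^ n0) x = x}), ?_, ?_⟩
  · intro m
    rw [← pow_mul, zgA_fixed_primary _ hℓ (hfin _ (by positivity)), hstep]
  · rintro x ⟨k, hk⟩
    obtain ⟨n, hn, hx⟩ := hper x
    obtain ⟨m, r, hr, rfl⟩ := Nat.exists_eq_pow_mul_and_not_dvd hn.ne' ℓ hℓ.ne_one
    refine ⟨m, ?_⟩
    rw [← pow_mul]
    have hr0 : 0 < r := Nat.pos_of_ne_zero fun h => hr (h ▸ dvd_zero ℓ)
    have hv := hg2 (n0 * ℓ ^ m) r (by positivity) (Dvd.intro _ rfl) hr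
    have hA := zgA_fixed_primary (s ^ (n0 * ℓ ^ m)) hℓ (hfin _ (by positivity))
    have hB := zgA_fixed_primary (s ^ (n0 * ℓ ^ m * r)) hℓ (hfin _ (by positivity))
    have hsub : {x : J | (s ^ (n0 * ℓ ^ m)) x = x ∧ ∃ k : ℕ, ℓ ^ k • x = 0} ⊆
        {x : J | (s ^ (n0 * ℓ ^ m * r)) x = x ∧ ∃ k : ℕ, ℓ ^ k • x = 0} := by
      rintro y ⟨hy, hk'⟩
      exact ⟨by rw [pow_mul]; exact zgA_fix_pow _ hy r, hk'⟩
    have hfinB : {x : J | (s ^ (n0 * ℓ ^ m * r)) x = x ∧ ∃ k : ℕ, ℓ ^ k • x = 0}.Finite :=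
      (hfin (n0 * ℓ ^ m * r) (by positivity)).subset fun y hy => hy.1
    have heq := Set.eq_of_subset_of_ncard_le hsub (by
      have e1 : {x : J | (s ^ (n0 * ℓ ^ m * r)) x = x ∧ ∃ k : ℕ, ℓ ^ k • x = 0}.ncard =
          Nat.card {x : J // (s ^ (n0 * ℓ ^ m * r)) x = x ∧ ∃ k : ℕ, ℓ ^ k • x = 0} := rfl
      have e2 : {x : J | (s ^ (n0 * ℓ ^ m)) x = x ∧ ∃ k : ℕ, ℓ ^ k • x = 0}.ncard =
          Nat.card {x : J // (s ^ (n0 * ℓ ^ m)) x = x ∧ ∃ k : ℕ, ℓ ^ k • x = 0} := rfl
      rw [e1, e2, hA, hB, hv]) hfinB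
    have hxB : x ∈ {x : J | (s ^ (n0 * ℓ ^ m * r)) x = x ∧ ∃ k : ℕ, ℓ ^ k • x = 0} := by
      refine ⟨?_, k, hk⟩
      have e : n0 * ℓ ^ m * r = (ℓ ^ m * r) * n0 := by ring
      rw [e, pow_mul]
      exact zgA_fix_pow _ hx n0
    rw [← heq] at hxB
    exact hxB.1

end Vale.Agent.P019P
end

section

/-!
# The `ℓ`-torsion is finite
-/

namespace Vale.Agent.P019P

/-- The kernel of `(φ - 1)^j` on the `ℓ`-torsion. -/
private def tK {J : Type*} [AddCommGroup J] (φ : AddMonoid.End J) (ℓ j : ℕ) : AddSubgroup J where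
  carrier := {x | ℓ • x = 0 ∧ ((φ - 1) ^ j) x = 0}
  zero_mem' := ⟨smul_zero _, map_zero _⟩
  add_mem' := by
    rintro a b ⟨h1, h2⟩ ⟨h3, h4⟩
    exact ⟨by rw [smul_add, h1, h3, add_zero], by rw [map_add, h2, h4, add_zero]⟩
  neg_mem' := by
    rintro a ⟨h1, h2⟩
    exact ⟨by rw [smul_neg, h1, neg_zero], by rw [map_neg, h2, neg_zero]⟩

private theorem mem_tK {J : Type*} [AddCommGroup J] {φ : AddMonoid.End J} {ℓ j : ℕ} {x : J} :
    x ∈ tK φ ℓ j ↔ ℓ • x = 0 ∧ ((φ - 1) ^ j) x = 0 := Iff.rfl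

private theorem end_mul_apply {J : Type*} [AddCommGroup J] (f g : AddMonoid.End J) (x : J) :
    (f * g) x = f (g x) := rfl

private theorem end_add_apply {J : Type*} [AddCommGroup J] (f g : AddMonoid.End J) (x : J) :
    (f + g) x = f x + g x := rfl

private theorem tK_succ {J : Type*} [AddCommGroup J] (φ : AddMonoid.End J) (ℓ j : ℕ) :
    tK φ ℓ j ≤ tK φ ℓ (j + 1) := by
  intro x hx
  rw [mem_tK] at hx ⊢
  refine ⟨hx.1, ?_⟩
  rw [pow_succ', end_mul_apply, hx.2, map_zero]

private theorem tK_mono {J : Type*} [AddCommGroup J] (φ : AddMonoid.End J) (ℓ : ℕ) {i j : ℕ}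
    (h : i ≤ j) : tK φ ℓ i ≤ tK φ ℓ j :=
  monotone_nat_of_le_succ (tK_succ φ ℓ) h

private theorem pow_apply_tors {J : Type*} [AddCommGroup J] (φ : AddMonoid.End J) {ℓ : ℕ}
    (hℓ : ℓ.Prime) (m : ℕ) {x : J} (hx : ℓ • x = 0) :
    (φ ^ ℓ ^ m) x = ((φ - 1) ^ ℓ ^ m) x + x := by
  obtain ⟨r, hr⟩ := Commute.exists_add_pow_prime_pow_eq hℓ
    (Commute.sub_left (Commute.one_right φ) (Commute.one_right (1 : AddMonoid.End J))) m
  rw [sub_add_cancel, one_pow, mul_assoc, mul_assoc] at hr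
  rw [hr, end_add_apply, end_add_apply, end_mul_apply, AddMonoid.End.natCast_apply,
    ← map_nsmul, hx, map_zero, add_zero, AddMonoid.End.one_apply]

/-- If the chain stabilises at `j`, every element of `K i` lies in `K j`. -/
private theorem tK_stable {J : Type*} [AddCommGroup J] (φ : AddMonoid.End J) (ℓ j : ℕ)
    (hj : tK φ ℓ (j + 1) ≤ tK φ ℓ j) (i : ℕ) : tK φ ℓ (j + i) ≤ tK φ ℓ j := by
  induction i with
  | zero => exact le_rfl
  | succ i ih =>
    intro x hx
    refine ih ?_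
    rw [mem_tK] at hx ⊢
    refine ⟨hx.1, ?_⟩
    have h1 : ((φ - 1) ^ i) x ∈ tK φ ℓ (j + 1) := by
      rw [mem_tK]
      refine ⟨by rw [← map_nsmul, hx.1, map_zero], ?_⟩
      rw [← end_mul_apply, ← pow_add, show j + 1 + i = j + (i + 1) by ring]
      exact hx.2
    have h2 := (mem_tK.1 (hj h1)).2
    rw [← end_mul_apply, ← pow_add] at h2
    exact h2

private theorem tK_finite {J : Type*} [AddCommGroup J] {φ : AddMonoid.End J} {ℓ N c : ℕ}
    (hℓ : ℓ.Prime) (h : Tower φ ℓ N c) (m : ℕ) :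
    Finite (tK φ ℓ (ℓ ^ m)) ∧ Nat.card (tK φ ℓ (ℓ ^ m)) ≤ ℓ ^ (c + N * m) := by
  have hcard := h.card m
  have hpos : 0 < ℓ ^ (c + N * m) := pow_pos hℓ.pos _
  have hfin : Finite {x : J // (φ ^ ℓ ^ m) x = x ∧ ∃ k : ℕ, ℓ ^ k • x = 0} := by
    apply Nat.finite_of_card_ne_zero
    rw [hcard]
    exact hpos.ne'
  let f : tK φ ℓ (ℓ ^ m) → {x : J // (φ ^ ℓ ^ m) x = x ∧ ∃ k : ℕ, ℓ ^ k • x = 0} :=
    fun x => ⟨x.1, by
      have hx := mem_tK.1 x.2
      refine ⟨?_, 1, by rw [pow_one]; exact hx.1⟩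
      rw [pow_apply_tors φ hℓ m hx.1, hx.2, zero_add]⟩
  have hf : Function.Injective f := by
    intro x y hxy
    apply Subtype.ext
    exact congrArg (fun z => z.1) hxy
  refine ⟨Finite.of_injective f hf, ?_⟩
  rw [← hcard]
  exact Nat.card_le_card_of_injective f hf

private theorem tK_fin {J : Type*} [AddCommGroup J] {φ : AddMonoid.End J} {ℓ N c : ℕ}
    (hℓ : ℓ.Prime) (h : Tower φ ℓ N c) (j : ℕ) : Finite (tK φ ℓ j) := by
  have := (tK_finite hℓ h j).1
  have hle : tK φ ℓ j ≤ tK φ ℓ (ℓ ^ j) := tK_mono φ ℓ (Nat.lt_pow_self hℓ.one_lt).le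
  exact Finite.of_injective _ (AddSubgroup.inclusion_injective hle)

private theorem mem_tK_of_tors {J : Type*} [AddCommGroup J] {φ : AddMonoid.End J} {ℓ N c : ℕ}
    (hℓ : ℓ.Prime) (h : Tower φ ℓ N c) {x : J} (hx : ℓ • x = 0) : ∃ m, x ∈ tK φ ℓ (ℓ ^ m) := by
  obtain ⟨m, hm⟩ := h.ex x ⟨1, by rw [pow_one]; exact hx⟩
  refine ⟨m, mem_tK.2 ⟨hx, ?_⟩⟩
  rw [pow_apply_tors φ hℓ m hx] at hm
  exact left_eq_add.1 (by rw [add_comm]; exact hm.symm)

private theorem two_mul_card_le {J : Type*} [AddCommGroup J] {K L : AddSubgroup J} (h : K < L)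
    [Finite L] : 2 * Nat.card K ≤ Nat.card L := by
  have : Finite K := Finite.of_injective _ (AddSubgroup.inclusion_injective h.le)
  have hdvd : Nat.card K ∣ Nat.card L := AddSubgroup.card_dvd_of_le h.le
  obtain ⟨d, hd⟩ := hdvd
  have hL : 0 < Nat.card L := Nat.card_pos
  have hne : Nat.card K ≠ Nat.card L := by
    intro he
    exact h.ne (AddSubgroup.eq_of_le_of_card_ge h.le he.ge)
  have hd2 : 2 ≤ d := by
    rcases d with _ | _ | d
    · simp at hd; omega
    · simp at hd; omega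
    · omega
  rw [hd, mul_comm 2]
  exact Nat.mul_le_mul_left _ hd2

private theorem arith {ℓ N c : ℕ} (hℓ : ℓ.Prime) : ∃ m : ℕ, ℓ ^ (c + N * m) < 2 ^ ℓ ^ m := by
  set k := ℓ * (c + 2 * N) with hk
  refine ⟨2 * k, ?_⟩
  have h1 : ℓ ^ (c + N * (2 * k)) ≤ 2 ^ (ℓ * (c + N * (2 * k))) := by
    rw [pow_mul]
    exact Nat.pow_le_pow_left Nat.lt_two_pow_self.le _
  refine h1.trans_lt (Nat.pow_lt_pow_right one_lt_two ?_)
  have h2 : k < ℓ ^ k := Nat.lt_pow_self hℓ.one_lt
  have h3 : ℓ ^ (2 * k) = ℓ ^ k * ℓ ^ k := by rw [two_mul, pow_add]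
  rw [h3]
  have h4 : (k + 1) * (k + 1) ≤ ℓ ^ k * ℓ ^ k := Nat.mul_le_mul h2 h2
  refine lt_of_lt_of_le ?_ h4
  have hl : 0 < ℓ := hℓ.pos
  rcases Nat.eq_zero_or_pos (c + 2 * N) with h0 | h0
  · have hc : c = 0 := by omega
    have hN : N = 0 := by omega
    subst hc; subst hN; simp
  · have hk1 : 1 ≤ k := by rw [hk]; exact Nat.mul_pos hl h0
    have h5 : ℓ * (c + N * (2 * k)) ≤ k * k := by
      calc ℓ * (c + N * (2 * k)) ≤ ℓ * (c * k + N * (2 * k)) := by
            apply Nat.mul_le_mul_left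
            have : c * 1 ≤ c * k := Nat.mul_le_mul_left _ hk1
            omega
        _ = (ℓ * (c + 2 * N)) * k := by ring
        _ = k * k := by rw [← hk]
    nlinarith

theorem Tower.finite {J : Type*} [AddCommGroup J] {φ : AddMonoid.End J} {ℓ N c : ℕ}
    (hℓ : ℓ.Prime) (h : Tower φ ℓ N c) : {x : J | ℓ • x = 0}.Finite := by
  by_cases hst : ∃ j, tK φ ℓ (j + 1) ≤ tK φ ℓ j
  · obtain ⟨j, hj⟩ := hst
    have := tK_fin hℓ h j
    refine Set.Finite.subset (Set.toFinite (tK φ ℓ j : Set J)) ?_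
    intro x hx
    obtain ⟨m, hm⟩ := mem_tK_of_tors hℓ h hx
    exact tK_stable φ ℓ j hj (ℓ ^ m) (tK_mono φ ℓ (Nat.le_add_left _ _) hm)
  · exfalso
    push Not at hst
    have hlt : ∀ j, tK φ ℓ j < tK φ ℓ (j + 1) := fun j =>
      lt_of_le_not_ge (tK_succ φ ℓ j) (hst j)
    have hpow : ∀ j, 2 ^ j ≤ Nat.card (tK φ ℓ j) := by
      intro j
      induction j with
      | zero =>
        have := tK_fin hℓ h 0
        rw [pow_zero]
        exact Nat.card_pos
      | succ j ih =>
        have := tK_fin hℓ h (j + 1)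
        rw [pow_succ, mul_comm]
        exact (Nat.mul_le_mul_left 2 ih).trans (two_mul_card_le (hlt j))
    obtain ⟨m, hm⟩ := arith (ℓ := ℓ) (N := N) (c := c) hℓ
    exact absurd ((hpow (ℓ ^ m)).trans (tK_finite hℓ h m).2) (not_le.2 hm)

end Vale.Agent.P019P
end

section

/-!
# The order of the `ℓ`-torsion of a divisible group
-/

namespace Vale.Agent.P019P

/-- Order of a subgroup through the kernel and the image of an endomorphism. -/
theorem card_ker_map {J : Type*} [AddCommGroup J] (f : J →+ J) (P : AddSubgroup J) :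
    Nat.card P = Nat.card (P ⊓ f.ker : AddSubgroup J) * Nat.card (P.map f) := by
  set g : P →+ J := f.comp P.subtype with hg
  have h1 : Nat.card P = Nat.card (P ⧸ g.ker) * Nat.card g.ker :=
    AddSubgroup.card_eq_card_quotient_mul_card_addSubgroup _
  have h2 : Nat.card (P ⧸ g.ker) = Nat.card (P.map f) := by
    rw [Nat.card_congr (QuotientAddGroup.quotientKerEquivRange g).toEquiv]
    have h3 : g.range = P.map f := by
      ext x
      constructor
      · rintro ⟨y, rfl⟩
        exact ⟨y, y.2, rfl⟩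
      · rintro ⟨y, hy, rfl⟩
        exact ⟨⟨y, hy⟩, rfl⟩
    rw [h3]
  have h4 : Nat.card g.ker = Nat.card (P ⊓ f.ker : AddSubgroup J) := by
    refine Nat.card_congr ⟨fun x => ⟨x.1.1, x.1.2, x.2⟩, fun x => ⟨⟨x.1, x.2.1⟩, x.2.2⟩,
      fun x => rfl, fun x => rfl⟩
  rw [h1, h2, h4, mul_comm]

theorem Tower.card_tors {J : Type*} [AddCommGroup J] {φ : AddMonoid.End J} {ℓ N c : ℕ}
    (hℓ : ℓ.Prime) (h : Tower φ ℓ N c) (hdiv : ∀ x : J, ∃ y, x = ℓ • y) :
    Nat.card {x : J // ℓ • x = 0} = ℓ ^ N := by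
  classical
  -- the primary part
  let Jl : AddSubgroup J :=
    { carrier := {x | ∃ k : ℕ, ℓ ^ k • x = 0}
      zero_mem' := ⟨0, smul_zero _⟩
      add_mem' := by
        rintro x y ⟨k, hk⟩ ⟨l, hl⟩
        refine ⟨k + l, ?_⟩
        rw [smul_add, pow_add, mul_smul, mul_smul, hl, smul_zero, add_zero,
          ← mul_smul, mul_comm, mul_smul, hk, smul_zero]
      neg_mem' := by
        rintro x ⟨k, hk⟩
        exact ⟨k, by rw [smul_neg, hk, neg_zero]⟩ }
  have hJl : ∀ x, x ∈ Jl ↔ ∃ k : ℕ, ℓ ^ k • x = 0 := fun _ => Iff.rfl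
  let A : ℕ → AddSubgroup J := fun m =>
    { carrier := {x | (φ ^ ℓ ^ m) x = x ∧ x ∈ Jl}
      zero_mem' := ⟨map_zero _, Jl.zero_mem⟩
      add_mem' := by
        rintro x y ⟨h1, h2⟩ ⟨h3, h4⟩
        exact ⟨by rw [map_add, h1, h3], Jl.add_mem h2 h4⟩
      neg_mem' := by
        rintro x ⟨h1, h2⟩
        exact ⟨by rw [map_neg, h1], Jl.neg_mem h2⟩ }
  have hA : ∀ m x, x ∈ A m ↔ (φ ^ ℓ ^ m) x = x ∧ x ∈ Jl := fun _ _ => Iff.rfl
  have hcard : ∀ m, Nat.card (A m) = ℓ ^ (c + N * m) := fun m => h.card m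
  let V : AddSubgroup J :=
    { carrier := {x | ℓ • x = 0}
      zero_mem' := smul_zero _
      add_mem' := by
        rintro x y (h1 : ℓ • x = 0) (h2 : ℓ • y = 0)
        show ℓ • (x + y) = 0
        rw [smul_add, h1, h2, add_zero]
      neg_mem' := by
        rintro x (h1 : ℓ • x = 0)
        show ℓ • (-x) = 0
        rw [smul_neg, h1, neg_zero] }
  have hV : ∀ x, x ∈ V ↔ ℓ • x = 0 := fun _ => Iff.rfl
  have hVfin : (V : Set J).Finite := h.finite hℓ
  have hV2fin : {x : J | ℓ • (ℓ • x) = 0}.Finite := by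
    have e : {x : J | ℓ • (ℓ • x) = 0} ⊆ ⋃ v ∈ (V : Set J), {x : J | ℓ • x = v} := by
      intro x hx
      exact Set.mem_biUnion (x := ℓ • x) hx rfl
    refine (hVfin.biUnion fun v _ => ?_).subset e
    by_cases hv : ∃ x0 : J, ℓ • x0 = v
    · obtain ⟨x0, hx0⟩ := hv
      refine (hVfin.image (fun u => x0 + u)).subset ?_
      intro x hx
      refine ⟨x - x0, ?_, add_sub_cancel _ _⟩
      show ℓ • (x - x0) = 0
      rw [smul_sub, hx0]
      exact sub_eq_zero.2 hx
    · convert Set.finite_empty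
      ext x
      simp only [Set.mem_empty_iff_false, iff_false]
      exact fun hx => hv ⟨x, hx⟩
  -- powers fixing a point
  have hpow : ∀ (f : AddMonoid.End J) (x : J), f x = x → ∀ n : ℕ, (f ^ n) x = x := by
    intro f x hx n
    induction n with
    | zero => rfl
    | succ n ih => rw [pow_succ]; show (f ^ n) (f x) = x; rw [hx, ih]
  have hmono : ∀ (x : J) (a b : ℕ), a ≤ b → (φ ^ ℓ ^ a) x = x → (φ ^ ℓ ^ b) x = x := by
    intro x a b hab hx
    have : (φ ^ ℓ ^ b : AddMonoid.End J) = (φ ^ ℓ ^ a) ^ (ℓ ^ (b - a)) := by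
      rw [← pow_mul, ← pow_add, Nat.add_sub_cancel' hab]
    rw [this]
    exact hpow _ _ hx _
  obtain ⟨m, hm⟩ : ∃ m : ℕ, ∀ x : J, ℓ • (ℓ • x) = 0 → (φ ^ ℓ ^ m) x = x := by
    have h1 : ∀ x ∈ hV2fin.toFinset, ∃ m : ℕ, (φ ^ ℓ ^ m) x = x := by
      intro x hx
      rw [Set.Finite.mem_toFinset] at hx
      exact h.ex x ⟨2, by rw [pow_two, mul_smul]; exact hx⟩
    choose! M hM using h1
    refine ⟨hV2fin.toFinset.sup M, fun x hx => ?_⟩
    have hx' : x ∈ hV2fin.toFinset := (Set.Finite.mem_toFinset _).2 hx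
    exact hmono x _ _ (Finset.le_sup hx') (hM x hx')
  set ψ : AddMonoid.End J := φ ^ ℓ ^ m with hψ
  set δ : AddMonoid.End J := ψ - 1 with hδ
  set NN : AddMonoid.End J := ∑ i ∈ Finset.range ℓ, ψ ^ i with hNN
  let D : J →+ J := AddMonoidHom.mk' (fun x => ψ x - x) fun x y => by
    rw [map_add]; abel
  have hD : ∀ x, D x = ψ x - x := fun x => rfl
  have hψl : ψ ^ ℓ = φ ^ ℓ ^ (m + 1) := by rw [hψ, ← pow_mul, ← pow_succ]
  have hgeom : ∀ x, NN (D x) = (φ ^ ℓ ^ (m + 1)) x - x := by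
    intro x
    have e : NN * δ = ψ ^ ℓ - 1 := geom_sum_mul ψ ℓ
    have e2 : (NN * δ) x = (ψ ^ ℓ - 1) x := by rw [e]
    rw [hψl] at e2
    exact e2
  have hNNfix : ∀ w, ψ w = w → NN w = ℓ • w := by
    intro w hw
    have e : NN w = ∑ i ∈ Finset.range ℓ, (ψ ^ i) w :=
      map_sum (AddMonoidHom.eval w : (J →+ J) →+ J) (fun i => (ψ ^ i : AddMonoid.End J)) _
    rw [e, Finset.sum_congr rfl fun i _ => hpow ψ w hw i, Finset.sum_const, Finset.card_range]
  -- step (2)
  have h2 : ∀ y ∈ Jl, NN y = 0 → ℓ • y = 0 := by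
    intro y hy hNy
    by_contra hne
    have hex : ∃ k : ℕ, ℓ ^ k • y = 0 := hy
    set k := Nat.find hex with hk
    have hk0 : ℓ ^ k • y = 0 := Nat.find_spec hex
    have hkm : ∀ j < k, ℓ ^ j • y ≠ 0 := fun j hj => Nat.find_min hex hj
    have hk2 : 2 ≤ k := by
      by_contra hlt
      push Not at hlt
      have : k = 0 ∨ k = 1 := by omega
      rcases this with h0 | h1
      · rw [h0, pow_zero, one_smul] at hk0
        exact hne (by rw [hk0, smul_zero])
      · rw [h1, pow_one] at hk0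
        exact hne hk0
    have e1 : ℓ • (ℓ • (ℓ ^ (k - 2) • y)) = 0 := by
      rw [← mul_smul, ← mul_smul, mul_assoc, ← pow_succ', ← pow_succ',
        show k - 2 + 1 + 1 = k by omega]
      exact hk0
    have e2 : ℓ • (ℓ ^ (k - 2) • y) ≠ 0 := by
      rw [← mul_smul, ← pow_succ']
      exact hkm _ (by omega)
    apply e2
    rw [← hNNfix _ (hm _ e1), map_nsmul, hNy, smul_zero]
  -- the group `B`
  let B : AddSubgroup J :=
    { carrier := {x | x ∈ Jl ∧ ℓ • x ∈ A m}
      zero_mem' := ⟨Jl.zero_mem, by rw [smul_zero]; exact (A m).zero_mem⟩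
      add_mem' := by
        rintro x y ⟨h1, h3⟩ ⟨h4, h5⟩
        exact ⟨Jl.add_mem h1 h4, by rw [smul_add]; exact (A m).add_mem h3 h5⟩
      neg_mem' := by
        rintro x ⟨h1, h3⟩
        exact ⟨Jl.neg_mem h1, by rw [smul_neg]; exact (A m).neg_mem h3⟩ }
  have hB : ∀ x, x ∈ B ↔ x ∈ Jl ∧ ℓ • x ∈ A m := fun _ => Iff.rfl
  have hδJl : ∀ x ∈ Jl, D x ∈ Jl := by
    rintro x ⟨k, hk⟩
    exact ⟨k, by rw [← map_nsmul, hk, map_zero]⟩
  have hVJl : ∀ x, ℓ • x = 0 → x ∈ Jl := fun x hx => ⟨1, by rw [pow_one]; exact hx⟩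
  have hAfin : Finite (A m) := by
    refine Nat.finite_of_card_ne_zero ?_
    rw [hcard]
    exact pow_ne_zero _ hℓ.ne_zero
  have hVfin' : Finite V := hVfin
  have hApos : 0 < Nat.card (A m) := Nat.card_pos
  -- multiplication by `ℓ` on `B`
  have c1 : Nat.card B = Nat.card V * Nat.card (A m) := by
    have e := card_ker_map (nsmulAddMonoidHom ℓ : J →+ J) B
    have e1 : (B ⊓ (nsmulAddMonoidHom ℓ : J →+ J).ker : AddSubgroup J) = V := by
      ext x
      rw [AddSubgroup.mem_inf, AddMonoidHom.mem_ker, nsmulAddMonoidHom_apply, hV]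
      refine ⟨fun hx => hx.2, fun hx => ⟨⟨hVJl x hx, ?_⟩, hx⟩⟩
      rw [hx]
      exact (A m).zero_mem
    have e2 : B.map (nsmulAddMonoidHom ℓ : J →+ J) = A m := by
      ext x
      rw [AddSubgroup.mem_map]
      constructor
      · rintro ⟨y, hy, rfl⟩
        exact hy.2
      · intro hx
        obtain ⟨y, hy⟩ := hdiv x
        obtain ⟨k, hk⟩ := hx.2
        refine ⟨y, ⟨⟨k + 1, ?_⟩, ?_⟩, hy.symm⟩
        · rw [pow_succ, mul_smul, ← hy, hk]
        · rw [← hy]; exact hx
    rwa [e1, e2] at e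
  -- `δ` on `B`
  have hkerA : ∀ P : AddSubgroup J, (∀ x ∈ P, x ∈ Jl) → A m ≤ P →
      (P ⊓ D.ker : AddSubgroup J) = A m := by
    intro P hP hAP
    ext x
    rw [AddSubgroup.mem_inf, AddMonoidHom.mem_ker, hA]
    constructor
    · rintro ⟨h1, h3⟩
      exact ⟨sub_eq_zero.1 h3, hP x h1⟩
    · intro hx
      exact ⟨hAP hx, sub_eq_zero.2 hx.1⟩
  have hAB : A m ≤ B := fun x hx => ⟨hx.2, (A m).nsmul_mem hx ℓ⟩
  have c2 : Nat.card B = Nat.card (A m) * Nat.card (B.map D) := by
    have e := card_ker_map D B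
    rwa [hkerA B (fun x hx => hx.1) hAB] at e
  have hBV : B.map D ≤ V := by
    rintro _ ⟨x, hx, rfl⟩
    rw [hV]
    rw [← map_nsmul]
    exact sub_eq_zero.2 hx.2.1
  have c3 : Nat.card (B.map D) = Nat.card V := by
    have : Nat.card (A m) * Nat.card (B.map D) = Nat.card (A m) * Nat.card V := by
      rw [← c2, c1, mul_comm]
    exact Nat.eq_of_mul_eq_mul_left hApos this
  have c4 : B.map D = V := AddSubgroup.eq_of_le_of_card_ge hBV c3.ge
  -- `δ` on `A (m + 1)`
  have hAA : A m ≤ A (m + 1) := fun x hx => ⟨hmono x m (m + 1) (Nat.le_succ m) hx.1, hx.2⟩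
  have c5 : (A (m + 1)).map D = V := by
    ext y
    rw [AddSubgroup.mem_map]
    constructor
    · rintro ⟨x, hx, rfl⟩
      rw [hV]
      refine h2 _ (hδJl x hx.2) ?_
      have := hgeom x
      rw [hx.1, sub_self] at this
      exact this
    · intro hy
      have hy' : y ∈ B.map D := by rw [c4]; exact hy
      obtain ⟨x, hx, rfl⟩ := hy'
      refine ⟨x, ⟨?_, hx.1⟩, rfl⟩
      have e1 : ψ (D x) = D x := hm _ (by
        have : ℓ • D x = 0 := hy
        rw [this, smul_zero])
      have e2 := hNNfix _ e1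
      rw [hgeom] at e2
      have e3 : ℓ • D x = 0 := hy
      rw [e3] at e2
      exact sub_eq_zero.1 e2
  have c6 : Nat.card (A (m + 1)) = Nat.card (A m) * Nat.card V := by
    have e := card_ker_map D (A (m + 1))
    rwa [hkerA (A (m + 1)) (fun x hx => hx.2) hAA, c5] at e
  rw [hcard, hcard, mul_add, mul_one, ← add_assoc, pow_add] at c6
  exact (Nat.eq_of_mul_eq_mul_left (pow_pos hℓ.pos _) c6).symm

end Vale.Agent.P019P
end

section

/-!
# The quotient of a tower group by `ℓ` is finite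
-/

namespace Vale.Agent.P019P

theorem fq_pow_fix {J : Type*} [AddCommGroup J] {f : AddMonoid.End J} {x : J}
    (h : f x = x) (n : ℕ) : (f ^ n) x = x := by
  induction n with
  | zero => rfl
  | succ n ih =>
    rw [pow_succ]
    show (f ^ n) (f x) = x
    rw [h, ih]

theorem fq_mono {J : Type*} [AddCommGroup J] {φ : AddMonoid.End J} {ℓ : ℕ} {x : J}
    {m m' : ℕ} (hm : m ≤ m') (h : (φ ^ ℓ ^ m) x = x) : (φ ^ ℓ ^ m') x = x := by
  obtain ⟨d, rfl⟩ := Nat.exists_eq_add_of_le hm
  rw [pow_add ℓ, pow_mul]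
  exact fq_pow_fix h _

/-- the `ℓ`-primary fixed group at level `m`. -/
def fqA {J : Type*} [AddCommGroup J] (φ : AddMonoid.End J) (ℓ m : ℕ) : AddSubgroup J where
  carrier := {x | (φ ^ ℓ ^ m) x = x ∧ ∃ k : ℕ, ℓ ^ k • x = 0}
  zero_mem' := ⟨map_zero _, 0, smul_zero _⟩
  add_mem' := by
    rintro a b ⟨ha, k, hk⟩ ⟨hb, k', hk'⟩
    refine ⟨by rw [map_add, ha, hb], k + k', ?_⟩
    rw [smul_add, pow_add, mul_smul, smul_comm, hk, smul_zero, mul_smul, hk', smul_zero, add_zero]
  neg_mem' := by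
    rintro a ⟨ha, k, hk⟩
    exact ⟨by rw [map_neg, ha], k, by rw [smul_neg, hk, neg_zero]⟩

/-- the map of the level-`m` group to the quotient. -/
def fqF {J : Type*} [AddCommGroup J] (φ : AddMonoid.End J) (ℓ m : ℕ) :
    fqA φ ℓ m →+ (J ⧸ (nsmulAddMonoidHom ℓ : J →+ J).range) :=
  (QuotientAddGroup.mk' _).comp (fqA φ ℓ m).subtype

theorem fq_card {J : Type*} [AddCommGroup J] {φ : AddMonoid.End J} {ℓ N c : ℕ}
    (hℓ : ℓ.Prime) (h : Tower φ ℓ N c) (m : ℕ) :
    Nat.card (fqF φ ℓ m).range ≤ Nat.card {x : J // ℓ • x = 0} ∧ Finite (fqF φ ℓ m).range := by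
  have hV : Finite {x : J // ℓ • x = 0} := (Tower.finite hℓ h).to_subtype
  have hA : Nat.card (fqA φ ℓ m) = ℓ ^ (c + N * m) := h.card m
  have hAf : Finite (fqA φ ℓ m) := by
    apply Nat.finite_of_card_ne_zero
    rw [hA]
    exact pow_ne_zero _ hℓ.pos.ne'
  have hfr : Finite (fqF φ ℓ m).range :=
    Finite.of_surjective (fqF φ ℓ m).rangeRestrict (fqF φ ℓ m).rangeRestrict_surjective
  refine ⟨?_, hfr⟩
  set g : fqA φ ℓ m →+ fqA φ ℓ m := nsmulAddMonoidHom ℓ with hg
  have h1 := g.range.card_mul_index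
  have h2 := g.ker.card_mul_index
  rw [AddSubgroup.index_ker] at h2
  have h3 : g.range.index = Nat.card g.ker := by
    have hpos : 0 < Nat.card g.range := Nat.card_pos
    have : Nat.card g.range * g.range.index = Nat.card g.range * Nat.card g.ker := by
      rw [h1, ← h2, mul_comm]
    exact Nat.eq_of_mul_eq_mul_left hpos this
  have h4 : g.range ≤ (fqF φ ℓ m).ker := by
    rintro _ ⟨a, rfl⟩
    rw [AddMonoidHom.mem_ker]
    show (QuotientAddGroup.mk' _) (((g a : fqA φ ℓ m)) : J) = 0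
    rw [QuotientAddGroup.mk'_apply, QuotientAddGroup.eq_zero_iff]
    exact ⟨(a : J), by simp [hg]⟩
  have h5 : (fqF φ ℓ m).ker.index ∣ g.range.index := AddSubgroup.index_dvd_of_le h4
  have h6 : g.range.index ≠ 0 := by
    rw [h3]; exact Nat.card_pos.ne'
  have h7 := Nat.le_of_dvd (Nat.pos_of_ne_zero h6) h5
  rw [AddSubgroup.index_ker, h3] at h7
  refine h7.trans ?_
  refine Nat.card_le_card_of_injective
    (fun a : g.ker => (⟨((a : fqA φ ℓ m) : J), ?_⟩ : {x : J // ℓ • x = 0})) ?_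
  · have := a.2
    rw [AddMonoidHom.mem_ker] at this
    have h8 := congrArg (fun z : fqA φ ℓ m => (z : J)) this
    simpa [hg] using h8
  · intro a b hab
    have := congrArg Subtype.val hab
    exact Subtype.ext (Subtype.ext this)

theorem fq_exists {J : Type*} [AddCommGroup J] {φ : AddMonoid.End J} {ℓ N c : ℕ}
    (hℓ : ℓ.Prime) (h : Tower φ ℓ N c) (htor : ∀ x : J, ∃ n : ℕ, 0 < n ∧ n • x = 0)
    (q : J ⧸ (nsmulAddMonoidHom ℓ : J →+ J).range) :
    ∃ m : ℕ, q ∈ (fqF φ ℓ m).range := by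
  obtain ⟨x, rfl⟩ := QuotientAddGroup.mk_surjective q
  obtain ⟨n, hn, hnx⟩ := htor x
  obtain ⟨a, b, hb, rfl⟩ := Nat.exists_eq_pow_mul_and_not_dvd hn.ne' ℓ hℓ.ne_one
  have hcop : Nat.Coprime b ℓ := ((Nat.Prime.coprime_iff_not_dvd hℓ).2 hb).symm
  have hbez := Nat.gcd_eq_gcd_ab b ℓ
  rw [hcop.gcd_eq_one] at hbez
  set u := Nat.gcdA b ℓ
  set v := Nat.gcdB b ℓ
  set y : J := (b : ℤ) • (u • x) with hy
  have hxy : x = y + ℓ • (v • x) := by
    have : ((1 : ℕ) : ℤ) • x = ((b : ℤ) * u + (ℓ : ℤ) * v) • x := by rw [← hbez]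
    rw [add_smul, mul_smul, mul_smul, Nat.cast_one, one_smul] at this
    rw [hy, ← natCast_zsmul (v • x) ℓ]
    exact this
  have hk : ℓ ^ a • y = 0 := by
    have : ℓ ^ a • y = u • ((ℓ ^ a * b) • x) := by
      rw [hy, ← natCast_zsmul _ (ℓ ^ a), ← natCast_zsmul x, ← mul_smul, ← mul_smul, ← mul_smul]
      congr 1
      push_cast
      ring
    rw [this, hnx, smul_zero]
  obtain ⟨m, hm⟩ := h.ex y ⟨a, hk⟩
  refine ⟨m, ⟨⟨y, hm, a, hk⟩, ?_⟩⟩
  show (QuotientAddGroup.mk' _) y = _
  rw [QuotientAddGroup.mk'_apply, QuotientAddGroup.eq]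
  refine ⟨v • x, ?_⟩
  rw [nsmulAddMonoidHom_apply]
  nth_rewrite 2 [hxy]
  abel

theorem Tower.finite_quotA {J : Type*} [AddCommGroup J] {φ : AddMonoid.End J} {ℓ N c : ℕ}
    (hℓ : ℓ.Prime) (h : Tower φ ℓ N c) (htor : ∀ x : J, ∃ n : ℕ, 0 < n ∧ n • x = 0) :
    Finite (J ⧸ (nsmulAddMonoidHom ℓ : J →+ J).range) := by
  by_contra hinf
  have hinf' : Infinite (J ⧸ (nsmulAddMonoidHom ℓ : J →+ J).range) :=
    not_finite_iff_infinite.1 hinf
  obtain ⟨S, hS⟩ := Infinite.exists_subset_card_eq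
    (J ⧸ (nsmulAddMonoidHom ℓ : J →+ J).range) (Nat.card {x : J // ℓ • x = 0} + 1)
  choose M hM using fun q => fq_exists hℓ h htor q
  set m := S.sup M with hm
  have hsub : ∀ q ∈ S, q ∈ (fqF φ ℓ m).range := by
    intro q hq
    obtain ⟨⟨y, hy1, hy2⟩, hyq⟩ := hM q
    exact ⟨⟨y, fq_mono (Finset.le_sup hq) hy1, hy2⟩, hyq⟩
  obtain ⟨hc, hfin⟩ := fq_card hℓ h m
  have hle : S.card ≤ Nat.card (fqF φ ℓ m).range := by
    have := Nat.card_le_card_of_injective
      (fun q : S => (⟨q.1, hsub q.1 q.2⟩ : (fqF φ ℓ m).range))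
      (fun a b hab => Subtype.ext (congrArg (fun z : (fqF φ ℓ m).range => z.1) hab))
    simpa using this
  omega

end Vale.Agent.P019P
end

section

/-!
# A companion matrix
-/

namespace Vale.Agent.P019P

open Polynomial

theorem zm_exists_matrix (N : ℕ) (f : ℤ[X]) (hf : f.natDegree ≤ N) (h0 : f.coeff 0 = 1) :
    ∃ M : Matrix (Fin N) (Fin N) ℤ, M.charpolyRev = f ∧ M.det = (-1) ^ N * f.coeff N := by
  set p : ℤ[X] := reflect N f with hp
  have hpc : p.coeff N = 1 := by
    rw [hp, coeff_reflect, revAt_le (le_refl N), Nat.sub_self, h0]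
  have hpd : p.natDegree ≤ N := by
    rw [natDegree_le_iff_coeff_eq_zero]
    intro k hk
    rw [hp, coeff_reflect, revAt_eq_self_of_lt hk]
    exact coeff_eq_zero_of_natDegree_lt (lt_of_le_of_lt hf hk)
  have hpN : p.natDegree = N :=
    le_antisymm hpd (le_natDegree_of_ne_zero (by rw [hpc]; exact one_ne_zero))
  have hm : p.Monic := by
    rw [Monic, leadingCoeff, hpN, hpc]
  let pb := AdjoinRoot.powerBasis' hm
  have hdim : pb.dim = N := by
    rw [AdjoinRoot.powerBasis'_dim, hpN]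
  let b : Module.Basis (Fin N) ℤ (AdjoinRoot p) := pb.basis.reindex (finCongr hdim)
  have : Module.Free ℤ (AdjoinRoot p) := Module.Free.of_basis b
  have : Module.Finite ℤ (AdjoinRoot p) := Module.Finite.of_basis b
  let T : AdjoinRoot p →ₗ[ℤ] AdjoinRoot p := Algebra.lmul ℤ (AdjoinRoot p) (AdjoinRoot.root p)
  have hTm : T.charpoly.Monic := T.charpoly_monic
  have hTd : T.charpoly.natDegree = N := by
    rw [LinearMap.charpoly_natDegree, Module.finrank_eq_card_basis b, Fintype.card_fin]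
  have hT0 : aeval T T.charpoly = 0 := LinearMap.aeval_self_charpoly T
  have hdvd : p ∣ T.charpoly := by
    rw [← AdjoinRoot.mk_eq_zero]
    have h1 : aeval T T.charpoly = Algebra.lmul ℤ (AdjoinRoot p)
        (aeval (AdjoinRoot.root p) T.charpoly) := by
      rw [← aeval_algHom_apply]
    have h2 : aeval (AdjoinRoot.root p) T.charpoly = 0 := by
      have h3 := congrArg (fun g : AdjoinRoot p →ₗ[ℤ] AdjoinRoot p => g 1) (h1.symm.trans hT0)
      simpa using h3
    rw [← h2, AdjoinRoot.aeval_eq]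
  have heq : T.charpoly = p := by
    refine eq_of_monic_of_dvd_of_natDegree_le hm hTm hdvd ?_
    rw [hTd, hpN]
  let M := LinearMap.toMatrix b b T
  have hM : M.charpoly = p := by
    rw [← heq]
    exact LinearMap.charpoly_toMatrix T b
  refine ⟨M, ?_, ?_⟩
  · rw [← Matrix.reverse_charpoly, hM, reverse, hpN, hp, reflect_reflect]
  · rw [Matrix.det_eq_sign_charpoly_coeff, hM, Fintype.card_fin, hp, coeff_reflect,
      revAt_le (Nat.zero_le N), Nat.sub_zero]

end Vale.Agent.P019P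
end

section

/-!
# The determinant of `1 - M ^ n`
-/

namespace Vale.Agent.P019P

open Polynomial

theorem one_sub_pow_eq_prod_roots (n : ℕ) (hn : 0 < n) :
    (1 - X ^ n : ℂ[X]) = ∏ z ∈ nthRootsFinset n (1 : ℂ), (1 - C z * X) := by
  have hζ := Complex.isPrimitiveRoot_exp n hn.ne'
  have hζ' : IsPrimitiveRoot (C (Complex.exp (2 * Real.pi * Complex.I / n))) n :=
    hζ.map_of_injective (f := (C : ℂ →+* ℂ[X])) C_injective
  have h := hζ'.pow_sub_pow_eq_prod_sub_mul (1 : ℂ[X]) X hn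
  rw [one_pow] at h
  rw [h]
  symm
  refine Finset.prod_bij (fun z _ => C z) ?_ ?_ ?_ ?_
  · intro z hz
    rw [mem_nthRootsFinset hn] at hz ⊢
    rw [← C_pow, hz, C_1]
  · intro a _ b _ hab
    exact C_injective hab
  · intro q hq
    rw [mem_nthRootsFinset hn] at hq
    have hdeg : q.natDegree = 0 := by
      have h1 := congrArg natDegree hq
      rw [natDegree_pow, natDegree_one] at h1
      rcases Nat.mul_eq_zero.1 h1 with h2 | h2
      · omega
      · exact h2
    obtain ⟨z, rfl⟩ := natDegree_eq_zero.1 hdeg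
    refine ⟨z, ?_, rfl⟩
    rw [mem_nthRootsFinset hn]
    apply C_injective
    rw [C_pow, hq, C_1]
  · intro z _
    rfl

theorem eval_charpolyRev' {N : ℕ} (M : Matrix (Fin N) (Fin N) ℂ) (z : ℂ) :
    eval z M.charpolyRev = (1 - z • M).det := by
  rw [Matrix.charpolyRev, ← coe_evalRingHom, RingHom.map_det]
  congr 1
  ext i j
  simp [Matrix.one_apply, apply_ite (eval z)]
  exact mul_comm _ _

theorem charpolyRev_map {N : ℕ} (M : Matrix (Fin N) (Fin N) ℤ) :
    M.charpolyRev.map (Int.castRingHom ℂ) = (M.map (Int.castRingHom ℂ)).charpolyRev := by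
  rw [Matrix.charpolyRev, Matrix.charpolyRev, ← coe_mapRingHom, RingHom.map_det]
  congr 1
  ext i j
  simp [Matrix.one_apply, apply_ite (Polynomial.map (Int.castRingHom ℂ))]

theorem det_one_sub_pow {N : ℕ} (M : Matrix (Fin N) (Fin N) ℤ) (A : Multiset ℂ)
    (hA : M.charpolyRev.map (Int.castRingHom ℂ) = (A.map fun a => 1 - C a * X).prod) (n : ℕ)
    (hn : 0 < n) : (((1 - M ^ n).det : ℤ) : ℂ) = (A.map fun a => 1 - a ^ n).prod := by
  set MC := M.map (Int.castRingHom ℂ) with hMC
  have e1 : (((1 - M ^ n).det : ℤ) : ℂ) = (1 - MC ^ n).det := by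
    have := RingHom.map_det (Int.castRingHom ℂ) (1 - M ^ n)
    rw [eq_intCast] at this
    rw [this, map_sub, map_one, map_pow]
    rfl
  have e2 : (1 - MC ^ n) = aeval MC (∏ z ∈ nthRootsFinset n (1 : ℂ), (1 - C z * X)) := by
    rw [← one_sub_pow_eq_prod_roots n hn]
    simp
  let D : ℂ[X] →* ℂ := (Matrix.detMonoidHom : Matrix (Fin N) (Fin N) ℂ →* ℂ).comp
    (aeval MC : ℂ[X] →ₐ[ℂ] Matrix (Fin N) (Fin N) ℂ).toRingHom.toMonoidHom
  have e3 : (1 - MC ^ n).det = ∏ z ∈ nthRootsFinset n (1 : ℂ), D (1 - C z * X) := by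
    rw [e2, ← map_prod]
    rfl
  have e4 : ∀ z : ℂ, D (1 - C z * X) = (A.map fun a => 1 - a * z).prod := by
    intro z
    have h1 : D (1 - C z * X) = (1 - z • MC).det := by
      show (aeval MC (1 - C z * X)).det = _
      congr 1
      simp [Algebra.smul_def]
    rw [h1, ← eval_charpolyRev', ← charpolyRev_map, hA, ← coe_evalRingHom, map_multiset_prod,
      Multiset.map_map]
    congr 1
    refine Multiset.map_congr rfl fun a _ => ?_
    simp
  have hζ := Complex.isPrimitiveRoot_exp n hn.ne'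
  rw [e1, e3]
  simp_rw [e4]
  clear hA e1 e2 e3 e4 D
  induction A using Multiset.induction with
  | empty => simp
  | cons a A ih =>
    simp only [Multiset.map_cons, Multiset.prod_cons, Finset.prod_mul_distrib]
    rw [ih]
    congr 1
    have h := hζ.pow_sub_pow_eq_prod_sub_mul 1 a hn
    rw [one_pow] at h
    rw [h]
    exact Finset.prod_congr rfl fun z _ => by ring

end Vale.Agent.P019P
end

section

set_option linter.all false

/-!
# Classes unramified outside a finite set: abstract count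
-/

namespace Vale.Agent.P019P

namespace AuxFAbs

theorem card_range_eq {G A B : Type*} [AddCommGroup G] [AddCommGroup A] [AddCommGroup B]
    (a : G →+ A) (b : G →+ B) (h : a.ker = b.ker) :
    Nat.card a.range = Nat.card b.range := by
  rw [← AddSubgroup.index_ker, ← AddSubgroup.index_ker, h]

/-- elements of `prin` divisible by `ℓ` outside `T`. -/
def BT {P : Type*} (prin : AddSubgroup (P →₀ ℤ)) (ℓ : ℕ) (T : Finset P) : AddSubgroup prin where
  carrier := {D | ∀ p, p ∉ T → (ℓ : ℤ) ∣ (D : P →₀ ℤ) p}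
  zero_mem' := by
    intro p _
    simp
  add_mem' := by
    intro a b ha hb p hp
    have := dvd_add (ha p hp) (hb p hp)
    simpa using this
  neg_mem' := by
    intro a ha p hp
    have := (ha p hp)
    simpa using this

theorem mem_BT {P : Type*} {prin : AddSubgroup (P →₀ ℤ)} {ℓ : ℕ} {T : Finset P} {D : prin} :
    D ∈ BT prin ℓ T ↔ ∀ p, p ∉ T → (ℓ : ℤ) ∣ (D : P →₀ ℤ) p := Iff.rfl

theorem card_A {P : Type*} (prin : AddSubgroup (P →₀ ℤ)) {ℓ : ℕ}
    {W : Type*} [AddCommGroup W] (f : prin →+ W) (T : Finset P) :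
    Nat.card {v : W // ∃ D : prin, f D = v ∧ ∀ p, p ∉ T → (ℓ : ℤ) ∣ (D : P →₀ ℤ) p} =
      f.ker.relIndex (BT prin ℓ T) := by
  rw [AddSubgroup.relIndex_ker]
  apply Nat.card_congr
  refine Equiv.subtypeEquivRight ?_
  intro v
  constructor
  · rintro ⟨D, h1, h2⟩
    exact ⟨D, h2, h1⟩
  · rintro ⟨D, h1, h2⟩
    exact ⟨D, h2, h1⟩

/-- division of a divisor by `ℓ`. -/
theorem exists_div {P : Type*} {ℓ : ℕ} (hℓ : ℓ ≠ 0) (D : P →₀ ℤ) (h : ∀ p, (ℓ : ℤ) ∣ D p) :
    ∃ E : P →₀ ℤ, D = ℓ • E := by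
  refine ⟨D.mapRange (fun x => x / (ℓ : ℤ)) (by simp), ?_⟩
  ext p
  have h1 := h p
  rw [Finsupp.smul_apply, Finsupp.mapRange_apply, nsmul_eq_mul]
  exact (Int.mul_ediv_cancel' h1).symm

theorem smul_inj {P : Type*} {ℓ : ℕ} (hℓ : ℓ ≠ 0) {D E : P →₀ ℤ} (h : ℓ • D = ℓ • E) : D = E := by
  ext p
  have h1 := DFunLike.congr_fun h p
  rw [Finsupp.smul_apply, Finsupp.smul_apply, nsmul_eq_mul, nsmul_eq_mul] at h1
  exact mul_left_cancel₀ (by exact_mod_cast hℓ) h1

theorem card_empty {P : Type*} (prin : AddSubgroup (P →₀ ℤ)) {ℓ : ℕ}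
    (hℓ : ℓ ≠ 0) {W : Type*} [AddCommGroup W] (f : prin →+ W)
    (hk : ∀ D : prin, f D = 0 ↔ ∃ E : prin, D = ℓ • E) :
    f.ker.relIndex (BT prin ℓ ∅) = Nat.card {x : (P →₀ ℤ) ⧸ prin // ℓ • x = 0} := by
  classical
  let K : AddSubgroup (P →₀ ℤ) := prin.comap (nsmulAddMonoidHom (α := P →₀ ℤ) ℓ)
  have hKmem : ∀ E : P →₀ ℤ, E ∈ K ↔ ℓ • E ∈ prin := fun E => Iff.rfl
  let β0 : K →+ prin :=
    { toFun := fun E => ⟨ℓ • (E : P →₀ ℤ), E.2⟩
      map_zero' := by
        apply Subtype.ext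
        simp
      map_add' := by
        intro a b
        apply Subtype.ext
        simp }
  let β : K →+ W := f.comp β0
  let α : K →+ (P →₀ ℤ) ⧸ prin := (QuotientAddGroup.mk' prin).comp K.subtype
  have hker : α.ker = β.ker := by
    ext E
    rw [AddMonoidHom.mem_ker, AddMonoidHom.mem_ker]
    have e1 : α E = 0 ↔ (E : P →₀ ℤ) ∈ prin := by
      change (QuotientAddGroup.mk (s := prin) (E : P →₀ ℤ)) = 0 ↔ _
      exact QuotientAddGroup.eq_zero_iff _
    have e2 : β E = 0 ↔ ∃ E' : prin, β0 E = ℓ • E' := hk (β0 E)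
    rw [e1, e2]
    constructor
    · intro h
      refine ⟨⟨E, h⟩, ?_⟩
      apply Subtype.ext
      rfl
    · rintro ⟨E', h'⟩
      have h3 : ℓ • (E : P →₀ ℤ) = ℓ • (E' : P →₀ ℤ) := by
        have := congrArg (Subtype.val) h'
        exact this
      rw [smul_inj hℓ h3]
      exact E'.2
  have h1 := card_range_eq α β hker
  have h2 : Nat.card {x : (P →₀ ℤ) ⧸ prin // ℓ • x = 0} = Nat.card α.range := by
    apply Nat.card_congr
    refine Equiv.subtypeEquivRight ?_
    intro x
    constructor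
    · intro hx
      obtain ⟨E, rfl⟩ := QuotientAddGroup.mk_surjective x
      have hE : E ∈ K := by
        rw [hKmem, ← QuotientAddGroup.eq_zero_iff]
        exact hx
      exact ⟨⟨E, hE⟩, rfl⟩
    · rintro ⟨E, rfl⟩
      change ℓ • (QuotientAddGroup.mk (s := prin) (E : P →₀ ℤ)) = 0
      have : (QuotientAddGroup.mk (s := prin) (ℓ • (E : P →₀ ℤ))) = 0 :=
        (QuotientAddGroup.eq_zero_iff _).2 E.2
      exact this
  have h3 : f.ker.relIndex (BT prin ℓ ∅) = Nat.card β.range := by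
    rw [AddSubgroup.relIndex_ker]
    congr 1
    have : (BT prin ℓ ∅).map f = β.range := by
      ext v
      constructor
      · rintro ⟨D, hD, rfl⟩
        have hD' : ∀ p, (ℓ : ℤ) ∣ (D : P →₀ ℤ) p := fun p => hD p (by simp)
        obtain ⟨E, hE⟩ := exists_div hℓ (D : P →₀ ℤ) hD'
        have hEK : E ∈ K := by
          rw [hKmem, ← hE]
          exact D.2
        refine ⟨⟨E, hEK⟩, ?_⟩
        change f (β0 ⟨E, hEK⟩) = f D
        congr 1
        apply Subtype.ext
        exact hE.symm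
      · rintro ⟨E, rfl⟩
        refine ⟨β0 E, ?_, rfl⟩
        intro p _
        change (ℓ : ℤ) ∣ (ℓ • (E : P →₀ ℤ)) p
        rw [Finsupp.smul_apply, nsmul_eq_mul]
        exact dvd_mul_right _ _
    rw [this]
  rw [h3, ← h1, h2]

/-- reduction on `T`. -/
def red {P : Type*} (prin : AddSubgroup (P →₀ ℤ)) (ℓ : ℕ) (T : Finset P) :
    prin →+ (T → ZMod ℓ) where
  toFun D := fun p => (((D : P →₀ ℤ) p : ℤ) : ZMod ℓ)
  map_zero' := by
    ext p
    simp
  map_add' := by
    intro a b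
    ext p
    simp

/-- the sum map. -/
def sm {P : Type*} (ℓ : ℕ) (T : Finset P) : (T → ZMod ℓ) →+ ZMod ℓ where
  toFun c := ∑ p, c p
  map_zero' := by simp
  map_add' := by
    intro a b
    simp [Finset.sum_add_distrib]

theorem card_ker_sm {P : Type*} {ℓ : ℕ} (hℓ : ℓ.Prime) (T : Finset P) (t0 : P) (ht : t0 ∈ T) :
    Nat.card (sm (P := P) ℓ T).ker = ℓ ^ (T.card - 1) := by
  classical
  haveI : NeZero ℓ := ⟨hℓ.ne_zero⟩
  have h1 := AddSubgroup.card_mul_index (sm (P := P) ℓ T).ker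
  rw [AddSubgroup.index_ker] at h1
  have h2 : (sm (P := P) ℓ T).range = ⊤ := by
    rw [AddMonoidHom.range_eq_top]
    intro x
    refine ⟨fun p => if p = ⟨t0, ht⟩ then x else 0, ?_⟩
    change ∑ p : T, (if p = ⟨t0, ht⟩ then x else 0) = x
    simp
  rw [h2] at h1
  have h3 : Nat.card (⊤ : AddSubgroup (ZMod ℓ)) = ℓ := by
    rw [AddSubgroup.card_top, Nat.card_zmod]
  have h4 : Nat.card (T → ZMod ℓ) = ℓ ^ T.card := by
    rw [Nat.card_fun, Nat.card_zmod, Nat.card_eq_fintype_card, Fintype.card_coe]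
  rw [h3, h4] at h1
  have h5 : T.card = (T.card - 1) + 1 := by
    have : 0 < T.card := Finset.card_pos.2 ⟨t0, ht⟩
    omega
  rw [h5, pow_succ] at h1
  exact Nat.eq_of_mul_eq_mul_right hℓ.pos (by simpa using h1)

theorem dg_single {P : Type*} (p : P) (a : ℤ) : dg (Finsupp.single p a) = a := by
  simp [dg]

theorem dg_eq {P : Type*} (D : P →₀ ℤ) : dg D = ∑ p ∈ D.support, D p := by
  simp [dg, Finsupp.sum]

theorem dg_mod {P : Type*} {ℓ : ℕ} (T : Finset P) (D : P →₀ ℤ) (h : ∀ p, p ∉ T → (ℓ : ℤ) ∣ D p) :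
    (dg D : ZMod ℓ) = ∑ p ∈ T, ((D p : ℤ) : ZMod ℓ) := by
  classical
  rw [dg_eq]
  push_cast
  have h1 : ∑ p ∈ D.support, ((D p : ℤ) : ZMod ℓ) =
      ∑ p ∈ D.support ∪ T, ((D p : ℤ) : ZMod ℓ) := by
    apply Finset.sum_subset Finset.subset_union_left
    intro p _ hp
    rw [Finsupp.notMem_support_iff.1 hp]
    simp
  have h2 : ∑ p ∈ T, ((D p : ℤ) : ZMod ℓ) =
      ∑ p ∈ D.support ∪ T, ((D p : ℤ) : ZMod ℓ) := by
    apply Finset.sum_subset Finset.subset_union_right
    intro p _ hp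
    exact (ZMod.intCast_zmod_eq_zero_iff_dvd _ _).2 (h p hp)
  rw [h1, h2]

theorem map_red {P : Type*} (prin : AddSubgroup (P →₀ ℤ)) (h0 : ∀ D ∈ prin, dg D = 0) {ℓ : ℕ}
    (hℓ : ℓ.Prime) (hdiv : ∀ D : P →₀ ℤ, dg D = 0 → ∃ E : P →₀ ℤ, dg E = 0 ∧ D - ℓ • E ∈ prin)
    (T : Finset P) (t0 : P) (ht : t0 ∈ T) :
    (BT prin ℓ T).map (red prin ℓ T) = (sm (P := P) ℓ T).ker := by
  classical
  haveI : NeZero ℓ := ⟨hℓ.ne_zero⟩
  ext c
  rw [AddMonoidHom.mem_ker]
  constructor
  · rintro ⟨D, hD, rfl⟩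
    change ∑ p : T, (((D : P →₀ ℤ) p : ℤ) : ZMod ℓ) = 0
    have h1 := dg_mod (ℓ := ℓ) T (D : P →₀ ℤ) hD
    rw [h0 _ D.2] at h1
    rw [Finset.sum_coe_sort T (fun p => (((D : P →₀ ℤ) p : ℤ) : ZMod ℓ)), ← h1]
    simp
  · intro hc
    change ∑ p : T, c p = 0 at hc
    let a : P → ℤ := fun p => if h : p ∈ T then ((c ⟨p, h⟩).val : ℤ) else 0
    let S : ℤ := ∑ p ∈ T, a p
    let D0 : P →₀ ℤ := ∑ p ∈ T, Finsupp.single p (a p)
    let D : P →₀ ℤ := D0 - Finsupp.single t0 S
    have ha : ∀ p (h : p ∈ T), ((a p : ℤ) : ZMod ℓ) = c ⟨p, h⟩ := by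
      intro p h
      simp [a, h]
    have hS : ((S : ℤ) : ZMod ℓ) = 0 := by
      rw [← hc]
      change (((∑ p ∈ T, a p : ℤ)) : ZMod ℓ) = _
      push_cast
      rw [← Finset.sum_coe_sort T]
      apply Finset.sum_congr rfl
      intro p _
      exact ha p p.2
    have hdg : dg D = 0 := by
      change dg (D0 - Finsupp.single t0 S) = 0
      rw [map_sub, dg_single]
      change dg (∑ p ∈ T, Finsupp.single p (a p)) - S = 0
      rw [map_sum]
      simp only [dg_single]
      exact sub_self _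
    have hD0 : ∀ p, D0 p = a p := by
      intro p
      change (∑ q ∈ T, Finsupp.single q (a q)) p = a p
      rw [Finsupp.finset_sum_apply]
      by_cases h : p ∈ T
      · rw [Finset.sum_eq_single p]
        · simp
        · intro q _ hq
          simp [Finsupp.single_apply, hq]
        · intro h'
          exact absurd h h'
      · rw [Finset.sum_eq_zero]
        · simp [a, h]
        · intro q hq
          have : q ≠ p := by
            rintro rfl
            exact h hq
          simp [Finsupp.single_apply, this]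
    have hDp : ∀ p, ((D p : ℤ) : ZMod ℓ) = ((a p : ℤ) : ZMod ℓ) := by
      intro p
      change (((D0 - Finsupp.single t0 S) p : ℤ) : ZMod ℓ) = _
      rw [Finsupp.sub_apply, hD0, Finsupp.single_apply]
      push_cast
      split_ifs with h
      · rw [hS, sub_zero]
      · simp
    obtain ⟨E, -, hE⟩ := hdiv D hdg
    have hD' : ∀ p, (((D - ℓ • E) p : ℤ) : ZMod ℓ) = ((a p : ℤ) : ZMod ℓ) := by
      intro p
      rw [Finsupp.sub_apply, Finsupp.smul_apply, nsmul_eq_mul]
      push_cast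
      rw [hDp]
      simp
    refine ⟨⟨D - ℓ • E, hE⟩, ?_, ?_⟩
    · intro p hp
      apply (ZMod.intCast_zmod_eq_zero_iff_dvd _ _).1
      change (((D - ℓ • E) p : ℤ) : ZMod ℓ) = 0
      rw [hD' p]
      simp [a, hp]
    · funext p
      change (((D - ℓ • E) p : ℤ) : ZMod ℓ) = c p
      rw [hD' p, ha p p.2]

theorem inf_eq {P : Type*} (prin : AddSubgroup (P →₀ ℤ)) (ℓ : ℕ) (T : Finset P) :
    (red prin ℓ T).ker ⊓ BT prin ℓ T = BT prin ℓ ∅ := by
  ext D
  rw [AddSubgroup.mem_inf, AddMonoidHom.mem_ker, mem_BT, mem_BT]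
  constructor
  · rintro ⟨h1, h2⟩ p _
    by_cases hp : p ∈ T
    · have h3 := congrFun h1 ⟨p, hp⟩
      exact (ZMod.intCast_zmod_eq_zero_iff_dvd _ _).1 h3
    · exact h2 p hp
  · intro h
    refine ⟨?_, fun p _ => h p (by simp)⟩
    funext p
    exact (ZMod.intCast_zmod_eq_zero_iff_dvd _ _).2 (h p (by simp))

end AuxFAbs

open AuxFAbs in
/-- the number of classes whose divisor is divisible by `ℓ` outside `T`. -/
theorem card_abs {P : Type*} (prin : AddSubgroup (P →₀ ℤ)) (h0 : ∀ D ∈ prin, dg D = 0) {ℓ : ℕ}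
    (hℓ : ℓ.Prime) (hdiv : ∀ D : P →₀ ℤ, dg D = 0 → ∃ E : P →₀ ℤ, dg E = 0 ∧ D - ℓ • E ∈ prin)
    {g : ℕ} (hcard : Nat.card {x : (P →₀ ℤ) ⧸ prin // ℓ • x = 0} = ℓ ^ (2 * g))
    {W : Type*} [AddCommGroup W] (f : prin →+ W) (hf : Function.Surjective f)
    (hk : ∀ D : prin, f D = 0 ↔ ∃ E : prin, D = ℓ • E) (T : Finset P) :
    Nat.card {v : W // ∃ D : prin, f D = v ∧ ∀ p, p ∉ T → (ℓ : ℤ) ∣ (D : P →₀ ℤ) p} =
      ℓ ^ (2 * g + (T.card - 1)) := by
  have hE := card_empty prin hℓ.ne_zero f hk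
  rw [hcard] at hE
  rw [card_A]
  rcases T.eq_empty_or_nonempty with rfl | ⟨t0, ht⟩
  · rw [hE]
    simp
  · have h1 : f.ker ≤ BT prin ℓ ∅ := by
      intro D hD p _
      obtain ⟨E, rfl⟩ := (hk D).1 hD
      change (ℓ : ℤ) ∣ (ℓ • (E : P →₀ ℤ)) p
      rw [Finsupp.smul_apply, nsmul_eq_mul]
      exact dvd_mul_right _ _
    have h2 : BT prin ℓ ∅ ≤ BT prin ℓ T := by
      intro D hD p _
      exact hD p (by simp)
    have h3 := AddSubgroup.relIndex_mul_relIndex _ _ _ h1 h2
    have h4 : (BT prin ℓ ∅).relIndex (BT prin ℓ T) = ℓ ^ (T.card - 1) := by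
      rw [← inf_eq prin ℓ T, AddSubgroup.inf_relIndex_right, AddSubgroup.relIndex_ker,
        map_red prin h0 hℓ hdiv T t0 ht, card_ker_sm hℓ T t0 ht]
    rw [← h3, hE, h4, pow_add]

end Vale.Agent.P019P
end

section

/-!
# Lang's lemma: fixed vectors of semilinear maps
-/

namespace Vale.Agent.P019P

namespace AuxFLang

open Polynomial

/-- the fixed field has `p ^ n` elements. -/
theorem card_fixed {k : Type*} [Field k] [IsAlgClosed k] {p n : ℕ} [Fact p.Prime] [CharP k p]
    (hn : 0 < n) : Nat.card {a : k // a ^ (p ^ n) = a} = p ^ n := by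
  classical
  have hp : 1 < p := (Fact.out : p.Prime).one_lt
  have hdeg : (X ^ (p ^ n) - X : k[X]).natDegree = p ^ n :=
    FiniteField.X_pow_card_pow_sub_X_natDegree_eq k hn.ne' hp
  have hne : (X ^ (p ^ n) - X : k[X]) ≠ 0 :=
    FiniteField.X_pow_card_pow_sub_X_ne_zero k hn.ne' hp
  have hsep : (X ^ (p ^ n) - X : k[X]).Separable :=
    galois_poly_separable p (p ^ n) (dvd_pow_self p hn.ne')
  have h1 := card_rootSet_eq_natDegree (K := k) hsep (IsAlgClosed.splits _)
  rw [hdeg, ← Nat.card_eq_fintype_card] at h1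
  refine (Nat.card_congr (Equiv.subtypeEquivRight fun a => ?_)).trans h1
  rw [mem_rootSet_of_ne hne]
  simp [sub_eq_zero]

theorem exists_pow_sub {k : Type*} [Field k] [IsAlgClosed k] {Q : ℕ} (hQ : 1 < Q) (b : k) :
    ∃ a : k, a ^ Q - a = b := by
  have hdeg : (X ^ Q - X - C b : k[X]).degree ≠ 0 := by
    have h1 : (X ^ Q - X - C b : k[X]).natDegree = Q := by
      have h2 : (X ^ Q - X - C b : k[X]) = X ^ Q - (X + C b) := by ring
      rw [h2, natDegree_sub_eq_left_of_natDegree_lt]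
      · simp
      · rw [natDegree_X_add_C, natDegree_X_pow]; exact hQ
    intro h
    have h3 : (X ^ Q - X - C b : k[X]).natDegree = 0 :=
      natDegree_eq_zero_iff_degree_le_zero.2 h.le
    omega
  obtain ⟨a, ha⟩ := IsAlgClosed.exists_root _ hdeg
  refine ⟨a, ?_⟩
  simp only [IsRoot.def, eval_sub, eval_pow, eval_X, eval_C] at ha
  exact sub_eq_zero.1 ha

end AuxFLang

section lang

variable {k V : Type*} [Field k] [IsAlgClosed k] [AddCommGroup V] [Module k V]

/-- the number of fixed vectors. -/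
theorem lang_card {p n : ℕ} [Fact p.Prime] [CharP k p] (hn : 0 < n) [FiniteDimensional k V]
    (φ : V →+ V) (hinj : Function.Injective φ)
    (hφ : ∀ (a : k) (v : V), φ (a • v) = a ^ (p ^ n) • φ v) :
    Nat.card {v : V // φ v = v} = (p ^ n) ^ Module.finrank k V := by
  obtain ⟨d, hd⟩ : ∃ d, d = Module.finrank k V := ⟨_, rfl⟩
  induction d generalizing V with
  | zero =>
    have hsub : Subsingleton V := Module.finrank_zero_iff.1 hd.symm
    rw [← hd, pow_zero, Nat.card_eq_one_iff_unique]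
    exact ⟨inferInstance, ⟨⟨0, map_zero φ⟩⟩⟩
  | succ d ih =>
    have hQ : 1 < p ^ n := Nat.one_lt_pow hn.ne' (Fact.out : p.Prime).one_lt
    have hnt : Nontrivial V := Module.nontrivial_of_finrank_pos (R := k) (by omega)
    obtain ⟨v, hv0, hv⟩ := lang_exists hn φ hinj hφ
    set S : Submodule k V := Submodule.span k {v} with hS
    have hφS : ∀ w ∈ S, φ w ∈ S := by
      intro w hw
      obtain ⟨a, rfl⟩ := Submodule.mem_span_singleton.1 hw
      rw [hφ, hv]
      exact Submodule.smul_mem _ _ (Submodule.mem_span_singleton_self v)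
    let ψ : (V ⧸ S) →+ (V ⧸ S) := QuotientAddGroup.lift S.toAddSubgroup
      ((S.mkQ.toAddMonoidHom).comp φ) (by
        intro w hw
        have h1 : φ w ∈ S := hφS w hw
        change S.mkQ (φ w) = 0
        rw [Submodule.mkQ_apply, Submodule.Quotient.mk_eq_zero]
        exact h1)
    have hψ : ∀ w, ψ (S.mkQ w) = S.mkQ (φ w) := fun w => rfl
    have hψs : ∀ (a : k) (x : V ⧸ S), ψ (a • x) = a ^ (p ^ n) • ψ x := by
      intro a x
      obtain ⟨w, rfl⟩ := S.mkQ_surjective x
      rw [← map_smul, hψ, hψ, hφ, map_smul]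
    have hψi : Function.Injective ψ := by
      rw [injective_iff_map_eq_zero]
      intro x hx
      obtain ⟨w, rfl⟩ := S.mkQ_surjective x
      rw [hψ, Submodule.mkQ_apply, Submodule.Quotient.mk_eq_zero] at hx
      rw [Submodule.mkQ_apply, Submodule.Quotient.mk_eq_zero]
      obtain ⟨a, ha⟩ := Submodule.mem_span_singleton.1 hx
      obtain ⟨b, hb⟩ := IsAlgClosed.exists_pow_nat_eq a (n := p ^ n) (by omega)
      have h1 : φ (b • v) = φ w := by rw [hφ, hv, hb, ha]
      rw [← hinj h1]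
      exact Submodule.smul_mem _ _ (Submodule.mem_span_singleton_self v)
    have hfr : Module.finrank k (V ⧸ S) = d := by
      have h1 := S.finrank_quotient_add_finrank
      have h2 : Module.finrank k S = 1 := finrank_span_singleton hv0
      omega
    have key := ih ψ hψi hψs hfr.symm
    rw [hfr] at key
    -- surjectivity on fixed vectors
    have hsurj : ∀ x : {x : V ⧸ S // ψ x = x}, ∃ w : V, φ w = w ∧ S.mkQ w = x.1 := by
      rintro ⟨x, hx⟩
      obtain ⟨w, rfl⟩ := S.mkQ_surjective x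
      rw [hψ, ← sub_eq_zero, ← map_sub, Submodule.mkQ_apply, Submodule.Quotient.mk_eq_zero] at hx
      obtain ⟨b, hb⟩ := Submodule.mem_span_singleton.1 hx
      obtain ⟨a, ha⟩ := AuxFLang.exists_pow_sub hQ (-b)
      refine ⟨w + a • v, ?_, ?_⟩
      · have h1 : φ w = w + b • v := by rw [hb]; abel
        rw [map_add, hφ, hv, h1]
        have h2 : a ^ (p ^ n) = a - b := by linear_combination ha
        rw [h2, sub_smul]
        abel
      · rw [map_add, add_eq_left, Submodule.mkQ_apply, Submodule.Quotient.mk_eq_zero]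
        exact Submodule.smul_mem _ _ (Submodule.mem_span_singleton_self v)
    choose s hs1 hs2 using hsurj
    let F : {x : V ⧸ S // ψ x = x} × {a : k // a ^ (p ^ n) = a} → {w : V // φ w = w} :=
      fun y => ⟨s y.1 + y.2.1 • v, by rw [map_add, hs1, hφ, hv, y.2.2]⟩
    have hmv : ∀ a : k, S.mkQ (a • v) = 0 := fun a => by
      rw [Submodule.mkQ_apply, Submodule.Quotient.mk_eq_zero]
      exact Submodule.smul_mem _ _ (Submodule.mem_span_singleton_self v)
    have hF : Function.Bijective F := by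
      constructor
      · rintro ⟨x, a⟩ ⟨y, b⟩ h
        have h1 : s x + a.1 • v = s y + b.1 • v := congrArg Subtype.val h
        have h2 := congrArg S.mkQ h1
        rw [map_add, map_add, hs2, hs2, hmv, hmv, add_zero, add_zero] at h2
        have h3 : x = y := Subtype.ext h2
        subst h3
        have h4 : a.1 • v = b.1 • v := add_left_cancel h1
        have h5 : a = b := Subtype.ext (smul_left_injective k hv0 h4)
        rw [h5]
      · rintro ⟨w, hw⟩
        have hx : ψ (S.mkQ w) = S.mkQ w := by rw [hψ, hw]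
        have h1 : S.mkQ (w - s ⟨S.mkQ w, hx⟩) = 0 := by rw [map_sub, hs2, sub_self]
        rw [Submodule.mkQ_apply, Submodule.Quotient.mk_eq_zero] at h1
        obtain ⟨a, ha⟩ := Submodule.mem_span_singleton.1 h1
        have h2 : a ^ (p ^ n) = a := by
          have h3 : φ (a • v) = a • v := by rw [ha, map_sub, hw, hs1]
          rw [hφ, hv] at h3
          exact smul_left_injective k hv0 h3
        refine ⟨(⟨S.mkQ w, hx⟩, ⟨a, h2⟩), Subtype.ext ?_⟩
        change s _ + a • v = w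
        rw [ha]
        abel
    rw [← Nat.card_eq_of_bijective F hF, Nat.card_prod, key, AuxFLang.card_fixed hn, ← hd, pow_succ]

end lang

end Vale.Agent.P019P
end

section

/-!
# Lang's lemma: the number of stable lines
-/

namespace Vale.Agent.P019P

namespace AuxFLangB

/-- removing one element from a finite subtype. -/
theorem card_ne {α : Type*} (P : α → Prop) (x : α) (hx : P x) :
    Nat.card {a // a ≠ x ∧ P a} = Nat.card {a // P a} - 1 := by
  have h1 : Set.ncard ({a | P a} \ {x}) = Set.ncard {a | P a} - 1 :=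
    Set.ncard_diff_singleton_of_mem hx
  have h2 : Nat.card {a // P a} = Set.ncard {a | P a} := Nat.card_coe_set_eq _
  have h3 : Nat.card {a // a ≠ x ∧ P a} = Set.ncard ({a | P a} \ {x}) := by
    rw [← Nat.card_coe_set_eq]
    refine Nat.card_congr (Equiv.subtypeEquivRight fun a => ?_)
    simp only [Set.mem_diff, Set.mem_setOf_eq, Set.mem_singleton_iff]
    tauto
  rw [h3, h1, h2]

end AuxFLangB

section lang

variable {k V : Type*} [Field k] [IsAlgClosed k] [AddCommGroup V] [Module k V]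

/-- the number of stable lines (`e` maps a nonzero vector to its line). -/
theorem lang_count {p n : ℕ} [Fact p.Prime] [CharP k p] (hn : 0 < n) [FiniteDimensional k V]
    (φ : V →+ V) (hinj : Function.Injective φ)
    (hφ : ∀ (a : k) (v : V), φ (a • v) = a ^ (p ^ n) • φ v) {S : Type*} (e : V → S)
    (he : ∀ v w : V, v ≠ 0 → w ≠ 0 → (e v = e w ↔ ∃ a : k, a ≠ 0 ∧ w = a • v)) :
    Nat.card {s : S // ∃ v : V, v ≠ 0 ∧ (∃ c : k, φ v = c • v) ∧ e v = s} * (p ^ n - 1) =
      (p ^ n) ^ Module.finrank k V - 1 := by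
  have hQ : 1 < p ^ n := Nat.one_lt_pow hn.ne' (Fact.out : p.Prime).one_lt
  have hV := lang_card hn φ hinj hφ
  have hk := AuxFLang.card_fixed (k := k) (p := p) hn
  have hV' := AuxFLangB.card_ne (fun v : V => φ v = v) 0 (map_zero φ)
  have hk' := AuxFLangB.card_ne (fun a : k => a ^ (p ^ n) = a) 0 (zero_pow (by omega))
  rw [hV] at hV'
  rw [hk] at hk'
  -- a fixed representative in every stable line
  have hrep : ∀ s : {s : S // ∃ v : V, v ≠ 0 ∧ (∃ c : k, φ v = c • v) ∧ e v = s},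
      ∃ v : V, v ≠ 0 ∧ φ v = v ∧ e v = s.1 := by
    rintro ⟨s, v, hv0, ⟨c, hc⟩, hs⟩
    have hc0 : c ≠ 0 := by
      rintro rfl
      rw [zero_smul] at hc
      exact hv0 (hinj (hc.trans (map_zero φ).symm))
    obtain ⟨a, ha⟩ := IsAlgClosed.exists_pow_nat_eq c⁻¹ (n := p ^ n - 1) (by omega)
    have ha0 : a ≠ 0 := by
      rintro rfl
      rw [zero_pow (by omega)] at ha
      exact inv_ne_zero hc0 ha.symm
    have hav0 : a • v ≠ 0 := smul_ne_zero ha0 hv0
    refine ⟨a • v, hav0, ?_, ?_⟩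
    · have h1 : a ^ (p ^ n) * c = a := by
        have h2 : a ^ (p ^ n) = a ^ (p ^ n - 1) * a := by
          rw [← pow_succ]
          congr 1
          omega
        rw [h2, ha]
        field_simp
      rw [hφ, hc, smul_smul, h1]
    · exact (((he v (a • v) hv0 hav0).2 ⟨a, ha0, rfl⟩).symm).trans hs
  choose r hr0 hr1 hr2 using hrep
  let F : {s : S // ∃ v : V, v ≠ 0 ∧ (∃ c : k, φ v = c • v) ∧ e v = s} ×
      {a : k // a ≠ 0 ∧ a ^ (p ^ n) = a} → {v : V // v ≠ 0 ∧ φ v = v} :=
    fun y => ⟨y.2.1 • r y.1, smul_ne_zero y.2.2.1 (hr0 y.1), by rw [hφ, hr1, y.2.2.2]⟩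
  have hF : Function.Bijective F := by
    constructor
    · rintro ⟨s, a⟩ ⟨t, b⟩ h
      have h1 : a.1 • r s = b.1 • r t := congrArg Subtype.val h
      have h2 : e (r s) = e (a.1 • r s) :=
        (he _ _ (hr0 s) (smul_ne_zero a.2.1 (hr0 s))).2 ⟨a.1, a.2.1, rfl⟩
      have h3 : e (r t) = e (b.1 • r t) :=
        (he _ _ (hr0 t) (smul_ne_zero b.2.1 (hr0 t))).2 ⟨b.1, b.2.1, rfl⟩
      have h4 : s = t := by
        apply Subtype.ext
        rw [← hr2 s, ← hr2 t, h2, h3, h1]
      subst h4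
      have h5 : a = b := Subtype.ext (smul_left_injective k (hr0 s) h1)
      rw [h5]
    · rintro ⟨w, hw0, hw⟩
      have hs : ∃ v : V, v ≠ 0 ∧ (∃ c : k, φ v = c • v) ∧ e v = e w :=
        ⟨w, hw0, ⟨1, by rw [one_smul, hw]⟩, rfl⟩
      obtain ⟨a, ha0, ha⟩ := (he (r ⟨e w, hs⟩) w (hr0 _) hw0).1 (hr2 ⟨e w, hs⟩)
      have h2 : a ^ (p ^ n) = a := by
        have h3 : φ w = w := hw
        rw [ha, hφ, hr1] at h3
        exact smul_left_injective k (hr0 _) h3
      exact ⟨(⟨e w, hs⟩, ⟨a, ha0, h2⟩), Subtype.ext ha.symm⟩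
  have hcard := Nat.card_eq_of_bijective F hF
  rw [Nat.card_prod, hk', hV'] at hcard
  exact hcard

end lang

end Vale.Agent.P019P
end

section

/-!
# Frobenius on a function field over the algebraic closure of a finite field
-/

namespace Vale.Agent.P019P

open Polynomial IntermediateField

/-- extension of an endomorphism to a simple extension. -/
theorem ffrob_extend {K F : Type*} [Field K] [Field F] [Algebra K F] {y : F} (hy : K⟮y⟯ = ⊤)
    (hint : IsIntegral K y) (τ : K →+* K) (hτ : (minpoly K y).map τ = minpoly K y) :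
    ∃ σ : F →+* F, (∀ a : K, σ (algebraMap K F a) = algebraMap K F (τ a)) ∧ σ y = y := by
  set e : AdjoinRoot (minpoly K y) ≃ₐ[K] F :=
    (adjoinRootEquivAdjoin K hint).trans ((IntermediateField.equivOfEq hy).trans topEquiv) with he
  have he1 : e (AdjoinRoot.root (minpoly K y)) = y := by
    simp only [he, AlgEquiv.trans_apply, adjoinRootEquivAdjoin_apply_root]
    rfl
  have hev : (minpoly K y).eval₂ ((algebraMap K F).comp τ) y = 0 := by
    rw [← Polynomial.eval₂_map, hτ]
    exact minpoly.aeval K y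
  refine ⟨(AdjoinRoot.lift ((algebraMap K F).comp τ) y hev).comp (e.symm : F →+* _), fun a => ?_,
    ?_⟩
  · have h1 : e.symm (algebraMap K F a) = AdjoinRoot.of (minpoly K y) a := by
      rw [AlgEquiv.commutes]
      rfl
    show AdjoinRoot.lift ((algebraMap K F).comp τ) y hev (e.symm (algebraMap K F a)) = _
    rw [h1, AdjoinRoot.lift_of]
    rfl
  · have h1 : e.symm y = AdjoinRoot.root (minpoly K y) := by
      rw [AlgEquiv.symm_apply_eq]
      exact he1.symm
    show AdjoinRoot.lift ((algebraMap K F).comp τ) y hev (e.symm y) = _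
    rw [h1, AdjoinRoot.lift_root]

/-- existence of Frobenius. -/
theorem exists_frob (k F : Type*) [Field k] [Field F] [Algebra k F] [CFF k F] {p : ℕ}
    [Fact p.Prime] [CharP k p] (hf : ∀ a : k, a ≠ 0 → ∃ n : ℕ, 0 < n ∧ a ^ n = 1) :
    ∃ (m : ℕ) (σ : F ≃+* F) (x : F), 0 < m ∧
      (∀ a : k, σ (algebraMap k F a) = algebraMap k F (a ^ p ^ m)) ∧
      (∀ a : k, x ≠ algebraMap k F a) ∧ σ x = x := by
  have : IsAlgClosed k := CFF.ac F
  obtain ⟨x, hx, hfin, hsep⟩ := exists_sep k F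
  obtain ⟨y, hy⟩ := Field.exists_primitive_element k⟮x⟯ F
  have hint : IsIntegral k⟮x⟯ y := IsIntegral.of_finite k⟮x⟯ y
  obtain ⟨m, hm, hfix⟩ := exists_frob_fix (F := F) (x := x) hf (minpoly k⟮x⟯ y).coeffs
  obtain ⟨τ, hτ1, hτ2⟩ := exists_frob_adj hx (p := p) m
  have hfix' := hfix τ hτ1 hτ2
  have hτ : (minpoly k⟮x⟯ y).map τ = minpoly k⟮x⟯ y := by
    ext n
    rw [Polynomial.coeff_map]
    by_cases h0 : (minpoly k⟮x⟯ y).coeff n = 0
    · rw [h0, map_zero]
    · rw [hfix' _ (Polynomial.coeff_mem_coeffs h0)]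
  obtain ⟨σ, hσ1, hσ2⟩ := ffrob_extend hy hint τ hτ
  have hσk : ∀ a : k, σ (algebraMap k F a) = algebraMap k F (a ^ p ^ m) := fun a => by
    rw [IsScalarTower.algebraMap_apply k k⟮x⟯ F a, hσ1, hτ1,
      ← IsScalarTower.algebraMap_apply k k⟮x⟯ F]
  have hσx : σ x = x := by
    have h1 := hσ1 (AdjoinSimple.gen k x)
    rw [hτ2] at h1
    exact h1
  have hsurj : Function.Surjective σ := by
    have hk : ∀ a : k, algebraMap k F a ∈ σ.fieldRange := fun a => by
      obtain ⟨b, hb⟩ := IsAlgClosed.exists_pow_nat_eq a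
        (pow_pos (Fact.out : p.Prime).pos m)
      exact ⟨algebraMap k F b, by rw [hσk, hb]⟩
    have hK : ∀ a : k⟮x⟯, algebraMap k⟮x⟯ F a ∈ σ.fieldRange := fun a => by
      have h1 : k⟮x⟯ ≤ σ.fieldRange.toIntermediateField hk :=
        adjoin_simple_le_iff.2 (show x ∈ σ.fieldRange from ⟨x, hσx⟩)
      exact h1 a.2
    intro z
    have h2 : k⟮x⟯⟮y⟯ ≤ σ.fieldRange.toIntermediateField hK :=
      adjoin_simple_le_iff.2 (show y ∈ σ.fieldRange from ⟨y, hσ2⟩)
    rw [hy] at h2
    exact h2 (show z ∈ (⊤ : IntermediateField k⟮x⟯ F) from IntermediateField.mem_top)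
  refine ⟨m, RingEquiv.ofBijective σ ⟨σ.injective, hsurj⟩, x, hm, hσk, fun a ha => ?_, hσx⟩
  apply hx
  rw [ha]
  exact isAlgebraic_algebraMap a

end Vale.Agent.P019P
end

section

/-!
# Bounded relations with a Frobenius twist
-/

namespace Vale.Agent.P019P

open Vale.Agent.P019

set_option linter.style.haveILetI false
set_option linter.unusedSectionVars false

open Polynomial Filter

section e3t

variable {κ : Type*} [Field κ] {l : Subfield κ}

/-- the degree of the swapped polynomial. -/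
theorem e3t_swap_le {R : Type*} [CommRing R] {Φ : R[X][X]} {b : ℕ} :
    (Bivariate.swap Φ).natDegree ≤ b ↔ ∀ j, (Φ.coeff j).natDegree ≤ b := by
  constructor
  · intro h j
    rw [natDegree_le_iff_coeff_eq_zero]
    intro i hi
    rw [← urel_coeff_swap, coeff_eq_zero_of_natDegree_lt (lt_of_le_of_lt h hi), coeff_zero]
  · intro h
    rw [natDegree_le_iff_coeff_eq_zero]
    intro i hi
    ext j
    rw [urel_coeff_swap, coeff_eq_zero_of_natDegree_lt (lt_of_le_of_lt (h j) hi), coeff_zero]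

/-- contraction of an irreducible polynomial with vanishing derivative. -/
theorem e3t_contract {R : Type*} [CommRing R] [IsDomain R] (p : ℕ) [ExpChar R p]
    {Φ : R[X][X]} (hΦ : Irreducible Φ) (h0 : Φ.natDegree ≠ 0) (hd : derivative Φ = 0) :
    ∃ Ψ : R[X][X], Irreducible Ψ ∧ expand R[X] p Ψ = Φ ∧ Ψ.natDegree < Φ.natDegree ∧
      (Bivariate.swap Ψ).natDegree ≤ (Bivariate.swap Φ).natDegree := by
  haveI : ExpChar R[X] p := inferInstance
  have h1 := expand_contract' (p := p) hd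
  have hp0 : p ≠ 0 := (expChar_pos R p).ne'
  refine ⟨contract p Φ, ?_, h1, ?_, ?_⟩
  · rw [← h1] at hΦ
    exact of_irreducible_expand hp0 hΦ
  · have h2 : Φ.natDegree = (contract p Φ).natDegree * p := by
      conv_lhs => rw [← h1]
      exact natDegree_expand p _
    have h3 : (contract p Φ).natDegree ≠ 0 := by
      intro h
      rw [h, zero_mul] at h2
      exact h0 h2
    have h4 : 2 ≤ p := by
      rcases (inferInstance : ExpChar R p) with _ | ⟨hprime⟩
      · exact (h0 (derivative_eq_zero.1 hd)).elim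
      · exact hprime.two_le
    have h5 := Nat.mul_le_mul_left (contract p Φ).natDegree h4
    omega
  · rw [e3t_swap_le]
    intro j
    rw [coeff_contract hp0]
    exact e3t_swap_le.1 le_rfl _

theorem e3t_eval_expand (p : ℕ) (x y : κ) (Ψ : l[X][X]) :
    aevalAeval x y (expand l[X] p Ψ) = aevalAeval x (y ^ p) Ψ := by
  rw [urel_eval, urel_eval, expand_eq_comp_X_pow, eval₂_comp, eval₂_X_pow]

/-- the Frobenius twist of the evaluation -/
theorem e3t_eval_frob (p : ℕ) [ExpChar κ p] [ExpChar l p] (x y : κ) (Ψ : l[X][X]) :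
    aevalAeval (x ^ p) (y ^ p) (Ψ.map (mapRingHom (frobenius l p))) =
      (aevalAeval x y Ψ) ^ p := by
  induction Ψ using Polynomial.induction_on' with
  | add f g hf hg => rw [Polynomial.map_add, map_add, hf, hg, map_add, add_pow_expChar]
  | monomial n a =>
    rw [map_monomial, urel_eval, urel_eval, eval₂_monomial, eval₂_monomial, mul_pow]
    congr 1
    · induction a using Polynomial.induction_on' with
      | add f g hf hg =>
        rw [map_add, map_add, hf, hg, map_add, add_pow_expChar]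
      | monomial m b =>
        rw [coe_mapRingHom, map_monomial, RingHom.coe_coe, RingHom.coe_coe, aeval_monomial,
          aeval_monomial, mul_pow]
        congr 1
        ring
    · ring

/-- the p-th root of the coefficients -/
theorem e3t_root (p : ℕ) [ExpChar κ p] [ExpChar l p] [PerfectRing l p] {x y : κ}
    {Ψ : l[X][X]} (hΨ : Irreducible Ψ) (h0 : aevalAeval (x ^ p) (y ^ p) Ψ = 0) :
    ∃ Ψ' : l[X][X], Irreducible Ψ' ∧ aevalAeval x y Ψ' = 0 ∧ Ψ'.natDegree = Ψ.natDegree ∧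
      (Bivariate.swap Ψ').natDegree ≤ (Bivariate.swap Ψ).natDegree := by
  let e : l[X] ≃+* l[X] := Polynomial.mapEquiv (frobeniusEquiv l p).symm
  have he : (mapRingHom (frobenius l p)).comp (e : l[X] →+* l[X]) = RingHom.id _ := by
    ext a
    · simp [e]
    · simp [e]
  refine ⟨Ψ.map (e : l[X] →+* l[X]), ?_, ?_, ?_, ?_⟩
  · exact (MulEquiv.irreducible_iff (Polynomial.mapEquiv e)).2 hΨ
  · have h1 := e3t_eval_frob p x y (Ψ.map (e : l[X] →+* l[X]))
    rw [Polynomial.map_map, he, Polynomial.map_id, h0] at h1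
    exact pow_eq_zero_iff (expChar_pos l p).ne' |>.1 h1.symm
  · exact natDegree_map_eq_of_injective e.injective _
  · rw [e3t_swap_le]
    intro j
    rw [coeff_map]
    have h2 : ((e : l[X] →+* l[X]) (Ψ.coeff j)).natDegree ≤ (Ψ.coeff j).natDegree :=
      natDegree_map_le
    exact h2.trans (e3t_swap_le.1 le_rfl j)

theorem e3t_natDegree {X Y : κ} (hX : ¬ IsAlgebraic l X) {Φ : l[X][X]} (hΦ : Irreducible Φ)
    (h0 : aevalAeval X Y Φ = 0) : Φ.natDegree ≠ 0 := by
  intro h
  obtain ⟨a, ha⟩ := natDegree_eq_zero.1 h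
  rw [← ha, aevalAeval_C] at h0
  have ha0 : a ≠ 0 := by
    rintro rfl
    rw [C_0] at ha
    exact hΦ.ne_zero ha.symm
  exact hX ⟨a, ha0, h0⟩

theorem e3t_adj_pow [PerfectField κ] (E : Subfield κ) (t : κ) (n : ℕ) :
    adj E (t ^ (ringExpChar κ) ^ n) = adj E t := by
  apply le_antisymm
  · exact adj_le (le_adj E t) ((adj E t).pow_mem (mem_adj E t) _)
  · exact adj_le (le_adj E _) (mem_of_pow_q (n := n) (mem_adj E _))

/-- the main induction -/
theorem e3t_main [PerfectField κ] (hl : IsAlgClosed l) (N : ℕ) :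
    ∀ (X Y : κ) (Φ : l[X][X]), ¬ IsAlgebraic l X → ¬ IsAlgebraic l Y → Irreducible Φ →
      aevalAeval X Y Φ = 0 → Φ.natDegree + (Bivariate.swap Φ).natDegree ≤ N →
      ∃ (i j : ℕ) (σ : κ), σ ^ (ringExpChar κ) ^ i = Y ^ (ringExpChar κ) ^ j ∧
        IsSeparable (Vale.Agent.P019.adj l X) σ ∧ IsSeparable (Vale.Agent.P019.adj l σ) X := by
  induction N with
  | zero =>
    intro X Y Φ hX hY hΦ h0 hN
    exact (e3t_natDegree hX hΦ h0 (by omega)).elim
  | succ N ih =>
    intro X Y Φ hX hY hΦ h0 hN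
    haveI : PerfectRing l (ringExpChar κ) := PerfectField.toPerfectRing _
    have hΦ' : Irreducible (Bivariate.swap Φ) := (MulEquiv.irreducible_iff _).2 hΦ
    have h0' : aevalAeval Y X (Bivariate.swap Φ) = 0 := by
      rw [Bivariate.aevalAeval_swap]
      exact h0
    by_cases h1 : derivative Φ = 0
    · obtain ⟨Ψ, p1, p2, p3, p4⟩ := e3t_contract (ringExpChar κ) hΦ (e3t_natDegree hX hΦ h0) h1
      have h2 : aevalAeval X (Y ^ ringExpChar κ) Ψ = 0 := by
        rw [← e3t_eval_expand, p2, h0]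
      have h3 : ¬ IsAlgebraic l (Y ^ ringExpChar κ) := fun h => hY (h.of_pow (expChar_pos κ _))
      obtain ⟨i, j, σ, e1, e2, e3⟩ := ih X _ Ψ hX h3 p1 h2 (by omega)
      refine ⟨i, j + 1, σ, ?_, e2, e3⟩
      rw [e1, ← pow_mul, ← pow_succ']
    · by_cases h2 : derivative (Bivariate.swap Φ) = 0
      · obtain ⟨Ψ, p1, p2, p3, p4⟩ := e3t_contract (ringExpChar κ) hΦ'
          (e3t_natDegree hY hΦ' h0') h2
        rw [Bivariate.swap_swap_apply] at p4
        have h3 : aevalAeval Y (X ^ ringExpChar κ) Ψ = 0 := by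
          rw [← e3t_eval_expand, p2, h0']
        haveI : PerfectRing κ (ringExpChar κ) := PerfectField.toPerfectRing _
        obtain ⟨Z, hZ⟩ : ∃ Z : κ, Z ^ ringExpChar κ = Y :=
          ⟨(frobeniusEquiv κ (ringExpChar κ)).symm Y,
            frobenius_apply_frobeniusEquiv_symm κ (ringExpChar κ) Y⟩
        rw [← hZ] at h3
        obtain ⟨Ψ', q1, q2, q3, q4⟩ := e3t_root (ringExpChar κ) p1 h3
        have hZa : ¬ IsAlgebraic l Z := fun h => hY (hZ ▸ h.pow _)
        have q5 : aevalAeval X Z (Bivariate.swap Ψ') = 0 := by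
          rw [Bivariate.aevalAeval_swap]
          exact q2
        obtain ⟨i, j, σ, e1, e2, e3⟩ := ih X Z (Bivariate.swap Ψ') hX hZa
          ((MulEquiv.irreducible_iff _).2 q1) q5 (by
            rw [Bivariate.swap_swap_apply]
            omega)
        refine ⟨i + 1, j, σ, ?_, e2, e3⟩
        rw [pow_succ, pow_mul, e1, ← pow_mul, ← pow_succ, pow_succ', pow_mul, hZ]
      · exact ⟨0, 0, Y, rfl, urel_sep hX hΦ h0 h1, urel_sep hY hΦ' h0' h2⟩

end e3t

/-- bounded relations in a perfect field of transcendence degree one, with a Frobenius twist. -/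
theorem exists_twb {κ : Type*} [Field κ] [PerfectField κ] {l : Subfield κ} (hl : IsAlgClosed l)
    {X Y : κ} {d : ℕ}
    (hX : X ∉ l ∧ Module.Finite (adj l X) κ ∧ Module.finrank (adj l X) κ ≤ d)
    (hY : Y ∉ l ∧ Module.Finite (adj l Y) κ ∧ Module.finrank (adj l Y) κ ≤ d) :
    ∃ (i j : ℕ) (σ : κ), σ ^ (ringExpChar κ) ^ i = Y ^ (ringExpChar κ) ^ j ∧ BRel l d X σ := by
  obtain ⟨hX0, hXf, hXd⟩ := hX
  obtain ⟨hY0, hYf, hYd⟩ := hY
  have htr : ∀ z : κ, z ∉ l → ¬ IsAlgebraic l z := fun z hz h =>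
    hz (RAC_of_isAlgClosed l hl z h)
  have tX := htr X hX0
  have tY := htr Y hY0
  have h : IsAlgebraic (Vale.Agent.P019.adj l X) Y := by
    rw [← isAlgebraic_adj]
    exact Algebra.IsAlgebraic.isAlgebraic Y
  obtain ⟨Φ, hΦ, h0⟩ := urel_exists tX h
  obtain ⟨i, j, σ, e1, e2, e3⟩ := e3t_main hl _ X Y Φ tX tY hΦ h0 le_rfl
  refine ⟨i, j, σ, e1, ?_⟩
  have hadj : adj l σ = adj l Y := by
    rw [← e3t_adj_pow l σ i, e1, e3t_adj_pow]
  have tσ : ¬ IsAlgebraic l σ := fun h2 => tY (by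
    have h3 : IsAlgebraic l (Y ^ (ringExpChar κ) ^ j) := e1 ▸ h2.pow _
    exact h3.of_pow (Nat.pos_of_ne_zero (pow_ne_zero _ (expChar_pos κ _).ne')))
  have hσf : Module.Finite (adj l σ) κ := by rw [hadj]; exact hYf
  have hσd : Module.finrank (adj l σ) κ ≤ d := by rw [hadj]; exact hYd
  exact urel_brel tX tσ e2 e3 hXf hXd hσf hσd

end Vale.Agent.P019P
end
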