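import Vale.Agent.P019.MathlibUsed
import Vale.Agent.P019.Bdl.B1
import Vale.Agent.P019.Bdl.B3
import Vale.Agent.P019.Bdl.B2

set_option linter.all false

section

/-!
# Classes congruent to one at a valuation where `t` is a generic constant
-/

namespace Vale.Agent.P019

set_option linter.style.haveILetI false

open Polynomial

section ifive

variable {K : Type*} [Field K] [CharZero K] (M : Mdl K) {ℓ : ℕ} [Fact ℓ.Prime]

theorem ifive_fin {F : Subfield K} (hkF : M.k ≤ F) {t : K}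
    (halg : ∀ z : K, IsAlgebraic (adj F t) z) :
    ∃ S : Finset K, (∀ s ∈ S, s ∈ F) ∧
      ∀ z ∈ M.K0, IsAlgebraic (adj (M.k0 ⊔ Subfield.closure (S : Set K)) t) z := by
  classical
  obtain ⟨G, hG⟩ := M.fg
  have h1 : ∀ g : K, ∃ C : Finset K, (C : Set K) ⊆ (F : Set K) ∧
      ∀ N : Subfield K, (C : Set K) ⊆ (N : Set K) → IsAlgebraic (adj N t) g := fun g =>
    isAlgebraic_sup_finite (k := F) (L := {t}) (halg g)
  choose C hC hCN using h1
  refine ⟨G.biUnion C, ?_, ?_⟩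
  · intro s hs
    obtain ⟨g, -, hg⟩ := Finset.mem_biUnion.1 hs
    exact hC g hg
  · intro z hz
    rw [← mem_rac]
    rw [hG] at hz
    have h2 : M.k0 ⊔ Subfield.closure (G : Set K) ≤
        rac (adj (M.k0 ⊔ Subfield.closure ((G.biUnion C : Finset K) : Set K)) t) := by
      refine sup_le (le_sup_left.trans ((le_adj _ t).trans (le_rac _))) ?_
      rw [Subfield.closure_le]
      intro g hg
      refine mem_rac.2 (hCN g _ ?_)
      intro c hc
      refine (le_sup_right : Subfield.closure ((G.biUnion C : Finset K) : Set K) ≤ _)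
        (Subfield.subset_closure ?_)
      exact Finset.mem_coe.2 (Finset.mem_biUnion.2 ⟨g, hg, hc⟩)
    exact h2 hz

/-- **I5.** -/
theorem ifive (hk : ¬ (M.k : Set K).Countable) {F : Subfield K} (hkF : M.k ≤ F) {t : K}
    (halg : ∀ z : K, IsAlgebraic (adj F t) z) (htk : t ∉ M.k) (u : V ℓ K) :
    ∃ C : Set K, C.Countable ∧ ∀ a ∈ M.k, a ∉ C → ∀ W : ValuationSubring K,
      (∀ x ∈ F, x ∈ W) → W.valuation (t - a) < 1 → u ∈ U1 ℓ W →
      u ∈ VS ℓ (rac (adj M.k t)) := by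
  classical
  have hℓ : ℓ ≠ 0 := (Fact.out : ℓ.Prime).ne_zero
  obtain ⟨S, hSF, hS⟩ := ifive_fin M hkF halg
  obtain ⟨C₀, hC₀k, hC₀⟩ := exists_finite_free M.k S
  obtain ⟨x, hx0, rfl⟩ := cl_surj ℓ u
  obtain ⟨N, hN, hNc, hbig⟩ : ∃ N : Subfield K, M.Sub N ∧ (N : Set K).Countable ∧
      ∀ z ∈ ((C₀ : Set K) ∪ {t, x}), z ∈ M.F N := by
    have h0 : M.Sub M.k0 := ⟨RAC_of_isAlgClosed _ M.ack0, le_rfl, M.le_k⟩
    obtain ⟨N, hN, hNc, -, -, h1⟩ := M.exists_big hk h0 (M.ctb.mono M.le_K0)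
      ((C₀ : Set K) ∪ {t, x}) ((Finset.countable_toSet C₀).union (Set.toFinite {t, x}).countable)
    exact ⟨N, hN, hNc, h1⟩
  refine ⟨N, hNc, ?_⟩
  intro a ha haN W hWF hta hxU1
  obtain ⟨k₁, hNk₁, hk₁k, hrac, hak₁, halgk⟩ := Gn.exists_compl M.RAC_k hN.le hN.rac haN
  set A : Subfield K := M.F k₁ with hAdef
  have hk0 : M.k0 ≤ k₁ := hN.ge.trans hNk₁
  have haA : ¬ IsAlgebraic A a := fun h => hak₁ (M.free k₁ hrac hk0 hk₁k a ha h)
  have hFA : M.F N ≤ A := Mdl.F_mono hNk₁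
  have htA : t ∈ A := hFA (hbig t (Or.inr (Or.inl rfl)))
  have hxA : x ∈ A := hFA (hbig x (Or.inr (Or.inr rfl)))
  have hk₁A : k₁ ≤ A := le_sup_right
  -- the place
  set P := plOf W with hP
  have hPF : ∀ y ∈ F, y ∈ P.O := hWF
  have hPk : ∀ y ∈ M.k, y ∈ P.O := fun y hy => hPF y (hkF hy)
  set E : Subfield K := k₁ ⊔ Subfield.closure (S : Set K) with hE
  have hEF : E ≤ F := sup_le (hk₁k.trans hkF) (Subfield.closure_le.2 hSF)
  have hPE : ∀ y ∈ E, y ∈ P.O := fun y hy => hPF y (hEF hy)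
  have haE : ¬ IsAlgebraic E a := by
    intro h
    refine hak₁ (hrac a (hC₀ k₁ ?_ hk₁k a ha h))
    intro c hc
    have h1 : c ∈ M.F N := hbig c (Or.inl hc)
    have h2 : c ∈ N := M.free N hN.rac hN.ge hN.le c (hC₀k hc) (isAlgebraic_of_mem h1)
    exact hNk₁ h2
  have htaO : t - a ∈ P.O := P.mem_of_lt hta
  have haO : a ∈ P.O := hPk a ha
  have htO : t ∈ P.O := by
    have e : t = (t - a) + a := by ring
    rw [e]; exact P.O.add_mem _ _ htaO haO
  have hevt : P.ev t = P.ev a := by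
    have h1 : P.ev (t - a) = 0 := P.ev_of_lt hta
    rw [P.ev_sub htO haO, sub_eq_zero] at h1
    exact h1
  have htE : ¬ IsAlgebraic (P.im E hPE) (P.ev t) := by
    rw [hevt]
    intro h
    exact haE (P.isAlgebraic_of_im hPF hEF (hkF ha) h)
  have hadj := P.mem_adj_of_transcendental E hPE htO htE
  have hA : ∀ y ∈ A, y ∈ P.O := by
    intro y hy
    refine P.mem_of_isAlgebraic (adj E t) hadj (mem_rac.1 ?_)
    have h1 : A ≤ rac (adj E t) := by
      refine sup_le ?_ ?_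
      · intro z hz
        refine mem_rac.2 (isAlgebraic_mono (adj_mono ?_ t) (hS z hz))
        exact sup_le_sup_right hk0 _
      · exact le_sup_left.trans ((le_adj E t).trans (le_rac _))
    exact h1 hy
  have heva : IsAlgebraic (P.im A hA) (P.ev a) := by
    rw [← hevt]
    exact isAlgebraic_of_mem (P.ev_mem_im hA htA)
  obtain ⟨π, hπA, hπ, hπO, hπ0, hGd⟩ := exists_gd_adj P A hA haO haA heva
  set κ := P.im A hA ⊔ P.im M.k hPk with hκ
  have hGd1 : Gd P π κ (adj A a) := hGd κ le_sup_left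
    ((le_sup_right : P.im M.k hPk ≤ κ) (P.ev_mem_im hPk ha))
  have hGd2 : Gd P π κ (adj A a ⊔ M.k) :=
    hGd1.sup hπ hπO hπ0 hπA (E := adj k₁ a) (adj_mono hk₁A a) (adj_le hk₁k ha) hPk
      (fun y hy => (le_sup_right : P.im M.k hPk ≤ κ) (P.ev_mem_im hPk hy)) halgk
  have htop : ∀ z : K, z ∈ adj A a ⊔ M.k := by
    intro z
    have h1 : (⊤ : Subfield K) ≤ adj A a ⊔ M.k := by
      rw [← M.sup]
      exact sup_le_sup_right (le_trans le_sup_left (le_adj A a)) _
    exact h1 trivial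
  -- the class
  obtain ⟨m, hm, hxm⟩ := hxU1
  have hxU : P.U x := Gn.U_of_field hA hxA hx0
  obtain ⟨y, hy0, hy⟩ := (cl_eq_iff ℓ hx0 (one_add_ne_zero hm)).1 hxm
  have hmU : P.U (1 + m) := P.U_iff.2 (val_one_add hm)
  have hyl : P.U (y ^ ℓ) := by
    have : y ^ ℓ = x / (1 + m) := by
      rw [hy]
      have := hmU.ne_zero
      field_simp
    rw [this]
    exact hxU.div hmU
  have hyU : P.U y := by
    rw [P.U_iff] at hyl ⊢
    rw [map_pow] at hyl
    exact (pow_eq_one_iff.1 hyl).resolve_right hℓ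
  have hev : P.ev y ^ ℓ = P.ev x := by
    rw [← P.ev_pow hyU.1]
    conv_rhs => rw [hy]
    rw [P.ev_mul hmU.1 hyl.1, P.ev_add P.O.one_mem (P.mem_of_lt hm), P.ev_one,
      P.ev_of_lt hm, add_zero, one_mul]
  have hevy : P.ev y ∈ κ := Gd.ev_mem hπ hπO hπ0 hGd2 (htop y) hyU.1
  -- Kummer descent
  let E₀ : Subfield K := rac (adj k₁ t) ⊓ A
  have hE₀A : E₀ ≤ A := inf_le_right
  have hk₁E₀ : k₁ ≤ E₀ := le_inf ((le_adj k₁ t).trans (le_rac _)) hk₁A
  haveI : CharZero (AlgebraicClosure (IsLocalRing.ResidueField W)) :=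
    charZero_of_injective_ringHom (P.resHom A hA).injective
  haveI : IsAlgClosed M.k0 := M.ack0
  haveI : NeZero ((ℓ : ℕ) : M.k0) := ⟨by
    rw [Nat.cast_ne_zero]; exact hℓ⟩
  obtain ⟨ζ, hζ⟩ := HasEnoughRootsOfUnity.exists_primitiveRoot M.k0 ℓ
  have hζK : IsPrimitiveRoot (⟨(ζ : K), hk₁A (hk0 ζ.2)⟩ : A) ℓ := by
    have h1 : IsPrimitiveRoot (Subfield.inclusion (hk0.trans hk₁A) ζ) ℓ :=
      hζ.map_of_injective (RingHom.injective _)
    exact h1
  have hζ' : IsPrimitiveRoot (P.ev (ζ : K)) ℓ := by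
    have h1 := hζK.map_of_injective (f := P.resHom A hA) (RingHom.injective _)
    rwa [P.resHom_apply] at h1
  have hPE₀ : ∀ z ∈ E₀, z ∈ P.O := fun z hz => hA z (hE₀A hz)
  have hac : ∀ z ∈ P.im A hA, IsAlgebraic (P.im E₀ hPE₀) z → z ∈ P.im E₀ hPE₀ := by
    intro z hz halgz
    obtain ⟨z₀, hz₀, rfl⟩ := P.mem_im.1 hz
    have h1 := P.isAlgebraic_of_im hA hE₀A hz₀ halgz
    have h2 : IsAlgebraic (rac (adj k₁ t)) z₀ := isAlgebraic_mono inf_le_left h1
    exact P.ev_mem_im hPE₀ ⟨RAC_rac _ z₀ h2, hz₀⟩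
  have hadjt : adj k₁ t ≤ E₀ := le_inf (le_rac _) (adj_le hk₁A htA)
  have hB : ∀ b ∈ P.im M.k hPk, IsAlgebraic (P.im E₀ hPE₀) b := by
    intro b hb
    obtain ⟨c, hc, rfl⟩ := P.mem_im.1 hb
    refine P.isAlgebraic_ev (adj k₁ a) (P.im E₀ hPE₀) ?_ (halgk c hc) (hPk c hc)
    intro y hy _
    have h1 : P.ev y ∈ P.im (adj k₁ a) (fun y hy => hPk y (adj_le hk₁k ha hy)) :=
      P.ev_mem_im _ hy
    rw [P.im_adj hPk hk₁k ha, ← hevt] at h1
    have h2 : adj (P.im k₁ (fun y hy => hPk y (hk₁k hy))) (P.ev t) ≤ P.im E₀ hPE₀ := by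
      refine adj_le ?_ (P.ev_mem_im hPE₀ (hadjt (mem_adj _ _)))
      intro w hw
      obtain ⟨w₀, hw₀, rfl⟩ := P.mem_im.1 hw
      exact P.ev_mem_im hPE₀ (hk₁E₀ hw₀)
    exact h2 h1
  obtain ⟨e, he, w, hw, hew⟩ :=
    kummer_descent ℓ (P.im E₀ hPE₀) (P.im A hA) (P.im M.k hPk)
      (by
        intro z hz
        obtain ⟨z₀, hz₀, rfl⟩ := P.mem_im.1 hz
        exact P.ev_mem_im hA (hE₀A hz₀)) hac hB _
      (P.ev_mem_im hPE₀ (hk₁E₀ (hk0 ζ.2))) hζ' (P.ev_mem_im hA hxA) hxU.2 hevy hev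
  obtain ⟨e', he', rfl⟩ := P.mem_im.1 he
  obtain ⟨w', hw', rfl⟩ := P.mem_im.1 hw
  have hx' : x = e' * w' ^ ℓ := by
    apply P.ev_inj hA hxA (A.mul_mem (hE₀A he') (A.pow_mem hw' _))
    rw [P.ev_mul (hPE₀ _ he') (hA _ (A.pow_mem hw' _)), P.ev_pow (hA _ hw')]
    exact hew
  rw [cl_ne_zero_mem_VS hx0]
  refine ⟨e', rac_mono (adj_mono hk₁k t) he'.1, ?_, w', ?_, hx'⟩
  · rintro rfl
    rw [zero_mul] at hx'
    exact hx0 hx'
  · rintro rfl
    rw [zero_pow hℓ, mul_zero] at hx'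
    exact hx0 hx'

end ifive

end Vale.Agent.P019
end

section

/-!
# Assembly 2: the pigeonhole argument
-/

namespace Vale.Agent.P019

set_option linter.style.haveILetI false

open Polynomial

section pigeon

variable {K L : Type*} [Field K] [Field L] [CharZero K] [CharZero L] {ℓ : ℕ} [Fact ℓ.Prime]

/-- classes of elements defined over `N` and `r` further constants. -/
def Dset (M' : Mdl L) (ℓ : ℕ) (N : Subfield L) (r : ℕ) : Set (V ℓ L) :=
  {u | ∃ y : Fin r → L, (∀ i, y i ∈ M'.k) ∧ u ∈ VS ℓ (M'.F (clx N y))}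

/-- the set of constants whose image is defined with `r` further constants. -/
def Sset (M : Mdl K) (M' : Mdl L) (Θ : V ℓ K ≃ₗ[ZMod ℓ] V ℓ L) (t : K) (N' : Subfield L)
    (r : ℕ) : Set K := {a | a ∈ M.k ∧ Θ (cl ℓ (t - a)) ∈ Dset M' ℓ N' r}

end pigeon

end Vale.Agent.P019
end

section

/-!
# Assembly 4: lines go to fields of transcendence degree one
-/

namespace Vale.Agent.P019

set_option linter.style.haveILetI false

open Polynomial

section glob

variable {K L : Type*} [Field K] [Field L] [CharZero K] [CharZero L] {ℓ : ℕ} [Fact ℓ.Prime]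

/-- the local statement for a pair. -/
structure LF (M : Mdl K) (M' : Mdl L) (Θ : V ℓ K ≃ₗ[ZMod ℓ] V ℓ L) (t : K) (N' E : Subfield L) :
    Prop where
  sub : M'.Sub N'
  le : N' ≤ E
  leF : E ≤ M'.F N'
  ne : ∃ y0 ∈ E, y0 ∉ N'
  rac : ∀ x ∈ M'.F N', IsAlgebraic E x → x ∈ E
  deg : ∀ y0 ∈ E, y0 ∉ N' → ∀ x ∈ E, IsAlgebraic (adj N' y0) x
  iff : ∀ u ∈ VS ℓ (M'.F N'), Θ.symm u ∈ VS ℓ (adj M.k t) ↔ u ∈ VS ℓ E

variable {M : Mdl K} {M' : Mdl L} {Θ : V ℓ K ≃ₗ[ZMod ℓ] V ℓ L}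

end glob

end Vale.Agent.P019
end

section

/-!
# The hypotheses of the reconstruction step hold
-/

namespace Vale.Agent.P019

open Filter

section

variable {ℓ : ℕ} [Fact ℓ.Prime] {K L : Type*} [Field K] [Field L] [CharZero K] [CharZero L]

end

end Vale.Agent.P019
end

section

/-!
# The endgame: the isomorphism is induced by a homomorphism of fields
-/

namespace Vale.Agent.P019

open Filter

/-- a homomorphism of fields matching the correspondence of points. -/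
structure EndHyp (ℓ : ℕ) {K L : Type*} [Field K] [Field L] (k : Subfield K) (l : Subfield L)
    (Θ : V ℓ K ≃ₗ[ZMod ℓ] V ℓ L) (A : K →+* L) (e : ZMod ℓ) : Prop where
  e0 : e ≠ 0
  hA : ∀ c ∈ k, A c ∈ l
  hA' : ∀ β ∈ l, ∃ b ∈ k, A b = β
  rt : ∀ s, Good k s → Rt k l Θ s (A s)
  cor : ∀ s, Good k s → ∀ᶠ b in ae k, Cor k l Θ s (A s) e b (A b)
  rel : ∀ t s, Good k t → Good k s → Good k (t + s) → ¬ IsAlgebraic (adj k s) t →
    ∃ F' : Subfield L, l ≤ F' ∧ (∀ z : L, IsAlgebraic (adj F' (A t)) z) ∧ adj l (A s) ≤ F' ∧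
      ∀ᶠ a in ae k, ∃ u : ValuationSubring L, TrivOn u F' ∧ u.valuation (A t - A a) < 1 ∧
        ∀ b ∈ k, Θ (cl ℓ (s - b) - cl ℓ (t + s - a - b)) ∈ U1 ℓ u

section endgame

variable {K L : Type*} [Field K] [Field L] {ℓ : ℕ} {k : Subfield K} {l : Subfield L}
  {A : K →+* L}

variable [CharZero K] [CharZero L] [Fact ℓ.Prime]

/-- the difference of the two maps. -/
noncomputable def EndD (Θ : V ℓ K ≃ₗ[ZMod ℓ] V ℓ L) (A : K →+* L) (e : ZMod ℓ) :
    V ℓ K →ₗ[ZMod ℓ] V ℓ L :=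
  Θ.toLinearMap - e⁻¹ • Vmap ℓ A

variable {Θ : V ℓ K ≃ₗ[ZMod ℓ] V ℓ L} {e : ZMod ℓ}

end endgame

end Vale.Agent.P019
end

section

/-!
Extension of a partially additive and multiplicative map to a ring homomorphism.
-/

namespace Vale.Agent.P019

theorem extend_hom {K L : Type*} [Field K] [Field L] (G : Set K) (Ind : K → K → Prop)
    (α : K → L) (hsymm : ∀ x y, Ind x y → Ind y x)
    (hadd : ∀ x y, x ∈ G → y ∈ G → x + y ∈ G → Ind x y → α (x + y) = α x + α y)
    (hmul : ∀ x y, x ∈ G → y ∈ G → x * y ∈ G → Ind x y → α (x * y) = α x * α y)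
    (hne : ∀ x ∈ G, α x ≠ 0)
    (hgen : ∀ (A B : Finset K), (∀ b ∈ B, b ∈ G) →
      ∃ t, ∀ a ∈ A, a + t ∈ G ∧ ∀ b ∈ B, Ind (a + t) b)
    (hgenmul : ∀ h t, t ∈ G → ∃ s, s ∈ G ∧ h + s ∈ G ∧ s * t ∈ G ∧ (h + s) * t ∈ G ∧
      Ind s t ∧ Ind (h + s) t) :
    ∃ A : K →+* L, ∀ x ∈ G, A x = α x := by
  classical
  -- a reference shift for each `h`
  have h0 : ∀ h : K, ∃ t, t ∈ G ∧ h + t ∈ G := by
    intro h
    obtain ⟨t, ht⟩ := hgen {0, h} ∅ (by simp)
    refine ⟨t, ?_, (ht h (by simp)).1⟩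
    simpa using (ht 0 (by simp)).1
  choose τ hτ1 hτ2 using h0
  -- the difference does not depend on the shift
  have key : ∀ h t, t ∈ G → h + t ∈ G → α (h + t) = (α (h + τ h) - α (τ h)) + α t := by
    intro h t ht1 ht2
    obtain ⟨s, hs⟩ := hgen {0, t, h, h + t, τ h, h + τ h} {t, h + t, τ h, h + τ h} (by
      intro b hb
      simp only [Finset.mem_insert, Finset.mem_singleton] at hb
      rcases hb with rfl | rfl | rfl | rfl
      exacts [ht1, ht2, hτ1 h, hτ2 h])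
    have s0 := hs 0 (by simp)
    rw [zero_add] at s0
    have sh := hs h (by simp)
    -- comparison lemma
    have cmp : ∀ u, u ∈ G → h + u ∈ G → h + u + s ∈ G → Ind s (h + u) → Ind (h + s) u →
        α (h + u) + α s = α (h + s) + α u := by
      intro u hu1 hu2 hu3 hu4 hu5
      have e1 := hadd (h + u) s hu2 s0.1 hu3 (hsymm _ _ hu4)
      have e2 := hadd (h + s) u sh.1 hu1 (by
        have : h + s + u = h + u + s := by ring
        rw [this]; exact hu3) hu5
      have e3 : h + s + u = h + u + s := by ring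
      rw [e3] at e2
      rw [← e1, ← e2]
    have c1 := cmp t ht1 ht2 (hs (h + t) (by simp)).1 (s0.2 (h + t) (by simp))
      (sh.2 t (by simp))
    have c2 := cmp (τ h) (hτ1 h) (hτ2 h) (hs (h + τ h) (by simp)).1 (s0.2 (h + τ h) (by simp))
      (sh.2 (τ h) (by simp))
    linear_combination c1 - c2
  set A : K → L := fun h => α (h + τ h) - α (τ h) with hA
  have key' : ∀ h t, t ∈ G → h + t ∈ G → α (h + t) = A h + α t := key
  -- additivity
  have Aadd : ∀ x y, A (x + y) = A x + A y := by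
    intro x y
    obtain ⟨t, ht⟩ := hgen {0, y, τ x, x + y + τ x} {τ x, x + τ x} (by
      intro b hb
      simp only [Finset.mem_insert, Finset.mem_singleton] at hb
      rcases hb with rfl | rfl
      exacts [hτ1 x, hτ2 x])
    have t0 := ht 0 (by simp)
    rw [zero_add] at t0
    have ty := ht y (by simp)
    have tt := ht (τ x) (by simp)
    have txy := ht (x + y + τ x) (by simp)
    have e1 : x + y + (τ x + t) = (x + τ x) + (y + t) := by ring
    have e2 : x + y + τ x + t = (x + τ x) + (y + t) := by ring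
    have hin : (x + τ x) + (y + t) ∈ G := by rw [← e2]; exact txy.1
    have a1 := hadd (x + τ x) (y + t) (hτ2 x) ty.1 hin (hsymm _ _ (ty.2 (x + τ x) (by simp)))
    have a2 := key' (x + y) (τ x + t) tt.1 (by rw [e1]; exact hin)
    have a3 := hadd (τ x) t (hτ1 x) t0.1 tt.1 (hsymm _ _ (t0.2 (τ x) (by simp)))
    have a4 := key' x (τ x) (hτ1 x) (hτ2 x)
    have a5 := key' y t t0.1 ty.1
    rw [e1, a1, a3, a4, a5] at a2
    linear_combination -a2
  -- the value on `G`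
  have AG : ∀ x ∈ G, A x = α x := by
    intro x hx
    obtain ⟨t, ht⟩ := hgen {0, x} {x} (by simpa using hx)
    have t0 := ht 0 (by simp)
    rw [zero_add] at t0
    have tx := ht x (by simp)
    have a1 := hadd x t hx t0.1 tx.1 (hsymm _ _ (t0.2 x (by simp)))
    have a2 := key' x t t0.1 tx.1
    rw [a1] at a2
    linear_combination -a2
  -- multiplicativity against `G`
  have AmG : ∀ h, ∀ t ∈ G, A (h * t) = A h * A t := by
    intro h t ht
    obtain ⟨s, hs1, hs2, hs3, hs4, hs5, hs6⟩ := hgenmul h t ht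
    have a1 := hmul (h + s) t hs2 ht hs4 hs6
    have a2 := hmul s t hs1 ht hs3 hs5
    have a3 := Aadd (h * t) (s * t)
    rw [← add_mul, AG _ hs4, AG _ hs3, a1, a2] at a3
    have a4 := key' h s hs1 hs2
    rw [AG t ht]
    rw [a4] at a3
    linear_combination -a3
  have Amul : ∀ x y, A (x * y) = A x * A y := by
    intro x y
    have a1 := AmG x (y + τ y) (hτ2 y)
    have a2 := AmG x (τ y) (hτ1 y)
    rw [mul_add, Aadd, a2, Aadd y (τ y)] at a1
    linear_combination a1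
  have A1 : A 1 = 1 := by
    have a1 := AmG 1 (τ 0) (hτ1 0)
    rw [one_mul] at a1
    have hn : A (τ 0) ≠ 0 := by rw [AG _ (hτ1 0)]; exact hne _ (hτ1 0)
    have := mul_right_cancel₀ hn (a1.symm.trans (one_mul _).symm)
    exact this
  have A0 : A 0 = 0 := by
    have := Aadd 0 0
    rw [add_zero] at this
    linear_combination -this
  exact ⟨{ toFun := A, map_one' := A1, map_mul' := Amul, map_zero' := A0, map_add' := Aadd },
    fun x hx => AG x hx⟩

end Vale.Agent.P019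
end

section

/-!
# The embedding of function fields
-/

namespace Vale.Agent.P019

open Polynomial Filter

variable {K L : Type*} [Field K] [Field L] [CharZero K] [CharZero L] {ℓ : ℕ} [Fact ℓ.Prime]
  {k : Subfield K} {l : Subfield L} {Θ : V ℓ K ≃ₗ[ZMod ℓ] V ℓ L}

omit [CharZero K] [CharZero L] in
/-- the isomorphism of the constants preserves cofiniteness. -/
theorem IsoOn.tendsto {σ : K → L} (hσ : IsoOn k l σ) : Tendsto σ (ae k) (ae l) := by
  intro S hS
  have h1 : ∀ᶠ β in ae l, β ∈ S := hS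
  change ∀ᶠ a in ae k, σ a ∈ S
  rw [ae_iff] at h1 ⊢
  refine Set.Finite.of_finite_image (f := σ) (h1.subset ?_) ?_
  · rintro _ ⟨a, ⟨ha, ha'⟩, rfl⟩
    exact ⟨hσ.mem a ha, ha'⟩
  · rintro a ⟨ha, -⟩ b ⟨hb, -⟩ hab
    exact hσ.inj ha hb hab

end Vale.Agent.P019
end

section

/-!
# The main theorem
-/

namespace Vale.Agent.P019

open Polynomial Filter

variable {K L : Type*} [Field K] [Field L] [CharZero K] [CharZero L] {ℓ : ℕ} [Fact ℓ.Prime]
  {k : Subfield K} {l : Subfield L} {Θ : V ℓ K ≃ₗ[ZMod ℓ] V ℓ L}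

end Vale.Agent.P019
end

section

/-!
# Generic places
-/

namespace Vale.Agent.P019P

open Vale.Agent.P019

set_option linter.style.haveILetI false

open Polynomial

namespace Gn

variable {K : Type*} [Field K]

/-- complement of `a` in `k` over `N`. -/
theorem exists_compl {N k : Subfield K} (hk : RAC k) (hNk : N ≤ k) (hN : RAC N) {a : K}
    (haN : a ∉ N) :
    ∃ k₁ : Subfield K, N ≤ k₁ ∧ k₁ ≤ k ∧ RAC k₁ ∧ a ∉ k₁ ∧
      ∀ b ∈ k, IsAlgebraic (adj k₁ a) b := by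
  obtain ⟨k₁, h1, h2, h3, h4, h5⟩ := Vale.Agent.P019.Gn.exists_compl hk hNk hN haN
  exact ⟨k₁, h1, h2, h3, h4, fun b hb => isAlgebraic_adj.2 (h5 b hb)⟩

variable {Ω : Type*} [Field Ω] {P : Pl K Ω}

/-- triviality on `E(a)` if `t` is transcendental over `E`. -/
theorem mem_and_ev [PerfectField K] [Algebra K Ω] {E : Subfield K} {a t : K}
    (hA : ∀ x ∈ E, x ∈ P.O ∧ P.ev x = algebraMap K Ω x) (ha : a ∈ P.O)
    (hat : P.ev a = algebraMap K Ω t) (ht : ¬ IsAlgebraic E t) {z : K} (hz : z ∈ adj E a) :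
    z ∈ P.O ∧ P.ev z ∈ (adj E t).map (algebraMap K Ω) := by
  obtain ⟨n, hn⟩ := mem_adj_iff.1 hz
  obtain ⟨h1, h2⟩ := Vale.Agent.P019.Gn.mem_and_ev hA ha hat ht hn
  have hzO : z ∈ P.O := by
    rw [← P.O.valuation_le_one_iff] at h1 ⊢
    rw [map_pow] at h1
    exact (pow_le_one_iff (qpow_pos K n).ne').1 h1
  refine ⟨hzO, ?_⟩
  rw [P.ev_pow hzO] at h2
  apply mem_of_pow_qK P (m := n)
  obtain ⟨w, hw, hw'⟩ := h2
  exact ⟨w, adj0_le_adj E t hw, hw'⟩

end Gn

namespace Mdl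

variable {K : Type*} [Field K] [PerfectField K] (M : Mdl K) (ℓ : ℕ) [Fact ℓ.Prime]
  [NeZero (ℓ : K)]

/-- S41 generic places. -/
theorem exists_gen {N : Subfield K} (hN : M.Sub N) {a t : K} (ha : a ∈ M.k) (haN : a ∉ N)
    (ht : t ∈ M.F N) (htN : t ∉ N) :
    ∃ O : ValuationSubring K, IsUnif O (t - a) ∧ (∀ z ∈ M.F N, z ≠ 0 → O.valuation z = 1) ∧
      (∀ c ∈ M.k, c ≠ 0 → O.valuation c = 1) ∧
      (∀ x ∈ M.F N, x ≠ 0 → cl ℓ x ∈ U1 ℓ O → cl ℓ x ∈ VS ℓ (rac (adj M.k t))) := by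
  classical
  obtain ⟨k₁, hNk₁, hk₁k, hrac, hak₁, halg⟩ := Gn.exists_compl M.RAC_k hN.le hN.rac haN
  set A : Subfield K := M.F k₁ with hAdef
  have hk0 : M.k0 ≤ k₁ := hN.ge.trans hNk₁
  have haA : ¬ IsAlgebraic A a := fun h => hak₁ (M.free k₁ hrac hk0 hk₁k a ha h)
  have hFA : M.F N ≤ A := Mdl.F_mono hNk₁
  have htA : t ∈ A := hFA ht
  have htk : t ∉ M.k := fun h => htN (M.free N hN.rac hN.ge hN.le t h (isAlgebraic_of_mem ht))
  have htalg : ¬ IsAlgebraic k₁ t := fun h => htk (M.RAC_k t (isAlgebraic_mono hk₁k h))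
  let Ω := AlgebraicClosure K
  obtain ⟨P, hPA, haO, hat⟩ := Gn.exists_pl (Ω := Ω) haA t
  have hk₁A : k₁ ≤ A := le_sup_right
  have hPk₁ : ∀ x ∈ k₁, x ∈ P.O ∧ P.ev x = algebraMap K Ω x := fun x hx => hPA x (hk₁A hx)
  have hE : ∀ x ∈ adj k₁ a, x ∈ P.O ∧ P.ev x ∈ (adj k₁ t).map (algebraMap K Ω) :=
    fun x hx => Gn.mem_and_ev hPk₁ haO hat htalg hx
  haveI := M.instPerfectk
  have hEk : adj k₁ a ≤ M.k := adj_le hk₁k ha
  have hPk : ∀ x ∈ M.k, x ∈ P.O := fun x hx =>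
    P.mem_of_isAlgebraic (adj k₁ a) (fun y hy => (hE y hy).1) (halg x hx)
  -- the image of the constants
  let ρ : M.k →+* Ω := P.ψ.comp (Subring.inclusion (S := M.k.toSubring) (T := P.O.toSubring) hPk)
  have hρ : ∀ x : M.k, ρ x = P.ev x := fun x => (P.ev_of_mem (hPk x x.2)).symm
  let B : Subfield Ω := ρ.fieldRange
  let A' : Subfield Ω := A.map (algebraMap K Ω)
  let κ : Subfield Ω := A' ⊔ B
  have hκA : ∀ x ∈ A, algebraMap K Ω x ∈ κ := fun x hx =>
    (le_sup_left : A' ≤ κ) ⟨x, hx, rfl⟩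
  have hκB : ∀ x ∈ M.k, P.ev x ∈ κ := fun x hx =>
    (le_sup_right : B ≤ κ) ⟨⟨x, hx⟩, hρ ⟨x, hx⟩⟩
  have hπ : t - a ≠ 0 := by
    rw [sub_ne_zero]
    rintro rfl
    exact htk ha
  have htO := hPA t htA
  have hπO : t - a ∈ P.O := sub_mem htO.1 haO
  have hπ0 : P.ev (t - a) = 0 := by
    rw [P.ev_sub htO.1 haO, htO.2, hat, sub_self]
  have hπF : t - a ∈ Vale.Agent.P019.adj A a :=
    Subfield.sub_mem _ (Vale.Agent.P019.le_adj A a htA) (Vale.Agent.P019.mem_adj A a)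
  have hGd0 : Vale.Agent.P019.Gd P (t - a) κ (Vale.Agent.P019.adj A a) :=
    Gn.gd_adj hPA haO hat htA hπ κ hκA
  haveI : PerfectField k₁ := perfect_of_RAC hrac
  haveI : PerfectField A := inferInstanceAs (PerfectField (M.F k₁))
  haveI : PerfectField B := inferInstanceAs (PerfectField ρ.fieldRange)
  haveI : PerfectField A' := inferInstanceAs (PerfectField (A.map (algebraMap K Ω)))
  haveI : PerfectField κ := inferInstanceAs (PerfectField (A' ⊔ B : Subfield Ω))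
  have hGd : Gd P (t - a) κ ⊤ := by
    have h1 : (⊤ : Subfield K) ≤ adj A a ⊔ M.k := by
      rw [← M.sup]
      exact sup_le_sup_right (le_trans le_sup_left (le_adj A a)) _
    refine Gd.mono h1 ?_
    exact Gd.sup (E := Vale.Agent.P019.adj k₁ a) hπ hπO hπ0 hπF hGd0
      (Vale.Agent.P019.adj_mono hk₁A a) (Vale.Agent.P019.adj_le hk₁k ha) hPk hκB
      (fun x hx => isAlgebraic_adj.1 (halg x hx))
  have hUA : ∀ x ∈ A, x ≠ 0 → P.U x := fun x hx hx0 =>
    Gn.U_of_field (fun y hy => (hPA y hy).1) hx hx0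
  refine ⟨P.O, ⟨hπ, ?_, ?_⟩, ?_, ?_, ?_⟩
  · exact (P.ev_eq_zero_iff hπO).1 hπ0
  · intro z hz0
    obtain ⟨m, n, hn, -⟩ := hGd z trivial hz0
    exact ⟨m, n, P.U_iff.1 hn⟩
  · intro z hz hz0
    exact P.U_iff.1 (hUA z (hFA hz) hz0)
  · intro c hc hc0
    exact P.U_iff.1 (Gn.U_of_field hPk hc hc0)
  · rintro x hx hx0 ⟨m, hm, hxm⟩
    have hℓ : ℓ ≠ 0 := (Fact.out : ℓ.Prime).ne_zero
    have hxA := hFA hx
    have hxU := hUA x hxA hx0
    obtain ⟨y, hy0, hy⟩ := (cl_eq_iff ℓ hx0 (one_add_ne_zero hm)).1 hxm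
    have hmU : P.U (1 + m) := P.U_iff.2 (val_one_add hm)
    have hyl : P.U (y ^ ℓ) := by
      have : y ^ ℓ = x / (1 + m) := by
        rw [hy]
        have := hmU.ne_zero
        field_simp
      rw [this]
      exact hxU.div hmU
    have hyU : P.U y := by
      rw [P.U_iff] at hyl ⊢
      rw [map_pow] at hyl
      exact (pow_eq_one_iff.1 hyl).resolve_right hℓ
    have hev : P.ev y ^ ℓ = algebraMap K Ω x := by
      rw [← (hPA x hxA).2, ← P.ev_pow hyU.1]
      conv_rhs => rw [hy]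
      rw [P.ev_mul hmU.1 hyl.1, P.ev_add P.O.one_mem (P.mem_of_lt hm), P.ev_one,
        P.ev_of_lt hm, add_zero, one_mul]
    have hevy : P.ev y ∈ κ := Gd.ev_mem hπO hπ0 hGd (z := y) trivial hyU.1
    -- Kummer descent
    let E₀ : Subfield K := rac (adj k₁ t) ⊓ A
    have hk₁E₀ : k₁ ≤ E₀ := le_inf ((le_adj k₁ t).trans (le_rac _)) hk₁A
    obtain ⟨ζ, hζk, hζ⟩ := finK_prim M.ack0 ℓ
    have hζ' : IsPrimitiveRoot (algebraMap K Ω (ζ : K)) ℓ :=
      hζ.map_of_injective (algebraMap K Ω).injective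
    have hac : ∀ z ∈ A', IsAlgebraic (E₀.map (algebraMap K Ω)) z →
        z ∈ E₀.map (algebraMap K Ω) := by
      rintro _ ⟨z, hz, rfl⟩ halgz
      have h1 := Gn.isAlgebraic_of_map halgz
      have h2 : IsAlgebraic (rac (adj k₁ t)) z := isAlgebraic_mono inf_le_left h1
      exact ⟨z, ⟨RAC_rac _ z h2, hz⟩, rfl⟩
    have hB : ∀ b ∈ B, IsAlgebraic (E₀.map (algebraMap K Ω)) b := by
      rintro _ ⟨c, rfl⟩
      rw [hρ]
      have h1 := P.isAlgebraic_ev (adj k₁ a) ((adj k₁ t).map (algebraMap K Ω))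
        (fun x hx _ => (hE x hx).2) (halg c c.2) (hPk c c.2)
      refine isAlgebraic_mono ?_ h1
      rintro _ ⟨z, hz, rfl⟩
      refine ⟨z, ⟨le_rac _ hz, ?_⟩, rfl⟩
      exact adj_le hk₁A htA hz
    obtain ⟨e, ⟨e', he', rfl⟩, w, ⟨w', hw', rfl⟩, hew⟩ :=
      kummer_descent ℓ (E₀.map (algebraMap K Ω)) A' B
        (by rintro _ ⟨z, hz, rfl⟩; exact ⟨z, hz.2, rfl⟩) hac hB _
        ⟨ζ, hk₁E₀ (hk0 hζk), rfl⟩ hζ' (h := algebraMap K Ω x) ⟨x, hxA, rfl⟩
        (by rw [Ne, map_eq_zero]; exact hx0) hevy hev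
    have hx' : x = e' * w' ^ ℓ := by
      apply (algebraMap K Ω).injective
      rw [map_mul, map_pow]
      exact hew
    rw [cl_ne_zero_mem_VS hx0]
    refine ⟨e', rac_mono (adj_mono hk₁k t) he'.1, ?_, w', ?_, hx'⟩
    · rintro rfl
      rw [zero_mul] at hx'
      exact hx0 hx'
    · rintro rfl
      rw [zero_pow hℓ, mul_zero] at hx'
      exact hx0 hx'

end Mdl

end Vale.Agent.P019P
end

section

/-!
# Closed pairs
-/

namespace Vale.Agent.P019P

open Vale.Agent.P019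

set_option linter.style.haveILetI false

open Polynomial

section ctb

variable {K : Type*} [Field K]

theorem ctb_sup {E F : Subfield K} (hE : (E : Set K).Countable) (hF : (F : Set K).Countable) :
    ((E ⊔ F : Subfield K) : Set K).Countable := by
  have h : E ⊔ F ≤ Subfield.closure ((E : Set K) ∪ F) :=
    sup_le (fun x hx => Subfield.subset_closure (Or.inl hx))
      (fun x hx => Subfield.subset_closure (Or.inr hx))
  exact (ctb_closure (hE.union hF)).mono h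

end ctb

section chain

variable {K : Type*} [Field K]

end chain

namespace Mdl

variable {K : Type*} [Field K] (M : Mdl K)

theorem ctb_F {N : Subfield K} (hN : (N : Set K).Countable) : (M.F N : Set K).Countable :=
  ctb_sup M.ctb hN

theorem sub_k0 : M.Sub M.k0 := ⟨RAC_of_isAlgClosed _ M.ack0, le_rfl, M.le_k⟩

theorem ctb_k0 : (M.k0 : Set K).Countable := M.ctb.mono M.le_K0

/-- every element comes from a countable field of constants. -/
theorem exists_ctb (z : K) : ∃ S : Set K, S.Countable ∧ (∀ s ∈ S, s ∈ M.k) ∧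
    z ∈ M.K0 ⊔ Subfield.closure S := by
  have hz : z ∈ Subfield.closure ((M.K0 : Set K) ∪ M.k) := by
    have h1 : (⊤ : Subfield K) ≤ Subfield.closure ((M.K0 : Set K) ∪ M.k) := by
      rw [← M.sup]
      exact sup_le (fun x hx => Subfield.subset_closure (Or.inl hx))
        (fun x hx => Subfield.subset_closure (Or.inr hx))
    exact h1 trivial
  induction hz using Subfield.closure_induction with
  | mem x hx =>
    rcases hx with hx | hx
    · exact ⟨∅, Set.countable_empty, by simp, (le_sup_left : M.K0 ≤ _) hx⟩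
    · exact ⟨{x}, Set.countable_singleton x, by simpa using hx,
        (le_sup_right : Subfield.closure {x} ≤ M.K0 ⊔ _) (Subfield.subset_closure rfl)⟩
  | one => exact ⟨∅, Set.countable_empty, by simp, Subfield.one_mem _⟩
  | add x y _ _ hx hy =>
    obtain ⟨S, hS, hSk, hx⟩ := hx
    obtain ⟨T, hT, hTk, hy⟩ := hy
    refine ⟨S ∪ T, hS.union hT, ?_, Subfield.add_mem _ ?_ ?_⟩
    · rintro s (hs | hs)
      exacts [hSk s hs, hTk s hs]
    · exact sup_le_sup_left (Subfield.closure_mono Set.subset_union_left) _ hx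
    · exact sup_le_sup_left (Subfield.closure_mono Set.subset_union_right) _ hy
  | neg x _ hx =>
    obtain ⟨S, hS, hSk, hx⟩ := hx
    exact ⟨S, hS, hSk, Subfield.neg_mem _ hx⟩
  | inv x _ hx =>
    obtain ⟨S, hS, hSk, hx⟩ := hx
    exact ⟨S, hS, hSk, Subfield.inv_mem _ hx⟩
  | mul x y _ _ hx hy =>
    obtain ⟨S, hS, hSk, hx⟩ := hx
    obtain ⟨T, hT, hTk, hy⟩ := hy
    refine ⟨S ∪ T, hS.union hT, ?_, Subfield.mul_mem _ ?_ ?_⟩
    · rintro s (hs | hs)
      exacts [hSk s hs, hTk s hs]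
    · exact sup_le_sup_left (Subfield.closure_mono Set.subset_union_left) _ hx
    · exact sup_le_sup_left (Subfield.closure_mono Set.subset_union_right) _ hy

/-- enlarging a countable field of constants. -/
theorem exists_big (hk : ¬ (M.k : Set K).Countable) {N : Subfield K} (hN : M.Sub N)
    (hc : (N : Set K).Countable) (Z : Set K) (hZ : Z.Countable) :
    ∃ N₂, M.Sub N₂ ∧ (N₂ : Set K).Countable ∧ N ≤ N₂ ∧ (∃ a ∈ N₂, a ∉ N) ∧
      ∀ z ∈ Z, z ∈ M.F N₂ := by
  choose S hS hSk hSz using M.exists_ctb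
  obtain ⟨a, hak, haN⟩ : ∃ a ∈ M.k, a ∉ N := by
    by_contra hcon
    push Not at hcon
    exact hk (hc.mono hcon)
  set T : Set K := {a} ∪ ⋃ z ∈ Z, S z with hT
  have hTc : T.Countable :=
    (Set.countable_singleton a).union (hZ.biUnion (fun z _ => hS z))
  have hTk : Subfield.closure T ≤ M.k := by
    rw [Subfield.closure_le]
    rintro s (hs | hs)
    · rw [Set.mem_singleton_iff.1 hs]; exact hak
    · obtain ⟨z, _, hs⟩ := Set.mem_iUnion₂.1 hs
      exact hSk z s hs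
  have h0 : N ≤ rac (N ⊔ Subfield.closure T) := le_sup_left.trans (le_rac _)
  have h1 : Subfield.closure T ≤ rac (N ⊔ Subfield.closure T) := le_sup_right.trans (le_rac _)
  refine ⟨rac (N ⊔ Subfield.closure T), sub_rac (hN.ge.trans le_sup_left)
    (sup_le hN.le hTk), ctb_rac (ctb_sup hc (ctb_closure hTc)), h0,
    ⟨a, h1 (Subfield.subset_closure (Or.inl rfl)), haN⟩, ?_⟩
  intro z hz
  refine sup_le_sup_left ?_ M.K0 (hSz z)
  refine (Subfield.closure_mono ?_).trans h1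
  exact (Set.subset_biUnion_of_mem (u := fun z => S z) hz).trans Set.subset_union_right

variable {M}

theorem sub_iSup {N : ℕ → Subfield K} (hm : Monotone N) (hN : ∀ n, M.Sub (N n)) :
    M.Sub (⨆ n, N n) :=
  ⟨RAC_iSup hm (fun n => (hN n).rac), (hN 0).ge.trans (le_iSup N 0),
    iSup_le (fun n => (hN n).le)⟩

theorem F_iSup {N : ℕ → Subfield K} (hm : Monotone N) {z : K} :
    z ∈ M.F (⨆ n, N n) ↔ ∃ n, z ∈ M.F (N n) := by
  have h : M.F (⨆ n, N n) = ⨆ n, M.F (N n) := sup_iSup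
  rw [h]
  exact mem_iSup_chain (fun _ _ hab => F_mono (hm hab))

theorem F_iSup_finset {N : ℕ → Subfield K} (hm : Monotone N) (S : Finset K)
    (hS : ∀ s ∈ S, s ∈ M.F (⨆ n, N n)) : ∃ n, ∀ s ∈ S, s ∈ M.F (N n) := by
  have h : M.F (⨆ n, N n) = ⨆ n, M.F (N n) := sup_iSup
  rw [h] at hS
  exact finset_chain (fun _ _ hab => F_mono (hm hab)) S hS

end Mdl

section CP

variable {K L : Type*} [Field K] [Field L] {ℓ : ℕ}

/-- closed pairs of countable algebraically closed fields of constants. -/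
structure CP (M : Mdl K) (M' : Mdl L) (Θ : V ℓ K ≃ₗ[ZMod ℓ] V ℓ L) (N : Subfield K)
    (N' : Subfield L) : Prop where
  sub : M.Sub N
  sub' : M'.Sub N'
  ctb : (N : Set K).Countable
  ctb' : (N' : Set L).Countable
  map : ∀ v, v ∈ VS ℓ (M.F N) ↔ Θ v ∈ VS ℓ (M'.F N')
  inf : ∀ S : Finset K, (∀ s ∈ S, s ∈ M.F N) →
    ∃ N₀, M.Sub N₀ ∧ N₀ ≤ N ∧ N₀ ≠ N ∧ (∀ s ∈ S, s ∈ M.F N₀)
  inf' : ∀ S : Finset L, (∀ s ∈ S, s ∈ M'.F N') →
    ∃ N₀, M'.Sub N₀ ∧ N₀ ≤ N' ∧ N₀ ≠ N' ∧ (∀ s ∈ S, s ∈ M'.F N₀)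

/-- one step: enlarge so that the classes of a smaller countable field are absorbed. -/
theorem exists_step (M : Mdl K) (M' : Mdl L) (Θ : V ℓ K →ₗ[ZMod ℓ] V ℓ L)
    (hl : ¬ (M'.k : Set L).Countable) {N : Subfield K} (hc : (N : Set K).Countable)
    {N' : Subfield L} (hN' : M'.Sub N') (hc' : (N' : Set L).Countable) (B : Set L)
    (hB : B.Countable) :
    ∃ N₂, M'.Sub N₂ ∧ (N₂ : Set L).Countable ∧ N' ≤ N₂ ∧ (∃ a ∈ N₂, a ∉ N') ∧
      (∀ b ∈ B, b ∈ M'.F N₂) ∧ ∀ v ∈ VS ℓ (M.F N), Θ v ∈ VS ℓ (M'.F N₂) := by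
  choose r _ hr using fun v : V ℓ L => cl_surj (ℓ := ℓ) v
  obtain ⟨N₂, h1, h2, h3, h4, h5⟩ := M'.exists_big hl hN' hc'
    (B ∪ (fun x : K => r (Θ (cl ℓ x))) '' (M.F N : Set K))
    (hB.union ((M.ctb_F hc).image _))
  refine ⟨N₂, h1, h2, h3, h4, fun b hb => h5 b (Or.inl hb), ?_⟩
  rintro _ ⟨x, hx, _, rfl⟩
  have h6 := h5 _ (Or.inr ⟨x, hx, rfl⟩)
  have h7 := cl_mem_VS (ℓ := ℓ) h6
  rwa [hr] at h7

/-- the state of the construction. -/
structure St (M : Mdl K) (M' : Mdl L) where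
  N : Subfield K
  N' : Subfield L
  sub : M.Sub N
  sub' : M'.Sub N'
  ctb : (N : Set K).Countable
  ctb' : (N' : Set L).Countable

/-- S81 existence of closed pairs. -/
theorem exists_CP [PerfectField K] [PerfectField L] [Fact ℓ.Prime] [NeZero (ℓ : K)] (M : Mdl K) (M' : Mdl L)
    (Θ : V ℓ K ≃ₗ[ZMod ℓ] V ℓ L)
    (hk : ¬ (M.k : Set K).Countable) (hl : ¬ (M'.k : Set L).Countable) (A : Set K)
    (hA : A.Countable) (B : Set L) (hB : B.Countable) :
    ∃ N N', CP M M' Θ N N' ∧ (∀ a ∈ A, a ∈ M.F N) ∧ (∀ b ∈ B, b ∈ M'.F N') := by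
  have step : ∀ s : St M M', ∃ t : St M M', (s.N ≤ t.N ∧ (∃ a ∈ t.N, a ∉ s.N) ∧
      (∀ a ∈ A, a ∈ M.F t.N) ∧ ∀ v ∈ VS ℓ (M'.F s.N'), Θ.symm v ∈ VS ℓ (M.F t.N)) ∧
      (s.N' ≤ t.N' ∧ (∃ a ∈ t.N', a ∉ s.N') ∧
      (∀ b ∈ B, b ∈ M'.F t.N') ∧ ∀ v ∈ VS ℓ (M.F s.N), Θ v ∈ VS ℓ (M'.F t.N')) := by
    intro s
    obtain ⟨N₂, h1, h2, h3, h4, h5, h6⟩ := exists_step (ℓ := ℓ) M' M Θ.symm.toLinearMap hk
      s.ctb' s.sub s.ctb A hA
    obtain ⟨N₂', h1', h2', h3', h4', h5', h6'⟩ := exists_step (ℓ := ℓ) M M' Θ.toLinearMap hl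
      s.ctb s.sub' s.ctb' B hB
    exact ⟨⟨N₂, N₂', h1, h1', h2, h2'⟩, ⟨h3, h4, h5, h6⟩, ⟨h3', h4', h5', h6'⟩⟩
  choose f hf hf' using step
  let s : ℕ → St M M' := fun n => Nat.rec ⟨M.k0, M'.k0, M.sub_k0, M'.sub_k0, M.ctb_k0,
    M'.ctb_k0⟩ (fun _ t => f t) n
  have hs : ∀ n, s (n + 1) = f (s n) := fun _ => rfl
  have hm : Monotone (fun n => (s n).N) := monotone_nat_of_le_succ (fun n => by
    rw [hs]; exact (hf (s n)).1)
  have hm' : Monotone (fun n => (s n).N') := monotone_nat_of_le_succ (fun n => by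
    rw [hs]; exact (hf' (s n)).1)
  have hne : ∀ n, (s n).N ≠ ⨆ n, (s n).N := by
    intro n hn
    obtain ⟨a, ha, ha'⟩ := (hf (s n)).2.1
    rw [← hs] at ha
    exact ha' (hn ▸ (mem_iSup_chain hm).2 ⟨n + 1, ha⟩)
  have hne' : ∀ n, (s n).N' ≠ ⨆ n, (s n).N' := by
    intro n hn
    obtain ⟨a, ha, ha'⟩ := (hf' (s n)).2.1
    rw [← hs] at ha
    exact ha' (hn ▸ (mem_iSup_chain hm').2 ⟨n + 1, ha⟩)
  have hVS : ∀ v, v ∈ VS ℓ (M.F (⨆ n, (s n).N)) → ∃ n, v ∈ VS ℓ (M.F (s n).N) := by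
    rintro _ ⟨x, hx, _, rfl⟩
    obtain ⟨n, hn⟩ := (Mdl.F_iSup hm).1 hx
    exact ⟨n, cl_mem_VS hn⟩
  have hVS' : ∀ v, v ∈ VS ℓ (M'.F (⨆ n, (s n).N')) → ∃ n, v ∈ VS ℓ (M'.F (s n).N') := by
    rintro _ ⟨x, hx, _, rfl⟩
    obtain ⟨n, hn⟩ := (Mdl.F_iSup hm').1 hx
    exact ⟨n, cl_mem_VS hn⟩
  refine ⟨⨆ n, (s n).N, ⨆ n, (s n).N', ?_, ?_, ?_⟩
  · refine ⟨Mdl.sub_iSup hm (fun n => (s n).sub), Mdl.sub_iSup hm' (fun n => (s n).sub'),
      ?_, ?_, ?_, ?_, ?_⟩
    · rw [Subfield.coe_iSup_of_directed hm.directed_le]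
      exact Set.countable_iUnion (fun n => (s n).ctb)
    · rw [Subfield.coe_iSup_of_directed hm'.directed_le]
      exact Set.countable_iUnion (fun n => (s n).ctb')
    · intro v
      constructor
      · intro hv
        obtain ⟨n, hn⟩ := hVS v hv
        have h1 := (hf' (s n)).2.2.2 v hn
        rw [← hs] at h1
        exact VS_mono (Mdl.F_mono (le_iSup (fun n => (s n).N') (n + 1))) h1
      · intro hv
        obtain ⟨n, hn⟩ := hVS' _ hv
        have h1 := (hf (s n)).2.2.2 _ hn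
        rw [← hs, LinearEquiv.symm_apply_apply] at h1
        exact VS_mono (Mdl.F_mono (le_iSup (fun n => (s n).N) (n + 1))) h1
    · intro S hS
      obtain ⟨n, hn⟩ := Mdl.F_iSup_finset hm S hS
      exact ⟨(s n).N, (s n).sub, le_iSup (fun n => (s n).N) n, hne n, hn⟩
    · intro S hS
      obtain ⟨n, hn⟩ := Mdl.F_iSup_finset hm' S hS
      exact ⟨(s n).N', (s n).sub', le_iSup (fun n => (s n).N') n, hne' n, hn⟩
  · intro a ha
    have h1 := (hf (s 0)).2.2.1 a ha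
    rw [← hs] at h1
    exact Mdl.F_mono (le_iSup (fun n => (s n).N) 1) h1
  · intro b hb
    have h1 := (hf' (s 0)).2.2.1 b hb
    rw [← hs] at h1
    exact Mdl.F_mono (le_iSup (fun n => (s n).N') 1) h1

/-- S82 uncountability is transported. -/
theorem uncountable_transport [PerfectField K] [PerfectField L] [Fact ℓ.Prime] [NeZero (ℓ : K)] (M : Mdl K) (M' : Mdl L)
    (Θ : V ℓ K ≃ₗ[ZMod ℓ] V ℓ L)
    (hk : ¬ (M.k : Set K).Countable) : ¬ (M'.k : Set L).Countable := by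
  intro hl
  apply hk
  have h1 : (Set.univ : Set L).Countable := by
    have h := M'.ctb_F hl
    rw [M'.F_k] at h
    exact h
  have h2 : (Set.univ : Set (V ℓ K)).Countable := by
    refine (h1.image (fun y : L => Θ.symm (cl ℓ y))).mono ?_
    intro v _
    obtain ⟨y, _, hy⟩ := cl_surj ℓ (Θ v)
    exact ⟨y, trivial, by simp only [hy, LinearEquiv.symm_apply_apply]⟩
  have hfg : FG M.k (⊤ : Subfield K) := by
    have h := M.fg_F M.sub_k
    rwa [M.F_k] at h
  have h3 : (⋃ v ∈ (Set.univ : Set (V ℓ K)), {c : K | c ∈ M.k ∧ cl ℓ (M.x - c) = v}).Countable :=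
    h2.biUnion (fun v _ => (dist_top ℓ M.ack hfg M.hxk v).countable)
  refine h3.mono ?_
  intro c hc
  exact Set.mem_biUnion (Set.mem_univ (cl ℓ (M.x - c))) ⟨hc, rfl⟩

end CP

end Vale.Agent.P019P
end

section

/-!
# Existence of models
-/

namespace Vale.Agent.P019P

open Vale.Agent.P019

set_option linter.style.haveILetI false

open Polynomial

/-- S71 existence of models. -/
theorem exists_mdl {K : Type*} [Field K] [PerfectField K] (k : Subfield K) (hk : IsAlgClosed k)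
    (hfg : FG k (⊤ : Subfield K)) (htr : ∃ x y : K, x ∉ k ∧ ¬ IsAlgebraic (adj k x) y) :
    ∃ M : Mdl K, M.k = k := by
  classical
  obtain ⟨S, hS⟩ := hfg
  obtain ⟨x, y, hx, hy⟩ := htr
  set S' : Finset K := insert x (insert y S) with hS'
  obtain ⟨C, hC, hfree⟩ := exists_finite_free k S'
  set k0 : Subfield K := rac (Subfield.closure (C : Set K)) with hk0
  have hCk : Subfield.closure (C : Set K) ≤ k := Subfield.closure_le.2 hC
  have hk0k : k0 ≤ k := (RAC_of_isAlgClosed k hk).le hCk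
  have hCk0 : (C : Set K) ⊆ (k0 : Set K) :=
    subset_trans Subfield.subset_closure (le_rac (Subfield.closure (C : Set K)))
  have hk0c : (k0 : Set K).Countable := countable_rac (countable_closure C.countable_toSet)
  have hsup : ∀ N : Subfield K, RAC N → k0 ≤ N →
      pf (k0 ⊔ Subfield.closure (S' : Set K)) ⊔ N = pf (N ⊔ Subfield.closure (S' : Set K)) := by
    intro N hNR hN
    haveI : PerfectField N := perfect_of_RAC hNR
    apply le_antisymm
    · exact sup_le (pf_mono (sup_le_sup_right hN _)) (le_sup_left.trans (le_pf _))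
    · exact pf_le (sup_le le_sup_right ((le_sup_right.trans (le_pf _)).trans le_sup_left))
  have hkR : RAC k := RAC_of_isAlgClosed k hk
  refine ⟨{ k := k, k0 := k0, K0 := pf (k0 ⊔ Subfield.closure (S' : Set K)), le_k := hk0k
            le_K0 := le_sup_left.trans (le_pf _), ack := hk
            ack0 := isAlgClosed_of_RAC hk (RAC_rac _) hk0k
            pfK0 := inferInstance
            sup := ?_, ctb := ?_, fg := ⟨S', rfl⟩, free := ?_, x := x, y := y
            hx := ?_, hy := ?_, hxk := hx, hyx := hy }, rfl⟩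
  · rw [hsup k hkR hk0k, eq_top_iff, hS]
    refine pf_mono (sup_le_sup_left (Subfield.closure_mono ?_) _)
    intro s hs
    simp only [hS', Finset.coe_insert]
    exact Set.mem_insert_of_mem _ (Set.mem_insert_of_mem _ hs)
  · refine (countable_rac ?_).mono (pf_le_rac _)
    have h1 : k0 ⊔ Subfield.closure (S' : Set K) =
        Subfield.closure ((k0 : Set K) ∪ (S' : Set K)) := by
      rw [Subfield.closure_union, Subfield.closure_eq]
    rw [h1]
    exact countable_closure (hk0c.union S'.countable_toSet)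
  · intro N hN hk0N hNk a hak ha
    rw [hsup N hN hk0N, isAlgebraic_pf] at ha
    exact hN a (hfree N (hCk0.trans hk0N) hNk a hak ha)
  · exact (le_sup_right.trans (le_pf _) : Subfield.closure (S' : Set K) ≤ _)
      (Subfield.subset_closure (by simp [hS']))
  · exact (le_sup_right.trans (le_pf _) : Subfield.closure (S' : Set K) ≤ _)
      (Subfield.subset_closure (by simp [hS']))

end Vale.Agent.P019P
end

section

/-!
# Assembly 1: maximality, the transferred valuations and their triviality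
-/

namespace Vale.Agent.P019P

open Vale.Agent.P019

set_option linter.style.haveILetI false

open Polynomial

section consts

variable {K : Type*} [Field K]

/-- all nonconstant elements of an algebraic closure of a line generate it. -/
theorem line_swap {k : Subfield K} (hk : RAC k) {x p q : K} (hp : IsAlgebraic (adj k x) p)
    (hpk : p ∉ k) (hq : IsAlgebraic (adj k x) q) : IsAlgebraic (adj k p) q :=
  isAlgebraic_adj.2 (Vale.Agent.P019.line_swap hk (isAlgebraic_adj.1 hp) hpk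
    (isAlgebraic_adj.1 hq))

end consts

namespace Mdl

variable {K : Type*} [Field K] [PerfectField K] (M : Mdl K)

theorem fg_top : FG M.k (⊤ : Subfield K) := by
  have := M.fg_F M.sub_k
  rwa [M.F_k] at this

/-- for every `p` some element of `K0` is not algebraic over `k(p)`. -/
theorem exists_indep (p : K) : ∃ g ∈ M.K0, ¬ IsAlgebraic (adj M.k p) g := by
  by_contra hcon
  push Not at hcon
  exact M.hyx (line_swap M.RAC_k (hcon _ M.hx) M.hxk (hcon _ M.hy))

/-- an infinite sequence of constants in a given valuation ring. -/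
theorem exists_seq (w : ValuationSubring K) : ∃ e : ℕ → K, Function.Injective e ∧
    (∀ n, e n ∈ M.k0) ∧ (∀ n, w.valuation (e n) ≤ 1) ∧ ∀ n, e n ≠ 0 := by
  haveI := M.ack0
  haveI : Infinite M.k0 := IsAlgClosed.instInfinite
  have hinf : {c : M.k0 | w.valuation (c : K) ≤ 1 ∧ c ≠ 0}.Infinite := by
    intro hfin
    have h1 : (Set.univ : Set M.k0) ⊆ {c : M.k0 | w.valuation (c : K) ≤ 1 ∧ c ≠ 0} ∪
        ((fun c => c⁻¹) '' {c : M.k0 | w.valuation (c : K) ≤ 1 ∧ c ≠ 0}) ∪ {0} := by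
      intro c _
      by_cases hc0 : c = 0
      · exact Or.inr hc0
      · left
        rcases le_or_gt (w.valuation (c : K)) 1 with h | h
        · exact Or.inl ⟨h, hc0⟩
        · refine Or.inr ⟨c⁻¹, ⟨?_, inv_ne_zero hc0⟩, inv_inv c⟩
          have e : ((c⁻¹ : M.k0) : K) = (c : K)⁻¹ := rfl
          rw [e, map_inv₀]
          exact (inv_lt_one_of_one_lt₀ h).le
    exact Set.infinite_univ (((hfin.union (hfin.image _)).union (Set.finite_singleton _)).subset h1)
  let f := hinf.natEmbedding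
  refine ⟨fun n => ((f n).1 : K), ?_, fun n => (f n).1.2, fun n => (f n).2.1, fun n h => ?_⟩
  · intro n m h
    exact f.injective (Subtype.ext (Subtype.ext h))
  · exact (f n).2.2 (Subtype.ext h)

variable (ℓ : ℕ) [Fact ℓ.Prime] [NeZero (ℓ : K)]

/-- MAX. -/
theorem max {N : Subfield K} (hN : M.Sub N) {a t : K} (ha : a ∈ M.k) (haN : a ∉ N)
    (ht : t ∈ M.F N) (hg : Good M.k t) {u : V ℓ K} (hu : u ∈ VS ℓ (M.F N))
    (h : Orth u (cl ℓ (t - a))) : u ∈ VS ℓ (adj M.k t) := by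
  have hℓ : 0 < ℓ := (Fact.out : ℓ.Prime).pos
  have htN : t ∉ N := fun h' => hg.1 (hN.le h')
  obtain ⟨O, hU, hF, -, hA2⟩ := M.exists_gen ℓ hN ha haN ht htN
  obtain ⟨x, hx, hx0, rfl⟩ := hu
  have h1 := tame_orth (exists_neg_one M.ack hℓ) O (hU.fn ℓ) (fun z hz => hU.fn_unit ℓ z hz) h
  rw [hU.fn_self ℓ, hU.fn_unit ℓ x (hF x hx hx0), one_smul, zero_smul, sub_zero] at h1
  exact VS_mono (hg.2.le le_rfl) (hA2 x hx hx0 h1)

/-- there is a good element of `K0` which is not algebraic over `k(t)`. -/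
theorem exists_good (t : K) : ∃ x ∈ M.K0, Good M.k x ∧ ¬ IsAlgebraic (adj M.k t) x := by
  have hfin := bertini M.ack M.fg_top M.hxk M.hyx
  obtain ⟨e, hei, hek, -, -⟩ := M.exists_seq (⊤ : ValuationSubring K)
  have hinf : (Set.range e).Infinite := Set.infinite_range_of_injective hei
  have h2 : ∀ c d : K, c ∈ M.k → d ∈ M.k → c ≠ d → IsAlgebraic (adj M.k t) (M.x + c * M.y) →
      IsAlgebraic (adj M.k t) (M.x + d * M.y) → False := by
    intro c d hc hd hcd h1 h2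
    rw [← mem_rac] at h1 h2
    have hc' : c ∈ rac (adj M.k t) := le_rac _ (le_adj _ _ hc)
    have hd' : d ∈ rac (adj M.k t) := le_rac _ (le_adj _ _ hd)
    have hcd' : c - d ≠ 0 := sub_ne_zero.2 hcd
    have hy : M.y ∈ rac (adj M.k t) := by
      have e : M.y = ((M.x + c * M.y) - (M.x + d * M.y)) / (c - d) := by
        field_simp; ring
      rw [e]
      exact (rac (adj M.k t)).div_mem (Subfield.sub_mem _ h1 h2) (Subfield.sub_mem _ hc' hd')
    have hx : M.x ∈ rac (adj M.k t) := by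
      have e : M.x = (M.x + c * M.y) - c * M.y := by ring
      rw [e]
      exact Subfield.sub_mem _ h1 (Subfield.mul_mem _ hc' hy)
    exact M.hyx (line_swap M.RAC_k (mem_rac.1 hx) M.hxk (mem_rac.1 hy))
  obtain ⟨S, hS⟩ : ∃ S : Set K, S.Finite ∧ ∀ c ∈ M.k, c ∉ S →
      Good M.k (M.x + c * M.y) ∧ ¬ IsAlgebraic (adj M.k t) (M.x + c * M.y) := by
    refine ⟨{c | c ∈ M.k ∧ ¬ Good M.k (M.x + c * M.y)} ∪
      {c | c ∈ M.k ∧ IsAlgebraic (adj M.k t) (M.x + c * M.y)}, hfin.union ?_, ?_⟩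
    · refine Set.Subsingleton.finite ?_
      intro c hc d hd
      by_contra hcd
      exact h2 c d hc.1 hd.1 hcd hc.2 hd.2
    · intro c hc hcS
      simp only [Set.mem_union, Set.mem_ofPred_eq, not_or, not_and, not_not] at hcS
      exact ⟨hcS.1 hc, hcS.2 hc⟩
  obtain ⟨_, ⟨n, rfl⟩, hn⟩ := hinf.exists_notMem_finite hS.1
  have h3 := hS.2 (e n) (M.le_k (hek n)) hn
  exact ⟨M.x + e n * M.y, M.K0.add_mem M.hx (M.K0.mul_mem (M.le_K0 (hek n)) M.hy), h3.1, h3.2⟩

/-- there is an element `g` with `[g], [1 - g]` independent modulo the line of `t`. -/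
theorem exists_g0 (t : K) :
    ∃ g ∈ M.K0, ∀ i j : ZMod ℓ, i • cl ℓ g + j • cl ℓ (1 - g) ∈ VS ℓ (adj M.k t) →
      i = 0 ∧ j = 0 := by
  classical
  have hℓ : 0 < ℓ := (Fact.out : ℓ.Prime).pos
  obtain ⟨x, hx, hgx, hxt⟩ := M.exists_good t
  have hW := int_top ℓ (E₁ := adj M.k t) (E₂ := adj M.k x) M.ack M.fg_top (le_adj _ _)
    (le_adj _ _) (mem_adj _ _) hxt (fun z hz => isAlgebraic_of_mem hz)
  by_contra hcon
  push Not at hcon
  have key : ∀ c : M.k0, ∃ ij : ZMod ℓ × ZMod ℓ, ij ≠ 0 ∧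
      ij.1 • cl ℓ (x - (c : K)) + ij.2 • cl ℓ (x - ((c : K) + 1)) ∈ VS ℓ (adj M.k t) := by
    intro c
    have hg : x - (c : K) ∈ M.K0 := M.K0.sub_mem hx (M.le_K0 c.2)
    obtain ⟨i, j, hij, hij'⟩ := hcon _ hg
    refine ⟨(i, j), ?_, ?_⟩
    · intro h
      have := Prod.mk_eq_zero.1 h
      exact hij' this.1 this.2
    · have e : (1 : K) - (x - (c : K)) = -(x - ((c : K) + 1)) := by ring
      rw [e, cl_neg ℓ (exists_neg_one M.ack hℓ)] at hij
      exact hij
  choose ij hij0 hij using key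
  haveI : Finite ((VS ℓ (adj M.k t) ⊓ VS ℓ (adj M.k x) : Submodule (ZMod ℓ) (V ℓ K)) : Set (V ℓ K)) :=
    hW
  have hmem : ∀ c ∈ M.k, cl ℓ (x - c) ∈ VS ℓ (adj M.k x) := fun c hc =>
    cl_mem_VS (Subfield.sub_mem _ (mem_adj _ _) (le_adj _ _ hc))
  have hck : ∀ c : M.k0, (c : K) ∈ M.k := fun c => M.le_k c.2
  have hck1 : ∀ c : M.k0, (c : K) + 1 ∈ M.k := fun c => M.k.add_mem (hck c) M.k.one_mem
  let φ : M.k0 → (ZMod ℓ × ZMod ℓ) ×
      ((VS ℓ (adj M.k t) ⊓ VS ℓ (adj M.k x) : Submodule (ZMod ℓ) (V ℓ K)) : Set (V ℓ K)) :=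
    fun c => (ij c, ⟨_, hij c, Submodule.add_mem _ (Submodule.smul_mem _ _ (hmem _ (hck c)))
      (Submodule.smul_mem _ _ (hmem _ (hck1 c)))⟩)
  haveI : NeZero ℓ := ⟨hℓ.ne'⟩
  haveI := M.ack0
  haveI : Infinite M.k0 := IsAlgClosed.instInfinite
  obtain ⟨y, hy⟩ := Finite.exists_infinite_fiber φ
  have hyinf : (φ ⁻¹' {y}).Infinite := Set.infinite_coe_iff.1 hy
  obtain ⟨n, hn⟩ := hyinf.nonempty
  obtain ⟨m, hm, hmS⟩ := hyinf.exists_notMem_finite
    (Set.toFinite ({n, n + 1, n - 1} : Set M.k0))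
  simp only [Set.mem_insert_iff, Set.mem_singleton_iff, not_or] at hmS
  obtain ⟨hmn, hmn1, hmn2⟩ := hmS
  have he : φ n = φ m := by
    rw [Set.mem_preimage, Set.mem_singleton_iff] at hn hm
    rw [hn, hm]
  have h1 : ij n = ij m := congrArg Prod.fst he
  have h2 : (ij n).1 • cl ℓ (x - (n : K)) + (ij n).2 • cl ℓ (x - ((n : K) + 1)) =
      (ij m).1 • cl ℓ (x - (m : K)) + (ij m).2 • cl ℓ (x - ((m : K) + 1)) :=
    congrArg Subtype.val (congrArg Prod.snd he)
  have h01 : (n : K) ≠ (n : K) + 1 := fun h => by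
    have : (1 : K) = 0 := by linear_combination -h
    exact one_ne_zero this
  have h02 : (n : K) ≠ (m : K) := fun h => hmn (Subtype.ext h).symm
  have h03 : (n : K) ≠ (m : K) + 1 := fun h => hmn2 (Subtype.ext (by
    change (m : K) = (n : K) - 1
    rw [h]; ring))
  have h12 : (n : K) + 1 ≠ (m : K) := fun h => hmn1 (Subtype.ext h).symm
  have h13 : (n : K) + 1 ≠ (m : K) + 1 := fun h => h02 (add_right_cancel h)
  have h23 : (m : K) ≠ (m : K) + 1 := fun h => by
    have : (1 : K) = 0 := by linear_combination -h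
    exact one_ne_zero this
  let ν : K → ZMod ℓ := fun c => if c = (n : K) then (ij n).1 else
    if c = (n : K) + 1 then (ij n).2 else
    if c = (m : K) then -(ij m).1 else -(ij m).2
  have h3 := good_independent M.ack hgx
    {(n : K), (n : K) + 1, (m : K), (m : K) + 1} (by
      intro c hc
      simp only [Finset.mem_insert, Finset.mem_singleton] at hc
      rcases hc with rfl | rfl | rfl | rfl
      · exact hck n
      · exact hck1 n
      · exact hck m
      · exact hck1 m) ν (by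
      rw [Finset.sum_insert (by simp only [Finset.mem_insert, Finset.mem_singleton, not_or]; exact ⟨h01, h02, h03⟩),
        Finset.sum_insert (by simp only [Finset.mem_insert, Finset.mem_singleton, not_or]; exact ⟨h12, h13⟩),
        Finset.sum_insert (by simp only [Finset.mem_singleton]; exact h23),
        Finset.sum_singleton]
      have e0 : ν (n : K) = (ij n).1 := if_pos rfl
      have e1 : ν ((n : K) + 1) = (ij n).2 := by
        simp only [ν, if_neg h01.symm, if_true]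
      have e2 : ν (m : K) = -(ij m).1 := by
        simp only [ν, if_neg h02.symm, if_neg h12.symm, if_true]
      have e3 : ν ((m : K) + 1) = -(ij m).2 := by
        simp only [ν, if_neg h03.symm, if_neg h13.symm, if_neg h23.symm]
      rw [e0, e1, e2, e3, neg_smul, neg_smul, ← add_assoc, h2]
      abel)
  have h4 := h3 (n : K) (by simp)
  have h5 := h3 ((n : K) + 1) (by simp)
  have e0 : ν (n : K) = (ij n).1 := if_pos rfl
  have e1 : ν ((n : K) + 1) = (ij n).2 := by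
    simp only [ν, if_neg h01.symm, if_true]
  rw [e0] at h4
  rw [e1] at h5
  exact hij0 n (Prod.ext h4 h5)

end Mdl

section WD

variable {K L : Type*} [Field K] [Field L] [PerfectField K] [PerfectField L] {ℓ : ℕ} [Fact ℓ.Prime]
  [NeZero (ℓ : K)] [NeZero (ℓ : L)]

/-- the transferred valuation attached to `t` and the constant `a`. -/
structure WD (M : Mdl K) (Θ : V ℓ K ≃ₗ[ZMod ℓ] V ℓ L) (N : Subfield K) (t a : K) where
  f : V ℓ K →ₗ[ZMod ℓ] ZMod ℓ
  w : ValuationSubring L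
  f_ta : f (cl ℓ (t - a)) = 1
  f_N : ∀ z ∈ M.F N, f (cl ℓ z) = 0
  f_b : ∀ b ∈ M.k, b ≠ a → f (cl ℓ (t - b)) = 0
  w1 : ∀ z, w.valuation z = 1 → f (Θ.symm (cl ℓ z)) = 0
  w2 : ∀ z, w.valuation z < 1 → Θ.symm (cl ℓ (1 + z)) ∈ VS ℓ (M.F N) →
    Θ.symm (cl ℓ (1 + z)) ∈ VS ℓ (adj M.k t)

theorem exists_WD (M : Mdl K) (M' : Mdl L) {Θ : V ℓ K ≃ₗ[ZMod ℓ] V ℓ L} (hΘ : Compatible Θ)
    {N : Subfield K} (hN : M.Sub N) {t a : K} (ht : t ∈ M.F N) (hg : Good M.k t) (ha : a ∈ M.k)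
    (haN : a ∉ N) : Nonempty (WD M Θ N t a) := by
  have hℓ : 0 < ℓ := (Fact.out : ℓ.Prime).pos
  have htN : t ∉ N := fun h' => hg.1 (hN.le h')
  obtain ⟨O, hU, hF, hk, hA2⟩ := M.exists_gen ℓ hN ha haN ht htN
  have hneg := exists_neg_one M.ack hℓ
  obtain ⟨g, hgK, hg0⟩ := M.exists_g0 ℓ t
  have hgF : g ∈ M.F N := Mdl.K0_le N hgK
  have hH := H_le_U1 hneg O (hU.fn ℓ) (fun z hz => hU.fn_unit ℓ z hz)
  have hA3 : ∀ u ∈ VS ℓ (M.F N), u ∈ U1 ℓ O → u ∈ VS ℓ (adj M.k t) := by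
    rintro _ ⟨x, hx, hx0, rfl⟩ h1
    exact VS_mono (hg.2.le le_rfl) (hA2 x hx hx0 h1)
  obtain ⟨w, hw1, hw2⟩ := exists_transfer hΘ (exists_neg_one M'.ack hℓ) (hU.fn ℓ) g (by
    intro i j hij
    refine hg0 i j (hA3 _ ?_ (hH hij))
    exact Submodule.add_mem _ (Submodule.smul_mem _ _ (cl_mem_VS hgF))
      (Submodule.smul_mem _ _ (cl_mem_VS ((M.F N).sub_mem (M.F N).one_mem hgF))))
  refine ⟨⟨hU.fn ℓ, w, hU.fn_self ℓ, ?_, ?_, hw1, ?_⟩⟩
  · intro z hz
    by_cases hz0 : z = 0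
    · rw [hz0, cl_zero, map_zero]
    · exact hU.fn_unit ℓ z (hF z hz hz0)
  · intro b hb hba
    apply hU.fn_unit ℓ
    have h1 : O.valuation (a - b) = 1 := hk _ (M.k.sub_mem ha hb) (sub_ne_zero.2 hba.symm)
    have e : t - b = (a - b) + (t - a) := by ring
    rw [e, Valuation.map_add_eq_of_lt_left, h1]
    rw [h1]; exact hU.lt
  · intro z hz hzV
    exact hA3 _ hzV (hH (hw2 z hz))

variable {M : Mdl K} {M' : Mdl L} {Θ : V ℓ K ≃ₗ[ZMod ℓ] V ℓ L} {N : Subfield K} {N' : Subfield L}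
  {t a : K}

/-- elements of the maximal ideal of `w` generically independent. -/
theorem exists_small (M' : Mdl L) (w : ValuationSubring L) {N' : Subfield L} {z : L}
    (hz : z ∈ M'.F N') (hz0 : z ≠ 0) (hw : w.valuation z < 1) (p : L) :
    ∃ q ∈ M'.F N', w.valuation q < 1 ∧ ¬ IsAlgebraic (adj M'.k p) q := by
  by_cases h : IsAlgebraic (adj M'.k p) z
  · obtain ⟨g, hg, hgp⟩ := M'.exists_indep p
    have hgF : g ∈ M'.F N' := Mdl.K0_le N' hg
    have hg0 : g ≠ 0 := by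
      rintro rfl
      exact hgp (isAlgebraic_of_mem (Subfield.zero_mem _))
    rw [← mem_rac] at h
    rcases le_or_gt (w.valuation g) 1 with h1 | h1
    · refine ⟨z * g, (M'.F N').mul_mem hz hgF, ?_, ?_⟩
      · rw [map_mul]
        exact mul_lt_one_of_lt_of_le hw h1
      · intro h2
        apply hgp
        rw [← mem_rac] at h2 ⊢
        have e : g = (z * g) / z := by field_simp
        rw [e]
        exact Subfield.div_mem _ h2 h
    · refine ⟨z / g, (M'.F N').div_mem hz hgF, ?_, ?_⟩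
      · rw [map_div₀]
        exact (div_lt_one₀ (lt_trans zero_lt_one h1)).2 (lt_trans hw h1)
      · intro h2
        apply hgp
        rw [← mem_rac] at h2 ⊢
        have e : g = z / (z / g) := by field_simp
        rw [e]
        exact Subfield.div_mem _ h h2
  · exact ⟨z, hz, hw, h⟩

/-- S2. the transferred valuation is trivial on the model. -/
theorem WD.trivial (hΘ : Compatible Θ) (hCP : CP M M' Θ N N') (W : WD M Θ N t a)
    (ht : t ∉ M.k) : ∀ z ∈ M'.F N', z ≠ 0 → W.w.valuation z = 1 := by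
  classical
  have hℓ : 0 < ℓ := (Fact.out : ℓ.Prime).pos
  -- enough: no element of the model in the maximal ideal
  suffices H : ∀ z ∈ M'.F N', z ≠ 0 → ¬ W.w.valuation z < 1 by
    intro z hz hz0
    apply le_antisymm
    · by_contra hcon
      push Not at hcon
      refine H z⁻¹ ((M'.F N').inv_mem hz) (inv_ne_zero hz0) ?_
      rw [map_inv₀]
      exact inv_lt_one_of_one_lt₀ hcon
    · exact not_lt.1 (H z hz hz0)
  intro z hz hz0 hzw
  -- two independent elements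
  obtain ⟨q₁, hq₁, hwq₁, hq₁k⟩ := exists_small M' W.w hz hz0 hzw 0
  have hq₁k' : q₁ ∉ M'.k := fun h => hq₁k (isAlgebraic_of_mem (le_adj _ _ h))
  obtain ⟨q₂, hq₂, hwq₂, hq₂k⟩ := exists_small M' W.w hz hz0 hzw q₁
  have hfin := bertini M'.ack M'.fg_top hq₁k' hq₂k
  obtain ⟨ε, hεi, hε0, hεv, hεne⟩ := M'.exists_seq W.w
  have hεN : ∀ n, ε n ∈ N' := fun n => hCP.sub'.ge (hε0 n)
  have hεk : ∀ n, ε n ∈ M'.k := fun n => M'.le_k (hε0 n)
  have hgoodnat : ∀ S : Set L, S.Finite → ∃ n : ℕ, ε n ∉ S ∧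
      Good M'.k (q₁ + ε n * q₂) := by
    intro S hS
    have hinf : (Set.range ε).Infinite := Set.infinite_range_of_injective hεi
    obtain ⟨_, ⟨n, rfl⟩, hn⟩ := hinf.exists_notMem_finite (hfin.union hS)
    simp only [Set.mem_union, Set.mem_ofPred_eq, not_or, not_and, not_not] at hn
    exact ⟨n, hn.2, hn.1 (hεk n)⟩
  obtain ⟨n, -, hxg⟩ := hgoodnat ∅ Set.finite_empty
  obtain ⟨m, hmn, hx'g⟩ := hgoodnat {ε n} (Set.finite_singleton _)
  set x : L := q₁ + ε n * q₂ with hx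
  set x' : L := q₁ + ε m * q₂ with hx'
  have hmem : ∀ n : ℕ, q₁ + ε n * q₂ ∈ M'.F N' := fun n =>
    Subfield.add_mem _ hq₁ (Subfield.mul_mem _ (Mdl.Sub.le_F (M := M') _ (hεN n)) hq₂)
  have hval : ∀ n : ℕ, W.w.valuation (q₁ + ε n * q₂) < 1 := fun n => by
    refine Valuation.map_add_lt _ hwq₁ ?_
    rw [map_mul]
    exact mul_lt_one_of_nonneg_of_lt_one_right (hεv _) zero_le hwq₂
  have hxx' : ¬ IsAlgebraic (adj M'.k x) x' := by
    intro h1
    rw [← mem_rac] at h1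
    have hxr : x ∈ rac (adj M'.k x) := le_rac _ (mem_adj _ _)
    have hmn' : ε m - ε n ≠ 0 := sub_ne_zero.2 (fun h => hmn (by simpa using h))
    have h2 : q₂ ∈ rac (adj M'.k x) := by
      have e : q₂ = (x' - x) / (ε m - ε n) := by
        rw [hx, hx']; field_simp; ring
      rw [e]
      exact Subfield.div_mem _ (Subfield.sub_mem _ h1 hxr)
        (Subfield.sub_mem _ (le_rac _ (le_adj _ _ (hεk m))) (le_rac _ (le_adj _ _ (hεk n))))
    have h3 : q₁ ∈ rac (adj M'.k x) := by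
      have e : q₁ = x - ε n * q₂ := by rw [hx]; ring
      rw [e]
      exact Subfield.sub_mem _ hxr (Subfield.mul_mem _ (le_rac _ (le_adj _ _ (hεk n))) h2)
    exact hq₂k (line_swap M'.RAC_k (mem_rac.1 h3) hq₁k' (mem_rac.1 h2))
  -- smaller field of constants
  obtain ⟨N₀, hN₀, hN₀N, hN₀ne, hS⟩ := hCP.inf' {x, x'} (by
    intro s hs
    simp only [Finset.mem_insert, Finset.mem_singleton] at hs
    rcases hs with rfl | rfl
    · exact hmem n
    · exact hmem m)
  have hx0 : x ∈ M'.F N₀ := hS x (by simp)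
  have hx'0 : x' ∈ M'.F N₀ := hS x' (by simp)
  obtain ⟨c, hcN, hcN₀, hcw⟩ : ∃ c ∈ N', c ∉ N₀ ∧ W.w.valuation c ≤ 1 := by
    obtain ⟨c, hc, hc'⟩ : ∃ c ∈ N', c ∉ N₀ := by
      by_contra hcon
      push Not at hcon
      exact hN₀ne (le_antisymm hN₀N hcon)
    rcases le_or_gt (W.w.valuation c) 1 with h1 | h1
    · exact ⟨c, hc, hc', h1⟩
    · refine ⟨c⁻¹, N'.inv_mem hc, fun h => hc' ?_, ?_⟩
      · have := N₀.inv_mem h
        rwa [inv_inv] at this
      · rw [map_inv₀]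
        exact (inv_lt_one_of_one_lt₀ h1).le
  have hc0 : c ≠ 0 := fun h => hcN₀ (h ▸ N₀.zero_mem)
  have hck : c ∈ M'.k := hCP.sub'.le hcN
  -- classes
  have hcls : ∀ y ∈ M'.F N', W.w.valuation y < 1 →
      Θ.symm (cl ℓ (1 + y)) ∈ VS ℓ (adj M.k t) := by
    intro y hy hyw
    refine W.w2 y hyw ?_
    rw [hCP.map, LinearEquiv.apply_symm_apply]
    exact cl_mem_VS (Subfield.add_mem _ (Subfield.one_mem _) hy)
  have hxF : x ∈ M'.F N' := hmem n
  have hx'F : x' ∈ M'.F N' := hmem m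
  have horth : ∀ j : ℕ, Orth (cl ℓ (1 + ε j * x')) (cl ℓ (1 + c * x)) := by
    intro j
    have h1 := hcls (ε j * x') (Subfield.mul_mem _ (Mdl.Sub.le_F (M := M') _ (hεN j)) hx'F) (by
      rw [map_mul]
      exact mul_lt_one_of_nonneg_of_lt_one_right (hεv _) zero_le (hval m))
    have h2 := hcls (c * x) (Subfield.mul_mem _ (Mdl.Sub.le_F (M := M') _ hcN) hxF) (by
      rw [map_mul]
      exact mul_lt_one_of_nonneg_of_lt_one_right hcw zero_le (hval n))
    have h3 := adj_isotropic M.ack ht _ h1 _ h2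
    have h4 := hΘ.orth h3
    rwa [LinearEquiv.apply_symm_apply, LinearEquiv.apply_symm_apply] at h4
  have hcx : cl ℓ (1 + c * x) = cl ℓ (x - (-c⁻¹)) := by
    have hxc : x - (-c⁻¹) ≠ 0 := by
      intro h
      apply hxg.1
      rw [sub_eq_zero] at h
      rw [h]
      exact M'.k.neg_mem (M'.k.inv_mem hck)
    have e : 1 + c * x = c * (x - (-c⁻¹)) := by field_simp; ring
    rw [e, cl_mul ℓ hc0 hxc, cl_const M'.ack hℓ hck, zero_add]
  have hj : ∀ j : ℕ, cl ℓ (1 + ε j * x') ∈ VS ℓ (adj M'.k x) := by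
    intro j
    have h1 := horth j
    rw [hcx] at h1
    refine M'.max ℓ hN₀ (M'.k.neg_mem (M'.k.inv_mem hck)) ?_ hx0 hxg
      (cl_mem_VS (Subfield.add_mem _ (Subfield.one_mem _)
        (Subfield.mul_mem _ (Mdl.Sub.le_F (M := M') _ (hN₀.ge (hε0 j))) hx'0))) h1
    intro h
    apply hcN₀
    have h2 := N₀.inv_mem (N₀.neg_mem h)
    rwa [neg_neg, inv_inv] at h2
  -- finiteness
  have hW := int_top ℓ (E₁ := adj M'.k x) (E₂ := adj M'.k x') M'.ack M'.fg_top (le_adj _ _)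
    (le_adj _ _) (mem_adj _ _) hxx' (fun z hz => isAlgebraic_of_mem hz)
  have hfin2 : (⋃ v ∈ ((VS ℓ (adj M'.k x) ⊓ VS ℓ (adj M'.k x') : Submodule (ZMod ℓ) (V ℓ L)) :
      Set (V ℓ L)), {c : L | c ∈ M'.k ∧ cl ℓ (x' - c) = v}).Finite :=
    hW.biUnion (fun v _ => dist_top ℓ M'.ack M'.fg_top hx'g.1 v)
  have hinf2 : (Set.range (fun j : ℕ => (-(ε j)⁻¹))).Infinite := by
    refine Set.infinite_range_of_injective ?_
    intro i j hij
    exact hεi (inv_injective (neg_injective hij))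
  refine hinf2 (hfin2.subset ?_)
  rintro _ ⟨j, rfl⟩
  have hj1 := hεne j
  have hjk := hεk j
  have hjk' : -(ε j)⁻¹ ∈ M'.k := M'.k.neg_mem (M'.k.inv_mem hjk)
  have e1 : cl ℓ (1 + ε j * x') = cl ℓ (x' - (-(ε j)⁻¹)) := by
    have hxc : x' - (-(ε j)⁻¹) ≠ 0 := by
      intro h
      apply hx'g.1
      rw [sub_eq_zero] at h
      rw [h]
      exact hjk'
    have e : 1 + ε j * x' = ε j * (x' - (-(ε j)⁻¹)) := by
      field_simp; ring
    rw [e, cl_mul ℓ hj1 hxc, cl_const M'.ack hℓ hjk, zero_add]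
  simp only [Set.mem_iUnion]
  refine ⟨cl ℓ (x' - (-(ε j)⁻¹)), ⟨?_, ?_⟩, hjk', rfl⟩
  · rw [← e1]; exact hj j
  · exact cl_mem_VS (Subfield.sub_mem _ (mem_adj _ _) (le_adj _ _ hjk'))

end WD

end Vale.Agent.P019P
end

section

/-!
# Classes congruent to one at a valuation where `t` is a generic constant
-/

namespace Vale.Agent.P019P

open Vale.Agent.P019

set_option linter.style.haveILetI false

open Polynomial

section ifive

variable {K : Type*} [Field K] [PerfectField K] (M : Mdl K) {ℓ : ℕ} [Fact ℓ.Prime]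
  [NeZero (ℓ : K)]

theorem ifive_fin {F : Subfield K} (hkF : M.k ≤ F) {t : K}
    (halg : ∀ z : K, IsAlgebraic (adj F t) z) :
    ∃ S : Finset K, (∀ s ∈ S, s ∈ F) ∧
      ∀ z ∈ M.K0, IsAlgebraic (adj (M.k0 ⊔ Subfield.closure (S : Set K)) t) z := by
  classical
  obtain ⟨G, hG⟩ := M.fg
  have h1 : ∀ g : K, ∃ C : Finset K, (C : Set K) ⊆ (F : Set K) ∧
      ∀ N : Subfield K, (C : Set K) ⊆ (N : Set K) → IsAlgebraic (adj N t) g := fun g =>
    by
      obtain ⟨C, hC, h⟩ := isAlgebraic_sup_finite (k := F) (L := {t}) (isAlgebraic_adj.1 (halg g))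
      exact ⟨C, hC, fun N hN => isAlgebraic_adj.2 (h N hN)⟩
  choose C hC hCN using h1
  refine ⟨G.biUnion C, ?_, ?_⟩
  · intro s hs
    obtain ⟨g, -, hg⟩ := Finset.mem_biUnion.1 hs
    exact hC g hg
  · intro z hz
    rw [← mem_rac]
    rw [hG] at hz
    have h2 : pf (M.k0 ⊔ Subfield.closure (G : Set K)) ≤
        rac (adj (M.k0 ⊔ Subfield.closure ((G.biUnion C : Finset K) : Set K)) t) := by
      refine pf_le ?_
      refine sup_le (le_sup_left.trans ((le_adj _ t).trans (le_rac _))) ?_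
      rw [Subfield.closure_le]
      intro g hg
      refine mem_rac.2 (hCN g _ ?_)
      intro c hc
      refine (le_sup_right : Subfield.closure ((G.biUnion C : Finset K) : Set K) ≤ _)
        (Subfield.subset_closure ?_)
      exact Finset.mem_coe.2 (Finset.mem_biUnion.2 ⟨g, hg, hc⟩)
    exact h2 hz

/-- **I5.** -/
theorem ifive (hk : ¬ (M.k : Set K).Countable) {F : Subfield K} (hkF : M.k ≤ F) {t : K}
    (halg : ∀ z : K, IsAlgebraic (adj F t) z) (htk : t ∉ M.k) (u : V ℓ K) :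
    ∃ C : Set K, C.Countable ∧ ∀ a ∈ M.k, a ∉ C → ∀ W : ValuationSubring K,
      (∀ x ∈ F, x ∈ W) → W.valuation (t - a) < 1 → u ∈ U1 ℓ W →
      u ∈ VS ℓ (rac (adj M.k t)) := by
  classical
  have hℓ : ℓ ≠ 0 := (Fact.out : ℓ.Prime).ne_zero
  obtain ⟨S, hSF, hS⟩ := ifive_fin M hkF halg
  obtain ⟨C₀, hC₀k, hC₀⟩ := exists_finite_free M.k S
  obtain ⟨x, hx0, rfl⟩ := cl_surj ℓ u
  obtain ⟨N, hN, hNc, hbig⟩ : ∃ N : Subfield K, M.Sub N ∧ (N : Set K).Countable ∧
      ∀ z ∈ ((C₀ : Set K) ∪ {t, x}), z ∈ M.F N := by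
    have h0 : M.Sub M.k0 := ⟨RAC_of_isAlgClosed _ M.ack0, le_rfl, M.le_k⟩
    obtain ⟨N, hN, hNc, -, -, h1⟩ := M.exists_big hk h0 (M.ctb.mono M.le_K0)
      ((C₀ : Set K) ∪ {t, x}) ((Finset.countable_toSet C₀).union (Set.toFinite {t, x}).countable)
    exact ⟨N, hN, hNc, h1⟩
  refine ⟨N, hNc, ?_⟩
  intro a ha haN W hWF hta hxU1
  obtain ⟨k₁, hNk₁, hk₁k, hrac, hak₁, halgk⟩ := Gn.exists_compl M.RAC_k hN.le hN.rac haN
  set A : Subfield K := M.F k₁ with hAdef
  have hk0 : M.k0 ≤ k₁ := hN.ge.trans hNk₁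
  have haA : ¬ IsAlgebraic A a := fun h => hak₁ (M.free k₁ hrac hk0 hk₁k a ha h)
  have hFA : M.F N ≤ A := Mdl.F_mono hNk₁
  have htA : t ∈ A := hFA (hbig t (Or.inr (Or.inl rfl)))
  have hxA : x ∈ A := hFA (hbig x (Or.inr (Or.inr rfl)))
  have hk₁A : k₁ ≤ A := le_sup_right
  -- the place
  set P := plOf W with hP
  have hPF : ∀ y ∈ F, y ∈ P.O := hWF
  have hPk : ∀ y ∈ M.k, y ∈ P.O := fun y hy => hPF y (hkF hy)
  set E : Subfield K := k₁ ⊔ Subfield.closure (S : Set K) with hE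
  have hEF : E ≤ F := sup_le (hk₁k.trans hkF) (Subfield.closure_le.2 hSF)
  have hPE : ∀ y ∈ E, y ∈ P.O := fun y hy => hPF y (hEF hy)
  have haE : ¬ IsAlgebraic E a := by
    intro h
    refine hak₁ (hrac a (hC₀ k₁ ?_ hk₁k a ha h))
    intro c hc
    have h1 : c ∈ M.F N := hbig c (Or.inl hc)
    have h2 : c ∈ N := M.free N hN.rac hN.ge hN.le c (hC₀k hc) (isAlgebraic_of_mem h1)
    exact hNk₁ h2
  have htaO : t - a ∈ P.O := P.mem_of_lt hta
  have haO : a ∈ P.O := hPk a ha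
  have htO : t ∈ P.O := by
    have e : t = (t - a) + a := by ring
    rw [e]; exact P.O.add_mem _ _ htaO haO
  have hevt : P.ev t = P.ev a := by
    have h1 : P.ev (t - a) = 0 := P.ev_of_lt hta
    rw [P.ev_sub htO haO, sub_eq_zero] at h1
    exact h1
  have htE : ¬ IsAlgebraic (P.im E hPE) (P.ev t) := by
    rw [hevt]
    intro h
    exact haE (P.isAlgebraic_of_im hPF hEF (hkF ha) h)
  have hadj := Pl.mem_adj_of_transcendental P E hPE htO htE
  have hA : ∀ y ∈ A, y ∈ P.O := by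
    intro y hy
    refine P.mem_of_isAlgebraic (adj E t) hadj (mem_rac.1 ?_)
    have h1 : A ≤ rac (adj E t) := by
      refine sup_le ?_ ?_
      · intro z hz
        refine mem_rac.2 (isAlgebraic_mono (adj_mono ?_ t) (hS z hz))
        exact sup_le_sup_right hk0 _
      · exact le_sup_left.trans ((le_adj E t).trans (le_rac _))
    exact h1 hy
  have heva : IsAlgebraic (P.im A hA) (P.ev a) := by
    rw [← hevt]
    exact isAlgebraic_of_mem (P.ev_mem_im hA htA)
  obtain ⟨π, hπA, hπ, hπO, hπ0, hGd⟩ := exists_gd_adj P A hA haO haA heva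
  haveI : PerfectField k₁ := perfect_of_RAC hrac
  haveI : PerfectField A := inferInstanceAs (PerfectField (M.F k₁))
  haveI := M.instPerfectk
  set κ := P.im A hA ⊔ P.im M.k hPk with hκ
  have hGd1 : Vale.Agent.P019.Gd P π κ (Vale.Agent.P019.adj A a) := hGd κ le_sup_left
    ((le_sup_right : P.im M.k hPk ≤ κ) (P.ev_mem_im hPk ha))
  have hGd2 : Gd P π κ (adj A a ⊔ M.k) :=
    Gd.sup hπ hπO hπ0 hπA hGd1 (E := Vale.Agent.P019.adj k₁ a)
      (Vale.Agent.P019.adj_mono hk₁A a) (Vale.Agent.P019.adj_le hk₁k ha) hPk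
      (fun y hy => (le_sup_right : P.im M.k hPk ≤ κ) (P.ev_mem_im hPk hy))
      (fun x hx => isAlgebraic_adj.1 (halgk x hx))
  have htop : ∀ z : K, z ∈ adj A a ⊔ M.k := by
    intro z
    have h1 : (⊤ : Subfield K) ≤ adj A a ⊔ M.k := by
      rw [← M.sup]
      exact sup_le_sup_right (le_trans le_sup_left (le_adj A a)) _
    exact h1 trivial
  -- the class
  obtain ⟨m, hm, hxm⟩ := hxU1
  have hxU : P.U x := Gn.U_of_field hA hxA hx0
  obtain ⟨y, hy0, hy⟩ := (cl_eq_iff ℓ hx0 (one_add_ne_zero hm)).1 hxm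
  have hmU : P.U (1 + m) := P.U_iff.2 (val_one_add hm)
  have hyl : P.U (y ^ ℓ) := by
    have : y ^ ℓ = x / (1 + m) := by
      rw [hy]
      have := hmU.ne_zero
      field_simp
    rw [this]
    exact hxU.div hmU
  have hyU : P.U y := by
    rw [P.U_iff] at hyl ⊢
    rw [map_pow] at hyl
    exact (pow_eq_one_iff.1 hyl).resolve_right hℓ
  have hev : P.ev y ^ ℓ = P.ev x := by
    rw [← P.ev_pow hyU.1]
    conv_rhs => rw [hy]
    rw [P.ev_mul hmU.1 hyl.1, P.ev_add P.O.one_mem (P.mem_of_lt hm), P.ev_one,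
      P.ev_of_lt hm, add_zero, one_mul]
  have hevy : P.ev y ∈ κ := Gd.ev_mem hπO hπ0 hGd2 (htop y) hyU.1
  -- Kummer descent
  let E₀ : Subfield K := rac (adj k₁ t) ⊓ A
  have hE₀A : E₀ ≤ A := inf_le_right
  have hk₁E₀ : k₁ ≤ E₀ := le_inf ((le_adj k₁ t).trans (le_rac _)) hk₁A
  obtain ⟨ζ, hζk, hζ⟩ := finK_prim M.ack0 ℓ
  have hζK : IsPrimitiveRoot (⟨ζ, hk₁A (hk0 hζk)⟩ : A) ℓ := by
    refine IsPrimitiveRoot.of_map_of_injective (f := A.subtype) ?_ A.subtype.injective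
    exact hζ
  have hζ' : IsPrimitiveRoot (P.ev ζ) ℓ := by
    have h1 := hζK.map_of_injective (f := P.resHom A hA) (RingHom.injective _)
    rwa [P.resHom_apply] at h1
  have hPE₀ : ∀ z ∈ E₀, z ∈ P.O := fun z hz => hA z (hE₀A hz)
  have hac : ∀ z ∈ P.im A hA, IsAlgebraic (P.im E₀ hPE₀) z → z ∈ P.im E₀ hPE₀ := by
    intro z hz halgz
    obtain ⟨z₀, hz₀, rfl⟩ := P.mem_im.1 hz
    have h1 := P.isAlgebraic_of_im hA hE₀A hz₀ halgz
    have h2 : IsAlgebraic (rac (adj k₁ t)) z₀ := isAlgebraic_mono inf_le_left h1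
    exact P.ev_mem_im hPE₀ ⟨RAC_rac _ z₀ h2, hz₀⟩
  have hadjt : adj k₁ t ≤ E₀ := le_inf (le_rac _) (adj_le hk₁A htA)
  have hB : ∀ b ∈ P.im M.k hPk, IsAlgebraic (P.im E₀ hPE₀) b := by
    intro b hb
    obtain ⟨c, hc, rfl⟩ := P.mem_im.1 hb
    refine P.isAlgebraic_ev (adj k₁ a) (P.im E₀ hPE₀) ?_ (halgk c hc) (hPk c hc)
    intro y hy _
    have h1 : P.ev y ∈ P.im (adj k₁ a) (fun y hy => hPk y (adj_le hk₁k ha hy)) :=
      P.ev_mem_im _ hy
    rw [Pl.im_adj P hPk hk₁k ha, ← hevt] at h1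
    have h2 : adj (P.im k₁ (fun y hy => hPk y (hk₁k hy))) (P.ev t) ≤ P.im E₀ hPE₀ := by
      refine adj_le ?_ (P.ev_mem_im hPE₀ (hadjt (mem_adj _ _)))
      intro w hw
      obtain ⟨w₀, hw₀, rfl⟩ := P.mem_im.1 hw
      exact P.ev_mem_im hPE₀ (hk₁E₀ hw₀)
    exact h2 h1
  obtain ⟨e, he, w, hw, hew⟩ :=
    kummer_descent ℓ (P.im E₀ hPE₀) (P.im A hA) (P.im M.k hPk)
      (by
        intro z hz
        obtain ⟨z₀, hz₀, rfl⟩ := P.mem_im.1 hz
        exact P.ev_mem_im hA (hE₀A hz₀)) hac hB _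
      (P.ev_mem_im hPE₀ (hk₁E₀ (hk0 hζk))) hζ' (P.ev_mem_im hA hxA) hxU.2 hevy hev
  obtain ⟨e', he', rfl⟩ := P.mem_im.1 he
  obtain ⟨w', hw', rfl⟩ := P.mem_im.1 hw
  have hx' : x = e' * w' ^ ℓ := by
    apply P.ev_inj hA hxA (A.mul_mem (hE₀A he') (A.pow_mem hw' _))
    rw [P.ev_mul (hPE₀ _ he') (hA _ (A.pow_mem hw' _)), P.ev_pow (hA _ hw')]
    exact hew
  rw [cl_ne_zero_mem_VS hx0]
  refine ⟨e', rac_mono (adj_mono hk₁k t) he'.1, ?_, w', ?_, hx'⟩
  · rintro rfl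
    rw [zero_mul] at hx'
    exact hx0 hx'
  · rintro rfl
    rw [zero_pow hℓ, mul_zero] at hx'
    exact hx0 hx'

end ifive

end Vale.Agent.P019P
end

section

/-!
# Automorphisms
-/

namespace Vale.Agent.P019P

open Vale.Agent.P019

set_option linter.style.haveILetI false

open Polynomial

namespace Mdl

variable {K : Type*} [Field K] [PerfectField K] (M : Mdl K)

/-- S51 automorphisms. -/
theorem exists_aut {N : Subfield K} (hN : M.Sub N) {r : ℕ} (y y' : Fin r → K)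
    (hy : ∀ i, y i ∈ M.k) (hy' : ∀ i, y' i ∈ M.k) (hyi : AlgebraicIndependent N y)
    (hyi' : AlgebraicIndependent N y') :
    ∃ σ : K ≃+* K, (∀ z ∈ M.F N, σ z = z) ∧ (∀ i, σ (y i) = y' i) ∧
      (∀ z, z ∈ M.k ↔ σ z ∈ M.k) := by
  letI : Algebra N M.k := (Subfield.inclusion hN.le).toAlgebra
  haveI : IsAlgClosed M.k := M.ack
  let g : M.k →ₐ[N] K := { M.k.subtype with commutes' := fun _ => rfl }
  have hg : Function.Injective g := Subtype.val_injective
  have h1 : AlgebraicIndependent N (fun i => (⟨y i, hy i⟩ : M.k)) := by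
    rw [← AlgHom.algebraicIndependent_iff g hg]
    exact hyi
  have h1' : AlgebraicIndependent N (fun i => (⟨y' i, hy' i⟩ : M.k)) := by
    rw [← AlgHom.algebraicIndependent_iff g hg]
    exact hyi'
  obtain ⟨τ, hτ⟩ := AutAux.exists_algEquiv_closed _ _ h1 h1'
  have htop : M.F N ⊔ M.k = ⊤ := by
    apply top_le_iff.1
    rw [← M.sup]
    exact sup_le_sup_right (K0_le N) _
  obtain ⟨σ, hσ1, hσ2⟩ := AutAux.exists_extension N (M.F N) M.k (Sub.le_F N) hN.le
    (fun n g hg hli c hc h => M.lin_disj hN g hg hli c hc h) htop τ.toRingEquiv (by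
      intro c hc
      exact τ.commutes (⟨c, hc⟩ : N))
  refine ⟨σ, hσ1, ?_, ?_⟩
  · intro i
    have h2 := hσ2 ⟨y i, hy i⟩
    have h3 : τ.toRingEquiv ⟨y i, hy i⟩ = ⟨y' i, hy' i⟩ := hτ i
    rw [h3] at h2
    exact h2
  · intro z
    constructor
    · intro hz
      rw [hσ2 ⟨z, hz⟩]
      exact (τ.toRingEquiv _).2
    · intro hz
      have h2 := hσ2 (τ.toRingEquiv.symm ⟨σ z, hz⟩)
      rw [RingEquiv.apply_symm_apply] at h2
      have h3 : ((τ.toRingEquiv.symm ⟨σ z, hz⟩ : M.k) : K) = z := σ.injective h2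
      rw [← h3]
      exact (τ.toRingEquiv.symm ⟨σ z, hz⟩).2

end Mdl

end Vale.Agent.P019P
end

section

/-!
# Assembly 2: the pigeonhole argument
-/

namespace Vale.Agent.P019P

open Vale.Agent.P019

set_option linter.style.haveILetI false

open Polynomial

section pigeon

variable {K L : Type*} [Field K] [Field L] [PerfectField K] [PerfectField L] {ℓ : ℕ} [Fact ℓ.Prime]
  [NeZero (ℓ : K)] [NeZero (ℓ : L)]

/-- classes of elements defined over `N` and `r` further constants. -/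
def Dset (M' : Mdl L) (ℓ : ℕ) (N : Subfield L) (r : ℕ) : Set (V ℓ L) :=
  {u | ∃ y : Fin r → L, (∀ i, y i ∈ M'.k) ∧ u ∈ VS ℓ (M'.F (clx N y))}

theorem exists_mem_Dset (M' : Mdl L) {N : Subfield L} (hN : M'.Sub N) (u : V ℓ L) :
    ∃ r, u ∈ Dset M' ℓ N r := by
  obtain ⟨g, -, rfl⟩ := cl_surj ℓ u
  obtain ⟨r, y, hy, hg⟩ := M'.exists_family hN g
  exact ⟨r, y, hy, cl_mem_VS hg⟩

theorem clx_le' (M' : Mdl L) {ι : Type*} {N N' : Subfield L} (h : N ≤ N') (hN' : RAC N')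
    {y : ι → L} (hy : ∀ i, y i ∈ N') : clx N y ≤ N' := by
  refine hN'.le (sup_le h (Subfield.closure_le.2 ?_))
  rintro _ ⟨i, rfl⟩
  exact hy i

theorem clx_mono {ι : Type*} {N N' : Subfield L} (h : N ≤ N') (y : ι → L) :
    clx N y ≤ clx N' y := rac_mono (sup_le_sup_right h _)

theorem Mdl.sub_clx (M' : Mdl L) {ι : Type*} {N : Subfield L} (hN : M'.Sub N) {y : ι → L}
    (hy : ∀ i, y i ∈ M'.k) : M'.Sub (clx N y) := by
  refine Mdl.sub_rac (hN.ge.trans le_sup_left) (sup_le hN.le (Subfield.closure_le.2 ?_))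
  rintro _ ⟨i, rfl⟩
  exact hy i

/-- the set of constants whose image is defined with `r` further constants. -/
def Sset (M : Mdl K) (M' : Mdl L) (Θ : V ℓ K ≃ₗ[ZMod ℓ] V ℓ L) (t : K) (N' : Subfield L)
    (r : ℕ) : Set K := {a | a ∈ M.k ∧ Θ (cl ℓ (t - a)) ∈ Dset M' ℓ N' r}

/-- independence of the parameters from minimality. -/
theorem indep_of_notMem {M' : Mdl L} {N : Subfield L} {r : ℕ} {u : V ℓ L}
    {y : Fin (r + 1) → L} (hy : ∀ i, y i ∈ M'.k) (hu : u ∈ VS ℓ (M'.F (clx N y)))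
    (hn : u ∉ Dset M' ℓ N r) : AlgebraicIndependent N y := by
  by_contra hcon
  obtain ⟨i, hi⟩ := exists_dep y hcon
  exact hn ⟨y ∘ i.succAbove, fun j => hy _, by rw [← hi]; exact hu⟩

theorem pigeon_main {M : Mdl K} {M' : Mdl L} {Θ : V ℓ K ≃ₗ[ZMod ℓ] V ℓ L} (hΘ : Compatible Θ)
    (hk : ¬ (M.k : Set K).Countable) (hl : ¬ (M'.k : Set L).Countable) {t : K}
    (hg : Good M.k t) :
    ∃ (A : Set K) (B : Set L), A.Countable ∧ B.Countable ∧ ∀ N N', CP M M' Θ N N' →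
      (∀ a ∈ A, a ∈ M.F N) → (∀ b ∈ B, b ∈ M'.F N') →
      ∃ z ∈ M'.k, z ∉ N' ∧ ∃ G ∈ M'.F (rac (adj N' z)), Θ.symm (cl ℓ G) ∈ VS ℓ (adj M.k t) ∧
        cl ℓ G ∉ VS ℓ (M'.F N') := by
  classical
  -- the minimal number of parameters
  have hex : ∃ r : ℕ, ∃ N N', CP M M' Θ N N' ∧ t ∈ M.F N ∧ ¬ (Sset M M' Θ t N' r).Countable := by
    obtain ⟨N, N', hCP, hA, -⟩ := exists_CP M M' Θ hk hl {t} (Set.countable_singleton t) ∅
      Set.countable_empty
    by_contra hcon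
    push Not at hcon
    have h1 : (M.k : Set K) ⊆ ⋃ r, Sset M M' Θ t N' r := by
      intro a ha
      obtain ⟨r, hr⟩ := exists_mem_Dset M' hCP.sub' (Θ (cl ℓ (t - a)))
      exact Set.mem_iUnion.2 ⟨r, ha, hr⟩
    exact hk ((Set.countable_iUnion (fun r => hcon r N N' hCP (hA t rfl))).mono h1)
  obtain ⟨N₁, N₁', hCP₁, ht₁, hS₁⟩ := Nat.find_spec hex
  have hmin : ∀ r < Nat.find hex, ∀ N N', CP M M' Θ N N' → t ∈ M.F N →
      (Sset M M' Θ t N' r).Countable := by
    intro r hr N N' h1 h2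
    by_contra h3
    exact Nat.find_min hex hr ⟨N, N', h1, h2, h3⟩
  generalize Nat.find hex = r at hS₁ hmin
  obtain _ | r := r
  · exfalso
    apply hS₁
    refine hCP₁.ctb.mono ?_
    rintro a ⟨hak, y, -, hu⟩
    have e : clx N₁' y = N₁' := by
      refine le_antisymm (clx_le' M' le_rfl hCP₁.sub'.rac (fun i => i.elim0)) (le_clx _ _)
    rw [e, ← hCP₁.map] at hu
    by_contra haN
    obtain ⟨W⟩ := exists_WD M M' hΘ hCP₁.sub ht₁ hg hak haN
    obtain ⟨x, hx, -, hx'⟩ := hu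
    have h1 := W.f_ta
    rw [hx', W.f_N x hx] at h1
    exact zero_ne_one h1
  have hmin' := hmin r (Nat.lt_succ_self r)
  have hpick : ∀ (N₃ : Subfield K) (N₃' : Subfield L), CP M M' Θ N₃ N₃' → t ∈ M.F N₃ →
      ∃ a ∈ Sset M M' Θ t N₁' (r + 1), a ∉ Sset M M' Θ t N₃' r ∧ a ∉ N₃ := by
    intro N₃ N₃' h3 ht3
    by_contra hcon
    push Not at hcon
    apply hS₁
    refine ((hmin' N₃ N₃' h3 ht3).union h3.ctb).mono ?_
    intro a ha
    by_cases h : a ∈ Sset M M' Θ t N₃' r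
    · exact Or.inl h
    · exact Or.inr (hcon a ha h)
  -- the base point
  obtain ⟨b, ⟨hbk, y, hy, hyu⟩, hbS, -⟩ := hpick N₁ N₁' hCP₁ ht₁
  have hbD : Θ (cl ℓ (t - b)) ∉ Dset M' ℓ N₁' r := fun h => hbS ⟨hbk, h⟩
  have hyind : AlgebraicIndependent N₁' y := indep_of_notMem hy hyu hbD
  obtain ⟨Gb, hGb, hGb0, hGbu⟩ := hyu
  let y' : Fin r → L := fun i => y i.castSucc
  have hy'ind : AlgebraicIndependent N₁' y' :=
    hyind.comp Fin.castSucc (Fin.castSucc_injective r)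
  refine ⟨N₁ ∪ {t}, N₁' ∪ Set.range y', hCP₁.ctb.union (Set.countable_singleton t),
    hCP₁.ctb'.union (Set.countable_range _), ?_⟩
  intro N₂ N₂' hCP₂ hA hB
  have h12' : N₁' ≤ N₂' := fun z hz =>
    M'.mem_of_mem_F hCP₂.sub' (hCP₁.sub'.le hz) (hB z (Or.inl hz))
  have hy'2 : ∀ i, y' i ∈ N₂' := fun i =>
    M'.mem_of_mem_F hCP₂.sub' (hy _) (hB _ (Or.inr ⟨i, rfl⟩))
  -- the new constant
  obtain ⟨z, hzk, hz2⟩ : ∃ z ∈ M'.k, z ∉ N₂' := by
    by_contra hcon
    push Not at hcon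
    exact hl (hCP₂.ctb'.mono hcon)
  obtain ⟨N₃, N₃', hCP₃, hA3, hB3⟩ := exists_CP M M' Θ hk hl (N₂ ∪ {t, b})
    (hCP₂.ctb.union (Set.toFinite {t, b}).countable) (N₂' ∪ (Set.range y ∪ {z}))
    (hCP₂.ctb'.union ((Set.countable_range _).union (Set.countable_singleton z)))
  have h23' : N₂' ≤ N₃' := fun x hx =>
    M'.mem_of_mem_F hCP₃.sub' (hCP₂.sub'.le hx) (hB3 x (Or.inl hx))
  have hy3 : ∀ i, y i ∈ N₃' := fun i =>
    M'.mem_of_mem_F hCP₃.sub' (hy i) (hB3 _ (Or.inr (Or.inl ⟨i, rfl⟩)))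
  have hz3 : z ∈ N₃' := M'.mem_of_mem_F hCP₃.sub' hzk (hB3 _ (Or.inr (Or.inr rfl)))
  have ht3 : t ∈ M.F N₃ := hA3 t (Or.inr (Or.inl rfl))
  obtain ⟨a, ⟨hak, ya, hya, hyau⟩, haS, haN⟩ := hpick N₃ N₃' hCP₃ ht3
  have h13' : N₁' ≤ N₃' := h12'.trans h23'
  have haD : Θ (cl ℓ (t - a)) ∉ Dset M' ℓ N₃' r := fun h => haS ⟨hak, h⟩
  have hyaind : AlgebraicIndependent N₃' ya :=
    indep_of_notMem hya (VS_mono (Mdl.F_mono (clx_mono h13' ya)) hyau) haD
  obtain ⟨Ga, hGa, hGa0, hGau⟩ := hyau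
  -- the field over which the automorphism is defined
  set C := clx N₁' ya with hC
  have hCsub : M'.Sub C := M'.sub_clx hCP₁.sub' hya
  have hCy : AlgebraicIndependent C y := indep_swap h13' hy3 hyind hyaind
  have hzy' : z ∉ clx N₁' y' := fun h => hz2 (clx_le' M' h12' hCP₂.sub'.rac hy'2 h)
  let y'' : Fin (r + 1) → L := Fin.snoc y' z
  have hy''0 : ∀ i, y'' i ∈ M'.k ∧ y'' i ∈ N₃' := by
    intro i
    refine Fin.lastCases ?_ (fun j => ?_) i
    · simp only [y'', Fin.snoc_last]; exact ⟨hzk, hz3⟩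
    · simp only [y'', Fin.snoc_castSucc]; exact ⟨hy _, hy3 _⟩
  have hCy'' : AlgebraicIndependent C y'' :=
    indep_swap h13' (fun i => (hy''0 i).2) (indep_snoc hy'ind hzy') hyaind
  obtain ⟨σ, hσF, hσy, hσk⟩ := M'.exists_aut hCsub y y'' hy (fun i => (hy''0 i).1) hCy hCy''
  have hσF₁ : ∀ x ∈ M'.F N₁', σ x = x := fun x hx => hσF x (Mdl.F_mono (le_clx _ _) hx)
  have hσcomp : σ ∘ y = y'' := funext hσy
  have hG1 : σ Gb ∈ M'.F (clx N₁' y'') := by
    have := M'.map_clx σ hσF₁ y hGb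
    rwa [hσcomp] at this
  have hG2 : σ Gb ∈ M'.F (rac (adj N₂' z)) := by
    refine Mdl.F_mono ?_ hG1
    rw [clx_snoc]
    exact rac_mono (adj_mono (clx_le' M' h12' hCP₂.sub'.rac hy'2) z)
  refine ⟨z, hzk, hz2, σ Gb, hG2, ?_, ?_⟩
  · -- orthogonality and maximality
    have h1 : Orth (Θ (cl ℓ (t - b))) (Θ (cl ℓ (t - a))) := by
      refine hΘ.orth (adj_isotropic M.ack hg.1 _ ?_ _ ?_)
      · exact cl_mem_VS (Subfield.sub_mem _ (mem_adj _ _) (le_adj _ _ hbk))
      · exact cl_mem_VS (Subfield.sub_mem _ (mem_adj _ _) (le_adj _ _ hak))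
    rw [hGbu, hGau] at h1
    have h2 := h1.map_cl (σ : L →+* L)
    have h3 : σ Ga = Ga := hσF _ hGa
    have h4 : Orth (cl ℓ (σ Gb)) (cl ℓ Ga) := by
      rw [← h3]; exact h2
    rw [← hGau] at h4
    have h5 := hΘ.symm.orth h4
    rw [LinearEquiv.symm_apply_apply] at h5
    refine M.max ℓ hCP₃.sub hak haN ht3 hg ?_ h5
    rw [hCP₃.map, LinearEquiv.apply_symm_apply]
    refine cl_mem_VS (Mdl.F_mono ?_ hG2)
    haveI := hCP₃.sub'.perfect
    exact hCP₃.sub'.rac.le (adj_le h23' hz3)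
  · -- the class is not defined over the smaller field
    intro h1
    have hNy' : M'.Sub (clx N₁' y') := M'.sub_clx hCP₁.sub' (fun i => hy _)
    have h2 : cl ℓ (σ Gb) ∈ VS ℓ (M'.F (clx N₁' y')) := by
      refine M'.VS_inter ℓ hNy' hCP₂.sub' (clx_le' M' h12' hCP₂.sub'.rac hy'2) hzk hz2 h1 ?_
      rw [← clx_snoc]
      exact cl_mem_VS hG1
    obtain ⟨g, hg', hg0, hgu⟩ := h2
    have h3 : Vmap ℓ (σ.symm : L →+* L) (cl ℓ (σ Gb)) = cl ℓ (σ.symm g) := by
      rw [hgu, Vmap_cl]; rfl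
    rw [Vmap_cl] at h3
    have h4 : (σ.symm : L →+* L) (σ Gb) = Gb := σ.symm_apply_apply Gb
    rw [h4] at h3
    apply hbD
    refine ⟨σ.symm ∘ y', ?_, ?_⟩
    · intro i
      have : σ.symm (y' i) = y i.castSucc := by
        rw [RingEquiv.symm_apply_eq, hσy]
        simp only [y'', Fin.snoc_castSucc]
      rw [Function.comp_apply, this]
      exact hy _
    · rw [hGbu, h3]
      refine cl_mem_VS (M'.map_clx σ.symm ?_ y' hg')
      intro x hx
      rw [RingEquiv.symm_apply_eq, hσF₁ x hx]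

end pigeon

end Vale.Agent.P019P
end

section

/-!
# Assembly 3: the local field attached to a closed pair
-/

namespace Vale.Agent.P019P

open Vale.Agent.P019

set_option linter.style.haveILetI false

open Polynomial

section localfield

variable {K L : Type*} [Field K] [Field L] [PerfectField K] [PerfectField L] {ℓ : ℕ} [Fact ℓ.Prime]
  [NeZero (ℓ : K)] [NeZero (ℓ : L)]

/-- multiplication by a constant does not change the class. -/
theorem cl_const_mul {k : Subfield L} (hk : IsAlgClosed k) {c g : L} (hc : c ∈ k) (hc0 : c ≠ 0)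
    (hg : g ≠ 0) : cl ℓ (c * g) = cl ℓ g := by
  rw [cl_mul ℓ hc0 hg, cl_const hk (Fact.out : ℓ.Prime).pos hc, zero_add]

/-- the special constant `a`. -/
theorem exists_special {M : Mdl K} {M' : Mdl L} {Θ : V ℓ K ≃ₗ[ZMod ℓ] V ℓ L}
    {N : Subfield K} {N' : Subfield L} (hCP : CP M M' Θ N N') {t : K} (ht : t ∈ M.F N)
    (htk : t ∉ M.k) {g : V ℓ K} (hg : g ∈ VS ℓ (adj M.k t)) (hgN : g ∉ VS ℓ (M.F N)) :
    ∃ a ∈ M.k, a ∉ N ∧ ∀ W : WD M Θ N t a, W.f g ≠ 0 := by
  classical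
  obtain ⟨s, n, hs, rfl⟩ := adj_factor M.ack htk hg
  obtain ⟨a, ha, haN, hna⟩ : ∃ a ∈ s, a ∉ N ∧ n a ≠ 0 := by
    by_contra hcon
    push Not at hcon
    apply hgN
    refine Submodule.sum_mem _ (fun c hc => ?_)
    by_cases hcN : c ∈ N
    · exact Submodule.smul_mem _ _ (cl_mem_VS (Subfield.sub_mem _ ht (Mdl.Sub.le_F N hcN)))
    · rw [hcon c hc hcN, zero_smul]; exact Submodule.zero_mem _
  refine ⟨a, hs a ha, haN, fun W => ?_⟩
  have h1 : W.f (∑ c ∈ s, n c • cl ℓ (t - c)) = n a := by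
    rw [map_sum, Finset.sum_eq_single a]
    · rw [map_smul, W.f_ta, smul_eq_mul, mul_one]
    · intro b hb hba
      rw [map_smul, W.f_b b (hs b hb) hba, smul_zero]
    · intro h; exact absurd ha h
  rw [h1]
  exact hna

variable {M : Mdl K} {M' : Mdl L} {Θ : V ℓ K ≃ₗ[ZMod ℓ] V ℓ L} {N : Subfield K} {N' : Subfield L}

/-- the transferred valuation is trivial on the new constants. -/
theorem WD.trivial_const {t a : K} (W : WD M Θ N t a)
    (hCP : CP M M' Θ N N') (hWt : ∀ z ∈ M'.F N', z ≠ 0 → W.w.valuation z = 1) {z G : L}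
    (hz : z ∈ M'.k) (hzN : z ∉ N')
    (hG : G ∈ M'.F (rac (adj N' z))) (hG0 : G ≠ 0) (hf : W.f (Θ.symm (cl ℓ G)) ≠ 0) :
    ∀ c ∈ rac (adj N' z), c ∈ W.w := by
  set P := plOf W.w with hP
  have hPO : P.O = W.w := rfl
  have hA : ∀ x ∈ M'.F N', x ∈ P.O := by
    intro x hx
    by_cases hx0 : x = 0
    · rw [hx0]; exact P.O.zero_mem
    · rw [hPO]; exact (W.w.valuation_le_one_iff x).1 (hWt x hx hx0).le
  have hN : ∀ x ∈ N', x ∈ P.O := fun x hx => hA x (Mdl.Sub.le_F N' hx)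
  have hMk : rac (adj N' z) ≤ M'.k := M'.RAC_k.le (adj_le hCP.sub'.le hz)
  by_contra hcon
  push Not at hcon
  obtain ⟨c, hc, hcO⟩ := hcon
  -- residues of new constants are constants
  have hres : ∀ b ∈ rac (adj N' z), b ∈ P.O → ∃ d ∈ N', P.ev b = P.ev d := by
    intro b hb hbO
    by_contra hno
    have h1 : ¬ IsAlgebraic (P.im N' hN) (P.ev b) := by
      intro h2
      have h3 : IsAlgClosed (P.im N' hN) := P.isAlgClosed_im hN hCP.sub'.isAlgClosed
      obtain ⟨d, hd, hd'⟩ := P.mem_im.1 (RAC_of_isAlgClosed _ h3 _ h2)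
      exact hno ⟨d, hd, hd'.symm⟩
    have h2 := Pl.mem_adj_of_transcendental P N' hN hbO h1
    have hbN : b ∉ N' := fun h => hno ⟨b, h, rfl⟩
    have h3 : IsAlgebraic (adj N' b) c :=
      line_swap hCP.sub'.rac (mem_rac.1 hb) hbN (mem_rac.1 hc)
    exact hcO (P.mem_of_isAlgebraic _ h2 h3)
  have hsup : G ∈ M'.F N' ⊔ rac (adj N' z) := by
    have e : M'.F (rac (adj N' z)) ≤ M'.F N' ⊔ rac (adj N' z) :=
      sup_le ((Mdl.K0_le N').trans le_sup_left) le_sup_right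
    exact e hG
  obtain ⟨b, hb, hb0, hU, -⟩ := P.gauss (l := N') (A := M'.F N') (B := rac (adj N' z))
    (Mdl.Sub.le_F N') ((le_adj N' z).trans (le_rac _)) hA hres hsup hG0
  apply hf
  rw [← cl_const_mul M'.ack (hMk hb) hb0 hG0]
  exact W.w1 _ (P.U_iff.1 hU)

/-- the subfield of elements of `A` with residue in `B`. -/
noncomputable def resPre {Ω : Type*} [Field Ω] (P : Pl L Ω) (A : Subfield L) (hA : ∀ x ∈ A, x ∈ P.O)
    (B : Subfield Ω) : Subfield L := (B.comap (P.resHom A hA)).map A.subtype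

theorem mem_resPre {Ω : Type*} [Field Ω] {P : Pl L Ω} {A : Subfield L} {hA : ∀ x ∈ A, x ∈ P.O}
    {B : Subfield Ω} {x : L} : x ∈ resPre P A hA B ↔ x ∈ A ∧ P.ev x ∈ B := by
  unfold resPre
  rw [Subfield.mem_map]
  constructor
  · rintro ⟨y, hy, rfl⟩
    refine ⟨y.2, ?_⟩
    rw [Subfield.mem_comap, P.resHom_apply] at hy
    exact hy
  · rintro ⟨hx, hx'⟩
    refine ⟨⟨x, hx⟩, ?_, rfl⟩
    rw [Subfield.mem_comap, P.resHom_apply]
    exact hx'

/-- A7-A9. -/
theorem local_field (hΘ : Compatible Θ) (hCP : CP M M' Θ N N') {t : K} (ht : t ∈ M.F N)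
    (hg : Good M.k t) {z G : L} (hz : z ∈ M'.k) (hzN : z ∉ N')
    (hG : G ∈ M'.F (rac (adj N' z))) (hGT : Θ.symm (cl ℓ G) ∈ VS ℓ (adj M.k t))
    (hGN : cl ℓ G ∉ VS ℓ (M'.F N')) :
    ∃ E : Subfield L, N' ≤ E ∧ E ≤ M'.F N' ∧ (∃ y0 ∈ E, y0 ∉ N') ∧
      (∀ x ∈ M'.F N', IsAlgebraic E x → x ∈ E) ∧
      (∀ y0 ∈ E, y0 ∉ N' → ∀ x ∈ E, IsAlgebraic (adj N' y0) x) ∧
      (∀ u ∈ VS ℓ (M'.F N'), Θ.symm u ∈ VS ℓ (adj M.k t) ↔ u ∈ VS ℓ E) := by
  classical
  have hℓ : 0 < ℓ := (Fact.out : ℓ.Prime).pos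
  have hgN : Θ.symm (cl ℓ G) ∉ VS ℓ (M.F N) := by
    rw [hCP.map, LinearEquiv.apply_symm_apply]; exact hGN
  obtain ⟨a, hak, haN, hWf⟩ := exists_special hCP ht hg.1 hGT hgN
  obtain ⟨W⟩ := exists_WD M M' hΘ hCP.sub ht hg hak haN
  have hf := hWf W
  have hWt := W.trivial hΘ hCP hg.1
  have hG0 : G ≠ 0 := by
    rintro rfl
    rw [cl_zero] at hGN
    exact hGN (Submodule.zero_mem _)
  have hWM := W.trivial_const hCP hWt hz hzN hG hG0 hf
  set P := plOf W.w with hP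
  set Mz := rac (adj N' z) with hMz
  set A := M'.F N' with hAdef
  have hMO : ∀ x ∈ Mz, x ∈ P.O := hWM
  have hA : ∀ x ∈ A, x ∈ P.O := by
    intro x hx
    by_cases hx0 : x = 0
    · rw [hx0]; exact P.O.zero_mem
    · exact (W.w.valuation_le_one_iff x).1 (hWt x hx hx0).le
  have hNA : N' ≤ A := Mdl.Sub.le_F N'
  have hNM : N' ≤ Mz := (le_adj N' z).trans (le_rac _)
  have hN : ∀ x ∈ N', x ∈ P.O := fun x hx => hA x (hNA hx)
  have hzM : z ∈ Mz := le_rac _ (mem_adj _ _)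
  have hMsub : M'.Sub Mz := Mdl.sub_rac (hCP.sub'.ge.trans (le_adj _ _)) (adj_le hCP.sub'.le hz)
  have hzA : ¬ IsAlgebraic A z := fun h =>
    hzN (M'.free N' hCP.sub'.rac hCP.sub'.ge hCP.sub'.le z hz h)
  set Λ := M'.F Mz with hΛdef
  have hAΛ : A ≤ Λ := Mdl.F_mono hNM
  have hMΛ : Mz ≤ Λ := Mdl.Sub.le_F Mz
  -- the residue of `z` is algebraic
  have he : IsAlgebraic (P.im A hA) (P.ev z) := by
    by_contra h
    have h1 := Pl.mem_adj_of_transcendental P A hA (hMO z hzM) h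
    have h2 : Λ ≤ rac (adj A z) := by
      refine sup_le ?_ (rac_mono (adj_mono hNA z))
      exact (Mdl.K0_le N').trans ((le_adj A z).trans (le_rac _))
    have h3 : ∀ x ∈ Λ, x ∈ P.O := fun x hx => P.mem_of_isAlgebraic _ h1 (mem_rac.1 (h2 hx))
    exact hf (W.w1 G (P.U_iff.1 (Gn.U_of_field h3 hG hG0)))
  obtain ⟨π, hπA, hπ, hπO, hπ0, hGd⟩ := exists_gd_adj P A hA (hMO z hzM) hzA he
  haveI : PerfectField Mz := perfect_rac _
  haveI : PerfectField A := hCP.sub'.perfect_F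
  haveI : PerfectField Λ := hMsub.perfect_F
  have hB : P.im Mz hMO = rac (adj (P.im N' hN) (P.ev z)) :=
    Pl.im_eq_rac P hMO hMsub.isAlgClosed hNM hzM (fun b hb => mem_rac.1 hb)
  set B := rac (adj (P.im N' hN) (P.ev z)) with hBdef
  set κ := P.im A hA ⊔ B with hκ
  have hevB : ∀ x ∈ Mz, P.ev x ∈ B := fun x hx => by rw [← hB]; exact P.ev_mem_im hMO hx
  have hGd3 : Gd P π κ Λ := by
    have h1 := hGd κ le_sup_left ((le_sup_right : B ≤ κ) (hevB z hzM))
    have h2 : Gd P π κ (adj A z ⊔ Mz) :=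
      Gd.sup hπ hπO hπ0 hπA h1 (E := Vale.Agent.P019.adj N' z)
        (Vale.Agent.P019.adj_mono hNA z) ((adj0_le_adj N' z).trans (le_rac _)) hMO
        (fun x hx => (le_sup_right : B ≤ κ) (hevB x hx))
        (fun x hx => isAlgebraic_adj.1 (mem_rac.1 hx))
    refine Gd.mono (sup_le ?_ le_sup_right) h2
    exact (Mdl.K0_le N').trans ((le_adj A z).trans le_sup_left)
  have hπΛ : π ∈ Λ := Vale.Agent.P019.adj_le hAΛ (hMΛ hzM) hπA
  have hGn : ∀ (j : ℕ) (n : ℤ), P.U (G ^ ringExpChar L ^ j * π ^ n) → ¬ (ℓ : ℤ) ∣ n := by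
    rintro j n hU ⟨m, rfl⟩
    apply hf
    have h1 : cl ℓ (G ^ ringExpChar L ^ j * π ^ ((ℓ : ℤ) * m)) =
        ((ringExpChar L ^ j : ℕ) : ZMod ℓ) • cl ℓ G := by
      rw [cl_mul ℓ (pow_ne_zero _ hG0) (zpow_ne_zero _ hπ), mul_comm (ℓ : ℤ) m, zpow_mul,
        zpow_natCast, cl_pow_self, add_zero, cl_pow, Nat.cast_smul_eq_nsmul]
    have h2 := W.w1 _ (P.U_iff.1 hU)
    rw [h1, map_smul, map_smul, smul_eq_mul] at h2
    exact (mul_eq_zero.1 h2).resolve_left (q_pow_ne_zero ℓ L j)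
  have hpow : ∀ x ∈ A, x ≠ 0 → Θ.symm (cl ℓ x) ∈ VS ℓ (adj M.k t) →
      ∃ r ∈ κ, r ^ ℓ = P.ev x := by
    intro x hx hx0 hxT
    have h1 : Orth (cl ℓ x) (cl ℓ G) := by
      have h2 := hΘ.orth (adj_isotropic M.ack hg.1 _ hxT _ hGT)
      rwa [LinearEquiv.apply_symm_apply, LinearEquiv.apply_symm_apply] at h2
    have h2 := M'.orth_descent ℓ hMsub (hAΛ hx) hG h1
    refine tame_sub P hπΛ hπ hπO hπ0 hGd3 ℓ ?_ (hAΛ hx) (Gn.U_of_field hA hx hx0) hG hG0 hGn h2
    obtain ⟨d, hd, hd'⟩ := asm_pow_eq hCP.sub'.isAlgClosed hℓ (N'.neg_mem N'.one_mem)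
    exact ⟨d, hAΛ (hNA hd), hd'⟩
  have heN : P.ev z ∉ P.im N' hN := by
    intro h
    obtain ⟨d, hd, hd'⟩ := P.mem_im.1 h
    have := P.ev_inj hMO (hNM hd) hzM hd'
    exact hzN (this ▸ hd)
  haveI : NeZero (ℓ : AlgebraicClosure (IsLocalRing.ResidueField W.w)) := ⟨by
    intro h0
    apply NeZero.ne (ℓ : L)
    have h1 : ((ℓ : ℕ) : A) = 0 := by
      apply (P.resHom A hA).injective
      rw [map_natCast, map_zero]
      exact h0
    have h2 := congrArg (Subtype.val : A → L) h1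
    simpa using h2⟩
  let X : Set (AlgebraicClosure (IsLocalRing.ResidueField W.w)) :=
    {y | ∃ x ∈ A, x ≠ 0 ∧ Θ.symm (cl ℓ x) ∈ VS ℓ (adj M.k t) ∧ P.ev x = y}
  have hX0 : ∀ y ∈ X, y ∈ P.im A hA ∧ y ≠ 0 := by
    rintro _ ⟨x, hx, hx0, -, rfl⟩
    exact ⟨P.ev_mem_im hA hx, (Gn.U_of_field hA hx hx0).2⟩
  have hXpow : ∀ y ∈ X, ∃ r ∈ P.im A hA ⊔ B, r ^ ℓ = y := by
    rintro _ ⟨x, hx, hx0, hxT, rfl⟩
    exact hpow x hx hx0 hxT
  have hXinf : ∀ n : ℕ, ∃ x : Fin n → (AlgebraicClosure (IsLocalRing.ResidueField W.w)),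
      (∀ i, x i ∈ X) ∧ ∀ i j, i ≠ j → ¬ ∃ w ∈ P.im A hA, x i = x j * w ^ ℓ := by
    intro n
    obtain ⟨ε, hεi, hε0, -, -⟩ := M.exists_seq (⊤ : ValuationSubring K)
    have h1 : ∀ m : ℕ, ∃ x ∈ A, x ≠ 0 ∧ cl ℓ x = Θ (cl ℓ (t - ε m)) := by
      intro m
      have h2 : cl ℓ (t - ε m) ∈ VS ℓ (M.F N) :=
        cl_mem_VS (Subfield.sub_mem _ ht (Mdl.Sub.le_F N (hCP.sub.ge (hε0 m))))
      rw [hCP.map] at h2
      obtain ⟨x, hx, hx0, hx'⟩ := h2
      exact ⟨x, hx, hx0, hx'.symm⟩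
    choose x hxA hx0 hxc using h1
    refine ⟨fun i => P.ev (x i), fun i => ⟨x i, hxA i, hx0 i, ?_, rfl⟩, ?_⟩
    · rw [hxc, LinearEquiv.symm_apply_apply]
      exact cl_mem_VS (Subfield.sub_mem _ (mem_adj _ _) (le_adj _ _ (M.le_k (hε0 _))))
    · rintro i j hij ⟨w, hw, hw'⟩
      obtain ⟨w₀, hw₀, rfl⟩ := P.mem_im.1 hw
      have h2 : x i = x j * w₀ ^ ℓ := by
        apply P.ev_inj hA (hxA _) (A.mul_mem (hxA _) (A.pow_mem hw₀ _))
        rw [P.ev_mul (hA _ (hxA _)) (hA _ (A.pow_mem hw₀ _)), P.ev_pow (hA _ hw₀)]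
        exact hw'
      have hw₀0 : w₀ ≠ 0 := by
        rintro rfl
        rw [zero_pow hℓ.ne', mul_zero] at h2
        exact hx0 _ h2
      have h3 : cl ℓ (x i) = cl ℓ (x j) := (cl_eq_iff ℓ (hx0 _) (hx0 _)).2 ⟨w₀, hw₀0, h2⟩
      rw [hxc, hxc] at h3
      have h4 := Θ.injective h3
      have hij' : ε i ≠ ε j := by
        intro h
        exact hij (Fin.ext (hεi h))
      have h5 := good_independent (ℓ := ℓ) M.ack hg {ε i, ε j} (by
        intro c hc
        simp only [Finset.mem_insert, Finset.mem_singleton] at hc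
        rcases hc with rfl | rfl <;> exact M.le_k (hε0 _))
        (fun c => if c = ε i then 1 else -1) (by
        rw [Finset.sum_insert (by simpa using hij'), Finset.sum_singleton, if_pos rfl,
          if_neg hij'.symm, h4, one_smul, neg_smul, one_smul, add_neg_cancel])
        (ε i) (by simp)
      rw [if_pos rfl] at h5
      exact one_ne_zero h5
  obtain ⟨⟨y₀, hy₀, hy₀N⟩, hXE⟩ := gal ℓ (P.isAlgClosed_im hN hCP.sub'.isAlgClosed)
    (Pl.fg_im P hA hNA (M'.fg_F hCP.sub')) he heN X hX0 hXinf hXpow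
  -- the field
  have hBrac : RAC B := RAC_rac _
  refine ⟨resPre P A hA B, ?_, ?_, ?_, ?_, ?_, ?_⟩
  · intro x hx
    exact mem_resPre.2 ⟨hNA hx, (le_adj _ _).trans (le_rac _) (P.ev_mem_im hN hx)⟩
  · intro x hx
    exact (mem_resPre.1 hx).1
  · obtain ⟨x, hx, hx'⟩ := P.mem_im.1 hy₀.2
    refine ⟨x, mem_resPre.2 ⟨hx, hx'.symm ▸ hy₀.1⟩, fun h => hy₀N ?_⟩
    rw [← hx']
    exact P.ev_mem_im hN h
  · intro x hx hxE
    refine mem_resPre.2 ⟨hx, hBrac _ ?_⟩
    refine P.isAlgebraic_ev (resPre P A hA B) B ?_ hxE (hA x hx)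
    intro y hy _
    exact (mem_resPre.1 hy).2
  · intro y hy hyN x hx
    have hy' := mem_resPre.1 hy
    have hx' := mem_resPre.1 hx
    have hyN' : P.ev y ∉ P.im N' hN := by
      intro h
      obtain ⟨d, hd, hd'⟩ := P.mem_im.1 h
      exact hyN (P.ev_inj hA (hNA hd) hy'.1 hd' ▸ hd)
    have h1 : IsAlgebraic (adj (P.im N' hN) (P.ev y)) (P.ev x) :=
      line_swap (RAC_of_isAlgClosed _ (P.isAlgClosed_im hN hCP.sub'.isAlgClosed))
        (mem_rac.1 hy'.2) hyN' (mem_rac.1 hx'.2)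
    refine P.isAlgebraic_of_im hA (adj_le hNA hy'.1) hx'.1 ?_
    rw [Pl.im_adj P hA hNA hy'.1]
    exact h1
  · rintro _ ⟨x, hx, hx0, rfl⟩
    constructor
    · intro hxT
      obtain ⟨e, he', w, hw, hew⟩ := hXE (P.ev x) ⟨x, hx, hx0, hxT, rfl⟩
      obtain ⟨e₀, he₀, rfl⟩ := P.mem_im.1 he'.2
      obtain ⟨w₀, hw₀, rfl⟩ := P.mem_im.1 hw
      have h2 : x = e₀ * w₀ ^ ℓ := by
        apply P.ev_inj hA hx (A.mul_mem he₀ (A.pow_mem hw₀ _))
        rw [P.ev_mul (hA _ he₀) (hA _ (A.pow_mem hw₀ _)), P.ev_pow (hA _ hw₀)]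
        exact hew
      have he₀0 : e₀ ≠ 0 := by
        rintro rfl
        rw [zero_mul] at h2
        exact hx0 h2
      have hw₀0 : w₀ ≠ 0 := by
        rintro rfl
        rw [zero_pow hℓ.ne', mul_zero] at h2
        exact hx0 h2
      exact (cl_ne_zero_mem_VS hx0).2 ⟨e₀, mem_resPre.2 ⟨he₀, he'.1⟩, he₀0, w₀, hw₀0, h2⟩
    · rintro ⟨e, he', he0, hxe⟩
      rw [hxe]
      obtain ⟨heA, heB⟩ := mem_resPre.1 he'
      rw [← hB] at heB
      obtain ⟨m, hm, hm'⟩ := P.mem_im.1 heB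
      have hm0 : m ≠ 0 := by
        rintro rfl
        rw [P.ev_zero] at hm'
        exact (Gn.U_of_field hA heA he0).2 hm'.symm
      have hmk : m ∈ M'.k := hMsub.le hm
      have hmU : P.U m := Gn.U_of_field hMO hm hm0
      have hcl : cl ℓ (1 + (e / m - 1)) = cl ℓ e := by
        have e1 : 1 + (e / m - 1) = m⁻¹ * e := by field_simp; ring
        rw [e1]
        exact cl_const_mul M'.ack (M'.k.inv_mem hmk) (inv_ne_zero hm0) he0
      rw [← hcl]
      apply W.w2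
      · have h3 : P.ev (e / m - 1) = 0 := by
          have h4 : P.U (e / m) := (Gn.U_of_field hA heA he0).div hmU
          rw [P.ev_sub h4.1 P.O.one_mem, P.ev_div (hA e heA) hmU, hm', P.ev_one,
            div_self (Gn.U_of_field hA heA he0).2, sub_self]
        exact (P.ev_eq_zero_iff (P.O.sub_mem
          ((Gn.U_of_field hA heA he0).div hmU).1 P.O.one_mem)).1 h3
      · rw [hcl, hCP.map, LinearEquiv.apply_symm_apply]
        exact cl_mem_VS heA

end localfield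

end Vale.Agent.P019P
end

section

/-!
# Assembly 4: lines go to fields of transcendence degree one
-/

namespace Vale.Agent.P019P

open Vale.Agent.P019

set_option linter.style.haveILetI false

open Polynomial

section glob

variable {K L : Type*} [Field K] [Field L] [PerfectField K] [PerfectField L] {ℓ : ℕ} [Fact ℓ.Prime]
  [NeZero (ℓ : K)] [NeZero (ℓ : L)]

/-- the local statement for a pair. -/
structure LF (M : Mdl K) (M' : Mdl L) (Θ : V ℓ K ≃ₗ[ZMod ℓ] V ℓ L) (t : K) (N' E : Subfield L) :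
    Prop where
  sub : M'.Sub N'
  le : N' ≤ E
  leF : E ≤ M'.F N'
  ne : ∃ y0 ∈ E, y0 ∉ N'
  rac : ∀ x ∈ M'.F N', IsAlgebraic E x → x ∈ E
  deg : ∀ y0 ∈ E, y0 ∉ N' → ∀ x ∈ E, IsAlgebraic (adj N' y0) x
  iff : ∀ u ∈ VS ℓ (M'.F N'), Θ.symm u ∈ VS ℓ (adj M.k t) ↔ u ∈ VS ℓ E

variable {M : Mdl K} {M' : Mdl L} {Θ : V ℓ K ≃ₗ[ZMod ℓ] V ℓ L}

theorem LF.mem_of_k0 {t : K} {N' E : Subfield L} (h : LF M M' Θ t N' E) {z : L}
    (hz : z ∈ M'.F N') (hn : ∀ c ∈ M'.k0, Θ.symm (cl ℓ (z - c)) ∈ VS ℓ (adj M.k t)) :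
    z ∈ E := by
  by_contra hzE
  have hEz : ¬ IsAlgebraic E z := fun h' => hzE (h.rac z hz h')
  have hinf : (M'.k0 : Set L).Infinite := by
    haveI := M'.ack0
    haveI : Infinite M'.k0 := IsAlgClosed.instInfinite
    exact Set.infinite_coe_iff.1 (inferInstance : Infinite M'.k0)
  obtain ⟨c, hc0, hno⟩ := int_line ℓ (l := N') (E := E) (Λ := M'.F N') h.sub.isAlgClosed
    (M'.fg_F h.sub) h.le h.leF hz hEz _ hinf (fun c hc => h.sub.ge hc)
  apply hno
  have hcN : c ∈ N' := h.sub.ge hc0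
  have hzn0 : z - c ≠ 0 := by
    intro h0
    rw [sub_eq_zero] at h0
    exact hzE (h0 ▸ h.le hcN)
  have hznF : z - c ∈ M'.F N' := Subfield.sub_mem _ hz (h.leF (h.le hcN))
  have h1 := (h.iff _ (cl_mem_VS hznF)).1 (hn c hc0)
  obtain ⟨e, he, he0, w, hw0, hew⟩ := (cl_ne_zero_mem_VS hzn0).1 h1
  refine ⟨e, he, w, ?_, hew⟩
  have h2 : w ^ ℓ ∈ M'.F N' := by
    have e1 : w ^ ℓ = (z - c) / e := by rw [hew]; field_simp
    rw [e1]
    exact Subfield.div_mem _ hznF (h.leF he)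
  exact M'.RAC_F h.sub _ (IsAlgebraic.of_pow (Fact.out : ℓ.Prime).pos (isAlgebraic_of_mem h2))

theorem LF.mem_iff {t : K} {N' E : Subfield L} (h : LF M M' Θ t N' E) {z : L}
    (hz : z ∈ M'.F N') :
    z ∈ E ↔ ∀ c ∈ M'.k0, Θ.symm (cl ℓ (z - c)) ∈ VS ℓ (adj M.k t) := by
  refine ⟨fun hzE c hc => ?_, h.mem_of_k0 hz⟩
  have hcE : c ∈ E := h.le (h.sub.ge hc)
  rw [h.iff]
  · exact cl_mem_VS (Subfield.sub_mem _ hzE hcE)
  · exact cl_mem_VS (Subfield.sub_mem _ hz (h.leF hcE))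

/-- sufficiently many local fields. -/
theorem exists_LF (hΘ : Compatible Θ) (hk : ¬ (M.k : Set K).Countable)
    (hl : ¬ (M'.k : Set L).Countable) {t : K} (hg : Good M.k t) (S : Set L) (hS : S.Countable) :
    ∃ N' E, LF M M' Θ t N' E ∧ ∀ s ∈ S, s ∈ M'.F N' := by
  obtain ⟨A, B, hA, hB, hAB⟩ := pigeon_main hΘ hk hl hg
  obtain ⟨N, N', hCP, h1, h2⟩ := exists_CP M M' Θ hk hl (A ∪ {t})
    (hA.union (Set.countable_singleton t)) (B ∪ S) (hB.union hS)
  obtain ⟨z, hz, hzN, G, hG, hGT, hGN⟩ := hAB N N' hCP (fun a ha => h1 a (Or.inl ha))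
    (fun b hb => h2 b (Or.inl hb))
  obtain ⟨E, e1, e2, e3, e4, e5, e6⟩ :=
    local_field hΘ hCP (h1 t (Or.inr rfl)) hg hz hzN hG hGT hGN
  exact ⟨N', E, ⟨hCP.sub', e1, e2, e3, e4, e5, e6⟩, fun s hs => h2 s (Or.inr hs)⟩

/-- **Step A.** The image of a good line is the multiplicative group of a relatively algebraically
closed subfield of transcendence degree one. -/
theorem step_A (hΘ : Compatible Θ) (hk : ¬ (M.k : Set K).Countable)
    (hl : ¬ (M'.k : Set L).Countable) {t : K} (hg : Good M.k t) :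
    ∃ E : Subfield L, M'.k ≤ E ∧ RAC E ∧ (∃ y0 ∈ E, y0 ∉ M'.k) ∧
      (∀ y0 ∈ E, y0 ∉ M'.k → ∀ x ∈ E, IsAlgebraic (adj M'.k y0) x) ∧
      (∀ v, v ∈ VS ℓ (adj M.k t) ↔ Θ v ∈ VS ℓ E) := by
  classical
  have hex : ∀ S : Set L, S.Countable → ∃ N' E, LF M M' Θ t N' E ∧ ∀ s ∈ S, s ∈ M'.F N' :=
    fun S hS => exists_LF hΘ hk hl hg S hS
  let p : L → Prop := fun z => ∀ c ∈ M'.k0, Θ.symm (cl ℓ (z - c)) ∈ VS ℓ (adj M.k t)
  have hp : ∀ {N' E : Subfield L} (_ : LF M M' Θ t N' E) {z : L} (_ : z ∈ M'.F N'),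
      z ∈ E ↔ p z := by
    intro N' E h z hz
    exact h.mem_iff hz
  have hpair : ∀ x y : L, ∃ N' E, LF M M' Θ t N' E ∧ x ∈ M'.F N' ∧ y ∈ M'.F N' := by
    intro x y
    obtain ⟨N', E, h1, h2⟩ := hex {x, y} (Set.toFinite {x, y}).countable
    exact ⟨N', E, h1, h2 x (by simp), h2 y (by simp)⟩
  let E₀ : Subfield L :=
    { carrier := {z | p z}
      mul_mem' := by
        intro x y hx hy
        obtain ⟨N', E, h, h1, h2⟩ := hpair x y
        exact (hp h (Subfield.mul_mem _ h1 h2)).1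
          (E.mul_mem ((hp h h1).2 hx) ((hp h h2).2 hy))
      one_mem' := by
        obtain ⟨N', E, h, h1, h2⟩ := hpair 1 1
        exact (hp h h1).1 E.one_mem
      add_mem' := by
        intro x y hx hy
        obtain ⟨N', E, h, h1, h2⟩ := hpair x y
        exact (hp h (Subfield.add_mem _ h1 h2)).1
          (E.add_mem ((hp h h1).2 hx) ((hp h h2).2 hy))
      zero_mem' := by
        obtain ⟨N', E, h, h1, h2⟩ := hpair 0 0
        exact (hp h h1).1 E.zero_mem
      neg_mem' := by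
        intro x hx
        obtain ⟨N', E, h, h1, h2⟩ := hpair x x
        exact (hp h (Subfield.neg_mem _ h1)).1 (E.neg_mem ((hp h h1).2 hx))
      inv_mem' := by
        intro x hx
        obtain ⟨N', E, h, h1, h2⟩ := hpair x x
        exact (hp h (Subfield.inv_mem _ h1)).1 (E.inv_mem ((hp h h1).2 hx)) }
  have hE₀ : ∀ {N' E : Subfield L} (_ : LF M M' Θ t N' E) {z : L} (_ : z ∈ M'.F N'),
      z ∈ E ↔ z ∈ E₀ := by
    intro N' E h z hz
    exact hp h hz
  refine ⟨E₀, ?_, ?_, ?_, ?_, ?_⟩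
  · intro c hc
    obtain ⟨N', E, h, h1, -⟩ := hpair c c
    exact (hE₀ h h1).1 (h.le (M'.mem_of_mem_F h.sub hc h1))
  · intro z hz
    obtain ⟨Q, hQ0, hQ⟩ := hz
    let S : Set L := insert z (Set.range (fun i => ((Q.coeff i : E₀) : L)))
    obtain ⟨N', E, h, hS⟩ := hex S ((Set.countable_range _).insert z)
    have hzF : z ∈ M'.F N' := hS z (Set.mem_insert _ _)
    rw [← hE₀ h hzF]
    refine h.rac z hzF ?_
    refine Gn.isAlgebraic_of_coeff (Q.map E₀.subtype) ?_ ?_ ?_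
    · rw [Ne, Polynomial.map_eq_zero_iff (RingHom.injective _)]; exact hQ0
    · intro i
      rw [coeff_map]
      have hi : ((Q.coeff i : E₀) : L) ∈ M'.F N' := hS _ (Set.mem_insert_of_mem _ ⟨i, rfl⟩)
      exact (hE₀ h hi).2 (Q.coeff i).2
    · rw [eval_map]; exact hQ
  · obtain ⟨N', E, h, -⟩ := hex ∅ Set.countable_empty
    obtain ⟨y0, hy0, hy0N⟩ := h.ne
    refine ⟨y0, (hE₀ h (h.leF hy0)).1 hy0, fun hc => hy0N ?_⟩
    exact M'.mem_of_mem_F h.sub hc (h.leF hy0)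
  · intro y0 hy0 hy0k x hx
    obtain ⟨N', E, h, h1, h2⟩ := hpair y0 x
    have h3 := h.deg y0 ((hE₀ h h1).2 hy0) (fun hc => hy0k (h.sub.le hc)) x ((hE₀ h h2).2 hx)
    exact isAlgebraic_mono (adj_mono h.sub.le y0) h3
  · intro v
    obtain ⟨g, hg0, hgv⟩ := cl_surj ℓ (Θ v)
    constructor
    · intro hv
      obtain ⟨N', E, h, h1, -⟩ := hpair g g
      have h2 : Θ.symm (cl ℓ g) ∈ VS ℓ (adj M.k t) := by
        rw [hgv, LinearEquiv.symm_apply_apply]; exact hv
      rw [h.iff _ (cl_mem_VS h1), hgv] at h2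
      obtain ⟨e, he, he0, hev⟩ := h2
      rw [hev]
      exact cl_mem_VS ((hE₀ h (h.leF he)).1 he)
    · rintro ⟨e, he, he0, hev⟩
      obtain ⟨N', E, h, h1, -⟩ := hpair e e
      have h2 := (h.iff _ (cl_mem_VS h1)).2 (cl_mem_VS ((hE₀ h h1).2 he))
      rwa [← hev, LinearEquiv.symm_apply_apply] at h2

/-- **A10.** Transferred valuations are trivial on constants. -/
theorem const_trivial (hΘ : Compatible Θ) (hk : ¬ (M.k : Set K).Countable)
    (hl : ¬ (M'.k : Set L).Countable) (U : Submodule (ZMod ℓ) (V ℓ K)) {x : K} (hx : Good M.k x)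
    (hfin : ((U ⊓ VS ℓ (adj M.k x) : Submodule (ZMod ℓ) (V ℓ K)) : Set (V ℓ K)).Finite)
    (w : ValuationSubring L) (hw : ∀ z, w.valuation z < 1 → Θ.symm (cl ℓ (1 + z)) ∈ U) :
    ∀ c ∈ M'.k, c ≠ 0 → w.valuation c = 1 := by
  obtain ⟨E, hkE, -, ⟨y0, hy0, hy0k⟩, -, hE⟩ := step_A (M' := M') hΘ hk hl hx
  obtain ⟨s, hs, hsk, hsw⟩ : ∃ s ∈ E, s ∉ M'.k ∧ w.valuation s ≤ 1 := by
    rcases le_or_gt (w.valuation y0) 1 with h1 | h1
    · exact ⟨y0, hy0, hy0k, h1⟩
    · refine ⟨y0⁻¹, E.inv_mem hy0, fun h => hy0k ?_, ?_⟩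
      · have := M'.k.inv_mem h
        rwa [inv_inv] at this
      · rw [map_inv₀]
        exact (inv_lt_one_of_one_lt₀ h1).le
  suffices H : ∀ c ∈ M'.k, c ≠ 0 → ¬ w.valuation c < 1 by
    intro z hz hz0
    apply le_antisymm
    · by_contra hcon
      push Not at hcon
      refine H z⁻¹ (M'.k.inv_mem hz) (inv_ne_zero hz0) ?_
      rw [map_inv₀]
      exact inv_lt_one_of_one_lt₀ hcon
    · exact not_lt.1 (H z hz hz0)
  intro c hc hc0 hcw
  have hfin2 : (⋃ v ∈ ((U ⊓ VS ℓ (adj M.k x) : Submodule (ZMod ℓ) (V ℓ K)) : Set (V ℓ K)),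
      {d : L | d ∈ M'.k ∧ cl ℓ (s - d) = Θ v}).Finite :=
    hfin.biUnion (fun v _ => dist_top ℓ M'.ack M'.fg_top hsk (Θ v))
  have hinf2 : (Set.range (fun j : ℕ => (-(c ^ (j + 1))⁻¹))).Infinite := by
    refine Set.infinite_range_of_injective ?_
    intro i j hij
    have h1 : c ^ (i + 1) = c ^ (j + 1) := inv_injective (neg_injective hij)
    have h2 : ∀ m n : ℕ, m < n → c ^ (m + 1) ≠ c ^ (n + 1) := by
      intro m n hmn h
      have h3 := congrArg w.valuation h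
      rw [map_pow, map_pow] at h3
      have h0 : 0 < w.valuation c := by rw [Valuation.pos_iff]; exact hc0
      have h4 := pow_lt_pow_right_of_lt_one₀ h0 hcw (Nat.succ_lt_succ hmn)
      exact h4.ne h3.symm
    rcases lt_trichotomy i j with h | h | h
    · exact absurd h1 (h2 i j h)
    · exact h
    · exact absurd h1.symm (h2 j i h)
  refine hinf2 (hfin2.subset ?_)
  rintro _ ⟨j, rfl⟩
  have hcj : c ^ (j + 1) ∈ M'.k := M'.k.pow_mem hc _
  have hcj0 : c ^ (j + 1) ≠ 0 := pow_ne_zero _ hc0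
  have hdk : -(c ^ (j + 1))⁻¹ ∈ M'.k := M'.k.neg_mem (M'.k.inv_mem hcj)
  have hsd : s - (-(c ^ (j + 1))⁻¹) ≠ 0 := by
    intro h
    rw [sub_eq_zero] at h
    exact hsk (h ▸ hdk)
  have e1 : cl ℓ (1 + c ^ (j + 1) * s) = cl ℓ (s - (-(c ^ (j + 1))⁻¹)) := by
    have e : 1 + c ^ (j + 1) * s = c ^ (j + 1) * (s - (-(c ^ (j + 1))⁻¹)) := by
      field_simp; ring
    rw [e, cl_const_mul M'.ack hcj hcj0 hsd]
  have hmem1 : Θ.symm (cl ℓ (s - (-(c ^ (j + 1))⁻¹))) ∈ U := by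
    rw [← e1]
    apply hw
    rw [map_mul, map_pow]
    have h4 : w.valuation c ^ (j + 1) < 1 := pow_lt_one₀ zero_le hcw (Nat.succ_ne_zero j)
    exact mul_lt_one_of_nonneg_of_lt_one_left zero_le h4 hsw
  have hmem2 : Θ.symm (cl ℓ (s - (-(c ^ (j + 1))⁻¹))) ∈ VS ℓ (adj M.k x) := by
    rw [hE, LinearEquiv.apply_symm_apply]
    exact cl_mem_VS (E.sub_mem hs (hkE hdk))
  simp only [Set.mem_iUnion]
  exact ⟨_, ⟨hmem1, hmem2⟩, hdk, (LinearEquiv.apply_symm_apply _ _).symm⟩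

end glob

end Vale.Agent.P019P
end

section

/-!
# The hypotheses of the reconstruction step hold
-/

namespace Vale.Agent.P019P

open Vale.Agent.P019

set_option linter.style.haveILetI false
set_option linter.unusedSectionVars false

open Filter

section

variable {ℓ : ℕ} [Fact ℓ.Prime] {K L : Type*} [Field K] [Field L] [PerfectField K] [PerfectField L]
  [NeZero (ℓ : K)] [NeZero (ℓ : L)]

theorem stepA_crv {M : Mdl K} {M' : Mdl L} {Θ : V ℓ K ≃ₗ[ZMod ℓ] V ℓ L} (hΘ : Compatible Θ)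
    (hk : ¬ (M.k : Set K).Countable) (hl : ¬ (M'.k : Set L).Countable) {t : K}
    (hg : Good M.k t) :
    ∃ E : Subfield L, Crv M'.k E ∧ ∀ v, Θ v ∈ VS ℓ E ↔ v ∈ VS ℓ (adj M.k t) := by
  obtain ⟨E, h1, h2, ⟨y, hy, hyk⟩, h4, h5⟩ := step_A (M' := M') hΘ hk hl hg
  exact ⟨E, ⟨h1, h2, ⟨y, hy, hyk, h4 y hy hyk⟩⟩, fun v => (h5 v).symm⟩

theorem trivOn_of_val {O : ValuationSubring L} {l : Subfield L}
    (h : ∀ c ∈ l, c ≠ 0 → O.valuation c = 1) : TrivOn O l := by
  intro c hc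
  by_cases hc0 : c = 0
  · rw [hc0]; exact O.zero_mem
  · exact (O.valuation_le_one_iff c).1 (h c hc hc0).le

theorem hyp_of {k : Subfield K} {l : Subfield L} {Θ : V ℓ K ≃ₗ[ZMod ℓ] V ℓ L}
    (ack : IsAlgClosed k) (acl : IsAlgClosed l) (fgk : FG k (⊤ : Subfield K))
    (fgl : FG l (⊤ : Subfield L)) (uk : ¬ (k : Set K).Countable)
    (trk : ∃ x y : K, x ∉ k ∧ ¬ IsAlgebraic (adj k x) y)
    (trl : ∃ x y : L, x ∉ l ∧ ¬ IsAlgebraic (adj l x) y) (hΘ : Compatible Θ) :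
    Hyp ℓ k l Θ := by
  obtain ⟨M, rfl⟩ := exists_mdl k ack fgk trk
  obtain ⟨M', rfl⟩ := exists_mdl l acl fgl trl
  have ul : ¬ (M'.k : Set L).Countable := uncountable_transport M M' Θ uk
  refine ⟨ack, acl, fgk, fgl, trk, trl, hΘ, ?_, ?_, ?_, ?_, ?_, ?_⟩
  · intro t ht
    exact stepA_crv hΘ uk ul ht
  · intro t ht
    exact stepA_crv hΘ.symm ul uk ht
  · intro U x hx hfin O hO
    exact trivOn_of_val (const_trivial (M := M) (M' := M') hΘ uk ul U hx hfin O hO)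
  · intro U x hx hfin O hO
    exact trivOn_of_val (const_trivial (M := M') (M' := M) hΘ.symm ul uk U hx hfin O hO)
  · intro x y hx hy
    exact ae_iff.2 (bertini ack fgk hx hy)
  · intro x y hx hy
    exact ae_iff.2 (bertini acl fgl hx hy)

end

end Vale.Agent.P019P
end

section

/-!
# The place of the ultrapower defined by a family of valuation rings
-/

namespace Vale.Agent.P019P

open Vale.Agent.P019

set_option linter.style.haveILetI false
set_option linter.unusedSectionVars false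

open Polynomial Filter

section homs

variable {K Ω : Type*} [Field K] [Field Ω] (j : K →+* Ω)

theorem sub_map_mono {E F : Subfield K} (h : E ≤ F) : E.map j ≤ F.map j := by
  rintro _ ⟨x, hx, rfl⟩
  exact ⟨x, h hx, rfl⟩

theorem map_pf_le (E : Subfield K) : (pf E).map j ≤ pf (E.map j) := by
  rintro _ ⟨z, hz, rfl⟩
  obtain ⟨n, hn⟩ := mem_pf.1 hz
  refine mem_pf.2 ⟨n, ?_⟩
  rw [← ringExpChar_eq_of_hom j, ← map_pow]
  exact ⟨_, hn, rfl⟩

theorem map_adj0 (E : Subfield K) (y : K) :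
    (Vale.Agent.P019.adj E y).map j = Vale.Agent.P019.adj (E.map j) (j y) := by
  unfold Vale.Agent.P019.adj
  rw [Subfield.map_sup]
  congr 1
  rw [RingHom.map_field_closure, Set.image_singleton]

theorem map_adj_le (E : Subfield K) (y : K) :
    (adj E y).map j ≤ adj (E.map j) (j y) := by
  refine (map_pf_le j _).trans ?_
  rw [map_adj0]
  exact le_rfl

theorem adj_map_le [PerfectField K] (E : Subfield K) (y : K) :
    adj (E.map j) (j y) ≤ (adj E y).map j :=
  adj_le (sub_map_mono j (le_adj E y)) ⟨y, mem_adj E y, rfl⟩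

theorem isAlgebraic_map {E : Subfield K} {x : K} (h : IsAlgebraic E x) :
    IsAlgebraic (E.map j) (j x) := by
  obtain ⟨q, hq0, hq, hqz⟩ := isAlgebraic_iff_coeff.1 h
  refine isAlgebraic_iff_coeff.2 ⟨q.map j, ?_, ?_, ?_⟩
  · rw [Ne, Polynomial.map_eq_zero]
    exact hq0
  · intro i
    rw [coeff_map]
    exact ⟨_, hq i, rfl⟩
  · rw [eval_map, eval₂_at_apply, hqz, map_zero]

theorem isAlgebraic_of_map {E : Subfield K} {x : K} (h : IsAlgebraic (E.map j) (j x)) :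
    IsAlgebraic E x := by
  obtain ⟨q, hq0, hq, hqz⟩ := isAlgebraic_iff_coeff.1 h
  choose c hc hcq using hq
  let p : K[X] := ∑ i ∈ Finset.range (q.natDegree + 1), C (c i) * X ^ i
  have hp : p.map j = q := by
    conv_rhs => rw [q.as_sum_range_C_mul_X_pow]
    simp only [p, Polynomial.map_sum, Polynomial.map_mul, map_C, Polynomial.map_pow, map_X, hcq]
  refine isAlgebraic_iff_coeff.2 ⟨p, ?_, ?_, ?_⟩
  · rintro h0
    rw [h0, Polynomial.map_zero] at hp
    exact hq0 hp.symm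
  · intro i
    have h1 : p.coeff i = if i ∈ Finset.range (q.natDegree + 1) then c i else 0 := by
      simp only [p, finsetSum_coeff, coeff_C_mul, coeff_X_pow, mul_ite, mul_one, mul_zero]
      rw [Finset.sum_ite_eq]
    rw [h1]
    split_ifs
    · exact hc i
    · exact E.zero_mem
  · apply j.injective
    rw [map_zero, ← hqz, ← hp, eval_map, eval₂_at_apply]

end homs

section ul

variable {I : Type*} (U : Ultrafilter I) {K : Type*} [Field K] (O : I → ValuationSubring K)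

/-- the place. -/
noncomputable abbrev ulP : Pl (Gm U K) (AlgebraicClosure (IsLocalRing.ResidueField (uVal U O))) :=
  plOf (uVal U O)

/-- nonzero elements are units for almost all members of the family. -/
def Ulu : Prop := ∀ x : K, x ≠ 0 → ∀ᶠ i in U, (O i).valuation x = 1

variable {U O}

theorem Ulu.gc_mem (h : Ulu U O) (x : K) : gc U x ∈ (ulP U O).O := by
  by_cases hx : x = 0
  · rw [hx, map_zero]; exact (ulP U O).O.zero_mem
  · rw [gc_apply]
    exact gm_mem_uVal.2 ((h x hx).mono fun i hi => ((O i).valuation_le_one_iff x).1 hi.le)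

/-- the embedding of the field. -/
noncomputable def Ulu.j (h : Ulu U O) :
    K →+* AlgebraicClosure (IsLocalRing.ResidueField (uVal U O)) where
  toFun x := (ulP U O).ev (gc U x)
  map_one' := by rw [map_one, Pl.ev_one]
  map_mul' x y := by rw [map_mul, Pl.ev_mul _ (h.gc_mem x) (h.gc_mem y)]
  map_zero' := by rw [map_zero, Pl.ev_zero]
  map_add' x y := by rw [map_add, Pl.ev_add _ (h.gc_mem x) (h.gc_mem y)]

theorem ulP_ev_eq {f g : I → K} (hf : ∀ᶠ i in U, f i ∈ O i) (hg : ∀ᶠ i in U, g i ∈ O i) :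
    (ulP U O).ev (gm U f) = (ulP U O).ev (gm U g) ↔
      ∀ᶠ i in U, (O i).valuation (f i - g i) < 1 := by
  have hf' : gm U f ∈ (ulP U O).O := gm_mem_uVal.2 hf
  have hg' : gm U g ∈ (ulP U O).O := gm_mem_uVal.2 hg
  rw [← sub_eq_zero, ← Pl.ev_sub _ hf' hg', Pl.ev_eq_zero_iff _ ((ulP U O).O.sub_mem hf' hg'),
    ← gm_sub]
  exact uVal_lt_one

theorem ulP_mem {f : I → K} (hf : ∀ᶠ i in U, f i ∈ O i) : gm U f ∈ (ulP U O).O :=
  gm_mem_uVal.2 hf

/-- fields trivially valued by almost all members. -/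
theorem ulP_triv {F : Subfield K} (hF : ∀ᶠ i in U, TrivOn (O i) F) :
    ∀ x ∈ uSub U (fun _ => F), x ∈ (ulP U O).O := by
  rintro _ ⟨f, rfl, hf⟩
  exact ulP_mem (hF.mono fun i hi => hi _ (hf i))

theorem gc_mem_uSub {F : Subfield K} {x : K} (hx : x ∈ F) : gc U x ∈ uSub U (fun _ => F) :=
  ⟨fun _ => x, rfl, fun _ => hx⟩

theorem map_gc_le (F : Subfield K) : F.map (gc U) ≤ uSub U (fun _ => F) := by
  rintro _ ⟨x, hx, rfl⟩
  exact gc_mem_uSub hx

/-- classes dying in almost all residue fields. -/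
theorem exists_root_of_U1 {ℓ : ℕ} [Fact ℓ.Prime] {z : K} (hz : z ≠ 0)
    (hv : ∀ᶠ i in U, (O i).valuation z = 1)
    (h : ∀ᶠ i in U, cl ℓ z ∈ U1 ℓ (O i)) :
    ∃ w : I → K, (∀ᶠ i in U, w i ∈ O i) ∧
      (ulP U O).ev (gm U w) ^ ℓ = (ulP U O).ev (gc U z) := by
  have h1 : ∀ᶠ i in U, ∃ w : K, w ∈ O i ∧ (O i).valuation (w ^ ℓ - z) < 1 := by
    filter_upwards [hv, h] with i hi hi'
    have h2 : rs (O i) z ≠ 0 := (rs_ne_zero (((O i).valuation_le_one_iff z).1 hi.le)).2 hi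
    rw [cl_mem_U1_iff hi, cl_eq_zero_iff ℓ h2] at hi'
    obtain ⟨c, hc0, hc⟩ := hi'
    obtain ⟨w, hw, rfl⟩ := rs_surj c
    refine ⟨w, hw, ?_⟩
    rw [← rs_eq_zero ((O i).sub_mem ((O i).pow_mem hw ℓ)
      (((O i).valuation_le_one_iff z).1 hi.le)), rs_sub ((O i).pow_mem hw ℓ)
      (((O i).valuation_le_one_iff z).1 hi.le), rs_pow hw, hc, sub_self]
  have h2 : ∀ i, ∃ w : K, (∃ w : K, w ∈ O i ∧ (O i).valuation (w ^ ℓ - z) < 1) →
      w ∈ O i ∧ (O i).valuation (w ^ ℓ - z) < 1 := by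
    intro i
    by_cases h : ∃ w : K, w ∈ O i ∧ (O i).valuation (w ^ ℓ - z) < 1
    · obtain ⟨w, hw⟩ := h
      exact ⟨w, fun _ => hw⟩
    · exact ⟨0, fun h' => absurd h' h⟩
  choose w hw using h2
  refine ⟨w, h1.mono fun i hi => (hw i hi).1, ?_⟩
  have h3 : gm U w ∈ (ulP U O).O := ulP_mem (h1.mono fun i hi => (hw i hi).1)
  rw [← Pl.ev_pow _ h3, ← gm_pow, gc_apply]
  rw [ulP_ev_eq (h1.mono fun i hi => (O i).pow_mem (hw i hi).1 ℓ)
    (hv.mono fun i hi => ((O i).valuation_le_one_iff z).1 hi.le)]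
  exact h1.mono fun i hi => (hw i hi).2

end ul

end Vale.Agent.P019P
end

section

/-!
# Rational function fields in an ultrapower and freeness
-/

namespace Vale.Agent.P019P

open Vale.Agent.P019

set_option linter.style.haveILetI false
set_option linter.unusedSectionVars false

open Polynomial Filter

variable {K : Type*} [Field K] [PerfectField K]

theorem hyper_of_ae {F : Subfield K} {S : Set K} (hSF : ∀ a ∈ S, a ∈ F) [Infinite S]
    {p : K → Prop} (h : ∀ᶠ a in ae F, p a) : ∀ᶠ i : S in (hyperfilter S : Filter S), p i.1 := by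
  apply hyperfilter_le_cofinite
  rw [ae_iff] at h
  change {i : S | p i.1} ∈ cofinite
  rw [mem_cofinite]
  refine (h.preimage Subtype.val_injective.injOn).subset ?_
  intro i hi
  exact ⟨hSF _ i.2, hi⟩

variable {I : Type*} {U : Ultrafilter I}

instance perfect_uSub (k : Subfield K) [PerfectField k] : PerfectField (uSub U (fun _ => k)) := by
  refine perfect_of_root ?_
  rintro _ ⟨f, rfl, hf⟩
  have h : ∀ i, ∃ y ∈ k, y ^ ringExpChar K = f i := by
    intro i
    obtain ⟨y, hy, hyz⟩ := exists_root_q k (hf i) 1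
    exact ⟨y, hy, by rwa [pow_one] at hyz⟩
  choose y hy hyf using h
  refine ⟨gm U y, ⟨y, rfl, hy⟩, ?_⟩
  rw [ringExpChar_gm, ← gm_pow]
  exact congrArg _ (funext hyf)

theorem uSub_mono {E F : Subfield K} (h : E ≤ F) : uSub U (fun _ => E) ≤ uSub U (fun _ => F) := by
  rintro _ ⟨f, rfl, hf⟩
  exact ⟨f, rfl, fun i => h (hf i)⟩

/-- `F` and the constants of the ultrapower generate a relatively algebraically closed subfield. -/
theorem RatF.rac_gm {k F : Subfield K} [PerfectField k] (hF : RatF k F) :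
    ∀ z ∈ uSub U (fun _ => F), IsAlgebraic (F.map (gc U) ⊔ uSub U (fun _ => k) :
      Subfield (Gm U K)) z → z ∈ F.map (gc U) ⊔ uSub U (fun _ => k) := by
  induction hF with
  | base => exact fun z hz _ => (le_sup_right : uSub U (fun _ => k) ≤ _) hz
  | @step G y hG hy ih =>
    intro z hz halg
    haveI : PerfectField G := hG.perfect
    have hy' : ∀ᶠ i : I in U, ¬ IsAlgebraic G y := Eventually.of_forall fun _ => hy
    set MG : Subfield (Gm U K) := G.map (gc U) ⊔ uSub U (fun _ => k) with hMG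
    have hMGle : MG ≤ uSub U (fun _ => G) := sup_le (map_gc_le G) (uSub_mono hG.le)
    have hle : (adj G y).map (gc U) ⊔ uSub U (fun _ => k) ≤ adj MG (gc U y) := by
      refine sup_le ((map_adj_le (gc U) G y).trans (adj_mono le_sup_left _)) ?_
      exact (le_sup_right : uSub U (fun _ => k) ≤ MG).trans (le_adj _ _)
    have h1 : z ∈ adj (uSub U (fun _ => G)) (gc U y) := by
      refine rat_gm (E := fun _ => G) (g := fun _ => y) hy' hz ?_
      exact isAlgebraic_mono (hle.trans (adj_mono hMGle _)) halg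
    have h2 : z ∈ adj MG (gc U y) := by
      refine var_rac hMGle ih (gm_transc (E := fun _ => G) (g := fun _ => y) hy') h1 ?_
      exact isAlgebraic_mono hle halg
    haveI i1 : PerfectField ((adj G y).map (gc U)) := perfect_map _ _
    haveI i2 : PerfectField ((adj G y).map (gc U) ⊔ uSub U (fun _ => k) : Subfield (Gm U K)) :=
      perfect_sup
    have h30 : G.map (gc U) ≤ (adj G y).map (gc U) := sub_map_mono _ (le_adj G y)
    have h3 : MG ≤ (adj G y).map (gc U) ⊔ uSub U (fun _ => k) :=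
      sup_le (h30.trans le_sup_left) le_sup_right
    have h4' : gc U y ∈ (adj G y).map (gc U) := Subfield.mem_map.2 ⟨y, mem_adj G y, rfl⟩
    have h4'' : (adj G y).map (gc U) ≤ (adj G y).map (gc U) ⊔ uSub U (fun _ => k) := le_sup_left
    have h4 : gc U y ∈ (adj G y).map (gc U) ⊔ uSub U (fun _ => k) := h4'' h4'
    have h5 : adj MG (gc U y) ≤ (adj G y).map (gc U) ⊔ uSub U (fun _ => k) := adj_le h3 h4
    exact h5 h2

variable {O : I → ValuationSubring K}

/-- the residue images of the generators are transcendental. -/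
theorem ulj_transc (h : Ulu U O) {F G : Subfield K} (hGF : G ≤ F)
    (hFO : ∀ x ∈ uSub U (fun _ => F), x ∈ (ulP U O).O) {y : K} (hyF : y ∈ F)
    (hy : ¬ IsAlgebraic G y) :
    ¬ IsAlgebraic ((ulP U O).im (uSub U (fun _ => G)) fun x hx => hFO x (uSub_mono hGF hx))
      (h.j y) := by
  intro h1
  have h2 := Pl.isAlgebraic_of_im (ulP U O) hFO (uSub_mono hGF) (gc_mem_uSub hyF) h1
  exact gm_transc (E := fun _ => G) (g := fun _ => y) (Eventually.of_forall fun _ => hy) h2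

/-- freeness of the constants of the ultrapower. -/
theorem RatF.free_gm {k F : Subfield K} [PerfectField k] (h : Ulu U O)
    (hFO : ∀ x ∈ uSub U (fun _ => F), x ∈ (ulP U O).O) (hkF : k ≤ F)
    {N : Subfield (AlgebraicClosure (IsLocalRing.ResidueField (uVal U O)))}
    (hN : RAC N) (hkN : k.map h.j ≤ N)
    (hNB : N ≤ (ulP U O).im (uSub U (fun _ => k)) fun x hx => hFO x (uSub_mono hkF hx))
    {a : AlgebraicClosure (IsLocalRing.ResidueField (uVal U O))}
    (ha : a ∈ (ulP U O).im (uSub U (fun _ => k)) fun x hx => hFO x (uSub_mono hkF hx))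
    {F' : Subfield K} (hF' : RatF k F') (hle : F' ≤ F)
    (halg : IsAlgebraic (N ⊔ F'.map h.j : Subfield _) a) : a ∈ N := by
  induction hF' with
  | base => exact hN a (by rwa [sup_eq_left.2 hkN] at halg)
  | @step G y hG hy ih =>
    have hGF : G ≤ F := (le_adj G y).trans hle
    haveI : PerfectField G := hG.perfect
    refine ih hGF ?_
    by_contra hcon
    have h1 : N ⊔ (adj G y).map h.j ≤ adj (N ⊔ G.map h.j) (h.j y) := by
      refine sup_le (le_sup_left.trans (le_adj _ _)) ?_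
      exact (map_adj_le h.j G y).trans (adj_mono le_sup_right _)
    have h2 := exchange hcon (isAlgebraic_mono h1 halg)
    refine ulj_transc h hGF hFO (hle (mem_adj G y)) hy (isAlgebraic_mono ?_ h2)
    have h3 : (ulP U O).im (uSub U (fun _ => k)) (fun x hx => hFO x (uSub_mono hkF hx)) ≤
        (ulP U O).im (uSub U (fun _ => G)) (fun x hx => hFO x (uSub_mono hGF hx)) := by
      intro z hz
      obtain ⟨x, hx, rfl⟩ := Pl.mem_im _ |>.1 hz
      exact Pl.ev_mem_im _ _ (uSub_mono hG.le hx)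
    refine adj_le (sup_le (hNB.trans h3) ?_) (h3 ha)
    rintro _ ⟨x, hx, rfl⟩
    exact Pl.ev_mem_im _ _ (gc_mem_uSub hx)

end Vale.Agent.P019P
end

section

/-!
# Residues over infinitely many points
-/

namespace Vale.Agent.P019P

open Vale.Agent.P019

set_option linter.style.haveILetI false
set_option linter.unusedSectionVars false

open Polynomial Filter

variable {K : Type*} [Field K] [PerfectField K] {ℓ : ℕ} [Fact ℓ.Prime] [NeZero (ℓ : K)]

section residues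

variable {I : Type*} {U : Ultrafilter I} {W : I → ValuationSubring K}

/-- residues of members of the ultraproduct are generated by `F*` and the field. -/
theorem ulr_mem (hu : Ulu U W) {F : Subfield K}
    (hFO : ∀ x ∈ uSub U (fun _ => F), x ∈ (ulP U W).O) {θ : K} {n : ℕ} {w : I → K}
    (hw : ∀ᶠ i in U, w i ∈ W i)
    (h : ∀ᶠ i in U, θ ∈ W i ∧ ∃ c : ℕ → K, (∀ j, c j ∈ F) ∧
      (W i).valuation (w i - ∑ j ∈ Finset.range n, c j * θ ^ j) < 1) :
    (ulP U W).ev (gm U w) ∈ (ulP U W).im (uSub U (fun _ => F)) hFO ⊔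
      (⊤ : Subfield K).map hu.j := by
  have h2 : ∀ i, ∃ c : ℕ → K, (∀ j, c j ∈ F) ∧ ((∃ c : ℕ → K, (∀ j, c j ∈ F) ∧
      (W i).valuation (w i - ∑ j ∈ Finset.range n, c j * θ ^ j) < 1) →
      (W i).valuation (w i - ∑ j ∈ Finset.range n, c j * θ ^ j) < 1) := by
    intro i
    by_cases hc : ∃ c : ℕ → K, (∀ j, c j ∈ F) ∧
      (W i).valuation (w i - ∑ j ∈ Finset.range n, c j * θ ^ j) < 1
    · obtain ⟨c, hc1, hc2⟩ := hc
      exact ⟨c, hc1, fun _ => hc2⟩
    · exact ⟨fun _ => 0, fun _ => F.zero_mem, fun h' => absurd h' hc⟩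
  choose c hcF hc using h2
  have hcO : ∀ j, gm U (fun i => c i j) ∈ (ulP U W).O := fun j =>
    hFO _ ⟨fun i => c i j, rfl, fun i => hcF i j⟩
  have hθO := hu.gc_mem θ
  have hmem : ∀ j, gm U (fun i => c i j) * gc U θ ^ j ∈ (ulP U W).O := fun j =>
    mul_mem (hcO j) (pow_mem hθO j)
  have hsum : gm U (fun i => ∑ j ∈ Finset.range n, c i j * θ ^ j) =
      ∑ j ∈ Finset.range n, gm U (fun i => c i j) * gc U θ ^ j := by
    rw [gm_sum]
    refine Finset.sum_congr rfl fun j _ => ?_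
    rw [gm_mul, gc_apply, ← gm_pow]
  have hsO : ∀ᶠ i in U, ∑ j ∈ Finset.range n, c i j * θ ^ j ∈ W i := by
    rw [← gm_mem_uVal, hsum]
    exact sum_mem fun j _ => hmem j
  have e1 : (ulP U W).ev (gm U w) =
      (ulP U W).ev (gm U (fun i => ∑ j ∈ Finset.range n, c i j * θ ^ j)) := by
    rw [ulP_ev_eq hw hsO]
    exact h.mono fun i hi => hc i hi.2
  rw [e1, hsum, Pl.ev_sum _ _ _ (fun j _ => hmem j)]
  refine sum_mem fun j _ => ?_
  rw [Pl.ev_mul _ (hcO j) (pow_mem hθO j), Pl.ev_pow _ hθO]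
  refine mul_mem ?_ (pow_mem ?_ j)
  · refine (le_sup_left : (ulP U W).im (uSub U (fun _ => F)) hFO ≤ _) ?_
    exact Pl.ev_mem_im _ _ ⟨fun i => c i j, rfl, fun i => hcF i j⟩
  · exact (le_sup_right : (⊤ : Subfield K).map hu.j ≤ _) ⟨θ, Subfield.mem_top _, rfl⟩

theorem im_sup_le {Γ Ω : Type*} [Field Γ] [PerfectField Γ] [Field Ω] (P : Pl Γ Ω) {A B M : Subfield Γ} {E : Subfield Ω}
    (hM : ∀ x ∈ M, x ∈ P.O) (hA : A ≤ M) (hB : B ≤ M) (hAE : ∀ x ∈ A, P.ev x ∈ E)
    (hBE : ∀ x ∈ B, P.ev x ∈ E) (hMAB : M ≤ A ⊔ B) : ∀ x ∈ M, P.ev x ∈ E := by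
  intro x hx
  have h1 : A ⊔ B ≤ resPre P M hM E :=
    sup_le (fun y hy => mem_resPre.2 ⟨hA hy, hAE y hy⟩) (fun y hy => mem_resPre.2 ⟨hB hy, hBE y hy⟩)
  exact (mem_resPre.1 (h1 (hMAB hx))).2

end residues

theorem k1_step {k G : Subfield K} (hk : IsAlgClosed k) (hfg : FG k (⊤ : Subfield K))
    (hG : RatF k G) {s e : K} (hfr : Frame k G e s) {z : K} (hz : z ≠ 0)
    (hinf : {β : K | β ∈ k ∧ ∃ W : ValuationSubring K, Over W (adj G s) e β ∧
      cl ℓ z ∈ U1 ℓ W}.Infinite) :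
    cl ℓ z ∈ VS ℓ (rac (adj k e)) := by
  classical
  have hℓ : 0 < ℓ := (Fact.out : ℓ.Prime).pos
  haveI : PerfectField k := perfect_of_RAC (RAC_of_isAlgClosed k hk)
  have hF : RatF k (adj G s) := hG.step hfr.ss
  set F := adj G s with hFdef
  have hkF : k ≤ F := hF.le
  set S := {β : K | β ∈ k ∧ ∃ W : ValuationSubring K, Over W F e β ∧ cl ℓ z ∈ U1 ℓ W} with hS
  haveI : Infinite S := hinf.to_subtype
  set U : Ultrafilter S := hyperfilter S with hU
  choose W hW hWU using fun i : S => i.2.2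
  have hSF : ∀ a ∈ S, a ∈ F := fun a ha => hkF ha.1
  have hu : Ulu U W := fun x hx => (hyper_of_ae hSF (hfr.unit hx)).mono fun i h => h (W i) (hW i)
  have hFO : ∀ x ∈ uSub U (fun _ => F), x ∈ (ulP U W).O :=
    ulP_triv (Eventually.of_forall fun i => (hW i).triv)
  have hkO : ∀ x ∈ uSub U (fun _ => k), x ∈ (ulP U W).O := fun x hx => hFO x (uSub_mono hkF hx)
  set P := ulP U W with hP
  set Ω := AlgebraicClosure (IsLocalRing.ResidueField (uVal U W)) with hΩ
  set j : K →+* Ω := hu.j with hj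
  haveI : NeZero (ℓ : Ω) := ⟨by
    rw [← map_natCast j, Ne, map_eq_zero]
    exact NeZero.ne (ℓ : K)⟩
  set R := P.im (uSub U (fun _ => F)) hFO with hR
  set Bs := P.im (uSub U (fun _ => k)) hkO with hBs
  have hBsac : IsAlgClosed Bs := P.isAlgClosed_im hkO (isAlgClosed_uSub fun _ => hk)
  have hBsR : RAC Bs := RAC_of_isAlgClosed Bs hBsac
  haveI : PerfectField Bs := perfect_of_RAC hBsR
  haveI : PerfectField F := hF.perfect
  -- `e` becomes a constant
  have heB : j e ∈ Bs := by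
    have h1 : j e = P.ev (gm U (fun i : S => (i : K))) := by
      have h2 : P.ev (gm U (fun _ : S => e)) = P.ev (gm U (fun i : S => (i : K))) := by
        rw [ulP_ev_eq (Eventually.of_forall fun i => (hW i).mem (hSF i i.2))
          (Eventually.of_forall fun i => (hW i).triv _ (hSF i i.2))]
        exact Eventually.of_forall fun i => (hW i).lt
      exact h2
    rw [h1]
    exact P.ev_mem_im hkO ⟨_, rfl, fun i => i.2.1⟩
  have hkB : k.map j ≤ Bs := by
    rintro _ ⟨x, hx, rfl⟩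
    exact P.ev_mem_im hkO (gc_mem_uSub hx)
  -- the root
  have hzu := hu z hz
  obtain ⟨w, hwO, hwr⟩ := exists_root_of_U1 (U := U) (O := W) hz hzu
    (Eventually.of_forall hWU)
  set r := P.ev (gm U w) with hr
  have hrz : r ^ ℓ = j z := hwr
  obtain ⟨θ, n, hθ⟩ := hfr.repr hfg
  have hr1 : r ∈ R ⊔ (⊤ : Subfield K).map j := by
    refine ulr_mem hu hFO (θ := θ) (n := n) hwO ?_
    filter_upwards [hyper_of_ae hSF hθ, hwO] with i h1 h2
    exact ⟨(h1 (W i) (hW i)).1, (h1 (W i) (hW i)).2 _ h2⟩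
  -- step 2
  set L1 := (⊤ : Subfield K).map j with hL1
  set Fb := F.map j with hFb
  haveI : PerfectField Fb := perfect_map j F
  haveI : PerfectField L1 := perfect_map j _
  have hFbL : Fb ≤ L1 := sub_map_mono j le_top
  have hr2 : r ∈ L1 ⊔ Bs := by
    refine alg_sup (E := Fb ⊔ Bs) (R := R) (B := L1 ⊔ Bs) ?_ (sup_le_sup_right hFbL _) ?_ ?_
      ((sup_le_sup_left le_sup_left R : R ⊔ L1 ≤ R ⊔ (L1 ⊔ Bs)) hr1) ?_
    · refine sup_le ?_ ?_
      · rintro _ ⟨x, hx, rfl⟩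
        exact P.ev_mem_im hFO (gc_mem_uSub hx)
      · intro x hx
        obtain ⟨y, hy, rfl⟩ := P.mem_im.1 hx
        exact P.ev_mem_im hFO (uSub_mono hkF hy)
    · intro x hx halg
      obtain ⟨y, hy, rfl⟩ := P.mem_im.1 hx
      set M' : Subfield (Gm U K) := F.map (gc U) ⊔ uSub U (fun _ => k) with hM'
      have hM'le : M' ≤ uSub U (fun _ => F) := sup_le (map_gc_le F) (uSub_mono hkF)
      have hM'O : ∀ x ∈ M', x ∈ P.O := fun x hx => hFO x (hM'le hx)
      have hle : Fb ⊔ Bs ≤ P.im M' hM'O := by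
        refine sup_le ?_ ?_
        · rintro _ ⟨x, hx, rfl⟩
          exact P.ev_mem_im hM'O ((le_sup_left : F.map (gc U) ≤ M')
            (Subfield.mem_map.2 ⟨x, hx, rfl⟩))
        · intro x hx
          obtain ⟨y, hy, rfl⟩ := P.mem_im.1 hx
          exact P.ev_mem_im hM'O ((le_sup_right : uSub U (fun _ => k) ≤ M') hy)
      have h1 := Pl.isAlgebraic_of_im P hFO hM'le hy (isAlgebraic_mono hle halg)
      have h2 : y ∈ M' := hF.rac_gm y hy h1
      refine im_sup_le P hM'O (A := F.map (gc U)) (B := uSub U (fun _ => k)) le_sup_left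
        le_sup_right ?_ ?_ le_rfl y h2
      · intro x hx
        obtain ⟨y, hy, rfl⟩ := Subfield.mem_map.1 hx
        exact (le_sup_left : Fb ≤ Fb ⊔ Bs) ⟨y, hy, rfl⟩
      · intro x hx
        exact (le_sup_right : Bs ≤ Fb ⊔ Bs) (P.ev_mem_im hkO hx)
    · have hle : adj Fb (j e) ≤ Fb ⊔ Bs := adj_le le_sup_left ((le_sup_right : Bs ≤ Fb ⊔ Bs) heB)
      have hL : L1 ⊔ Bs ≤ rac (Fb ⊔ Bs) := by
        refine sup_le ?_ (le_sup_right.trans (le_rac _))
        rintro _ ⟨x, -, rfl⟩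
        refine mem_rac.2 (isAlgebraic_mono ?_ (isAlgebraic_map j (hfr.alg x)))
        exact (map_adj_le j _ _).trans hle
      exact fun b hb => mem_rac.1 (hL hb)
    · have hle : adj Fb (j e) ≤ Fb ⊔ Bs := adj_le le_sup_left ((le_sup_right : Bs ≤ Fb ⊔ Bs) heB)
      refine IsAlgebraic.of_pow hℓ ?_
      rw [hrz]
      exact isAlgebraic_mono ((map_adj_le j _ _).trans hle) (isAlgebraic_map j (hfr.alg z))
  -- step 3
  set l1 := k.map j with hl1
  set T := rac (adj l1 (j e)) with hT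
  have hTB : T ≤ Bs := RAC_adj_le hBsR hkB heB
  have hlT : l1 ≤ T := (le_adj _ _).trans (le_rac _)
  have heT : j e ∈ T := le_rac _ (mem_adj _ _)
  have hfree : Fre T (L1 ⊔ T) Bs := by
    intro N hN hTN hNB a ha halg
    refine RatF.free_gm hu hFO hkF hN (hlT.trans hTN) hNB ha hF le_rfl ?_
    have h1 : (L1 ⊔ T) ⊔ N ≤ rac (N ⊔ F.map hu.j) := by
      refine sup_le (sup_le ?_ (hTN.trans (le_sup_left.trans (le_rac _))))
        (le_sup_left.trans (le_rac _))
      rintro _ ⟨x, -, rfl⟩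
      refine mem_rac.2 (isAlgebraic_mono ?_ (isAlgebraic_map j (hfr.alg x)))
      refine (map_adj_le j _ _).trans ?_
      haveI : PerfectField N := perfect_of_RAC hN
      exact adj_le le_sup_right ((le_sup_left : N ≤ N ⊔ F.map j) (hTN heT))
    exact mem_rac.1 (RAC_rac _ _ (isAlgebraic_mono h1 halg))
  have hr3 : r ∈ L1 ⊔ T := by
    refine rac_sup_gen (RAC_rac _) le_sup_right hTB hBsac hfree
      ((sup_le_sup_right le_sup_left Bs : L1 ⊔ Bs ≤ (L1 ⊔ T) ⊔ Bs) hr2) ?_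
    refine IsAlgebraic.of_pow hℓ (isAlgebraic_of_mem ?_)
    rw [hrz]
    exact (le_sup_left : L1 ≤ L1 ⊔ T) ⟨z, Subfield.mem_top z, rfl⟩
  -- step 4
  obtain ⟨ζ, hζk, hζ⟩ := finK_prim hk ℓ
  have hζ' : IsPrimitiveRoot (j ζ) ℓ := hζ.map_of_injective j.injective
  have hadjE : adj l1 (j e) ≤ L1 ⊓ T := by
    refine le_inf ?_ (le_rac _)
    exact adj_le (sub_map_mono j le_top) ⟨e, Subfield.mem_top e, rfl⟩
  obtain ⟨a, ha, b, hb, hab⟩ := kummer_descent ℓ (L1 ⊓ T) L1 T inf_le_left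
    (fun x hx halg => Subfield.mem_inf.2 ⟨hx, RAC_rac _ x (isAlgebraic_mono inf_le_right halg)⟩)
    (fun b hb => isAlgebraic_mono hadjE (mem_rac.1 hb)) (j ζ)
    (hadjE (le_adj _ _ ⟨ζ, hζk, rfl⟩)) hζ' (h := j z) (r := r) ⟨z, Subfield.mem_top z, rfl⟩
    (by rw [Ne, map_eq_zero]; exact hz) hr3 hrz
  obtain ⟨haL, haT⟩ := Subfield.mem_inf.1 ha
  obtain ⟨a₀, -, rfl⟩ := haL
  obtain ⟨b₀, -, rfl⟩ := hb
  have hzab : z = a₀ * b₀ ^ ℓ := by
    apply j.injective
    rw [map_mul, map_pow]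
    exact hab
  have haE : a₀ ∈ rac (adj k e) := by
    rw [mem_rac]
    apply isAlgebraic_of_map j
    exact isAlgebraic_mono (adj_map_le j k e) (mem_rac.1 haT)
  have ha0 : a₀ ≠ 0 := by
    rintro rfl
    rw [zero_mul] at hzab
    exact hz hzab
  have hb0 : b₀ ≠ 0 := by
    rintro rfl
    rw [zero_pow hℓ.ne', mul_zero] at hzab
    exact hz hzab
  rw [cl_ne_zero_mem_VS hz]
  exact ⟨a₀, haE, ha0, b₀, hb0, hzab⟩

/-- K1: a class which is trivial in the residue fields over infinitely many points of `e` comes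
from the relatively algebraically closed field generated by `e`. -/
theorem k1 {k : Subfield K} (hk : IsAlgClosed k) (hfg : FG k (⊤ : Subfield K)) {F : Subfield K}
    (hF : RatF k F) {e : K} (he : ¬ IsAlgebraic F e) (halg : ∀ z : K, IsAlgebraic (adj F e) z)
    {v : V ℓ K}
    (hinf : {β : K | β ∈ k ∧ ∃ W : ValuationSubring K, Over W F e β ∧ v ∈ U1 ℓ W}.Infinite) :
    v ∈ VS ℓ (rac (adj k e)) := by
  obtain ⟨z, hz, rfl⟩ := cl_surj ℓ v
  cases hF with
  | base =>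
    have h1 : rac (adj k e) = ⊤ := by
      rw [eq_top_iff]
      exact fun z _ => mem_rac.2 (halg z)
    rw [h1]
    exact cl_mem_VS (Subfield.mem_top z)
  | @step G s hG hs =>
    haveI : PerfectField k := perfect_of_RAC (RAC_of_isAlgClosed k hk)
    exact k1_step hk hfg hG ⟨hG.le, hG.fg, he, hs, halg⟩ hz hinf

end Vale.Agent.P019P
end

section

/-!
# The endgame: the isomorphism is induced by a homomorphism of fields
-/

namespace Vale.Agent.P019P

open Vale.Agent.P019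

set_option linter.style.haveILetI false
set_option linter.unusedSectionVars false

open Filter

/-- a homomorphism of fields matching the correspondence of points. -/
structure EndHyp (ℓ : ℕ) {K L : Type*} [Field K] [Field L] (k : Subfield K) (l : Subfield L)
    (Θ : V ℓ K ≃ₗ[ZMod ℓ] V ℓ L) (A : K →+* L) (e : ZMod ℓ) : Prop where
  e0 : e ≠ 0
  hA : ∀ c ∈ k, A c ∈ l
  hA' : ∀ β ∈ l, ∃ b ∈ k, A b = β
  rt : ∀ s, Good k s → Rt k l Θ s (A s)
  cor : ∀ s, Good k s → ∀ᶠ b in ae k, Cor k l Θ s (A s) e b (A b)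
  rel : ∀ t s, Good k t → Good k s → Good k (t + s) → ¬ IsAlgebraic (adj k s) t →
    ∃ F' : Subfield L, RatF l F' ∧ ¬ IsAlgebraic F' (A t) ∧
      (∀ z : L, IsAlgebraic (adj F' (A t)) z) ∧ adj l (A s) ≤ F' ∧
      ∀ᶠ a in ae k, ∃ u : ValuationSubring L, TrivOn u F' ∧ u.valuation (A t - A a) < 1 ∧
        ∀ b ∈ k, Θ (cl ℓ (s - b) - cl ℓ (t + s - a - b)) ∈ U1 ℓ u

section endgame

variable {K L : Type*} [Field K] [Field L] {ℓ : ℕ} {k : Subfield K} {l : Subfield L}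
  {A : K →+* L}

theorem end_comap [PerfectField L] {E : Subfield L} [PerfectField E] {x : K} {n : ℕ}
    (h : x ^ ringExpChar K ^ n ∈ E.comap A) : x ∈ E.comap A := by
  rw [Subfield.mem_comap, map_pow, ringExpChar_eq_of_hom A] at h
  exact Subfield.mem_comap.2 (mem_of_pow_q h)

theorem end_adj [PerfectField K] [PerfectField L] (hA : ∀ c ∈ k, A c ∈ l) {s x : K}
    (hx : x ∈ adj k s) : A x ∈ adj l (A s) := by
  haveI : PerfectField ((adj l (A s)).comap A) := by
    refine perfect_of_pf_le ?_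
    intro z hz
    obtain ⟨n, hn⟩ := mem_pf.1 hz
    exact end_comap hn
  have h : adj k s ≤ (adj l (A s)).comap A :=
    adj_le (fun c hc => le_adj _ _ (hA c hc)) (mem_adj _ _)
  exact h hx

theorem end_alg [PerfectField K] [PerfectField L] (hA' : ∀ β ∈ l, ∃ b ∈ k, A b = β) {s y : K}
    (h : IsAlgebraic (adj l (A s)) (A y)) : IsAlgebraic (adj k s) y := by
  have h1 : adj l (A s) ≤ (adj k s).map A := by
    haveI : PerfectField ((adj k s).map A) := perfect_map A (adj k s)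
    refine adj_le (fun β hβ => ?_) ⟨s, mem_adj _ _, rfl⟩
    obtain ⟨b, hb, rfl⟩ := hA' β hβ
    exact ⟨b, le_adj _ _ hb, rfl⟩
  have h2 := isAlgebraic_mono h1 h
  let f : adj k s →+* (adj k s).map A :=
    (A.comp (adj k s).subtype).codRestrict ((adj k s).map A) (fun x => ⟨x, x.2, rfl⟩)
  refine IsAlgebraic.of_ringHom_of_comp_eq f A h2 ?_ A.injective rfl
  rintro ⟨_, x, hx, rfl⟩
  exact ⟨⟨x, hx⟩, rfl⟩

theorem end_avoid {C : Set K} (hk : (k : Set K).Infinite) (hC : C.Finite) :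
    ∃ a ∈ k, a ∉ C := by
  by_contra h
  push Not at h
  exact hk (hC.subset fun a ha => h a ha)

theorem comb_end {W : Type*} [AddCommGroup W] (N : AddSubgroup W) (hk : (k : Set K).Infinite)
    {C : Set K} (hC : C.Finite) {f g : K → W}
    (h : ∀ a ∈ k, a ∉ C → ∀ b ∈ k, f b - g (a + b) ∈ N) {b c : K} (hb : b ∈ k) (hc : c ∈ k) :
    f b - g c ∈ N := by
  have key : ∀ b ∈ k, ∀ c ∈ k, c - b ∉ C → f b - g c ∈ N := by
    intro b hb c hc hbc
    have h1 := h (c - b) (k.sub_mem hc hb) hbc b hb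
    rwa [sub_add_cancel] at h1
  obtain ⟨b₁, hb₁, hb₁C⟩ := end_avoid hk (hC.image fun x => c - x)
  have h1 : c - b₁ ∉ C := fun h' => hb₁C ⟨c - b₁, h', by ring⟩
  obtain ⟨c₁, hc₁, hc₁C⟩ := end_avoid hk ((hC.image fun x => x + b).union
    (hC.image fun x => x + b₁))
  have h2 : c₁ - b ∉ C := fun h' => hc₁C (Or.inl ⟨c₁ - b, h', by ring⟩)
  have h3 : c₁ - b₁ ∉ C := fun h' => hc₁C (Or.inr ⟨c₁ - b₁, h', by ring⟩)
  have h4 : f b - g c = (f b - g c₁) - (f b₁ - g c₁) + (f b₁ - g c) := by abel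
  rw [h4]
  exact N.add_mem (N.sub_mem (key b hb c₁ hc₁ h2) (key b₁ hb₁ c₁ hc₁ h3)) (key b₁ hb₁ c hc h1)

variable [PerfectField K] [PerfectField L] [Fact ℓ.Prime] [NeZero (ℓ : K)] [NeZero (ℓ : L)]

theorem del_Vmap (hk : IsAlgClosed k) (hl : IsAlgClosed l) (hA : ∀ c ∈ k, A c ∈ l) {s : K}
    (hs : Good k s) (hs' : Good l (A s)) {b : K} (hb : b ∈ k) {v : V ℓ K}
    (hv : v ∈ VS ℓ (adj k s)) : del ℓ l (A s) (A b) (Vmap ℓ A v) = del ℓ k s b v := by
  classical
  obtain ⟨T, n, hT, rfl⟩ := adj_factor hk hs.1 hv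
  rw [del_eval hk hs T hT n hb, map_sum, map_sum]
  have h1 : ∀ c ∈ T, del ℓ l (A s) (A b) (Vmap ℓ A (n c • cl ℓ (s - c))) =
      if b = c then n c else 0 := by
    intro c hc
    rw [map_smul, Vmap_cl, map_sub, map_smul]
    by_cases h : b = c
    · subst h
      rw [del_self hl hs' (hA b hb), if_pos rfl, smul_eq_mul, mul_one]
    · rw [del_ne hl hs' (hA b hb) (hA c (hT c hc)) (fun h' => h (A.injective h').symm),
        if_neg h, smul_zero]
  rw [Finset.sum_congr rfl h1, Finset.sum_ite_eq]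

/-- the difference of the two maps. -/
noncomputable def EndD (Θ : V ℓ K ≃ₗ[ZMod ℓ] V ℓ L) (A : K →+* L) (e : ZMod ℓ) :
    V ℓ K →ₗ[ZMod ℓ] V ℓ L :=
  Θ.toLinearMap - e⁻¹ • Vmap ℓ A

variable {Θ : V ℓ K ≃ₗ[ZMod ℓ] V ℓ L} {e : ZMod ℓ}

theorem EndD_apply (v : V ℓ K) : EndD Θ A e v = Θ v - e⁻¹ • Vmap ℓ A v := rfl

theorem EndHyp.D_mem (E : EndHyp ℓ k l Θ A e) {s : K} (hs : Good k s) {v : V ℓ K}
    (hv : v ∈ VS ℓ (adj k s)) : EndD Θ A e v ∈ VS ℓ (adj l (A s)) := by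
  rw [EndD_apply]
  refine Submodule.sub_mem _ (((E.rt s hs).map v).2 hv) (Submodule.smul_mem _ _ ?_)
  obtain ⟨x, hx, -, rfl⟩ := hv
  rw [Vmap_cl]
  exact cl_mem_VS (end_adj E.hA hx)

theorem EndHyp.D_finite (H : Hyp ℓ k l Θ) (E : EndHyp ℓ k l Θ A e) {s : K} (hs : Good k s) :
    ∃ X : Set (V ℓ L), X.Finite ∧ ∀ v ∈ VS ℓ (adj k s), EndD Θ A e v ∈ X := by
  classical
  have hS := ae_iff.1 (E.cor s hs)
  set T : Finset L := hS.toFinset.image A with hT
  have hTl : ∀ β ∈ T, β ∈ l := by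
    intro β hβ
    obtain ⟨b, hb, rfl⟩ := Finset.mem_image.1 hβ
    exact E.hA b ((hS.mem_toFinset).1 hb).1
  refine ⟨_, del_finite (ℓ := ℓ) H.acl (E.rt s hs).good' T hTl, ?_⟩
  intro v hv
  refine ⟨E.D_mem hs hv, ?_⟩
  intro β hβ hβT
  obtain ⟨b, hb, rfl⟩ := E.hA' β hβ
  have hbC : Cor k l Θ s (A s) e b (A b) := by
    by_contra h
    exact hβT (Finset.mem_image.2 ⟨b, hS.mem_toFinset.2 ⟨hb, h⟩, rfl⟩)
  rw [EndD_apply, map_sub, map_smul, del_Vmap H.ack H.acl E.hA hs (E.rt s hs).good' hb hv,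
    hbC v hv, smul_eq_mul, ← mul_assoc, inv_mul_cancel₀ E.e0, one_mul, sub_self]

theorem EndHyp.D_U1 {F' : Subfield L} {u : ValuationSubring L} (hu : TrivOn u F')
    (hA : ∀ c ∈ k, A c ∈ l) {t s a b : K} (hs : s ∉ k) (hF : adj l (A s) ≤ F')
    (ha : u.valuation (A t - A a) < 1) (hb : b ∈ k)
    (hΘ : Θ (cl ℓ (s - b) - cl ℓ (t + s - a - b)) ∈ U1 ℓ u) :
    EndD Θ A e (cl ℓ (s - b)) - EndD Θ A e (cl ℓ (t + s - (a + b))) ∈ U1 ℓ u := by
  rw [← map_sub, EndD_apply, ← sub_sub (t + s)]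
  refine Submodule.sub_mem _ hΘ (Submodule.smul_mem _ _ ?_)
  rw [map_sub, Vmap_cl, Vmap_cl, ← neg_sub]
  refine Submodule.neg_mem _ (cl_sub_cl_mem_U1 ?_ ?_)
  · refine hu.eq_one (hF ?_) ?_
    · rw [map_sub]
      exact Subfield.sub_mem _ (mem_adj _ _) (le_adj _ _ (hA b hb))
    · rw [Ne, map_eq_zero, sub_eq_zero]
      rintro rfl
      exact hs hb
  · have h1 : A (t + s - a - b) - A (s - b) = A t - A a := by
      simp only [map_sub, map_add]
      ring
    rw [h1]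
    exact ha

theorem EndHyp.D_rel (H : Hyp ℓ k l Θ) (E : EndHyp ℓ k l Θ A e) {t s : K} (ht : Good k t)
    (hs : Good k s) (hts : Good k (t + s)) (hst : ¬ IsAlgebraic (adj k s) t) {b c : K}
    (hb : b ∈ k) (hc : c ∈ k) :
    EndD Θ A e (cl ℓ (s - b)) - EndD Θ A e (cl ℓ (t + s - c)) ∈ VS ℓ (adj l (A t)) := by
  classical
  obtain ⟨F', hRF, htt, halg, hF, hu⟩ := E.rel t s ht hs hts hst
  obtain ⟨X, hX, hXs⟩ := E.D_finite H hs
  obtain ⟨Y, hY, hYs⟩ := E.D_finite H hts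
  set N : Submodule (ZMod ℓ) (V ℓ L) := VS ℓ (adj l (A t)) with hN
  set C : V ℓ L → Set L := fun w => {β : L | β ∈ l ∧ w ∉ N ∧
    ∃ W : ValuationSubring L, Over W F' (A t) β ∧ w ∈ U1 ℓ W} with hCdef
  have hC : ∀ w, (C w).Finite := by
    intro w
    by_contra hinf
    have hinf' : (C w).Infinite := hinf
    obtain ⟨β, -, hwN, -⟩ := hinf'.nonempty
    apply hwN
    have h1 : w ∈ VS ℓ (rac (adj l (A t))) :=
      k1 H.acl H.fgl hRF htt halg (hinf'.mono fun β hβ => ⟨hβ.1, hβ.2.2⟩)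
    exact VS_mono ((E.rt t ht).good'.2.le le_rfl) h1
  set Z : Set (V ℓ L) := (fun p : V ℓ L × V ℓ L => p.1 - p.2) '' (X ×ˢ Y) with hZ
  have hZf : Z.Finite := (hX.prod hY).image _
  set B : Set K := {a : K | a ∈ k ∧ ¬ ∃ u : ValuationSubring L, TrivOn u F' ∧
    u.valuation (A t - A a) < 1 ∧
      ∀ b ∈ k, Θ (cl ℓ (s - b) - cl ℓ (t + s - a - b)) ∈ U1 ℓ u} ∪
    ⋃ w ∈ Z, A ⁻¹' (C w) with hB
  have hBc : B.Finite :=
    (ae_iff.1 hu).union (hZf.biUnion fun w _ => (hC w).preimage A.injective.injOn)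
  refine comb_end N.toAddSubgroup (infinite_of_isAlgClosed H.ack) hBc
    (f := fun b => EndD Θ A e (cl ℓ (s - b))) (g := fun c => EndD Θ A e (cl ℓ (t + s - c)))
    ?_ hb hc
  intro a ha haB b hb
  have h1 : ∃ u : ValuationSubring L, TrivOn u F' ∧ u.valuation (A t - A a) < 1 ∧
      ∀ b ∈ k, Θ (cl ℓ (s - b) - cl ℓ (t + s - a - b)) ∈ U1 ℓ u := by
    by_contra h
    exact haB (Or.inl ⟨ha, h⟩)
  obtain ⟨u, huF, huA, huΘ⟩ := h1
  set w : V ℓ L := EndD Θ A e (cl ℓ (s - b)) - EndD Θ A e (cl ℓ (t + s - (a + b))) with hw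
  have hwU : w ∈ U1 ℓ u := EndHyp.D_U1 huF E.hA hs.1 hF huA hb (huΘ b hb)
  have hab : a + b ∈ k := k.add_mem ha hb
  have hwZ : w ∈ Z := ⟨(_, _), ⟨hXs _ (cl_mem_VS (Subfield.sub_mem _ (mem_adj _ _)
    (le_adj _ _ hb))), hYs _ (cl_mem_VS (Subfield.sub_mem _ (mem_adj _ _)
    (le_adj _ _ hab)))⟩, rfl⟩
  have haC : A a ∉ C w := fun h => haB (Or.inr (Set.mem_biUnion hwZ h))
  change w ∈ N
  by_contra hwN
  exact haC ⟨E.hA a ha, hwN, u, ⟨huF, huA⟩, hwU⟩

theorem ae_of_image (hA : ∀ c ∈ k, A c ∈ l) {P : L → Prop} (h : ∀ᶠ c in ae l, P c) :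
    ∀ᶠ c in ae k, P (A c) := by
  rw [ae_iff] at h ⊢
  refine (h.preimage A.injective.injOn).subset ?_
  rintro a ⟨ha, hP⟩
  exact ⟨hA a ha, hP⟩

theorem exists_ae (hk : (k : Set K).Infinite) {P : K → Prop} (h : ∀ᶠ c in ae k, P c) :
    ∃ c ∈ k, P c := by
  obtain ⟨a, ha, haC⟩ := end_avoid hk (ae_iff.1 h)
  refine ⟨a, ha, ?_⟩
  by_contra h'
  exact haC ⟨ha, h'⟩

theorem endg_shift {P : K → Prop} (h : ∀ᶠ c in ae k, P c) {d : K} (hd : d ∈ k) :
    ∀ᶠ c in ae k, P (c + d) := by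
  rw [ae_iff] at h ⊢
  refine (h.preimage (add_left_injective d).injOn).subset ?_
  rintro a ⟨ha, hP⟩
  exact ⟨k.add_mem ha hd, hP⟩

theorem exists_free (hk : RAC k) (htr : ∃ x y : K, x ∉ k ∧ ¬ IsAlgebraic (adj k x) y) {s : K}
    (hs : s ∉ k) : ∃ h : K, ¬ IsAlgebraic (adj k s) h := by
  obtain ⟨x, y, hx, hy⟩ := htr
  by_contra hcon
  push Not at hcon
  have h1 : IsAlgebraic (adj k x) s := exchange (fun h' => hx (hk x h')) (hcon x)
  have h2 : adj k s ≤ rac (adj k x) :=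
    adj_le ((le_adj k x).trans (le_rac _)) (mem_rac.2 h1)
  exact hy (isAlgebraic_rac (isAlgebraic_mono h2 (hcon y)))

theorem EndHyp.exists_t (H : Hyp ℓ k l Θ) (E : EndHyp ℓ k l Θ A e) {s : K} (hs : Good k s) :
    ∃ t, Good k t ∧ Good k (t + s) ∧ ¬ IsAlgebraic (adj k s) t ∧
      VS ℓ (adj l (A t)) ⊓ VS ℓ (adj l (A s)) = ⊥ := by
  have hrk := RAC_of_isAlgClosed k H.ack
  obtain ⟨h, hh⟩ := exists_free hrk H.trk hs.1
  have hhk : h ∉ k := fun h' => hh (isAlgebraic_of_mem (le_adj _ _ h'))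
  have hsk : ¬ IsAlgebraic k s := fun h' => hs.1 (hrk s h')
  have hhs : ¬ IsAlgebraic (adj k h) s := fun h' => hh (exchange hsk h')
  have h1 := H.bert h s hhk hhs
  have h2 := endg_shift h1 k.one_mem
  have hAh : A h ∉ l := by
    intro h'
    obtain ⟨b, hb, hb'⟩ := E.hA' _ h'
    exact hhk (A.injective hb' ▸ hb)
  have h3 := ae_of_image E.hA (meet_ae (ℓ := ℓ) H.acl H.fgl hAh
    (fun h' => hhs (end_alg E.hA' h')))
  obtain ⟨c, hc, hc1, hc2, hc3⟩ := exists_ae (infinite_of_isAlgClosed H.ack) (h1.and (h2.and h3))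
  refine ⟨h + c * s, hc1, ?_, ?_, ?_⟩
  · have h4 : h + c * s + s = h + (c + 1) * s := by ring
    rw [h4]
    exact hc2
  · intro h'
    apply hh
    have h4 := (rac (adj k s)).sub_mem (mem_rac.2 h')
      ((rac (adj k s)).mul_mem (le_rac _ (le_adj k s hc)) (le_rac _ (mem_adj k s)))
    rw [add_sub_cancel_right] at h4
    exact mem_rac.1 h4
  · rw [map_add, map_mul, eq_bot_iff, ← hc3]
    exact inf_le_inf_left _ le_sup_right

theorem EndHyp.D_good (H : Hyp ℓ k l Θ) (E : EndHyp ℓ k l Θ A e) {s : K} (hs : Good k s) :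
    EndD Θ A e (cl ℓ s) = 0 := by
  obtain ⟨t, ht, hts, hst, hinf⟩ := E.exists_t H hs
  have hrk := RAC_of_isAlgClosed k H.ack
  have hm : cl ℓ s ∈ VS ℓ (adj k s) := cl_mem_VS (mem_adj _ _)
  have hAs : A s ∉ l := (E.rt s hs).good'.1
  have h1 := H.bert s t hs.1 hst
  have h2 := ae_of_image E.hA (meet_ae (ℓ := ℓ) H.acl H.fgl hAs
    (fun h' => hst (end_alg E.hA' h')))
  have h3 : ∀ᶠ c in ae k, c ≠ 0 := by
    rw [ae_iff]
    exact (Set.finite_singleton (0 : K)).subset (fun c hc => by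
      by_contra h
      exact hc.2 h)
  obtain ⟨c, hc, hc1, hc2, hc0⟩ := exists_ae (infinite_of_isAlgClosed H.ack) (h1.and (h2.and h3))
  have hadj : adj k (c * t) = adj k t := by
    apply le_antisymm
    · exact adj_le (le_adj _ _) (Subfield.mul_mem _ (le_adj _ _ hc) (mem_adj _ _))
    · refine adj_le (le_adj _ _) ?_
      have h4 := Subfield.mul_mem _ (le_adj k (c * t) (k.inv_mem hc)) (mem_adj k (c * t))
      rwa [inv_mul_cancel_left₀ hc0] at h4
  have hct : Good k (c * t) := by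
    refine ⟨fun h' => ht.1 ?_, by rw [hadj]; exact ht.2⟩
    have h4 := k.mul_mem (k.inv_mem hc) h'
    rwa [inv_mul_cancel_left₀ hc0] at h4
  have hct' : ¬ IsAlgebraic (adj k s) (c * t) := by
    intro h'
    apply hst
    have h4 := (rac (adj k s)).mul_mem (le_rac _ (le_adj k s (k.inv_mem hc))) (mem_rac.2 h')
    rw [inv_mul_cancel_left₀ hc0] at h4
    exact mem_rac.1 h4
  have hcts : Good k (c * t + s) := by rw [add_comm]; exact hc1
  have h4 := E.D_rel H hct hs hcts hct' k.zero_mem k.zero_mem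
  rw [sub_zero, sub_zero] at h4
  have h5 : VS ℓ (adj l (A (c * t))) ≤ VS ℓ (adj l (A t)) := by
    refine VS_mono (adj_le (le_adj _ _) ?_)
    rw [map_mul]
    exact Subfield.mul_mem _ (le_adj _ _ (E.hA c hc)) (mem_adj _ _)
  have h6 := h5 h4
  have h7 : EndD Θ A e (cl ℓ (c * t + s)) ∈ VS ℓ (adj l (A s + A c * A t)) := by
    have h8 := E.D_mem hcts (cl_mem_VS (mem_adj k (c * t + s)))
    rwa [map_add, map_mul, add_comm] at h8
  have h8 : EndD Θ A e (cl ℓ (c * t + s)) ∈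
      VS ℓ (adj l (A s + A c * A t)) ⊓ (VS ℓ (adj l (A s)) ⊔ VS ℓ (adj l (A t))) := by
    refine ⟨h7, ?_⟩
    have h9 : EndD Θ A e (cl ℓ (c * t + s)) = EndD Θ A e (cl ℓ s) -
        (EndD Θ A e (cl ℓ s) - EndD Θ A e (cl ℓ (c * t + s))) := by abel
    rw [h9]
    exact Submodule.sub_mem _ (Submodule.mem_sup_left (E.D_mem hs hm))
      (Submodule.mem_sup_right h6)
  rw [hc2, Submodule.mem_bot] at h8
  rw [h8, sub_zero] at h6
  have h9 : EndD Θ A e (cl ℓ s) ∈ VS ℓ (adj l (A t)) ⊓ VS ℓ (adj l (A s)) :=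
    ⟨h6, E.D_mem hs hm⟩
  rwa [hinf, Submodule.mem_bot] at h9

theorem EndHyp.D_zero (H : Hyp ℓ k l Θ) (E : EndHyp ℓ k l Θ A e) (x : K) :
    EndD Θ A e (cl ℓ x) = 0 := by
  have hrk := RAC_of_isAlgClosed k H.ack
  by_cases hx : x ∈ k
  · rw [line_cl_const H.ack hx, map_zero]
  have hx0 : x ≠ 0 := fun h => hx (h ▸ k.zero_mem)
  obtain ⟨z, hz⟩ := exists_free hrk H.trk hx
  have h1 := H.bert x z hx hz
  have hxx : x * x ∉ k := fun h' => hx (hrk x (by
    refine IsAlgebraic.of_pow (n := 2) (by norm_num) ?_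
    rw [pow_two]
    exact isAlgebraic_of_mem h'))
  have hle : adj k (x * x) ≤ adj k x :=
    adj_le (le_adj _ _) (Subfield.mul_mem _ (mem_adj _ _) (mem_adj _ _))
  have h2 := H.bert (x * x) (x * z) hxx (fun h' => hz (by
    have h3 := (rac (adj k x)).mul_mem (le_rac _ (Subfield.inv_mem _ (mem_adj k x)))
      (mem_rac.2 (isAlgebraic_mono hle h'))
    rw [inv_mul_cancel_left₀ hx0] at h3
    exact mem_rac.1 h3))
  obtain ⟨c, hc, hc1, hc2⟩ := exists_ae (infinite_of_isAlgClosed H.ack) (h1.and h2)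
  have h3 : x * x + c * (x * z) = x * (x + c * z) := by ring
  rw [h3] at hc2
  have h4 : x + c * z ≠ 0 := fun h => hc1.1 (h ▸ k.zero_mem)
  have h5 := E.D_good H hc2
  rw [cl_mul ℓ hx0 h4, map_add, E.D_good H hc1, add_zero] at h5
  exact h5

/-- the isomorphism is a multiple of the map induced by the homomorphism. -/
theorem EndHyp.eq (H : Hyp ℓ k l Θ) (E : EndHyp ℓ k l Θ A e) (x : K) :
    Θ (cl ℓ x) = e⁻¹ • cl ℓ (A x) := by
  have h := E.D_zero H x
  rw [EndD_apply, sub_eq_zero, Vmap_cl] at h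
  exact h

/-- every element is a quotient of two good elements. -/
theorem exists_quot (hk : IsAlgClosed k)
    (htr : ∃ x y : K, x ∉ k ∧ ¬ IsAlgebraic (adj k x) y)
    (bert : ∀ x y : K, x ∉ k → ¬ IsAlgebraic (adj k x) y → ∀ᶠ c in ae k, Good k (x + c * y))
    {x : K} (hx : x ∉ k) : ∃ g, Good k g ∧ Good k (x * g) := by
  have hrk := RAC_of_isAlgClosed k hk
  have hx0 : x ≠ 0 := fun h => hx (h ▸ k.zero_mem)
  obtain ⟨z, hz⟩ := exists_free hrk htr hx
  have h1 := bert x z hx hz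
  have hxx : x * x ∉ k := fun h' => hx (hrk x (by
    refine IsAlgebraic.of_pow (n := 2) (by norm_num) ?_
    rw [pow_two]
    exact isAlgebraic_of_mem h'))
  have hle : adj k (x * x) ≤ adj k x :=
    adj_le (le_adj _ _) (Subfield.mul_mem _ (mem_adj _ _) (mem_adj _ _))
  have h2 := bert (x * x) (x * z) hxx (fun h' => hz (by
    have h3 := (rac (adj k x)).mul_mem (le_rac _ (Subfield.inv_mem _ (mem_adj k x)))
      (mem_rac.2 (isAlgebraic_mono hle h'))
    rw [inv_mul_cancel_left₀ hx0] at h3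
    exact mem_rac.1 h3))
  obtain ⟨c, hc, hc1, hc2⟩ := exists_ae (infinite_of_isAlgClosed hk) (h1.and h2)
  have h3 : x * x + c * (x * z) = x * (x + c * z) := by ring
  rw [h3] at hc2
  exact ⟨_, hc1, hc2⟩

theorem adj_eq_of_VS (hl : IsAlgClosed l) (hfg : FG l (⊤ : Subfield L)) {x y : L} (hx : Good l x)
    (hy : Good l y) (h : VS ℓ (adj l y) ≤ VS ℓ (adj l x)) : y ∈ adj l x := by
  by_contra hxy
  have h1 : ¬ IsAlgebraic (adj l x) y := fun h' => hxy (hx.2 y h')
  have h2 := int_top (ℓ := ℓ) hl hfg (le_adj l x) (le_adj l y) (mem_adj l y) h1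
    (fun z hz => isAlgebraic_of_mem hz)
  rw [inf_eq_right.2 h] at h2
  exact VS_infinite hl hfg (le_adj l y) (fun h' => hy.1 (h' (mem_adj l y))) h2

/-- the homomorphism is surjective. -/
theorem EndHyp.surj (H : Hyp ℓ k l Θ) (E : EndHyp ℓ k l Θ A e)
    (hR : ∀ y, Good l y → ∃ x, Rt l k Θ.symm y x) : Function.Surjective A := by
  have h1 : ∀ y, Good l y → ∃ x, A x = y := by
    intro y hy
    obtain ⟨x, hx⟩ := hR y hy
    have h2 := E.rt x hx.good'
    have h3 : VS ℓ (adj l y) ≤ VS ℓ (adj l (A x)) := by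
      intro w hw
      have h4 := (hx.map w).2 hw
      have h5 := (h2.map (Θ.symm w)).2 h4
      rwa [Θ.apply_symm_apply] at h5
    have h4 : adj l (A x) ≤ A.fieldRange := by
      refine adj_le ?_ ⟨x, rfl⟩
      intro β hβ
      obtain ⟨b, _, rfl⟩ := E.hA' β hβ
      exact ⟨b, rfl⟩
    exact h4 (adj_eq_of_VS H.acl H.fgl h2.good' hy h3)
  intro y
  by_cases hy : y ∈ l
  · obtain ⟨b, _, hb⟩ := E.hA' y hy
    exact ⟨b, hb⟩
  obtain ⟨g, hg1, hg2⟩ := exists_quot H.acl H.trl H.bert' hy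
  obtain ⟨a, ha⟩ := h1 g hg1
  obtain ⟨b, hb⟩ := h1 _ hg2
  have hg0 : g ≠ 0 := fun h => hg1.1 (h ▸ l.zero_mem)
  refine ⟨b / a, ?_⟩
  rw [map_div₀, ha, hb, mul_div_cancel_right₀ _ hg0]

/-- the isomorphism comes from an isomorphism of fields. -/
theorem EndHyp.final (H : Hyp ℓ k l Θ) (E : EndHyp ℓ k l Θ A e)
    (hR : ∀ y, Good l y → ∃ x, Rt l k Θ.symm y x) :
    ∃ (c : (ZMod ℓ)ˣ) (α : K ≃+* L), (∀ x, x ∈ k ↔ α x ∈ l) ∧
      ∀ x : K, Θ (cl ℓ x) = (c : ZMod ℓ) • cl ℓ (α x) := by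
  refine ⟨(Units.mk0 e E.e0)⁻¹, RingEquiv.ofBijective A ⟨A.injective, E.surj H hR⟩, ?_, ?_⟩
  · intro x
    refine ⟨fun h => E.hA x h, fun h => ?_⟩
    obtain ⟨b, hb, hbx⟩ := E.hA' _ h
    exact A.injective hbx ▸ hb
  · intro x
    rw [E.eq H x, Units.val_inv_eq_inv_val]
    rfl

end endgame

end Vale.Agent.P019P
end

section

/-!
# Normalized coordinates (perfect version)

`IsoOn` and its lemmas `IsoOn.zero`, `neg`, `sub`, `ne_zero`, `inj` are those of the old file.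
-/

namespace Vale.Agent.P019P

open Vale.Agent.P019

set_option linter.style.haveILetI false
set_option linter.unusedSectionVars false

open Polynomial Filter

variable {K L : Type*} [Field K] [Field L]
  {ℓ : ℕ} {k : Subfield K} {l : Subfield L} {Θ : V ℓ K ≃ₗ[ZMod ℓ] V ℓ L}

/-- `s'` is a coordinate for which the correspondence is `σ`, with variable coefficients. -/
structure Nv (k : Subfield K) (l : Subfield L) (Θ : V ℓ K ≃ₗ[ZMod ℓ] V ℓ L) (σ : K → L)
    (e : K → ZMod ℓ) (s : K) (s' : L) : Prop where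
  rt : Rt k l Θ s s'
  cor : ∀ᶠ b in ae k, e b ≠ 0 ∧ Cor k l Θ s s' (e b) b (σ b)

/-- `s'` is the normalized coordinate corresponding to `s`. -/
structure Nm (k : Subfield K) (l : Subfield L) (Θ : V ℓ K ≃ₗ[ZMod ℓ] V ℓ L) (σ : K → L)
    (e : ZMod ℓ) (s : K) (s' : L) : Prop where
  rt : Rt k l Θ s s'
  cor : ∀ᶠ b in ae k, Cor k l Θ s s' e b (σ b)

variable [PerfectField K] [PerfectField L] [Fact ℓ.Prime] [NeZero (ℓ : K)] [NeZero (ℓ : L)]

theorem Nv.psi {σ : K → L} (hσ : IsoOn k l σ) {e : K → ZMod ℓ} {s : K} {s' : L}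
    (hk : IsAlgClosed k) (h : Nv k l Θ σ e s s') : Psi k l Θ s s' σ e := by
  refine ⟨?_, ?_⟩
  · filter_upwards [h.cor, ae_mem k] with b hb hbk
    exact ⟨hσ.mem b hbk, hb.1, hb.2⟩
  · have h1 := ae_iff.1 h.cor
    rw [ae_iff]
    refine (h1.image σ).subset ?_
    rintro β ⟨hβ, hne⟩
    obtain ⟨b, hb, rfl⟩ := hσ.surj β hβ
    exact ⟨b, ⟨hb, fun hc => hne ⟨b, hb, rfl, hc.1, hc.2⟩⟩, rfl⟩

theorem Nm.psi {σ : K → L} (hσ : IsoOn k l σ) {e : ZMod ℓ} (he : e ≠ 0) {s : K} {s' : L}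
    (h : Nm k l Θ σ e s s') : Psi k l Θ s s' σ (fun _ => e) := by
  refine ⟨?_, ?_⟩
  · filter_upwards [h.cor, ae_mem k] with b hb hbk
    exact ⟨hσ.mem b hbk, he, hb⟩
  · have h1 := ae_iff.1 h.cor
    rw [ae_iff]
    refine (h1.image σ).subset ?_
    rintro β ⟨hβ, hne⟩
    obtain ⟨b, hb, rfl⟩ := hσ.surj β hβ
    exact ⟨b, ⟨hb, fun hc => hne ⟨b, hb, rfl, he, hc⟩⟩, rfl⟩

/-- a functional with the values of `del` on the generators agrees with `del`. -/
theorem sigA_del_congr (hl : IsAlgClosed l) {t : L} (ht : Good l t) {x : L} (hx : x ∈ l)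
    (f : V ℓ L →ₗ[ZMod ℓ] ZMod ℓ) (h1 : f (cl ℓ (t - x)) = 1)
    (h0 : ∀ x' ∈ l, x' ≠ x → f (cl ℓ (t - x')) = 0) {v : V ℓ L} (hv : v ∈ VS ℓ (adj l t)) :
    f v = del ℓ l t x v := by
  obtain ⟨T, n, hT, rfl⟩ := adj_factor hl ht.1 hv
  rw [map_sum, map_sum]
  refine Finset.sum_congr rfl ?_
  intro c hc
  rw [map_smul, map_smul]
  congr 1
  by_cases hcx : c = x
  · subst hcx
    rw [h1, del_self hl ht hx]
  · rw [h0 c (hT c hc) hcx, del_ne hl ht hx (hT c hc) hcx]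

theorem sigAP_sub_ne {L : Type*} [Field L] {l : Subfield L} {t : L} (ht : t ∉ l) {c : L}
    (hc : c ∈ l) : t - c ≠ 0 := by
  intro h
  rw [sub_eq_zero] at h
  exact ht (h ▸ hc)

/-- scaling by a constant does not change the class. -/
theorem sigAP_cl_const_mul {L : Type*} [Field L] {l : Subfield L} {ℓ : ℕ} [Fact ℓ.Prime]
    (hl : IsAlgClosed l) {a z : L} (ha : a ∈ l) (ha0 : a ≠ 0)
    (hz : z ≠ 0) : cl ℓ (a * z) = cl ℓ z := by
  rw [cl_mul ℓ ha0 hz, line_cl_const hl ha, zero_add]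

/-- Moebius change of the coordinate. -/
theorem exists_Nv_of_mob (hk : IsAlgClosed k) (hl : IsAlgClosed l) {σ : K → L}
    (hσ : IsoOn k l σ) {e : K → ZMod ℓ} {s : K} {s' : L} (hR : Rt k l Θ s s')
    {A B C D : L} (hA : A ∈ l) (hB : B ∈ l) (hC : C ∈ l) (hD : D ∈ l) (hdet : A * D - B * C ≠ 0)
    {ψ : K → L} (hψ : ∀ᶠ b in ae k, ψ b ∈ l ∧ e b ≠ 0 ∧ Cor k l Θ s s' (e b) b (ψ b))
    (hm : ∀ᶠ b in ae k, ψ b * (C * σ b + D) = A * σ b + B) : ∃ s₁', Nv k l Θ σ e s s₁' := by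
  have hs' : s' ∉ l := hR.good'.1
  have hden : A - C * s' ≠ 0 := by
    intro h
    by_cases hC0 : C = 0
    · rw [hC0, zero_mul, sub_zero] at h
      rw [h, hC0] at hdet
      simp at hdet
    · apply hs'
      have : s' = A / C := by
        rw [eq_div_iff hC0, mul_comm]
        exact (sub_eq_zero.1 h).symm
      rw [this]
      exact l.div_mem hA hC
  set t := (D * s' - B) / (A - C * s') with ht
  have htden : C * t + D ≠ 0 := by
    have : C * t + D = (A * D - B * C) / (A - C * s') := by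
      rw [ht]
      field_simp
      ring
    rw [this]
    exact div_ne_zero hdet hden
  have htm : t * (A - C * s') = D * s' - B := div_mul_cancel₀ _ hden
  have hs't : s' = (A * t + B) / (C * t + D) := by
    rw [eq_div_iff htden]
    linear_combination (-1) * htm
  have hmem : t ∈ adj l s' := by
    have h1 : s' ∈ adj l s' := mem_adj l s'
    have h2 := le_adj l s'
    exact (adj l s').div_mem ((adj l s').sub_mem ((adj l s').mul_mem (h2 hD) h1) (h2 hB))
      ((adj l s').sub_mem (h2 hA) ((adj l s').mul_mem (h2 hC) h1))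
  have hmem' : s' ∈ adj l t := by
    have h1 : t ∈ adj l t := mem_adj l t
    have h2 := le_adj l t
    rw [hs't]
    exact (adj l t).div_mem ((adj l t).add_mem ((adj l t).mul_mem (h2 hA) h1) (h2 hB))
      ((adj l t).add_mem ((adj l t).mul_mem (h2 hC) h1) (h2 hD))
  have hadj : adj l t = adj l s' := le_antisymm (adj_le (le_adj l s') hmem)
    (adj_le (le_adj l t) hmem')
  have htl : t ∉ l := by
    intro h
    apply hs'
    rw [hs't]
    exact l.div_mem (l.add_mem (l.mul_mem hA h) hB) (l.add_mem (l.mul_mem hC h) hD)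
  have hgt : Good l t := ⟨htl, by rw [hadj]; exact hR.good'.2⟩
  have hRt : Rt k l Θ s t := ⟨hR.good, hgt, fun v => by rw [hadj]; exact hR.map v⟩
  refine ⟨t, hRt, ?_⟩
  filter_upwards [hψ, hm, ae_mem k] with b hb hmob hbk
  obtain ⟨hy, he0, hcor⟩ := hb
  refine ⟨he0, ?_⟩
  intro v hv
  rw [hcor v hv]
  congr 1
  have hΘ : Θ v ∈ VS ℓ (adj l t) := (hRt.map v).2 hv
  have hx := hσ.mem b hbk
  have hyAC : C ≠ 0 → A / C ≠ ψ b := by
    intro hC0 h
    apply hdet
    rw [← h] at hmob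
    have : A / C * (C * σ b + D) = A * σ b + A * D / C := by
      field_simp
    rw [this] at hmob
    have h3 : A * D / C = B := add_left_cancel hmob
    rw [div_eq_iff hC0] at h3
    rw [h3, sub_self]
  have hxden : C * σ b + D ≠ 0 := by
    intro h
    rw [h, mul_zero] at hmob
    apply hdet
    linear_combination A * h + C * hmob
  have hfd : del ℓ l s' (ψ b) (cl ℓ (A - C * s')) = 0 := by
    by_cases hC0 : C = 0
    · rw [hC0, zero_mul, sub_zero, line_cl_const hl hA, map_zero]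
    · have h1 : A - C * s' = (-C) * (s' - A / C) := by
        field_simp
        ring
      rw [h1, sigAP_cl_const_mul hl (l.neg_mem hC) (neg_ne_zero.2 hC0)
        (sigAP_sub_ne hs' (l.div_mem hA hC))]
      exact del_ne hl hR.good' hy (l.div_mem hA hC) (hyAC hC0)
  have hgen : ∀ x' ∈ l, ∀ hx' : C * x' + D ≠ 0,
      cl ℓ (t - x') = cl ℓ (s' - (A * x' + B) / (C * x' + D)) - cl ℓ (A - C * s') := by
    intro x' hx'l hx'
    have hy'l : (A * x' + B) / (C * x' + D) ∈ l :=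
      l.div_mem (l.add_mem (l.mul_mem hA hx'l) hB) (l.add_mem (l.mul_mem hC hx'l) hD)
    have hy' : (A * x' + B) / (C * x' + D) * (C * x' + D) = A * x' + B := div_mul_cancel₀ _ hx'
    have h1 : t - x' = (C * x' + D) * (s' - (A * x' + B) / (C * x' + D)) / (A - C * s') := by
      rw [eq_div_iff hden]
      linear_combination htm + hy'
    have h2 := sigAP_sub_ne hs' hy'l
    rw [h1, cl_div ℓ (mul_ne_zero hx' h2) hden,
      sigAP_cl_const_mul hl (l.add_mem (l.mul_mem hC hx'l) hD) hx' h2]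
  have hyeq : ψ b = (A * σ b + B) / (C * σ b + D) := by
    rw [eq_div_iff hxden]
    exact hmob
  refine sigA_del_congr hl hgt hx _ ?_ ?_ hΘ
  · rw [hgen _ hx hxden, map_sub, hfd, sub_zero, ← hyeq]
    exact del_self hl hR.good' hy
  · intro x' hx'l hx'ne
    by_cases hx' : C * x' + D = 0
    · have h1 : A * x' + B ≠ 0 := by
        intro h
        apply hdet
        linear_combination A * hx' - C * h
      have h2 : t - x' = (-(A * x' + B)) / (A - C * s') := by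
        rw [ht]
        rw [eq_div_iff hden, sub_mul, div_mul_cancel₀ _ hden]
        linear_combination s' * hx'
      rw [h2, cl_div ℓ (neg_ne_zero.2 h1) hden,
        line_cl_const hl (l.neg_mem (l.add_mem (l.mul_mem hA hx'l) hB)), zero_sub, map_neg, hfd,
        neg_zero]
    · rw [hgen _ hx'l hx', map_sub, hfd, sub_zero]
      refine del_ne hl hR.good' hy
        (l.div_mem (l.add_mem (l.mul_mem hA hx'l) hB) (l.add_mem (l.mul_mem hC hx'l) hD)) ?_
      intro h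
      apply hx'ne
      rw [hyeq, div_eq_div_iff hx' hxden] at h
      have h3 : (A * D - B * C) * (x' - σ b) = 0 := by linear_combination h
      rcases mul_eq_zero.1 h3 with h4 | h4
      · exact absurd h4 hdet
      · exact sub_eq_zero.1 h4

/-- twisted Moebius change of the coordinate. -/
theorem exists_Nv_of_twist (hk : IsAlgClosed k) (hl : IsAlgClosed l) {σ : K → L}
    (hσ : IsoOn k l σ) {e : K → ZMod ℓ} {s : K} {s' : L} (hR : Rt k l Θ s s')
    {A B C D : L} (hA : A ∈ l) (hB : B ∈ l) (hC : C ∈ l) (hD : D ∈ l) (hdet : A * D - B * C ≠ 0)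
    {ψ : K → L} (hψ : ∀ᶠ b in ae k, ψ b ∈ l ∧ e b ≠ 0 ∧ Cor k l Θ s s' (e b) b (ψ b))
    (i j : ℕ) (hm : ∀ᶠ b in ae k, ψ b ^ (ringExpChar L) ^ i * (C * σ b ^ (ringExpChar L) ^ j + D) =
      A * σ b ^ (ringExpChar L) ^ j + B) : ∃ s₁' e', Nv k l Θ σ e' s s₁' := by
  classical
  haveI : PerfectField l := by
    haveI := hl
    infer_instance
  obtain ⟨A', hA', rfl⟩ := exists_root_q l hA j
  obtain ⟨B', hB', rfl⟩ := exists_root_q l hB j
  obtain ⟨C', hC', rfl⟩ := exists_root_q l hC j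
  obtain ⟨D', hD', rfl⟩ := exists_root_q l hD j
  have hdet' : A' * D' - B' * C' ≠ 0 := by
    intro h
    apply hdet
    rw [← mul_pow, ← mul_pow, ← sub_pow_q, h, zero_pow (qn_ne_zero L j)]
  obtain ⟨y, hy⟩ := exists_root (s' ^ (ringExpChar L) ^ i) j
  have hg : ∀ b : K, ∃ γ : L, γ ^ (ringExpChar L) ^ j = ψ b ^ (ringExpChar L) ^ i :=
    fun b => exists_root _ j
  choose γ hγ using hg
  have hR1 : Rt k l Θ s (s' ^ (ringExpChar L) ^ i) := hR.pow hl i
  have hR2 : Rt k l Θ s y := hR1.root hl hy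
  have hγl : ∀ b, ψ b ∈ l → γ b ∈ l := by
    intro b hb
    apply mem_of_pow_q (n := j)
    rw [hγ b]
    exact l.pow_mem hb _
  set e' : K → ZMod ℓ := fun b => e b * (((ringExpChar L) ^ i : ℕ) : ZMod ℓ) *
    (((ringExpChar L) ^ j : ℕ) : ZMod ℓ)⁻¹ with he'
  obtain ⟨s₁', h⟩ := exists_Nv_of_mob (e := e') hk hl hσ hR2 hA' hB' hC' hD' hdet' (ψ := γ)
    (by
      filter_upwards [hψ] with b hb
      refine ⟨hγl b hb.1, ?_, ?_⟩
      · exact mul_ne_zero (mul_ne_zero hb.2.1 (q_pow_ne_zero ℓ L i))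
          (inv_ne_zero (q_pow_ne_zero ℓ L j))
      · exact Cor.root hk hl hR1 hy (hγl b hb.1) (hγ b) (Cor.pow hk hl hR i hb.1 hb.2.2))
    (by
      filter_upwards [hm] with b hb
      apply pow_q_inj (n := j)
      rw [mul_pow, add_pow_q, add_pow_q, mul_pow, mul_pow, hγ b]
      exact hb)
  exact ⟨s₁', e', h⟩

theorem sigAP_VS_infinite (hl : IsAlgClosed l) {t : L} (ht : Good l t) :
    ¬ ((VS ℓ (adj l t) : Submodule (ZMod ℓ) (V ℓ L)) : Set (V ℓ L)).Finite := by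
  intro hfin
  have hli := cl_sub_independent (ℓ := ℓ) hl ht
  have hinj := hli.injective
  haveI : Infinite l := by
    haveI := hl
    infer_instance
  refine Set.infinite_of_injective_forall_mem
    (f := fun c : l => cl ℓ (t - (c : L))) hinj (fun c => ?_) hfin
  exact cl_mem_VS (sub_mem (mem_adj l t) (le_adj l t c.2))

theorem Nm.unique (hk : IsAlgClosed k) (hl : IsAlgClosed l) (hfg : FG l (⊤ : Subfield L))
    {σ : K → L} (hσ : IsoOn k l σ)
    {e : ZMod ℓ} (he : e ≠ 0) {s : K} {s' s'' : L} (h : Nm k l Θ σ e s s')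
    (h' : Nm k l Θ σ e s s'') : s' = s'' := by
  classical
  haveI : PerfectField l := by
    haveI := hl
    infer_instance
  have hg' := h.rt.good'
  have hg'' := h'.rt.good'
  have hVS : VS ℓ (adj l s') = VS ℓ (adj l s'') := by
    ext w
    have h1 := h.rt.map (Θ.symm w)
    have h2 := h'.rt.map (Θ.symm w)
    rw [LinearEquiv.apply_symm_apply] at h1 h2
    exact h1.trans h2.symm
  have halg : IsAlgebraic (adj l s') s'' := by
    by_contra hna
    have h1 := int_top ℓ hl hfg (le_adj l s') (le_adj l s'') (mem_adj l s'') hna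
      (fun z hz => isAlgebraic_of_mem hz)
    rw [← hVS, inf_idem] at h1
    exact sigAP_VS_infinite hl hg' h1
  have hmem : s'' ∈ adj l s' := hg'.2 _ halg
  obtain ⟨n, y, hy, hymem⟩ := mem_adj_root.1 hmem
  obtain ⟨p, q, hpq⟩ := line_mem hymem
  have hgy : Good l y := by
    rw [← hy, good_pow] at hg'
    exact hg'
  have hq : q ≠ 0 := by
    rintro rfl
    rw [map_zero, div_zero] at hpq
    exact hg''.1 (hpq ▸ l.zero_mem)
  have hq0 := line_aeval_ne hl hgy.1 hq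
  set Q : ℕ := (ringExpChar L) ^ n with hQ
  have hroot : ∀ b ∈ k, ∃ β : l, (β : L) ^ Q = σ b := by
    intro b hb
    obtain ⟨β, hβ, h1⟩ := exists_root_q l (hσ.mem b hb) n
    exact ⟨⟨β, hβ⟩, h1⟩
  have hfin_of : ∀ F : l[X], F ≠ 0 →
      {b : K | b ∈ k ∧ ∃ β : l, (β : L) ^ Q = σ b ∧ F.IsRoot β}.Finite := by
    intro F hF
    have hr : {β : l | F.IsRoot β}.Finite := Polynomial.finite_setOfPred_isRoot hF
    refine Set.Finite.of_finite_image (f := σ) ((hr.image (fun β : l => (β : L) ^ Q)).subset ?_) ?_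
    · rintro _ ⟨b, ⟨hb, β, hβ, hr⟩, rfl⟩
      exact ⟨β, hr, hβ⟩
    · rintro a ⟨ha, -⟩ b ⟨hb, -⟩ hab
      exact hσ.inj ha hb hab
  have key : ∀ᶠ b in ae k, ∃ β : l, (β : L) ^ Q = σ b ∧ (p - X ^ Q * q).IsRoot β := by
    have hcq : ∀ᶠ b in ae k, ∀ β : l, (β : L) ^ Q = σ b → q.eval β ≠ 0 := by
      rw [ae_iff]
      refine (hfin_of q hq).subset ?_
      rintro b ⟨hb, hne⟩
      push Not at hne
      obtain ⟨β, hβ, hβ'⟩ := hne
      exact ⟨hb, β, hβ, hβ'⟩
    filter_upwards [h.cor, h'.cor, ae_mem k, hcq] with b hb hb' hbk hqb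
    have hβl := hσ.mem b hbk
    obtain ⟨β, hβ⟩ := hroot b hbk
    refine ⟨β, hβ, ?_⟩
    have hqβ := hqb β hβ
    have hw : cl ℓ (s'' - σ b) ∈ VS ℓ (adj l s') := by
      rw [hVS]
      exact cl_mem_VS (sub_mem (mem_adj l s'') (le_adj l s'' hβl))
    have hv : Θ.symm (cl ℓ (s'' - σ b)) ∈ VS ℓ (adj k s) := by
      rw [← h.rt.map, LinearEquiv.apply_symm_apply]
      exact hw
    have hby := Cor.root hk hl h.rt hy β.2 hβ hb
    have h1 := hby _ hv
    have h2 := hb' _ hv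
    rw [LinearEquiv.apply_symm_apply] at h1 h2
    have h3 : del ℓ l y (β : L) (cl ℓ (s'' - σ b)) ≠ 0 := by
      intro h4
      rw [h4, mul_zero] at h1
      rw [h1, del_self hl hg'' hβl, mul_one] at h2
      exact he h2.symm
    by_contra hroot
    have hF0 : p - C (β ^ Q) * q ≠ 0 := by
      intro h5
      have h6 : s'' = σ b := by
        rw [hpq, div_eq_iff hq0]
        have h7 := congrArg (aeval y) h5
        rw [map_sub, map_mul, aeval_C, map_zero, sub_eq_zero] at h7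
        rw [h7, ← hβ]
        rfl
      exact hg''.1 (h6 ▸ hβl)
    have h5 : s'' - σ b = aeval y (p - C (β ^ Q) * q) / aeval y q := by
      rw [hpq, map_sub, map_mul, aeval_C, sub_div, mul_div_assoc, div_self hq0, mul_one, ← hβ]
      rfl
    have hF0' := line_aeval_ne hl hgy.1 hF0
    apply h3
    rw [h5, cl_div ℓ hF0' hq0, map_sub, del_aeval hl hgy hF0, del_aeval hl hgy hq]
    have h6 : q.rootMultiplicity β = 0 := rootMultiplicity_eq_zero hqβ
    have h7 : (p - C (β ^ Q) * q).rootMultiplicity β = 0 := by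
      apply rootMultiplicity_eq_zero
      intro h8
      apply hroot
      rw [IsRoot.def, eval_sub, eval_mul, eval_C] at h8
      rw [IsRoot.def, eval_sub, eval_mul, eval_pow, eval_X]
      exact h8
    rw [h6, h7]
    simp
  have hzero : p - X ^ Q * q = 0 := by
    by_contra hne
    have h1 := hfin_of _ hne
    have h2 : ∀ᶠ b in ae k, ¬ ∃ β : l, (β : L) ^ Q = σ b ∧ (p - X ^ Q * q).IsRoot β := by
      rw [ae_iff]
      simpa using h1
    have := ae_neBot_of_isAlgClosed hk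
    obtain ⟨b, hb1, hb2⟩ := (key.and h2).exists
    exact hb2 hb1
  rw [hpq, sub_eq_zero.1 hzero, map_mul, map_pow, aeval_X, mul_div_assoc, div_self hq0, mul_one,
    hQ, hy]

/-- affine changes of the coordinate. -/
theorem sigAP_adj_affine {L : Type*} [Field L] [PerfectField L] {l : Subfield L} {t a c : L}
    (ha : a ∈ l) (ha0 : a ≠ 0) (hc : c ∈ l) :
    adj l (a * t + c) = adj l t := by
  apply le_antisymm
  · refine adj_le (le_adj l t) ?_
    exact (adj l t).add_mem ((adj l t).mul_mem (le_adj l t ha) (mem_adj l t)) (le_adj l t hc)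
  · refine adj_le (le_adj l _) ?_
    have h1 : t = ((a * t + c) - c) / a := by
      rw [add_sub_cancel_right, mul_div_cancel_left₀ _ ha0]
    have h2 : ((a * t + c) - c) / a ∈ adj l (a * t + c) :=
      (adj l (a * t + c)).div_mem ((adj l (a * t + c)).sub_mem (mem_adj l _) (le_adj l _ hc))
        (le_adj l _ ha)
    rwa [← h1] at h2

theorem sigAP_good_affine {L : Type*} [Field L] [PerfectField L] {l : Subfield L} {t a c : L}
    (ht : Good l t) (ha : a ∈ l) (ha0 : a ≠ 0) (hc : c ∈ l) :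
    Good l (a * t + c) := by
  refine ⟨?_, ?_⟩
  · intro h
    apply ht.1
    have h1 : t = ((a * t + c) - c) / a := by
      rw [add_sub_cancel_right, mul_div_cancel_left₀ _ ha0]
    rw [h1]
    exact l.div_mem (l.sub_mem h hc) ha
  · rw [sigAP_adj_affine ha ha0 hc]
    exact ht.2

theorem sigAP_del_affine {L : Type*} [Field L] [PerfectField L] {l : Subfield L} {ℓ : ℕ}
    [Fact ℓ.Prime] [NeZero (ℓ : L)] (hl : IsAlgClosed l) {t a c : L} (ht : Good l t) (ha : a ∈ l)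
    (ha0 : a ≠ 0) (hc : c ∈ l) {x : L} (hx : x ∈ l) {v : V ℓ L} (hv : v ∈ VS ℓ (adj l t)) :
    del ℓ l (a * t + c) (a * x + c) v = del ℓ l t x v := by
  have hg := sigAP_good_affine ht ha ha0 hc
  have hcl : ∀ x' ∈ l, cl ℓ (t - x') = cl ℓ ((a * t + c) - (a * x' + c)) := by
    intro x' hx'
    have h1 : (a * t + c) - (a * x' + c) = a * (t - x') := by ring
    rw [h1, sigAP_cl_const_mul hl ha ha0 (sigAP_sub_ne ht.1 hx')]
  have hmem : ∀ x' ∈ l, a * x' + c ∈ l := fun x' hx' => l.add_mem (l.mul_mem ha hx') hc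
  refine sigA_del_congr hl ht hx _ ?_ ?_ hv
  · rw [hcl x hx]
    exact del_self hl hg (hmem x hx)
  · intro x' hx' hne
    rw [hcl x' hx']
    refine del_ne hl hg (hmem x hx) (hmem x' hx') ?_
    intro h
    exact hne (mul_left_cancel₀ ha0 (add_right_cancel h))

theorem Nm.affine (hk : IsAlgClosed k) (hl : IsAlgClosed l) {σ : K → L} (hσ : IsoOn k l σ)
    {e : ZMod ℓ} {s : K} {s' : L} (h : Nm k l Θ σ e s s') {a c : K} (ha : a ∈ k)
    (ha0 : a ≠ 0) (hc : c ∈ k) : Nm k l Θ σ e (a * s + c) (σ a * s' + σ c) := by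
  have hσa := hσ.mem a ha
  have hσc := hσ.mem c hc
  have hσa0 := hσ.ne_zero ha ha0
  refine ⟨⟨sigAP_good_affine h.rt.good ha ha0 hc,
    sigAP_good_affine h.rt.good' hσa hσa0 hσc, ?_⟩, ?_⟩
  · intro v
    rw [sigAP_adj_affine ha ha0 hc, sigAP_adj_affine hσa hσa0 hσc]
    exact h.rt.map v
  · have h1 := ae_iff.1 h.cor
    rw [ae_iff]
    refine (h1.image (fun b => a * b + c)).subset ?_
    rintro b ⟨hb, hne⟩
    have hb' : (b - c) / a ∈ k := k.div_mem (k.sub_mem hb hc) ha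
    have hbb : a * ((b - c) / a) + c = b := by
      rw [mul_div_cancel₀ _ ha0, sub_add_cancel]
    refine ⟨(b - c) / a, ⟨hb', fun hcor => hne ?_⟩, hbb⟩
    have hσb : σ b = σ a * σ ((b - c) / a) + σ c := by
      rw [← hσ.mul a ha _ hb', ← hσ.add _ (k.mul_mem ha hb') c hc, hbb]
    intro v hv
    rw [sigAP_adj_affine ha ha0 hc] at hv
    have h2 := hcor v hv
    have h3 : Θ v ∈ VS ℓ (adj l s') := (h.rt.map v).2 hv
    have h4 := sigAP_del_affine hk h.rt.good ha ha0 hc hb' hv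
    have h5 := sigAP_del_affine hl h.rt.good' hσa hσa0 hσc (hσ.mem _ hb') h3
    rw [hbb] at h4
    rw [← hσb] at h5
    rw [h4, h5]
    exact h2

theorem Nm.add_const (hk : IsAlgClosed k) (hl : IsAlgClosed l) {σ : K → L} (hσ : IsoOn k l σ)
    {e : ZMod ℓ} (he : e ≠ 0) {s : K} {s' : L} (h : Nm k l Θ σ e s s') {c : K} (hc : c ∈ k) :
    Nm k l Θ σ e (s + c) (s' + σ c) := by
  have h1 := h.affine hk hl hσ k.one_mem one_ne_zero hc
  rw [one_mul, hσ.one, one_mul] at h1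
  exact h1

theorem Nm.mul_const (hk : IsAlgClosed k) (hl : IsAlgClosed l) {σ : K → L} (hσ : IsoOn k l σ)
    {e : ZMod ℓ} (he : e ≠ 0) {s : K} {s' : L} (h : Nm k l Θ σ e s s') {c : K} (hc : c ∈ k)
    (hc0 : c ≠ 0) : Nm k l Θ σ e (c * s) (σ c * s') := by
  have h1 := h.affine hk hl hσ hc hc0 k.zero_mem
  rw [add_zero, hσ.zero, add_zero] at h1
  exact h1

end Vale.Agent.P019P
end

section

/-!
# From Moebius relations to an isomorphism of fields, twisted version, any characteristic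
-/

namespace Vale.Agent.P019P

open Vale.Agent.P019

set_option linter.style.haveILetI false
set_option linter.unusedSectionVars false

open Filter


end Vale.Agent.P019P
end

section

/-!
# The isomorphism of the constants (perfect version)

`ae_iff_sub`, `ae_shift`, `ae_scale`, `ae_ne`, `rst`, `rst_eq` are those of the old file.
-/

namespace Vale.Agent.P019P

open Vale.Agent.P019

set_option linter.style.haveILetI false
set_option linter.unusedSectionVars false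

open Polynomial Filter

variable {K L : Type*} [Field K] [Field L] [PerfectField K] [PerfectField L] {ℓ : ℕ}
  [Fact ℓ.Prime] [NeZero (ℓ : K)] [NeZero (ℓ : L)]
  {k : Subfield K} {l : Subfield L} {Θ : V ℓ K ≃ₗ[ZMod ℓ] V ℓ L}

theorem sigb_coeff {i j : ℕ} (hij : (ringExpChar L) ^ i = (ringExpChar L) ^ j) {x y : ZMod ℓ}
    (h : (((ringExpChar L) ^ i : ℕ) : ZMod ℓ) * x = (((ringExpChar L) ^ j : ℕ) : ZMod ℓ) * y) :
    x = y := by
  rw [hij] at h
  exact mul_left_cancel₀ (q_pow_ne_zero ℓ L j) h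

/-- first construction of `σ`. -/
theorem Hyp.exists_sigma₁ (H : Hyp ℓ k l Θ) : ∃ (t s : K), Good k t ∧ Good k s ∧
    Good k (t + s) ∧ Ind k s t ∧ ∃ (σ : K → L) (e : K → ZMod ℓ) (s' : L),
      IsoOn k l σ ∧ Nv k l Θ σ e s s' := by
  classical
  obtain ⟨t, ht0⟩ := exists_gen_add H.ack H.fgk H.trk {0} ∅ (by simp)
  have ht : Good k t := by
    have := (ht0 0 (Finset.mem_singleton_self 0)).1
    rwa [zero_add] at this
  obtain ⟨s, hs, hts, hst, -, hist, -⟩ := exists_gen_mul H.ack H.fgk H.trk t t ht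
  rw [mul_comm] at hst
  refine ⟨t, s, ht, hs, hts, hist, ?_⟩
  obtain ⟨t', rt⟩ := H.rt_all ht
  obtain ⟨s', rs⟩ := H.rt_all hs
  obtain ⟨z', rz⟩ := H.rt_all hts
  obtain ⟨w', rw'⟩ := H.rt_all hst
  obtain ⟨ψt, et, pt⟩ := H.exists_psi rt
  obtain ⟨ψs, es, ps⟩ := H.exists_psi rs
  obtain ⟨ψz, ez, pz⟩ := H.exists_psi rz
  obtain ⟨ψw, ew, pw⟩ := H.exists_psi rw'
  obtain ⟨_, -, h1⟩ := H.rel hist.2 rt rs rz (shift_add H.ack hs.1 t) pt ps pz
  obtain ⟨_, -, h2⟩ := H.rel hist.2 rt rs rw' (shift_mul H.ack hs.1 t) pt ps pw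
  have : IsAlgClosed k := H.ack
  have : IsAlgClosed l := H.acl
  have hql : ringExpChar l = ringExpChar L := ringExpChar.eq l (ringExpChar L)
  -- the isomorphism
  obtain ⟨σ, A, B, C, D, hdet, hσ⟩ := sigma_exact (rst k l ψs) (rst k l ψz) (rst k l ψw)
    (by
      refine ⟨{b : k | ¬ (ψs b ∈ l ∧ es b ≠ 0 ∧ Cor k l Θ s s' (es b) b (ψs b))}, ?_, ?_⟩
      · exact ae_iff_sub.1 ps.cor
      · intro b hb b' hb' hbb
        simp only [Set.mem_compl_iff, Set.mem_ofPred_eq, not_not] at hb hb'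
        have h4 := congrArg (Subtype.val : l → L) hbb
        rw [sigb_rst_eq hb.1, sigb_rst_eq hb'.1] at h4
        have h5 := hb'.2.2
        rw [← h4] at h5
        exact Subtype.ext (Cor.inj H.ack H.acl rs hb.2.1 hb'.2.1 b.2 b'.2 hb.1 hb.2.2 h5))
    (by
      have h4 := ae_iff_sub.1 ps.surj
      rw [eventually_cofinite] at h4
      refine h4.subset ?_
      intro β hβ hex
      obtain ⟨b, hb, hb1, -⟩ := hex
      refine hβ ⟨⟨b, hb⟩, Subtype.ext ?_⟩
      rw [sigb_rst_eq (by rw [hb1]; exact β.2), hb1])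
    (by
      filter_upwards [ae_iff_sub.1 h1] with a ha
      obtain ⟨i, j, A, hA, B, hB, C, hC, D, hD, hdet, h1, -⟩ := ha
      refine ⟨i, j, ⟨A, hA⟩, ⟨B, hB⟩, ⟨C, hC⟩, ⟨D, hD⟩, fun h0 => hdet ?_, ?_⟩
      · exact congrArg (Subtype.val : l → L) h0
      · filter_upwards [ae_iff_sub.1 h1, ae_iff_sub.1 ps.cor,
          ae_iff_sub.1 (ae_shift a.2 pz.cor)] with b hb1 hb2 hb3
        refine Subtype.ext ?_
        change (rst k l ψz (a + b) : L) ^ (ringExpChar l) ^ i *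
          (C * (rst k l ψs b : L) ^ (ringExpChar l) ^ j + D) =
          A * (rst k l ψs b : L) ^ (ringExpChar l) ^ j + B
        rw [sigb_rst_eq hb2.1, sigb_rst_eq (b := a + b) hb3.1, hql]
        exact hb1.1)
    (by
      have h0 : ∀ᶠ a : k in cofinite, (a : K) ≠ 0 := ae_iff_sub.1 (ae_ne 0)
      filter_upwards [ae_iff_sub.1 h2, h0] with a ha ha0
      obtain ⟨i, j, A, hA, B, hB, C, hC, D, hD, hdet, h1, -⟩ := ha
      refine ⟨i, j, ⟨A, hA⟩, ⟨B, hB⟩, ⟨C, hC⟩, ⟨D, hD⟩, fun h0 => hdet ?_, ?_⟩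
      · exact congrArg (Subtype.val : l → L) h0
      · filter_upwards [ae_iff_sub.1 h1, ae_iff_sub.1 ps.cor,
          ae_iff_sub.1 (ae_scale a.2 ha0 pw.cor)] with b hb1 hb2 hb3
        refine Subtype.ext ?_
        change (rst k l ψw (a * b) : L) ^ (ringExpChar l) ^ i *
          (C * (rst k l ψs b : L) ^ (ringExpChar l) ^ j + D) =
          A * (rst k l ψs b : L) ^ (ringExpChar l) ^ j + B
        rw [sigb_rst_eq hb2.1, sigb_rst_eq (b := a * b) hb3.1, hql]
        exact hb1.1)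
    (by
      obtain ⟨S, hS, hex⟩ := H.exact_add hist rt rs rz ps
      refine ⟨Subtype.val ⁻¹' S, hS.preimage Subtype.val_injective.injOn, fun c => ?_⟩
      obtain ⟨A, hA, B, hB, C, hC, D, hD, hdet, h3⟩ := hex c c.2
      refine ⟨⟨A, hA⟩, ⟨B, hB⟩, ⟨C, hC⟩, ⟨D, hD⟩, fun h0 => hdet ?_, ?_⟩
      · exact congrArg (Subtype.val : l → L) h0
      · intro b hb hbc
        obtain ⟨e1, e3⟩ := h3 b b.2 hb hbc
        have e2 : ψs (b + c) ∈ l := by
          obtain ⟨_, _, _, _, _, _, _, _, _, h4⟩ := hex 0 (zero_mem k)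
          exact (h4 (b + c) (add_mem b.2 c.2) hbc (by rw [add_zero]; exact hbc)).1
        refine Subtype.ext ?_
        change (rst k l ψs (b + c) : L) * (C * (rst k l ψs b : L) + D) =
          A * (rst k l ψs b : L) + B
        rw [sigb_rst_eq e1, sigb_rst_eq (b := b + c) e2]
        exact e3)
  let τ : K → L := fun b => if h : b ∈ k then (σ ⟨b, h⟩ : L) else 0
  have hτ : ∀ b (h : b ∈ k), τ b = σ ⟨b, h⟩ := fun b h => dif_pos h
  have hτo : IsoOn k l τ := by
    refine ⟨?_, ?_, ?_, ?_, ?_⟩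
    · intro a ha
      rw [hτ a ha]
      exact (σ ⟨a, ha⟩).2
    · intro a ha b hb
      rw [hτ a ha, hτ b hb, hτ _ (add_mem ha hb)]
      exact congrArg (Subtype.val : l → L) (map_add σ ⟨a, ha⟩ ⟨b, hb⟩)
    · intro a ha b hb
      rw [hτ a ha, hτ b hb, hτ _ (mul_mem ha hb)]
      exact congrArg (Subtype.val : l → L) (map_mul σ ⟨a, ha⟩ ⟨b, hb⟩)
    · rw [hτ 1 (one_mem k)]
      exact congrArg (Subtype.val : l → L) (map_one σ)
    · intro β hβ
      refine ⟨σ.symm ⟨β, hβ⟩, (σ.symm ⟨β, hβ⟩).2, ?_⟩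
      rw [hτ _ (σ.symm ⟨β, hβ⟩).2]
      exact congrArg (Subtype.val : l → L) (σ.apply_symm_apply ⟨β, hβ⟩)
  obtain ⟨s₁', hs₁'⟩ := exists_Nv_of_mob H.ack H.acl hτo rs A.2 B.2 C.2 D.2
    (fun h0 => hdet (Subtype.ext h0)) (ψ := ψs) (e := es) ps.cor (by
      rw [ae_iff_sub]
      filter_upwards [hσ, ae_iff_sub.1 ps.cor] with b hb1 hb2
      have h5 := congrArg (Subtype.val : l → L) hb1
      rw [hτ b b.2, ← sigb_rst_eq hb2.1]
      exact h5)
  exact ⟨τ, es, s₁', hτo, hs₁'⟩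

/-- the coordinate of the sum. -/
theorem Hyp.nv_add (H : Hyp ℓ k l Θ) {σ : K → L} (hσ : IsoOn k l σ) {e : K → ZMod ℓ}
    {t s : K} {s' : L} (hst : Ind k s t) (ht : Good k t) (hts : Good k (t + s))
    (h : Nv k l Θ σ e s s') : ∃ z' ez, Nv k l Θ σ ez (t + s) z' ∧
      ∀ᶠ a in ae k, ∀ᶠ b in ae k, ez (a + b) = e b := by
  have := ae_neBot_of_isAlgClosed H.ack
  obtain ⟨t', rt⟩ := H.rt_all ht
  obtain ⟨z₀', rz⟩ := H.rt_all hts
  obtain ⟨ψt, et, pt⟩ := H.exists_psi rt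
  obtain ⟨ψz, ez, pz⟩ := H.exists_psi rz
  have ps := h.psi hσ H.ack
  obtain ⟨_, -, h1⟩ := H.rel hst.2 rt h.rt rz (shift_add H.ack h.rt.good.1 t) pt ps pz
  obtain ⟨a, ⟨i, j, A, hA, B, hB, C, hC, D, hD, hdet, h1, -⟩, ha⟩ :=
    (h1.and (ae_mem k)).exists
  have hsa : ∀ n : ℕ, σ a ^ (ringExpChar L) ^ n ∈ l := fun n => pow_mem (hσ.mem a ha) _
  obtain ⟨z', ez', hz⟩ := exists_Nv_of_twist H.ack H.acl hσ rz (A := A)
    (B := B - A * σ a ^ (ringExpChar L) ^ j) (C := C)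
    (D := D - C * σ a ^ (ringExpChar L) ^ j) hA (sub_mem hB (mul_mem hA (hsa j))) hC
    (sub_mem hD (mul_mem hC (hsa j))) (by
      intro h0
      apply hdet
      linear_combination h0) pz.cor i j (by
      filter_upwards [ae_shift (neg_mem ha) h1, ae_mem k] with b hb1 hb
      have e1 : σ (-a + b) = σ b - σ a := by
        rw [show -a + b = b - a by ring, hσ.sub hb ha]
      rw [show a + (-a + b) = b by ring, e1, sub_pow_q] at hb1
      linear_combination hb1.1)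
  refine ⟨z', ez', hz, ?_⟩
  obtain ⟨_, -, h2⟩ := H.rel hst.2 rt h.rt hz.rt (shift_add H.ack h.rt.good.1 t) pt ps
    (hz.psi hσ H.ack)
  filter_upwards [h2, ae_mem k] with a ha hak
  obtain ⟨i, j, A, hA, B, hB, C, hC, D, hD, hdet, h3, -⟩ := ha
  have h4 : ∀ᶠ b in ae k, (1 * σ b ^ (ringExpChar L) ^ i + σ a ^ (ringExpChar L) ^ i) *
      (C * σ b ^ (ringExpChar L) ^ j + D) = A * σ b ^ (ringExpChar L) ^ j + B := by
    filter_upwards [h3, ae_mem k] with b hb1 hb
    rw [hσ.add a hak b hb, add_pow_q] at hb1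
    linear_combination hb1.1
  have h5 := (twist_mob one_ne_zero hdet (sigb_infinite H.ack hσ h4)).1
  filter_upwards [h3] with b hb
  exact sigb_coeff h5 hb.2

/-- the coordinate of a summand. -/
theorem Hyp.nv_sub (H : Hyp ℓ k l Θ) {σ : K → L} (hσ : IsoOn k l σ) {ez : K → ZMod ℓ}
    {t s : K} {z' : L} (hst : Ind k s t) (ht : Good k t) (hs : Good k s)
    (h : Nv k l Θ σ ez (t + s) z') : ∃ t' et, Nv k l Θ σ et t t' ∧
      ∀ᶠ b in ae k, ∀ᶠ a in ae k, ez (a + b) = et a := by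
  have := ae_neBot_of_isAlgClosed H.ack
  have hts : Ind k t s := hst.symm H.ack
  obtain ⟨t₀', rt⟩ := H.rt_all ht
  obtain ⟨s', rs⟩ := H.rt_all hs
  obtain ⟨ψt, et, pt⟩ := H.exists_psi rt
  obtain ⟨ψs, es, ps⟩ := H.exists_psi rs
  have pz := h.psi hσ H.ack
  have hsh : Shift ℓ k s t (t + s) (fun a b => a + b) := by
    rw [add_comm t s]
    exact shift_add H.ack ht.1 s
  obtain ⟨_, -, h1⟩ := H.rel hts.2 rs rt h.rt hsh ps pt pz
  obtain ⟨a, ⟨i, j, A, hA, B, hB, C, hC, D, hD, hdet, h1, -⟩, ha⟩ :=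
    (h1.and (ae_mem k)).exists
  have hsa : ∀ n : ℕ, σ a ^ (ringExpChar L) ^ n ∈ l := fun n => pow_mem (hσ.mem a ha) _
  obtain ⟨t', et', ht'⟩ := exists_Nv_of_twist H.ack H.acl hσ rt (A := D)
    (B := D * σ a ^ (ringExpChar L) ^ i - B) (C := -C)
    (D := A - C * σ a ^ (ringExpChar L) ^ i) hD (sub_mem (mul_mem hD (hsa i)) hB)
    (neg_mem hC) (sub_mem hA (mul_mem hC (hsa i))) (by
      intro h0
      apply hdet
      linear_combination h0) pt.cor j i (by
      filter_upwards [h1, ae_mem k] with b hb1 hb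
      rw [hσ.add a ha b hb, add_pow_q] at hb1
      linear_combination -hb1.1)
  refine ⟨t', et', ht', ?_⟩
  obtain ⟨_, -, h2⟩ := H.rel hts.2 rs ht'.rt h.rt hsh ps (ht'.psi hσ H.ack) pz
  filter_upwards [h2, ae_mem k] with a ha hak
  obtain ⟨i, j, A, hA, B, hB, C, hC, D, hD, hdet, h3, -⟩ := ha
  have h4 : ∀ᶠ b in ae k, (1 * σ b ^ (ringExpChar L) ^ i + σ a ^ (ringExpChar L) ^ i) *
      (C * σ b ^ (ringExpChar L) ^ j + D) = A * σ b ^ (ringExpChar L) ^ j + B := by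
    filter_upwards [h3, ae_mem k] with b hb1 hb
    rw [hσ.add a hak b hb, add_pow_q] at hb1
    linear_combination hb1.1
  have h5 := (twist_mob one_ne_zero hdet (sigb_infinite H.ack hσ h4)).1
  filter_upwards [h3] with b hb
  rw [add_comm]
  exact sigb_coeff h5 hb.2

theorem Hyp.exists_sigma₀ (H : Hyp ℓ k l Θ) : ∃ (σ : K → L) (e : ZMod ℓ) (s : K) (s' : L),
    IsoOn k l σ ∧ e ≠ 0 ∧ Nm k l Θ σ e s s' := by
  have := ae_neBot_of_isAlgClosed H.ack
  obtain ⟨_, s, _, hs, _, _, σ, es, s', hσ, hs'⟩ := H.exists_sigma₁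
  obtain ⟨t, ht, hts, hst, hsp⟩ := H.exists_special hs
  obtain ⟨z', ez, hz, h1⟩ := H.nv_add hσ hst ht hts hs'
  obtain ⟨e, he0⟩ := hsp z' hz.rt
  have h2 : ∀ᶠ c in ae k, ez c = e := by
    filter_upwards [hz.cor, ae_mem k] with c hc hck
    exact he0 c hck (σ c) (hσ.mem c hck) (ez c) hc.1 hc.2
  obtain ⟨a, h1, ha⟩ := (h1.and (ae_mem k)).exists
  have he : ∀ᶠ b in ae k, es b = e := by
    filter_upwards [h1, ae_shift ha h2] with b hb1 hb2
    rw [← hb1, hb2]
  refine ⟨σ, e, s, s', hσ, ?_, hs'.rt, ?_⟩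
  · obtain ⟨b, hb1, hb2⟩ := (he.and hs'.cor).exists
    rw [← hb1]
    exact hb2.1
  · filter_upwards [he, hs'.cor] with b hb1 hb2
    rw [← hb1]
    exact hb2.2

/-- `σ` works for all independent good elements. -/
theorem Hyp.exists_Nm_of_ind (H : Hyp ℓ k l Θ) {σ : K → L} (hσ : IsoOn k l σ) {e : ZMod ℓ}
    (he : e ≠ 0) {s : K} {s' : L} (h : Nm k l Θ σ e s s') {t : K} (ht : Good k t)
    (hts : Ind k s t) : ∃ t', Nm k l Θ σ e t t' := by
  have := ae_neBot_of_isAlgClosed H.ack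
  have hst : Ind k t s := hts.symm H.ack
  obtain ⟨c, hgood, hc0, hc⟩ := ((H.bert t s hst.1 hst.2).and
    ((ae_ne 0).and (ae_mem k))).exists
  have hu : Nm k l Θ σ e (c * s) (σ c * s') := h.mul_const H.ack H.acl hσ he hc hc0
  have hle : adj k (c * s) ≤ adj k s :=
    adj_le (le_adj k s) (mul_mem (le_adj k s hc) (mem_adj k s))
  have hut : ¬ IsAlgebraic (adj k (c * s)) t := fun h => hts.2 (isAlgebraic_mono hle h)
  have hind : Ind k (c * s) t := ⟨hu.rt.good.1, hut⟩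
  have hnv : Nv k l Θ σ (fun _ => e) (c * s) (σ c * s') :=
    ⟨hu.rt, hu.cor.mono fun b hb => ⟨he, hb⟩⟩
  obtain ⟨z', ez, hz, h1⟩ := H.nv_add hσ hind ht hgood hnv
  obtain ⟨t', et, ht', h2⟩ := H.nv_sub hσ hind ht hu.rt.good hz
  obtain ⟨a, h1, ha⟩ := (h1.and (ae_mem k)).exists
  obtain ⟨b, h2, hb⟩ := (h2.and (ae_mem k)).exists
  have h3 : ∀ᶠ x in ae k, ez x = e := by
    filter_upwards [ae_shift (neg_mem ha) h1] with x hx
    rwa [show a + (-a + x) = x by ring] at hx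
  refine ⟨t', ht'.rt, ?_⟩
  filter_upwards [h2, ae_shift hb h3, ht'.cor] with x hx1 hx2 hx3
  rw [add_comm, hx1] at hx2
  rw [← hx2]
  exact hx3.2

/-- the isomorphism of the fields of constants. -/
theorem Hyp.exists_sigma (H : Hyp ℓ k l Θ) : ∃ (σ : K → L) (e : ZMod ℓ),
    IsoOn k l σ ∧ e ≠ 0 ∧ ∀ s, Good k s → ∃ s', Nm k l Θ σ e s s' := by
  classical
  obtain ⟨σ, e, s, s', hσ, he, h⟩ := H.exists_sigma₀
  refine ⟨σ, e, hσ, he, fun s₁ hs₁ => ?_⟩
  obtain ⟨t, ht0⟩ := exists_gen_add H.ack H.fgk H.trk {0} {s, s₁} (by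
    intro b hb
    rw [Finset.mem_insert, Finset.mem_singleton] at hb
    rcases hb with rfl | rfl
    · exact h.rt.good
    · exact hs₁)
  obtain ⟨ht, hi⟩ := ht0 0 (Finset.mem_singleton_self 0)
  rw [zero_add] at ht hi
  have hi1 := hi s (by simp)
  have hi2 := hi s₁ (by simp)
  obtain ⟨t', ht'⟩ := H.exists_Nm_of_ind hσ he h ht (hi1.symm H.ack)
  exact H.exists_Nm_of_ind hσ he ht' hs₁ hi2

end Vale.Agent.P019P
end

section

/-!
# The homomorphism of fields (perfect version)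

`IsoOn.tendsto` is that of the old file.
-/

namespace Vale.Agent.P019P

open Vale.Agent.P019

set_option linter.style.haveILetI false
set_option linter.unusedSectionVars false

open Polynomial Filter

/-- almost all constants give infinitely many values. -/
theorem IsoOn.infinite_of_ae {K L : Type*} [Field K] [Field L] {k : Subfield K}
    {l : Subfield L} (hk : IsAlgClosed k) {σ : K → L} (hσ : IsoOn k l σ) {P : L → Prop}
    (h : ∀ᶠ b in ae k, P (σ b)) : {x : L | P x}.Infinite := by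
  intro hfin
  rw [ae_iff] at h
  have h1 : {b : K | b ∈ k ∧ P (σ b)}.Finite := by
    refine Set.Finite.of_finite_image (f := σ) (hfin.subset ?_) ?_
    · rintro _ ⟨b, ⟨_, hb⟩, rfl⟩
      exact hb
    · rintro a ⟨ha, -⟩ b ⟨hb, -⟩ hab
      exact hσ.inj ha hb hab
  refine infinite_of_isAlgClosed hk ((h.union h1).subset ?_)
  intro b hb
  by_cases hP : P (σ b)
  · exact Or.inr ⟨hb, hP⟩
  · exact Or.inl ⟨hb, hP⟩

variable {K L : Type*} [Field K] [Field L] [PerfectField K] [PerfectField L] {ℓ : ℕ}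
  [Fact ℓ.Prime] [NeZero (ℓ : K)] [NeZero (ℓ : L)]
  {k : Subfield K} {l : Subfield L} {Θ : V ℓ K ≃ₗ[ZMod ℓ] V ℓ L}

theorem Hyp.Nm_add (H : Hyp ℓ k l Θ) {σ : K → L} (hσ : IsoOn k l σ) {e : ZMod ℓ} (he : e ≠ 0)
    {t s : K} {t' s' z' : L} (hts : Ind k s t) (ht : Nm k l Θ σ e t t') (hs : Nm k l Θ σ e s s')
    (hz : Nm k l Θ σ e (t + s) z') : z' = t' + s' := by
  obtain ⟨G', hG', hrel⟩ := H.rel hts.2 ht.rt hs.rt hz.rt (shift_add H.ack hts.1 t)
    (ht.psi hσ he) (hs.psi hσ he) (hz.psi hσ he)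
  by_contra hne
  have hne' : z' - s' - t' ≠ 0 := by
    intro h
    apply hne
    linear_combination h
  have hle : l ≤ adj G' s' := hG'.le.trans (le_adj G' s')
  have hun := hσ.tendsto.eventually ((hG'.unit hne').filter_mono (ae_mono hle))
  have := ae_neBot_of_isAlgClosed H.ack
  obtain ⟨a, ⟨⟨hrel, hun⟩, hak⟩⟩ := ((hrel.and hun).and (ae_mem k)).exists
  obtain ⟨i, j, A, hA, B, hB, C, hC, D, hD, hdet, hmob, W, hW, hval⟩ := hrel
  have hq : (ringExpChar L) ^ i = (ringExpChar L) ^ j ∧ C = 0 ∧ A = 1 * D ∧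
      B = σ a ^ (ringExpChar L) ^ i * D := by
    refine twist_mob (u := 1) (v := σ a ^ (ringExpChar L) ^ i) one_ne_zero hdet ?_
    refine IsoOn.infinite_of_ae H.ack hσ ?_
    filter_upwards [hmob, ae_mem k] with b hb hbk
    have h1 := hb.1
    rw [hσ.add a hak b hbk, add_pow_q] at h1
    linear_combination h1
  obtain ⟨hij, hC0, hAD, hBD⟩ := hq
  rw [one_mul] at hAD
  have hD0 : D ≠ 0 := by
    rintro rfl
    apply hdet
    rw [hC0]
    ring
  have hDu : W.valuation D = 1 := hW.triv.eq_one (hle hD) hD0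
  have h1 : W.valuation (z' - s' - σ a) < 1 := by
    have e1 : z' ^ (ringExpChar L) ^ i * (C * s' ^ (ringExpChar L) ^ j + D) -
        (A * s' ^ (ringExpChar L) ^ j + B) = D * (z' - s' - σ a) ^ (ringExpChar L) ^ i := by
      rw [sub_pow_q, sub_pow_q, ← hij, hC0, hAD, hBD]
      ring
    rw [e1, map_mul, hDu, one_mul, map_pow] at hval
    by_contra hge
    exact absurd hval (not_lt.2 (one_le_pow₀ (not_lt.1 hge)))
  have h2 : W.valuation (z' - s' - t') < 1 := by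
    have e1 : z' - s' - t' = (z' - s' - σ a) - (t' - σ a) := by ring
    rw [e1]
    exact lt_of_le_of_lt (Valuation.map_sub _ _ _) (max_lt h1 hW.lt)
  exact h2.ne (hun W hW)

theorem Hyp.Nm_mul (H : Hyp ℓ k l Θ) {σ : K → L} (hσ : IsoOn k l σ) {e : ZMod ℓ} (he : e ≠ 0)
    {t s : K} {t' s' z' : L} (hts : Ind k s t) (ht : Nm k l Θ σ e t t') (hs : Nm k l Θ σ e s s')
    (hz : Nm k l Θ σ e (t * s) z') : z' = t' * s' := by
  obtain ⟨G', hG', hrel⟩ := H.rel hts.2 ht.rt hs.rt hz.rt (shift_mul H.ack hts.1 t)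
    (ht.psi hσ he) (hs.psi hσ he) (hz.psi hσ he)
  by_contra hne
  have hne' : z' - t' * s' ≠ 0 := sub_ne_zero.2 hne
  have hle : l ≤ adj G' s' := hG'.le.trans (le_adj G' s')
  have hun := hσ.tendsto.eventually ((hG'.unit hne').filter_mono (ae_mono hle))
  have := ae_neBot_of_isAlgClosed H.ack
  have hne0 : ∀ᶠ a in ae k, a ≠ 0 := by
    rw [ae_iff]
    refine (Set.finite_singleton (0 : K)).subset ?_
    rintro a ⟨-, ha⟩
    rw [not_not] at ha
    exact ha
  obtain ⟨a, ⟨⟨⟨hrel, hun⟩, hak⟩, ha0⟩⟩ := (((hrel.and hun).and (ae_mem k)).and hne0).exists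
  obtain ⟨i, j, A, hA, B, hB, C, hC, D, hD, hdet, hmob, W, hW, hval⟩ := hrel
  have hσ0 : σ 0 = 0 := by
    have h1 := hσ.add 0 k.zero_mem 0 k.zero_mem
    rw [add_zero] at h1
    linear_combination -h1
  have hσa : σ a ≠ 0 := by
    intro h
    apply ha0
    exact hσ.inj hak k.zero_mem (h.trans hσ0.symm)
  have hq : (ringExpChar L) ^ i = (ringExpChar L) ^ j ∧ C = 0 ∧
      A = σ a ^ (ringExpChar L) ^ i * D ∧ B = 0 * D := by
    refine twist_mob (u := σ a ^ (ringExpChar L) ^ i) (v := 0) (pow_ne_zero _ hσa) hdet ?_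
    refine IsoOn.infinite_of_ae H.ack hσ ?_
    filter_upwards [hmob, ae_mem k] with b hb hbk
    have h1 := hb.1
    rw [hσ.mul a hak b hbk, mul_pow] at h1
    linear_combination h1
  obtain ⟨hij, hC0, hAD, hB0⟩ := hq
  rw [zero_mul] at hB0
  have hD0 : D ≠ 0 := by
    rintro rfl
    apply hdet
    rw [hC0]
    ring
  have hDu : W.valuation D = 1 := hW.triv.eq_one (hle hD) hD0
  have h1 : W.valuation (z' - σ a * s') < 1 := by
    have e1 : z' ^ (ringExpChar L) ^ i * (C * s' ^ (ringExpChar L) ^ j + D) -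
        (A * s' ^ (ringExpChar L) ^ j + B) = D * (z' - σ a * s') ^ (ringExpChar L) ^ i := by
      rw [sub_pow_q, mul_pow, ← hij, hC0, hAD, hB0]
      ring
    rw [e1, map_mul, hDu, one_mul, map_pow] at hval
    by_contra hge
    exact absurd hval (not_lt.2 (one_le_pow₀ (not_lt.1 hge)))
  have hs1 : W.valuation s' ≤ 1 := (W.valuation_le_one_iff _).2 (hW.triv _ (mem_adj G' s'))
  have h2 : W.valuation (z' - t' * s') < 1 := by
    have e1 : z' - t' * s' = (z' - σ a * s') - (t' - σ a) * s' := by ring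
    rw [e1]
    refine lt_of_le_of_lt (Valuation.map_sub _ _ _) (max_lt h1 ?_)
    rw [map_mul]
    exact lt_of_le_of_lt (mul_le_of_le_one_right' hs1) hW.lt
  exact h2.ne (hun W hW)

theorem Hyp.exists_alpha (H : Hyp ℓ k l Θ) : ∃ (σ : K → L) (e : ZMod ℓ) (A : K →+* L),
    IsoOn k l σ ∧ e ≠ 0 ∧ (∀ b ∈ k, A b = σ b) ∧ ∀ s, Good k s → Nm k l Θ σ e s (A s) := by
  classical
  obtain ⟨σ, e, hσ, he, hall⟩ := H.exists_sigma
  let α : K → L := fun s => if h : Good k s then (hall s h).choose else 0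
  have hα : ∀ s, Good k s → Nm k l Θ σ e s (α s) := by
    intro s hs
    have h1 : α s = (hall s hs).choose := dif_pos hs
    rw [h1]
    exact (hall s hs).choose_spec
  obtain ⟨A, hA⟩ := extend_hom {s | Good k s} (Ind k) α (fun x y h => h.symm H.ack)
    (fun x y hx hy hxy hind => by
      have h1 : Good k (y + x) := by rw [add_comm]; exact hxy
      have h2 := H.Nm_add hσ he hind (hα y hy) (hα x hx) (hα (y + x) h1)
      rw [add_comm x y, h2, add_comm])
    (fun x y hx hy hxy hind => by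
      have h1 : Good k (y * x) := by rw [mul_comm]; exact hxy
      have h2 := H.Nm_mul hσ he hind (hα y hy) (hα x hx) (hα (y * x) h1)
      rw [mul_comm x y, h2, mul_comm])
    (fun x hx h0 => by
      have h1 := (hα x hx).rt.good'.1
      apply h1
      rw [h0]
      exact l.zero_mem)
    (fun A B hB => exists_gen_add H.ack H.fgk H.trk A B hB)
    (fun h t ht => exists_gen_mul H.ack H.fgk H.trk h t ht)
  have hAN : ∀ s, Good k s → Nm k l Θ σ e s (A s) := by
    intro s hs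
    rw [hA s hs]
    exact hα s hs
  refine ⟨σ, e, A, hσ, he, ?_, hAN⟩
  intro b hb
  obtain ⟨t, ht⟩ := exists_gen_add H.ack H.fgk H.trk {0} ∅ (by simp)
  have hs : Good k (0 + t) := (ht 0 (by simp)).1
  have h1 := (hAN _ hs).add_const H.ack H.acl hσ he hb
  have h2 := (hAN _ h1.rt.good).unique H.ack H.acl H.fgl hσ he h1
  rw [map_add] at h2
  exact add_left_cancel h2

end Vale.Agent.P019P
end

section

/-!
# The main theorem
-/

namespace Vale.Agent.P019P

open Vale.Agent.P019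

set_option linter.style.haveILetI false
set_option linter.unusedSectionVars false

open Polynomial Filter

variable {K L : Type*} [Field K] [Field L] [PerfectField K] [PerfectField L] {ℓ : ℕ} [Fact ℓ.Prime]
  [NeZero (ℓ : K)] [NeZero (ℓ : L)]
  {k : Subfield K} {l : Subfield L} {Θ : V ℓ K ≃ₗ[ZMod ℓ] V ℓ L}

/-- induction for `end_ratF`. -/
theorem end_ratF_aux {K : Type*} [Field K] [PerfectField K] {k : Subfield K} {e y : K}
    (he : ¬ IsAlgebraic k e) (hy : ¬ IsAlgebraic (adj k e) y) (T : Finset K) :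
    ∃ (G : Subfield K) (s : K), RatF k G ∧ y ∈ adj G s ∧
      ¬ IsAlgebraic G s ∧ ¬ IsAlgebraic (adj G s) e ∧
      ∀ t ∈ T, IsAlgebraic (adj (adj G s) e) t := by
  classical
  induction T using Finset.induction_on with
  | empty =>
    refine ⟨k, y, RatF.base, mem_adj _ _, fun h => hy (isAlgebraic_mono (le_adj k e) h),
      fun h => hy (exchange he h), ?_⟩
    intro t ht
    exact absurd ht (Finset.notMem_empty t)
  | insert t T _ ih =>
    obtain ⟨G, s, hG, hyG, hs, he', hT⟩ := ih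
    by_cases ht : IsAlgebraic (adj (adj G s) e) t
    · refine ⟨G, s, hG, hyG, hs, he', ?_⟩
      intro t' ht'
      rcases Finset.mem_insert.1 ht' with h | h
      · rw [h]
        exact ht
      · exact hT t' h
    · refine ⟨adj G s, t, RatF.step hG hs, le_adj _ _ hyG,
        fun h => ht (isAlgebraic_mono (le_adj _ e) h), fun h => ht (exchange he' h), ?_⟩
      intro t' ht'
      rcases Finset.mem_insert.1 ht' with h | h
      · rw [h]
        exact isAlgebraic_of_mem (le_adj _ e (mem_adj _ t))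
      · exact isAlgebraic_mono (adj_mono (le_adj _ t) e) (hT t' h)

/-- existence of a frame with rational `G`, containing a given element. -/
theorem end_ratF {K : Type*} [Field K] [PerfectField K] {k : Subfield K} (hk : IsAlgClosed k)
    (hfg : FG k (⊤ : Subfield K)) {e y : K} (he : ¬ IsAlgebraic k e)
    (hy : ¬ IsAlgebraic (adj k e) y) : ∃ (G : Subfield K) (s : K), RatF k G ∧ y ∈ adj G s ∧
      Frame k G e s := by
  haveI : PerfectField k := by
    haveI := hk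
    infer_instance
  obtain ⟨S, hS⟩ := hfg
  obtain ⟨G, s, hG, hyG, hs, hes, hT⟩ := end_ratF_aux he hy S
  refine ⟨G, s, hG, hyG, hG.le, hG.fg, hes, hs, fun z => ?_⟩
  have h1 : (⊤ : Subfield K) ≤ rac (adj (adj G s) e) := by
    rw [hS]
    refine pf_le (sup_le ?_ (Subfield.closure_le.2 fun w hw => mem_rac.2 (hT w hw)))
    exact hG.le.trans ((le_adj G s).trans ((le_adj _ e).trans (le_rac _)))
  exact mem_rac.1 (h1 (Subfield.mem_top z))

theorem Hyp.end_rel (H : Hyp ℓ k l Θ) {A : K →+* L} (hA : ∀ c ∈ k, A c ∈ l)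
    (hA' : ∀ β ∈ l, ∃ b ∈ k, A b = β) {e : ZMod ℓ} (he : e ≠ 0) {t s : K}
    (ht : Rt k l Θ t (A t)) (hs : Rt k l Θ s (A s)) (hst : ¬ IsAlgebraic (adj k s) t)
    (hc : ∀ᶠ a in ae k, Cor k l Θ t (A t) e a (A a)) :
    ∃ F' : Subfield L, RatF l F' ∧ ¬ IsAlgebraic F' (A t) ∧
      (∀ z : L, IsAlgebraic (adj F' (A t)) z) ∧ adj l (A s) ≤ F' ∧
      ∀ᶠ a in ae k, ∃ u : ValuationSubring L, TrivOn u F' ∧ u.valuation (A t - A a) < 1 ∧
        ∀ b ∈ k, Θ (cl ℓ (s - b) - cl ℓ (t + s - a - b)) ∈ U1 ℓ u := by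
  have hrl := RAC_of_isAlgClosed l H.acl
  have hs' : ¬ IsAlgebraic l (A s) := fun h => hs.good'.1 (hrl _ h)
  have ht' : ¬ IsAlgebraic l (A t) := fun h => ht.good'.1 (hrl _ h)
  have hst' : ¬ IsAlgebraic (adj l (A s)) (A t) := fun h => hst (end_alg hA' h)
  obtain ⟨G, s₁, hR, hsG, hG⟩ := end_ratF H.acl H.fgl ht' (fun h => hst' (exchange hs' h))
  obtain ⟨θ, hθ⟩ := hG.nice H.fgl
  have hlF : l ≤ adj G s₁ := hG.le.trans (le_adj _ _)
  have hsF : adj l (A s) ≤ adj G s₁ := adj_le hlF hsG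
  refine ⟨adj G s₁, RatF.step hR hG.ss, hG.tt, hG.alg, hsF, ?_⟩
  have h1 : ∀ᶠ a in ae l, ∀ W : ValuationSubring L, Over W (adj G s₁) (A t) a →
      Nice W (adj G s₁) (A t - a) θ := ae_mono hlF hθ
  have h2 := ae_of_image hA h1
  filter_upwards [h2, hc, ae_mem k] with a h2 hc ha
  obtain ⟨W, hW⟩ := exists_over hG.tt (hlF (hA a ha))
  have hN := h2 W hW
  have hWs : TrivOn W (adj l (A s)) := hN.triv.mono hsF
  have hfgF : FG l (adj G s₁) := hG.fg.adj_right _
  obtain ⟨O, hOk, hT⟩ := H.symm.exists_tr hlF hfgF hN hs.good' hWs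
  have hOs : TrivOn O (adj k s) := H.symm.triv_crv hlF hfgF hN hOk hT hs.good'.1 hWs
    (Crv.of_good hs.good) (fun v hv => (hs.map _).1 (by rwa [LinearEquiv.apply_symm_apply]))
  have hOt : O.valuation (t - a) < 1 :=
    H.centre ht ha (hA a ha) he hc (hWs.mono (le_adj _ _)) hN.unif hOk hT
  refine ⟨W, hN.triv, hW.lt, ?_⟩
  intro b hb
  have h3 : cl ℓ (s - b) - cl ℓ (t + s - a - b) ∈ U1 ℓ O := by
    rw [← neg_mem_iff, neg_sub]
    refine cl_sub_cl_mem_U1 (hOs.eq_one (Subfield.sub_mem _ (mem_adj _ _) (le_adj _ _ hb)) ?_) ?_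
    · intro h
      rw [sub_eq_zero] at h
      exact hs.good.1 (h ▸ hb)
    · have h4 : t + s - a - b - (s - b) = t - a := by ring
      rw [h4]
      exact hOt
  have h4 := (hT.iff (Θ (cl ℓ (s - b) - cl ℓ (t + s - a - b)))).1
  rw [LinearEquiv.symm_apply_apply] at h4
  exact h4 h3

theorem Hyp.exists_end (H : Hyp ℓ k l Θ) : ∃ (A : K →+* L) (e : ZMod ℓ), EndHyp ℓ k l Θ A e := by
  obtain ⟨σ, e, A, hσ, he, hA, hN⟩ := H.exists_alpha
  have h1 : ∀ c ∈ k, A c ∈ l := fun c hc => by rw [hA c hc]; exact hσ.mem c hc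
  have h2 : ∀ β ∈ l, ∃ b ∈ k, A b = β := by
    intro β hβ
    obtain ⟨b, hb, rfl⟩ := hσ.surj β hβ
    exact ⟨b, hb, hA b hb⟩
  have h3 : ∀ s, Good k s → ∀ᶠ b in ae k, Cor k l Θ s (A s) e b (A b) := by
    intro s hs
    filter_upwards [(hN s hs).cor, ae_mem k] with b hb hbk
    rwa [hA b hbk]
  exact ⟨A, e, he, h1, h2, fun s hs => (hN s hs).rt, h3, fun t s ht hs _ hst =>
    H.end_rel h1 h2 he (hN t ht).rt (hN s hs).rt hst (h3 t ht)⟩

theorem Hyp.final (H : Hyp ℓ k l Θ) :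
    ∃ (c : (ZMod ℓ)ˣ) (α : K ≃+* L), (∀ x, x ∈ k ↔ α x ∈ l) ∧
      ∀ x : K, Θ (cl ℓ x) = (c : ZMod ℓ) • cl ℓ (α x) := by
  obtain ⟨A, e, E⟩ := H.exists_end
  exact E.final H (fun y hy => H.symm.rt_all hy)

end Vale.Agent.P019P
end

section

/-!
# From algebras to models
-/

namespace Vale.Agent.P019

set_option linter.style.haveILetI false

open Polynomial

section iface

variable {k K : Type*} [Field k] [Field K] [Algebra k K]

/-- the image of the constants. -/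
def cst (k K : Type*) [Field k] [Field K] [Algebra k K] : Subfield K :=
  (algebraMap k K).fieldRange

theorem mem_cst {x : K} : x ∈ cst k K ↔ ∃ c : k, algebraMap k K c = x := RingHom.mem_fieldRange

theorem algebraMap_mem_cst (c : k) : algebraMap k K c ∈ cst k K := mem_cst.2 ⟨c, rfl⟩

/-- the constants and their image. -/
noncomputable def cstEquiv (k K : Type*) [Field k] [Field K] [Algebra k K] : k ≃+* cst k K :=
  RingEquiv.ofBijective ((algebraMap k K).codRestrict (cst k K) algebraMap_mem_cst)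
    ⟨RingHom.injective _, by
      rintro ⟨x, hx⟩
      obtain ⟨c, rfl⟩ := mem_cst.1 hx
      exact ⟨c, rfl⟩⟩

/-- X1 -/
theorem isAlgClosed_cst [IsAlgClosed k] : IsAlgClosed (cst k K) := by
  apply IsAlgClosed.of_exists_root
  intro p _ hirr
  have h1 : (p.map (cstEquiv k K).symm.toRingHom).degree ≠ 0 := by
    rw [degree_map]
    exact (degree_pos_of_irreducible hirr).ne'
  obtain ⟨c, hc⟩ := IsAlgClosed.exists_root _ h1
  refine ⟨cstEquiv k K c, ?_⟩
  have h2 := congrArg (cstEquiv k K) (hc : eval c _ = 0)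
  rw [map_zero] at h2
  have h3 : (p.map (cstEquiv k K).symm.toRingHom).map (cstEquiv k K).toRingHom = p := by
    rw [Polynomial.map_map]
    have h4 : (cstEquiv k K).toRingHom.comp (cstEquiv k K).symm.toRingHom =
        RingHom.id (cst k K) := by
      ext x
      simp
    rw [h4, Polynomial.map_id]
  have h5 : eval (cstEquiv k K c) p =
      cstEquiv k K (eval c (p.map (cstEquiv k K).symm.toRingHom)) := by
    conv_lhs => rw [← h3]
    rw [eval_map]
    exact (Polynomial.hom_eval₂ _ (RingHom.id k) (cstEquiv k K).toRingHom c).symm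
  change eval (cstEquiv k K c) p = 0
  rw [h5, h2]

theorem adjoin_cst (S : Set K) :
    (IntermediateField.adjoin k S).toSubfield = cst k K ⊔ Subfield.closure S := by
  apply le_antisymm
  · change Subfield.closure (Set.range (algebraMap k K) ∪ S) ≤ _
    rw [Subfield.closure_le]
    rintro z (⟨a, rfl⟩ | hz)
    · exact (le_sup_left : cst k K ≤ cst k K ⊔ Subfield.closure S) (algebraMap_mem_cst a)
    · exact (le_sup_right : Subfield.closure S ≤ cst k K ⊔ Subfield.closure S)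
        (Subfield.subset_closure hz)
  · refine sup_le ?_ ?_
    · intro z hz
      obtain ⟨c, rfl⟩ := mem_cst.1 hz
      exact (IntermediateField.adjoin k S).algebraMap_mem c
    · rw [Subfield.closure_le]
      exact IntermediateField.subset_adjoin k S

/-- X2 -/
theorem fg_cst [Algebra.EssFiniteType k K] : FG (cst k K) (⊤ : Subfield K) := by
  obtain ⟨S, hS⟩ := IntermediateField.fg_top k K
  refine ⟨S, ?_⟩
  rw [← adjoin_cst, hS]
  rfl

theorem isAlgebraic_adjoin_cst (S : Set K) (z : K) :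
    IsAlgebraic (Algebra.adjoin k S) z ↔
      IsAlgebraic (cst k K ⊔ Subfield.closure S : Subfield K) z := by
  rw [← IntermediateField.isAlgebraic_adjoin_iff, ← adjoin_cst]
  exact Iff.rfl

/-- X3 -/
theorem exists_two_of_trdeg (h : 2 ≤ Algebra.trdeg k K) :
    ∃ x y : K, x ∉ cst k K ∧ ¬ IsAlgebraic (adj (cst k K) x) y := by
  obtain ⟨s, hs⟩ := exists_isTranscendenceBasis k K
  have h1 : (2 : Cardinal) ≤ Cardinal.mk s := by
    rw [hs.cardinalMk_eq_trdeg]
    exact h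
  obtain ⟨x, y, hxy⟩ := Cardinal.two_le_iff.1 h1
  have h2 := hs.1
  have h3 : AlgebraicIndependent k (fun o : Option Unit => o.elim (y : K) (fun _ => (x : K))) := by
    have h4 : Function.Injective (fun o : Option Unit => o.elim y (fun _ => x)) := by
      rintro (_ | _) (_ | _) hab
      · rfl
      · exact absurd hab.symm hxy
      · exact absurd hab hxy
      · rfl
    have h5 := h2.comp _ h4
    have h6 : (fun o : Option Unit => o.elim (y : K) (fun _ => (x : K))) =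
        ((↑) : s → K) ∘ (fun o : Option Unit => o.elim y (fun _ => x)) := by
      funext o
      rcases o with _ | _ <;> rfl
    rw [h6]
    exact h5
  rw [AlgebraicIndependent.option_iff] at h3
  refine ⟨x, y, ?_, ?_⟩
  · intro hx
    obtain ⟨c, hc⟩ := mem_cst.1 hx
    have h4 := h2.transcendental x
    apply h4
    change IsAlgebraic k (x : K)
    rw [← hc]
    exact isAlgebraic_algebraMap c
  · intro hy
    apply h3.2
    rw [isAlgebraic_adjoin_cst]
    have h4 : Set.range (fun _ : Unit => (x : K)) = {(x : K)} := Set.range_const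
    rw [h4]
    exact hy

/-- X5 -/
theorem countable_cst_iff : ((cst k K : Subfield K) : Set K).Countable ↔ Countable k := by
  rw [← Set.countable_coe_iff]
  exact (cstEquiv k K).toEquiv.countable_iff.symm

end iface

end Vale.Agent.P019
end

section

/-!
# From function fields to their perfect closures
-/

namespace Vale.Agent.P019P

open Vale.Agent.P019

open scoped TensorProduct

section perf

variable {K K' : Type*} [Field K] [Field K'] [Algebra K K'] [IsPurelyInseparable K K']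

theorem exists_pow_mem (x : K') : ∃ (n : ℕ) (y : K),
    algebraMap K K' y = x ^ ringExpChar K ^ n := by
  obtain ⟨n, y, hy⟩ := IsPurelyInseparable.pow_mem K (ringExpChar K) x
  exact ⟨n, y, hy⟩

variable (K K') in
theorem Vmap_bij (ℓ : ℕ) [Fact ℓ.Prime] [NeZero (ℓ : K)] :
    Function.Bijective (Vmap ℓ (algebraMap K K')) := by
  have hℓ : ℓ.Prime := Fact.out
  constructor
  · rw [← LinearMap.ker_eq_bot, LinearMap.ker_eq_bot']
    intro v hv
    obtain ⟨x, hx0, rfl⟩ := cl_surj ℓ v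
    rw [Vmap_cl] at hv
    have hx0' : algebraMap K K' x ≠ 0 := (map_ne_zero _).2 hx0
    obtain ⟨w, hw0, hw⟩ := (cl_eq_zero_iff ℓ hx0').1 hv
    obtain ⟨n, y, hy⟩ := exists_pow_mem (K := K) w
    have h1 : y ^ ℓ = x ^ ringExpChar K ^ n := by
      apply (algebraMap K K').injective
      rw [map_pow, map_pow, hy, ← pow_mul, mul_comm, pow_mul, hw]
    have h2 : ((ringExpChar K ^ n : ℕ) : ZMod ℓ) • cl ℓ x = 0 := by
      rw [Nat.cast_smul_eq_nsmul, ← cl_pow, ← h1, cl_pow_self]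
    exact (smul_eq_zero.1 h2).resolve_left (q_pow_ne_zero ℓ K n)
  · intro v
    obtain ⟨x, hx0, rfl⟩ := cl_surj ℓ v
    obtain ⟨n, y, hy⟩ := exists_pow_mem (K := K) x
    refine ⟨((ringExpChar K ^ n : ℕ) : ZMod ℓ)⁻¹ • cl ℓ y, ?_⟩
    rw [map_smul, Vmap_cl, hy, cl_pow, ← Nat.cast_smul_eq_nsmul (ZMod ℓ), smul_smul,
      inv_mul_cancel₀ (q_pow_ne_zero ℓ K n), one_smul]

/-- the identification `V_K = V_{K'}` for a purely inseparable extension. -/
noncomputable def perfV (ℓ : ℕ) [Fact ℓ.Prime] (K K' : Type*) [Field K] [Field K'] [Algebra K K']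
    [IsPurelyInseparable K K'] [NeZero (ℓ : K)] : V ℓ K ≃ₗ[ZMod ℓ] V ℓ K' :=
  LinearEquiv.ofBijective (Vmap ℓ (algebraMap K K')) (Vmap_bij K K' ℓ)

theorem perfV_compatible {ℓ : ℕ} [Fact ℓ.Prime] [NeZero (ℓ : K)] :
    Compatible (perfV ℓ K K') := by
  have hcoe : (perfV ℓ K K').toLinearMap = Vmap ℓ (algebraMap K K') := rfl
  unfold Compatible
  rw [hcoe]
  apply le_antisymm
  · rw [Submodule.map_le_iff_le_comap]
    exact Vmap_R ℓ _
  · conv_lhs => unfold R
    rw [Submodule.span_le]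
    rintro _ ⟨x, y, hxy, rfl⟩
    obtain ⟨n, a, ha⟩ := exists_pow_mem (K := K) (x : K')
    obtain ⟨m, b, hb⟩ := exists_pow_mem (K := K) (y : K')
    have hq : ringExpChar K = ringExpChar K' := ringExpChar_eq_of_hom (algebraMap K K')
    have ha' : algebraMap K K' (a ^ ringExpChar K ^ m) = (x : K') ^ ringExpChar K ^ (n + m) := by
      rw [map_pow, ha, ← pow_mul, ← pow_add]
    have hb' : algebraMap K K' (b ^ ringExpChar K ^ n) = (y : K') ^ ringExpChar K ^ (n + m) := by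
      rw [map_pow, hb, ← pow_mul, ← pow_add, add_comm m]
    have hab : a ^ ringExpChar K ^ m + b ^ ringExpChar K ^ n = 1 := by
      apply (algebraMap K K').injective
      rw [map_add, ha', hb', map_one, hq, ← add_pow_q, hxy, one_pow]
    have ha0 : a ^ ringExpChar K ^ m ≠ 0 := by
      intro h
      rw [h, map_zero] at ha'
      exact pow_ne_zero _ x.ne_zero ha'.symm
    have hb0 : b ^ ringExpChar K ^ n ≠ 0 := by
      intro h
      rw [h, map_zero] at hb'
      exact pow_ne_zero _ y.ne_zero hb'.symm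
    have hmem : V.mk ℓ (Units.mk0 _ ha0) ⊗ₜ[ZMod ℓ] V.mk ℓ (Units.mk0 _ hb0) ∈ R ℓ K :=
      Submodule.subset_span ⟨_, _, hab, rfl⟩
    have h1 : ∀ (z : K) (u : K'ˣ), algebraMap K K' z = (u : K') ^ ringExpChar K ^ (n + m) →
        V.mk ℓ u = ((ringExpChar K ^ (n + m) : ℕ) : ZMod ℓ)⁻¹ •
          Vmap ℓ (algebraMap K K') (cl ℓ z) := by
      intro z u h
      rw [Vmap_cl, h, cl_pow, ← Nat.cast_smul_eq_nsmul (ZMod ℓ), smul_smul,
        inv_mul_cancel₀ (q_pow_ne_zero ℓ K _), one_smul, cl_unit]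
    have h2 := h1 _ x ha'
    have h3 := h1 _ y hb'
    rw [cl_of_ne ℓ ha0] at h2
    rw [cl_of_ne ℓ hb0] at h3
    rw [SetLike.mem_coe, h2, h3, TensorProduct.smul_tmul_smul]
    refine Submodule.smul_mem _ _ ⟨_, hmem, ?_⟩
    rw [TensorProduct.map_tmul]

theorem Compatible.trans {ℓ : ℕ} {K L M : Type*} [Field K] [Field L] [Field M]
    {Θ : V ℓ K ≃ₗ[ZMod ℓ] V ℓ L} {Φ : V ℓ L ≃ₗ[ZMod ℓ] V ℓ M} (h : Compatible Θ)
    (h' : Compatible Φ) : Compatible (Θ.trans Φ) := by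
  unfold Compatible at *
  rw [← h', ← h, ← Submodule.map_comp, ← TensorProduct.map_comp]
  rfl

end perf

section iface

variable {k K K' : Type*} [Field k] [Field K] [Field K'] [Algebra k K] [Algebra K K']

/-- the image of the constants in the perfect closure. -/
def cst' (k K K' : Type*) [Field k] [Field K] [Field K'] [Algebra k K] [Algebra K K'] :
    Subfield K' := (cst k K).map (algebraMap K K')

theorem mem_cst' {x : K'} : x ∈ cst' k K K' ↔
    ∃ c : k, algebraMap K K' (algebraMap k K c) = x := by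
  constructor
  · rintro ⟨y, hy, rfl⟩
    obtain ⟨c, rfl⟩ := mem_cst.1 hy
    exact ⟨c, rfl⟩
  · rintro ⟨c, rfl⟩
    exact ⟨_, algebraMap_mem_cst c, rfl⟩

theorem isAlgClosed_cst' [IsAlgClosed k] : IsAlgClosed (cst' k K K') := by
  letI : Algebra k K' := ((algebraMap K K').comp (algebraMap k K)).toAlgebra
  have h : cst' k K K' = cst k K' := by
    ext x
    rw [mem_cst', mem_cst]
    exact Iff.rfl
  rw [h]
  exact isAlgClosed_cst

theorem countable_cst'_iff : ((cst' k K K' : Subfield K') : Set K').Countable ↔ Countable k := by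
  letI : Algebra k K' := ((algebraMap K K').comp (algebraMap k K)).toAlgebra
  have h : cst' k K K' = cst k K' := by
    ext x
    rw [mem_cst', mem_cst]
    exact Iff.rfl
  rw [h]
  exact countable_cst_iff

theorem fg_cst' [Algebra.EssFiniteType k K] [IsPurelyInseparable K K'] :
    FG (cst' k K K') (⊤ : Subfield K') := by
  classical
  obtain ⟨S, hS⟩ := fg_cst (k := k) (K := K)
  refine ⟨S.image (algebraMap K K'), ?_⟩
  symm
  rw [eq_top_iff]
  intro x _
  obtain ⟨n, y, hy⟩ := exists_pow_mem (K := K) x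
  refine mem_pf.2 ⟨n, ?_⟩
  rw [← ringExpChar_eq_of_hom (algebraMap K K'), ← hy]
  have h1 : y ∈ cst k K ⊔ Subfield.closure (S : Set K) := by
    rw [← hS]; trivial
  have h2 : cst k K ⊔ Subfield.closure (S : Set K) ≤
      (cst' k K K' ⊔ Subfield.closure ((S.image (algebraMap K K') : Finset K') : Set K')).comap
        (algebraMap K K') := by
    refine sup_le ?_ ?_
    · intro z hz
      exact (le_sup_left : cst' k K K' ≤ _) ⟨z, hz, rfl⟩
    · rw [Subfield.closure_le]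
      intro z hz
      refine (le_sup_right : Subfield.closure _ ≤ _) (Subfield.subset_closure ?_)
      exact Finset.mem_coe.2 (Finset.mem_image_of_mem _ hz)
  exact h2 h1

theorem exists_two' (h : 2 ≤ Algebra.trdeg k K) :
    ∃ x y : K', x ∉ cst' k K K' ∧ ¬ IsAlgebraic (adj (cst' k K K') x) y := by
  obtain ⟨x, y, hx, hy⟩ := Vale.Agent.P019.exists_two_of_trdeg (k := k) (K := K) h
  refine ⟨algebraMap K K' x, algebraMap K K' y, ?_, ?_⟩
  · rintro ⟨z, hz, hzx⟩
    exact hx ((algebraMap K K').injective hzx ▸ hz)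
  · intro h'
    rw [isAlgebraic_adj] at h'
    apply hy
    apply Vale.Agent.P019.Gn.isAlgebraic_of_map (Ω := K')
    have h1 : Vale.Agent.P019.adj (cst' k K K') (algebraMap K K' x) ≤
        (Vale.Agent.P019.adj (cst k K) x).map (algebraMap K K') := by
      refine Vale.Agent.P019.adj_le ?_ ⟨x, Vale.Agent.P019.mem_adj _ _, rfl⟩
      rintro _ ⟨z, hz, rfl⟩
      exact ⟨z, Vale.Agent.P019.le_adj _ _ hz, rfl⟩
    exact isAlgebraic_mono h1 h'

end iface

end Vale.Agent.P019P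
end

section

/-!
# The number of places over a point
-/

namespace Vale.Agent.P019P

open Vale.Agent.P019

set_option linter.style.haveILetI false
set_option linter.unusedSectionVars false

open Polynomial IntermediateField

variable {F : Type*} [Field F] [PerfectField F] {k : Subfield F}

/-- the number of places over a point. -/
theorem Cv.fib_card (h : Cv k) {x : F} (hx : x ∉ k) :
    {O : ValuationSubring F | O ∈ Plc k ∧ O.valuation x < 1}.Finite ∧
    {O : ValuationSubring F | O ∈ Plc k ∧ O.valuation x < 1}.ncard ≤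
      Module.finrank (adj k x) F := by
  classical
  obtain ⟨E, hxE, hE, -, hfin⟩ := h.exists_sepMod hx
  haveI := hE.cff h
  obtain ⟨φ, hφ⟩ := hE.exists_plc h
  set x' : E := ⟨x, hxE⟩ with hx'
  have hx'k : ∀ a : k, x' ≠ algebraMap k E a := by
    intro a ha
    apply hx
    have h1 : x = (a : F) := congrArg Subtype.val ha
    rw [h1]
    exact a.2
  have hx0 : x' ≠ 0 := by
    intro h0
    apply hx
    have h1 : x = 0 := congrArg Subtype.val h0
    rw [h1]
    exact k.zero_mem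
  have hZ := zeros_finite hx'k
  have hsub : {O : ValuationSubring F | O ∈ Plc k ∧ O.valuation x < 1} ⊆
      (fun P : Plk k E => ((φ P).1 : ValuationSubring F)) '' {P : Plk k E | 0 < ord P x'} := by
    rintro O ⟨hO, hOx⟩
    refine ⟨φ.symm ⟨O, hO⟩, ?_, ?_⟩
    · have h1 := (Mod.val_lt_one_iff (P := φ.symm ⟨O, hO⟩) (O := O) (fun z => by
        have h2 := hφ (φ.symm ⟨O, hO⟩) z
        rwa [Equiv.apply_symm_apply] at h2) x').1 hOx
      exact h1.resolve_left hx0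
    · change ((φ (φ.symm ⟨O, hO⟩)).1 : ValuationSubring F) = O
      rw [Equiv.apply_symm_apply]
  refine ⟨(hZ.image _).subset hsub, ?_⟩
  refine (Set.ncard_le_ncard hsub (hZ.image _)).trans ?_
  refine (Set.ncard_image_le hZ).trans ?_
  rw [hfin, Set.ncard_eq_toFinset_card _ hZ]
  have h1 := sum_ord_le hx'k hZ.toFinset (fun P hP => hZ.mem_toFinset.1 hP)
  have h2 : (hZ.toFinset.card : ℤ) ≤ ∑ P ∈ hZ.toFinset, ord P x' := by
    rw [Finset.card_eq_sum_ones, Nat.cast_sum]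
    refine Finset.sum_le_sum fun P hP => ?_
    have h3 : 0 < ord P x' := hZ.mem_toFinset.1 hP
    push_cast
    omega
  exact_mod_cast h2.trans h1

end Vale.Agent.P019P
end

section

/-!
# The quotient by `ℓ`, and characters
-/

namespace Vale.Agent.P019P

theorem Tower.finite_quot {J : Type*} [AddCommGroup J] {φ : AddMonoid.End J} {ℓ N c : ℕ}
    (hℓ : ℓ.Prime) (h : Tower φ ℓ N c) (htor : ∀ x : J, ∃ n : ℕ, 0 < n ∧ n • x = 0) :
    Finite (J ⧸ (nsmulAddMonoidHom ℓ : J →+ J).range) :=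
  Tower.finite_quotA hℓ h htor

theorem pow_fix {J : Type*} [AddCommGroup J] (s : AddMonoid.End J) {a : ℕ} {x : J}
    (h : (s ^ a) x = x) (b : ℕ) : (s ^ (a * b)) x = x := by
  induction b with
  | zero => rw [mul_zero, pow_zero]; rfl
  | succ b ih =>
    rw [Nat.mul_succ, pow_add]
    change (s ^ (a * b)) ((s ^ a) x) = x
    rw [h, ih]

theorem exists_char {J : Type*} [AddCommGroup J] (s : AddMonoid.End J) (ℓ : ℕ)
    (hper : ∀ x : J, ∃ n : ℕ, 0 < n ∧ (s ^ n) x = x)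
    (hfin : Finite (J ⧸ (nsmulAddMonoidHom ℓ : J →+ J).range)) (x : J)
    (hx : ¬ ∃ y, x = ℓ • y) :
    ∃ (n : ℕ) (ψ : AddChar J ℂ) (x' : J), 0 < n ∧ (∀ y, ψ ((s ^ n) y) = ψ y) ∧
      (∀ y, ψ (ℓ • y) = 1) ∧ (s ^ n) x' = x' ∧ ψ x' ≠ 1 := by
  classical
  set Q := J ⧸ (nsmulAddMonoidHom ℓ : J →+ J).range with hQ
  have := Fintype.ofFinite Q
  let mk : J →+ Q := QuotientAddGroup.mk' _
  have hmk : ∀ y : J, mk y = 0 ↔ ∃ z, y = ℓ • z := by
    intro y
    change ((y : J) : J ⧸ (nsmulAddMonoidHom ℓ : J →+ J).range) = 0 ↔ _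
    rw [QuotientAddGroup.eq_zero_iff]
    constructor
    · rintro ⟨z, hz⟩
      exact ⟨z, hz.symm⟩
    · rintro ⟨z, hz⟩
      exact ⟨z, hz.symm⟩
  have hsurj : ∀ q : Q, ∃ y : J, mk y = q := QuotientAddGroup.mk'_surjective _
  choose r hr using hsurj
  choose p hp0 hp using fun q => hper (r q)
  set n := ∏ q : Q, p q with hn
  have hfix : ∀ q, (s ^ n) (r q) = r q := by
    intro q
    obtain ⟨m, hm⟩ : p q ∣ n := Finset.dvd_prod_of_mem _ (Finset.mem_univ q)
    rw [hm]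
    exact pow_fix s (hp q) m
  have hinv : ∀ y, mk ((s ^ n) y) = mk y := by
    intro y
    have h1 : mk (y - r (mk y)) = 0 := by rw [map_sub, hr, sub_self]
    obtain ⟨z, hz⟩ := (hmk _).1 h1
    have h2 : y = r (mk y) + ℓ • z := by rw [← hz]; abel
    have h3 : (s ^ n) y = r (mk y) + ℓ • (s ^ n) z := by
      conv_lhs => rw [h2]
      rw [map_add, hfix, map_nsmul]
    rw [h3, map_add, hr, (hmk (ℓ • (s ^ n) z)).2 ⟨_, rfl⟩, add_zero]
  have hx0 : mk x ≠ 0 := fun h => hx ((hmk x).1 h)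
  obtain ⟨ψ0, hψ0⟩ := AddChar.exists_apply_ne_zero.2 hx0
  refine ⟨n, ψ0.compAddMonoidHom mk, r (mk x), Finset.prod_pos fun q _ => hp0 q, ?_, ?_, hfix _, ?_⟩
  · intro y
    rw [AddChar.compAddMonoidHom_apply, AddChar.compAddMonoidHom_apply, hinv]
  · intro y
    rw [AddChar.compAddMonoidHom_apply, (hmk (ℓ • y)).2 ⟨_, rfl⟩, AddChar.map_zero_eq_one]
  · rw [AddChar.compAddMonoidHom_apply, hr]
    exact hψ0

end Vale.Agent.P019P
end

section

/-!
# The abstract zeta theorem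
-/

namespace Vale.Agent.P019P

open Polynomial

variable {P : Type*}

theorem pv_aux {ℓ : ℕ} (hℓ : ℓ.Prime) {N a b : ℕ} {u : ℤ} (ha : 0 < a)
    (hu : ¬ (ℓ : ℤ) ∣ u) (h : (b : ℤ) = a * (ℓ ^ N * u)) :
    padicValNat ℓ b = padicValNat ℓ a + N := by
  have := Fact.mk hℓ
  have hu0 : u ≠ 0 := by
    rintro rfl
    exact hu (dvd_zero _)
  have h1 : b = a * (ℓ ^ N * u.natAbs) := by
    have h2 := congrArg Int.natAbs h
    rw [Int.natAbs_natCast, Int.natAbs_mul, Int.natAbs_mul, Int.natAbs_natCast, Int.natAbs_pow,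
      Int.natAbs_natCast] at h2
    exact h2
  have h3 : u.natAbs ≠ 0 := Int.natAbs_ne_zero.2 hu0
  have h4 : ℓ ^ N ≠ 0 := pow_ne_zero _ hℓ.pos.ne'
  have h5 : padicValNat ℓ u.natAbs = 0 := by
    apply padicValNat.eq_zero_of_not_dvd
    intro h6
    exact hu (Int.natCast_dvd.2 h6)
  rw [h1, padicValNat.mul ha.ne' (mul_ne_zero h4 h3), padicValNat.mul h4 h3,
    padicValNat.prime_pow, h5, Nat.add_zero]

theorem ZDat.grow (Z : ZDat P) {ℓ : ℕ} (hℓ : ℓ.Prime) (hq : ¬ ℓ ∣ Z.q) :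
    Grow ℓ (2 * Z.g) Z.hh := by
  obtain ⟨A, f, hf, h0, h2g, hA, hh, -⟩ := Z.zeta
  obtain ⟨M, hM, hdet⟩ := zm_exists_matrix (2 * Z.g) f hf h0
  have hMd : ¬ (ℓ : ℤ) ∣ M.det := by
    rw [hdet, h2g, pow_mul, neg_one_sq, one_pow, one_mul]
    intro h
    have h1 := (Nat.prime_iff_prime_int.1 hℓ).dvd_of_dvd_pow h
    exact hq (Int.natCast_dvd_natCast.1 h1)
  have hd : ∀ n, 0 < n → (Z.hh n : ℤ) = (1 - M ^ n).det := by
    intro n hn
    have h1 := det_one_sub_pow M A (by rw [hM]; exact hA) n hn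
    have h2 : (((Z.hh n : ℤ)) : ℂ) = (((1 - M ^ n).det : ℤ) : ℂ) := by
      rw [h1, ← hh n hn]
      push_cast
      rfl
    exact_mod_cast h2
  obtain ⟨n0, hn0, h1, h2⟩ := det_growth hℓ M hMd
  refine ⟨fun n hn => Z.hh_pos n hn, n0, hn0, ?_, ?_⟩
  · intro n hn hd0
    obtain ⟨u, hu, h3⟩ := h1 n hd0
    rw [← hd _ (Nat.mul_pos hn hℓ.pos), ← hd n hn] at h3
    exact pv_aux hℓ (Z.hh_pos n hn) hu h3
  · intro n r hn hd0 hr
    obtain ⟨u, hu, h3⟩ := h2 n r hd0 hr
    have hr0 : 0 < r := by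
      rcases Nat.eq_zero_or_pos r with h | h
      · rw [h] at hr
        exact absurd (dvd_zero _) hr
      · exact h
    rw [← hd _ (Nat.mul_pos hn hr0), ← hd n hn] at h3
    have h4 := pv_aux (N := 0) hℓ (Z.hh_pos n hn) hu (by rw [pow_zero, one_mul]; exact h3)
    rw [h4, Nat.add_zero]

theorem ZDat.exists_tower (Z : ZDat P) {ℓ : ℕ} (hℓ : ℓ.Prime) (hq : ¬ ℓ ∣ Z.q) :
    ∃ n0 c : ℕ, Tower (Z.sJ ^ n0) ℓ (2 * Z.g) c :=
  Vale.Agent.P019P.exists_tower Z.sJ hℓ Z.sJ_per Z.sJ_fin (Z.grow hℓ hq)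

theorem ZDat.torsion (Z : ZDat P) (x : Z.J) : ∃ n : ℕ, 0 < n ∧ n • x = 0 := by
  obtain ⟨n, hn, hx⟩ := Z.sJ_per x
  have hfin := Z.sJ_fin n hn
  -- the multiples of `x` are all fixed, hence not pairwise distinct
  have hfix : ∀ k : ℕ, k • x ∈ {y : Z.J | (Z.sJ ^ n) y = y} := by
    intro k
    change (Z.sJ ^ n) (k • x) = k • x
    rw [map_nsmul, hx]
  have hni : ¬ Function.Injective (fun k : ℕ => k • x) := by
    intro hinj
    have h1 : (Set.range (fun k : ℕ => k • x)).Infinite := Set.infinite_range_of_injective hinj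
    exact h1 (hfin.subset (by rintro _ ⟨k, rfl⟩; exact hfix k))
  rw [Function.Injective] at hni
  push Not at hni
  obtain ⟨a, b, hab, hne⟩ := hni
  rcases lt_or_gt_of_ne hne with h | h
  · refine ⟨b - a, Nat.sub_pos_of_lt h, ?_⟩
    have h2 : (b - a) • x + a • x = 0 + a • x := by
      rw [← add_nsmul, Nat.sub_add_cancel h.le, zero_add]
      exact hab.symm
    exact add_right_cancel h2
  · refine ⟨a - b, Nat.sub_pos_of_lt h, ?_⟩
    have h2 : (a - b) • x + b • x = 0 + b • x := by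
      rw [← add_nsmul, Nat.sub_add_cancel h.le, zero_add]
      exact hab
    exact add_right_cancel h2

theorem ZDat.divJ (Z : ZDat P) {ℓ : ℕ} (hℓ : ℓ.Prime) (hq : ¬ ℓ ∣ Z.q) (x : Z.J) :
    ∃ y, x = ℓ • y := by
  by_contra hx
  obtain ⟨n0, c, ht⟩ := Z.exists_tower hℓ hq
  obtain ⟨n, ψ, x', hn, h1, h2, h3, h4⟩ :=
    exists_char Z.sJ ℓ Z.sJ_per (ht.finite_quot hℓ Z.torsion) x hx
  exact h4 (Z.no_char hℓ.pos n hn ψ h1 h2 x' h3)

/-- every class of degree zero is divisible by `ℓ`. -/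
theorem ZDat.divisible (Z : ZDat P) {ℓ : ℕ} (hℓ : ℓ.Prime) (hq : ¬ ℓ ∣ Z.q) (D : P →₀ ℤ)
    (hD : dg D = 0) : ∃ E : P →₀ ℤ, dg E = 0 ∧ D - ℓ • E ∈ Z.prin := by
  have hx : Z.cl D ∈ Z.deg.ker := by
    rw [AddMonoidHom.mem_ker, Z.deg_cl, hD]
  obtain ⟨y, hy⟩ := Z.divJ hℓ hq ⟨Z.cl D, hx⟩
  obtain ⟨E, hE⟩ := Z.cl_surj y.1
  refine ⟨E, ?_, ?_⟩
  · rw [← Z.deg_cl, hE]
    exact y.2
  · rw [← Z.cl_eq, map_nsmul, hE]
    have h1 := congrArg (fun z : Z.J => (z : Z.Pic)) hy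
    exact h1

/-- the number of `ℓ`-torsion classes. -/
theorem ZDat.card_tors (Z : ZDat P) {ℓ : ℕ} (hℓ : ℓ.Prime) (hq : ¬ ℓ ∣ Z.q) :
    Nat.card {x : (P →₀ ℤ) ⧸ Z.prin // ℓ • x = 0} = ℓ ^ (2 * Z.g) := by
  obtain ⟨n0, c, ht⟩ := Z.exists_tower hℓ hq
  rw [← ht.card_tors hℓ (Z.divJ hℓ hq)]
  have key : ∀ x : Z.Pic, ℓ • x = 0 → x ∈ Z.deg.ker := by
    intro x hx
    rw [AddMonoidHom.mem_ker]
    have h1 := congrArg Z.deg hx
    rw [map_nsmul, map_zero, nsmul_eq_mul] at h1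
    exact (mul_eq_zero.1 h1).resolve_left (by exact_mod_cast hℓ.pos.ne')
  exact Nat.card_congr
    { toFun := fun x => ⟨⟨x.1, key x.1 x.2⟩, Subtype.ext x.2⟩
      invFun := fun x => ⟨x.1.1, congrArg (fun z : Z.J => (z : Z.Pic)) x.2⟩
      left_inv := fun _ => rfl
      right_inv := fun _ => rfl }

end Vale.Agent.P019P
end

section

/-!
# The abstract zeta theorem: interface

The degree `dg` is in `Dg`, the data `ZDat` in `ZDef`, the theorems `ZDat.divisible` and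
`ZDat.card_tors` in `ZMain`.
-/
end

section

/-!
# Semilinear isomorphisms act on places and divisors
-/

namespace Vale.Agent.P019P

open Polynomial IntermediateField

namespace AuxFAct

section

variable {F : Type*} [Field F] {O : ValuationSubring F} {f g : F → ℤ}

theorem f_one (hf : IsOrd O f) : f 1 = 0 := by
  have h := hf.mul 1 1 one_ne_zero one_ne_zero
  rw [mul_one] at h
  omega

theorem f_inv (hf : IsOrd O f) {z : F} (hz : z ≠ 0) : f z⁻¹ = - f z := by
  have h := hf.mul z z⁻¹ hz (inv_ne_zero hz)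
  rw [mul_inv_cancel₀ hz, f_one hf] at h
  omega

theorem f_pow (hf : IsOrd O f) {z : F} (hz : z ≠ 0) (n : ℕ) : f (z ^ n) = n * f z := by
  induction n with
  | zero => rw [pow_zero, f_one hf]; simp
  | succ n ih =>
    rw [pow_succ, hf.mul _ _ (pow_ne_zero n hz) hz, ih]
    push_cast
    ring

theorem f_zpow (hf : IsOrd O f) {z : F} (hz : z ≠ 0) (n : ℤ) : f (z ^ n) = n * f z := by
  rcases Int.eq_nat_or_neg n with ⟨m, rfl | rfl⟩
  · rw [zpow_natCast, f_pow hf hz]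
  · rw [zpow_neg, zpow_natCast, f_inv hf (pow_ne_zero m hz), f_pow hf hz]
    ring

theorem nonneg_iff (hf : IsOrd O f) (hg : IsOrd O g) {z : F} (hz : z ≠ 0) :
    0 ≤ f z ↔ 0 ≤ g z := by
  have h1 := hf.mem z
  have h2 := hg.mem z
  constructor
  · intro h
    exact (h2.1 (h1.2 (Or.inr h))).resolve_left hz
  · intro h
    exact (h1.1 (h2.2 (Or.inr h))).resolve_left hz

theorem zero_iff (hf : IsOrd O f) (hg : IsOrd O g) {z : F} (hz : z ≠ 0) (h : f z = 0) :
    g z = 0 := by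
  have h1 := (nonneg_iff hf hg hz).1 h.ge
  have h2 := (nonneg_iff hf hg (inv_ne_zero hz)).1 (by rw [f_inv hf hz, h]; simp)
  rw [f_inv hg hz] at h2
  omega

end

end AuxFAct

open AuxFAct in
/-- the normalised valuation is unique. -/
theorem IsOrd.ext {F : Type*} [Field F] {O : ValuationSubring F} {f g : F → ℤ}
    (hf : IsOrd O f) (hg : IsOrd O g) : f = g := by
  obtain ⟨π, hπ⟩ := hf.one
  obtain ⟨π', hπ'⟩ := hg.one
  have hπ0 : π ≠ 0 := by
    rintro rfl
    rw [hf.zero] at hπ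
    exact zero_ne_one hπ
  have hπ0' : π' ≠ 0 := by
    rintro rfl
    rw [hg.zero] at hπ'
    exact zero_ne_one hπ'
  have key : ∀ z, z ≠ 0 → g z = f z * g π := by
    intro z hz
    have h1 : z * π ^ (-f z) ≠ 0 := mul_ne_zero hz (zpow_ne_zero _ hπ0)
    have h2 : f (z * π ^ (-f z)) = 0 := by
      rw [hf.mul _ _ hz (zpow_ne_zero _ hπ0), f_zpow hf hπ0, hπ]
      ring
    have h3 := zero_iff hf hg h1 h2
    rw [hg.mul _ _ hz (zpow_ne_zero _ hπ0), f_zpow hg hπ0] at h3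
    linarith
  have h0 : 0 ≤ g π := (nonneg_iff hf hg hπ0).1 (by rw [hπ]; exact zero_le_one)
  have h1 := key π' hπ0'
  rw [hπ'] at h1
  have h2 : g π = 1 := Int.eq_one_of_mul_eq_one_left h0 h1.symm
  funext z
  by_cases hz : z = 0
  · rw [hz, hf.zero, hg.zero]
  · rw [key z hz, h2, mul_one]

section

variable {k F k' F' : Type*} [Field k] [Field F] [Algebra k F] [CFF k F]
  [Field k'] [Field F'] [Algebra k' F'] [CFF k' F']

/-- the action of a semilinear isomorphism on places. -/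
noncomputable def plEquiv (e : F ≃+* F') (e₀ : k ≃+* k')
    (h : ∀ a, e (algebraMap k F a) = algebraMap k' F' (e₀ a)) : Plk k F ≃ Plk k' F' where
  toFun P := ⟨P.1.comap (e.symm : F' →+* F), by
    refine ⟨fun b => ?_, fun hP => P.2.2 ?_⟩
    · rw [ValuationSubring.mem_comap]
      have h1 : (e.symm : F' →+* F) (algebraMap k' F' b) = algebraMap k F (e₀.symm b) := by
        have h2 := h (e₀.symm b)
        rw [RingEquiv.apply_symm_apply] at h2
        rw [← h2]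
        exact e.symm_apply_apply _
      rw [h1]
      exact P.2.1 _
    · ext z
      refine ⟨fun _ => ValuationSubring.mem_top z, fun _ => ?_⟩
      have h1 : e z ∈ P.1.comap (e.symm : F' →+* F) := by
        rw [hP]; exact ValuationSubring.mem_top _
      rw [ValuationSubring.mem_comap] at h1
      have h2 : (e.symm : F' →+* F) (e z) = z := e.symm_apply_apply z
      rwa [h2] at h1⟩
  invFun P := ⟨P.1.comap (e : F →+* F'), by
    refine ⟨fun b => ?_, fun hP => P.2.2 ?_⟩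
    · rw [ValuationSubring.mem_comap]
      have h1 : (e : F →+* F') (algebraMap k F b) = algebraMap k' F' (e₀ b) := h b
      rw [h1]
      exact P.2.1 _
    · ext z
      refine ⟨fun _ => ValuationSubring.mem_top z, fun _ => ?_⟩
      have h1 : e.symm z ∈ P.1.comap (e : F →+* F') := by
        rw [hP]; exact ValuationSubring.mem_top _
      rw [ValuationSubring.mem_comap] at h1
      have h2 : (e : F →+* F') (e.symm z) = z := e.apply_symm_apply z
      rwa [h2] at h1⟩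
  left_inv := by
    intro P
    refine Subtype.ext (ValuationSubring.ext _ _ fun z => ?_)
    change (e.symm : F' →+* F) ((e : F →+* F') z) ∈ P.1 ↔ z ∈ P.1
    rw [show (e.symm : F' →+* F) ((e : F →+* F') z) = z from e.symm_apply_apply z]
  right_inv := by
    intro P
    refine Subtype.ext (ValuationSubring.ext _ _ fun z => ?_)
    change (e : F →+* F') ((e.symm : F' →+* F) z) ∈ P.1 ↔ z ∈ P.1
    rw [show (e : F →+* F') ((e.symm : F' →+* F) z) = z from e.apply_symm_apply z]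

theorem AuxFAct.mem_plEquiv (e : F ≃+* F') (e₀ : k ≃+* k')
    (h : ∀ a, e (algebraMap k F a) = algebraMap k' F' (e₀ a)) (P : Plk k F) (z : F') :
    z ∈ (plEquiv e e₀ h P).1 ↔ e.symm z ∈ P.1 := Iff.rfl

theorem ord_plEquiv (e : F ≃+* F') (e₀ : k ≃+* k')
    (h : ∀ a, e (algebraMap k F a) = algebraMap k' F' (e₀ a)) (P : Plk k F) (z : F) :
    ord (plEquiv e e₀ h P) (e z) = ord P z := by
  have hP := ord_spec P
  have h1 : IsOrd (plEquiv e e₀ h P).1 (fun z => ord P (e.symm z)) := by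
    have hne : ∀ x : F', x ≠ 0 → e.symm x ≠ 0 := fun x hx h0 =>
      hx ((map_eq_zero_iff e.symm e.symm.injective).1 h0)
    refine ⟨?_, ?_, ?_, ?_, ?_⟩
    · change ord P (e.symm 0) = 0
      rw [map_zero]
      exact hP.zero
    · intro x y hx hy
      change ord P (e.symm (x * y)) = ord P (e.symm x) + ord P (e.symm y)
      rw [map_mul]
      exact hP.mul _ _ (hne x hx) (hne y hy)
    · intro x y hx hy hxy
      change min (ord P (e.symm x)) (ord P (e.symm y)) ≤ ord P (e.symm (x + y))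
      have h3 := hne _ hxy
      rw [map_add] at h3 ⊢
      exact hP.add _ _ (hne x hx) (hne y hy) h3
    · intro x
      rw [AuxFAct.mem_plEquiv, hP.mem, map_eq_zero_iff e.symm e.symm.injective]
    · obtain ⟨π, hπ⟩ := hP.one
      exact ⟨e π, by change ord P (e.symm (e π)) = 1; rw [e.symm_apply_apply]; exact hπ⟩
  have h2 := IsOrd.ext (ord_spec (plEquiv e e₀ h P)) h1
  rw [h2]
  change ord P (e.symm (e z)) = ord P z
  rw [e.symm_apply_apply]

theorem dv_plEquiv (e : F ≃+* F') (e₀ : k ≃+* k')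
    (h : ∀ a, e (algebraMap k F a) = algebraMap k' F' (e₀ a)) (z : F) :
    dv k' (e z) = (dv k z).mapDomain (plEquiv e e₀ h) := by
  ext Q
  obtain ⟨P, rfl⟩ := (plEquiv e e₀ h).surjective Q
  rw [Finsupp.mapDomain_apply (plEquiv e e₀ h).injective, dv_apply, dv_apply, ord_plEquiv]

end

section

variable {k F : Type*} [Field k] [Field F] [Algebra k F] [CFF k F]

theorem semi_pow {e : F ≃+* F} {e₀ : k ≃+* k}
    (h : ∀ a, e (algebraMap k F a) = algebraMap k F (e₀ a)) (n : ℕ) (a : k) :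
    (e ^ n) (algebraMap k F a) = algebraMap k F ((e₀ ^ n) a) := by
  induction n generalizing a with
  | zero => rfl
  | succ n ih =>
    rw [pow_succ, pow_succ, RingAut.mul_apply, RingAut.mul_apply, h, ih]

theorem plEquiv_pow (e : F ≃+* F) (e₀ : k ≃+* k)
    (h : ∀ a, e (algebraMap k F a) = algebraMap k F (e₀ a)) (n : ℕ) :
    (plEquiv e e₀ h : Equiv.Perm (Plk k F)) ^ n = plEquiv (e ^ n) (e₀ ^ n) (semi_pow h n) := by
  induction n with
  | zero =>
    ext P
    rfl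
  | succ n ih =>
    refine Equiv.ext fun P => ?_
    refine Subtype.ext (ValuationSubring.ext _ _ fun z => ?_)
    have h1 : ((plEquiv e e₀ h : Equiv.Perm (Plk k F)) ^ (n + 1)) P =
        plEquiv e e₀ h (((plEquiv e e₀ h : Equiv.Perm (Plk k F)) ^ n) P) := by
      rw [pow_succ', Equiv.Perm.mul_apply]
    rw [h1, AuxFAct.mem_plEquiv, AuxFAct.mem_plEquiv, ih, AuxFAct.mem_plEquiv]
    have h2 : (e ^ (n + 1)).symm z = (e ^ n).symm (e.symm z) := by
      rw [RingEquiv.symm_apply_eq, pow_succ', RingAut.mul_apply, RingEquiv.apply_symm_apply,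
        RingEquiv.apply_symm_apply]
    rw [h2]

end

end Vale.Agent.P019P
end

section

/-!
# Periodic places
-/

namespace Vale.Agent.P019P

open Polynomial IntermediateField

variable {k F : Type*} [Field k] [Field F] [Algebra k F] [CFF k F] {p m : ℕ} [Fact p.Prime]
  [CharP k p]

namespace AuxFPer

theorem const_unique {P : Plk k F} {x : F} {c c' : k} (h : 0 < ord P (x - algebraMap k F c))
    (h' : 0 < ord P (x - algebraMap k F c')) : c = c' := by
  by_contra hne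
  have h1 : x - algebraMap k F c ≠ 0 := by
    intro h0
    rw [h0, (ord_spec P).zero] at h
    exact lt_irrefl _ h
  have h2 : x - algebraMap k F c' ≠ 0 := by
    intro h0
    rw [h0, (ord_spec P).zero] at h'
    exact lt_irrefl _ h'
  have h3 : (x - algebraMap k F c') + -(x - algebraMap k F c) = algebraMap k F (c - c') := by
    rw [map_sub]; ring
  have h4 : algebraMap k F (c - c') ≠ 0 := by
    rw [Ne, map_eq_zero, sub_eq_zero]
    exact hne
  have h5 := ord_le_add P h2 (neg_ne_zero.2 h1) (by rw [h3]; exact h4)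
  rw [h3, ord_const, ord_neg] at h5
  rcases min_le_iff.1 h5 with h6 | h6
  · exact absurd h' (not_lt.2 h6)
  · exact absurd h (not_lt.2 h6)

theorem pow_x {σ : F ≃+* F} {x : F} (hσ : σ x = x) (n : ℕ) : (σ ^ n) x = x := by
  induction n with
  | zero => rfl
  | succ n ih => rw [pow_succ, RingAut.mul_apply, hσ, ih]

theorem pow_c {σ₀ : k ≃+* k} (h0 : ∀ a : k, σ₀ a = a ^ p ^ m) (n : ℕ) (a : k) :
    (σ₀ ^ n) a = a ^ p ^ (m * n) := by
  induction n generalizing a with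
  | zero => simp
  | succ n ih =>
    rw [pow_succ, RingAut.mul_apply, ih, h0, ← pow_mul, ← pow_add, mul_add, mul_one, add_comm]

theorem ord_pow_sub (σ : F ≃+* F) (σ₀ : k ≃+* k) (h0 : ∀ a : k, σ₀ a = a ^ p ^ m)
    (h : ∀ a, σ (algebraMap k F a) = algebraMap k F (σ₀ a)) {x : F} (hσ : σ x = x) (n : ℕ)
    (P : Plk k F) (c : k) :
    ord (((plEquiv σ σ₀ h : Equiv.Perm (Plk k F)) ^ n) P)
      (x - algebraMap k F (c ^ p ^ (m * n))) = ord P (x - algebraMap k F c) := by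
  have h1 := ord_plEquiv (σ ^ n) (σ₀ ^ n) (semi_pow h n) P (x - algebraMap k F c)
  rw [← plEquiv_pow, map_sub, pow_x hσ, semi_pow h n, pow_c h0] at h1
  exact h1

theorem ord_pow_x (σ : F ≃+* F) (σ₀ : k ≃+* k)
    (h : ∀ a, σ (algebraMap k F a) = algebraMap k F (σ₀ a)) {x : F} (hσ : σ x = x) (n : ℕ)
    (P : Plk k F) :
    ord (((plEquiv σ σ₀ h : Equiv.Perm (Plk k F)) ^ n) P) x = ord P x := by
  have h1 := ord_plEquiv (σ ^ n) (σ₀ ^ n) (semi_pow h n) P x
  rw [← plEquiv_pow, pow_x hσ] at h1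
  exact h1

theorem per_of_finite {α : Type*} (s : Equiv.Perm α) {A : Set α} (hA : A.Finite)
    (hs : ∀ a ∈ A, s a ∈ A) {a : α} (ha : a ∈ A) : ∃ n : ℕ, 0 < n ∧ (s ^ n) a = a := by
  have h1 : ∀ n : ℕ, (s ^ n) a ∈ A := by
    intro n
    induction n with
    | zero => exact ha
    | succ n ih => rw [pow_succ', Equiv.Perm.mul_apply]; exact hs _ ih
  obtain ⟨i, j, hij, h2⟩ := hA.exists_lt_map_eq_of_forall_mem h1
  refine ⟨j - i, Nat.sub_pos_of_lt hij, ?_⟩
  have h3 : s ^ j = s ^ i * s ^ (j - i) := by rw [← pow_add, Nat.add_sub_cancel' hij.le]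
  rw [h3, Equiv.Perm.mul_apply] at h2
  exact ((s ^ i).injective h2).symm

end AuxFPer

open AuxFPer

/-- there are only finitely many `q ^ n`-rational places. -/
theorem pl_fin (hm : 0 < m) (σ : F ≃+* F) (σ₀ : k ≃+* k) (h0 : ∀ a : k, σ₀ a = a ^ p ^ m)
    (h : ∀ a, σ (algebraMap k F a) = algebraMap k F (σ₀ a)) {x : F}
    (hx : ∀ a : k, x ≠ algebraMap k F a) (hσ : σ x = x) {n : ℕ} (hn : 0 < n) :
    {P : Plk k F | ((plEquiv σ σ₀ h : Equiv.Perm (Plk k F)) ^ n) P = P}.Finite := by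
  classical
  have hx0 : x ≠ 0 := fun h1 => hx 0 (by rw [h1, map_zero])
  have hp : 1 < p := (Fact.out : p.Prime).one_lt
  have hq : 1 < p ^ (m * n) := Nat.one_lt_pow (Nat.mul_pos hm hn).ne' hp
  let R : Finset k := (X ^ p ^ (m * n) - X : k[X]).roots.toFinset
  refine Set.Finite.subset (Set.Finite.union (dv_finite hx0)
    (Set.Finite.biUnion R.finite_toSet fun c _ => fib_finite hx c)) ?_
  intro P hP
  change ((plEquiv σ σ₀ h : Equiv.Perm (Plk k F)) ^ n) P = P at hP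
  by_cases hxP : x ∈ P.1
  · right
    obtain ⟨c, hc⟩ := exists_cst P hxP
    have hc := hc.resolve_left (hx c)
    have h1 := ord_pow_sub σ σ₀ h0 h hσ n P c
    rw [hP] at h1
    rw [← h1] at hc
    have h2 : 0 < ord P (x - algebraMap k F c) := by rw [← h1]; exact hc
    have h3 : c ^ p ^ (m * n) = c := const_unique hc h2
    have h4 : c ∈ R := by
      rw [Multiset.mem_toFinset, mem_roots (FiniteField.X_pow_card_sub_X_ne_zero k hq),
        IsRoot.def, eval_sub, eval_pow, eval_X, h3, sub_self]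
    exact Set.mem_biUnion (Finset.mem_coe.2 h4) h2
  · left
    change ord P x ≠ 0
    intro h1
    exact hxP (((ord_spec P).mem x).2 (Or.inr h1.ge))

/-- every place is rational over a finite field. -/
theorem pl_per (hf : ∀ a : k, a ≠ 0 → ∃ n : ℕ, 0 < n ∧ a ^ n = 1)
    (σ : F ≃+* F) (σ₀ : k ≃+* k) (h0 : ∀ a : k, σ₀ a = a ^ p ^ m)
    (h : ∀ a, σ (algebraMap k F a) = algebraMap k F (σ₀ a)) {x : F}
    (hx : ∀ a : k, x ≠ algebraMap k F a) (hσ : σ x = x) (P : Plk k F) :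
    ∃ n : ℕ, 0 < n ∧ ((plEquiv σ σ₀ h : Equiv.Perm (Plk k F)) ^ n) P = P := by
  classical
  have hx0 : x ≠ 0 := fun h1 => hx 0 (by rw [h1, map_zero])
  by_cases hxP : x ∈ P.1
  · obtain ⟨c, hc⟩ := exists_cst P hxP
    have hc := hc.resolve_left (hx c)
    obtain ⟨r, hr, hcr⟩ := exists_pow_fix (p := p) hf {c}
    have hcr := hcr c (Finset.mem_singleton_self c)
    have h1 : ∀ j : ℕ, c ^ p ^ (j * r) = c := by
      intro j
      induction j with
      | zero => simp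
      | succ j ih => rw [add_mul, one_mul, pow_add, pow_mul, ih, hcr]
    obtain ⟨n, hn, hPn⟩ := per_of_finite ((plEquiv σ σ₀ h : Equiv.Perm (Plk k F)) ^ r)
      (fib_finite hx c) (fun Q hQ => by
        have h2 := ord_pow_sub σ σ₀ h0 h hσ r Q c
        rw [h1 m] at h2
        change 0 < ord _ _
        rw [h2]
        exact hQ) hc
    exact ⟨r * n, Nat.mul_pos hr hn, by rw [pow_mul]; exact hPn⟩
  · have h1 : ord P x ≠ 0 := fun h1 => hxP (((ord_spec P).mem x).2 (Or.inr h1.ge))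
    refine per_of_finite _ (dv_finite hx0) (fun Q hQ => ?_) h1
    have h2 := ord_pow_x σ σ₀ h hσ 1 Q
    rw [pow_one] at h2
    change ord _ x ≠ 0
    rw [h2]
    exact hQ

end Vale.Agent.P019P
end

section

/-!
# The number of rational effective divisors in a class
-/

namespace Vale.Agent.P019P

open Polynomial IntermediateField

variable {k F : Type*} [Field k] [Field F] [Algebra k F] [CFF k F] {p m : ℕ} [Fact p.Prime]
  [CharP k p]

/-- the semilinear map of a Riemann-Roch space. -/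
theorem fcount_mem {s : F ≃+* F} {s₀ : k ≃+* k}
    {h : ∀ a, s (algebraMap k F a) = algebraMap k F (s₀ a)} {D : Plk k F →₀ ℤ} {u : F}
    (hu : u ≠ 0) (hD : D.mapDomain (plEquiv s s₀ h) - D = dv k u) {z : F} (hz : z ≠ 0) :
    D + dv k (u * s z) = (D + dv k z).mapDomain (plEquiv s s₀ h) := by
  have hsz : s z ≠ 0 := by simpa using hz
  rw [dv_mul hu hsz, ← hD, dv_plEquiv s s₀ h, Finsupp.mapDomain_add]
  abel

omit [CFF k F] in
theorem fcount_nonneg (σ : Plk k F ≃ Plk k F) {E : Plk k F →₀ ℤ} (hE : 0 ≤ E) :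
    0 ≤ E.mapDomain σ := by
  intro P
  rw [Finsupp.mapDomain_equiv_apply]
  exact hE _

/-- the number of rational effective divisors in a class. -/
theorem count_eff (hm : 0 < m) (s : F ≃+* F) (s₀ : k ≃+* k) (h0 : ∀ a : k, s₀ a = a ^ p ^ m)
    (h : ∀ a, s (algebraMap k F a) = algebraMap k F (s₀ a)) (D : Plk k F →₀ ℤ)
    (hD : D.mapDomain (plEquiv s s₀ h) - D ∈ prn k F) :
    Nat.card {E : Plk k F →₀ ℤ // 0 ≤ E ∧ E.mapDomain (plEquiv s s₀ h) = E ∧
      E - D ∈ prn k F} * (p ^ m - 1) = (p ^ m) ^ Module.finrank k (LL k D) - 1 := by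
  have : IsAlgClosed k := CFF.ac F
  obtain ⟨u, hu, hDu⟩ := hD
  have hmem : ∀ z ∈ LL k D, u * s z ∈ LL k D := by
    intro z hz
    by_cases hz0 : z = 0
    · rw [hz0, map_zero, mul_zero]; exact Submodule.zero_mem _
    · have hsz : s z ≠ 0 := by simpa using hz0
      rw [mem_LL_dv (mul_ne_zero hu hsz), fcount_mem hu hDu hz0]
      exact fcount_nonneg _ ((mem_LL_dv hz0).1 hz)
  let φ : LL k D →+ LL k D :=
    { toFun := fun z => ⟨u * s z, hmem z z.2⟩
      map_zero' := by ext; simp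
      map_add' := fun z w => by ext; simp [mul_add] }
  have hφv : ∀ z : LL k D, ((φ z : LL k D) : F) = u * s z := fun z => rfl
  have hinj : Function.Injective φ := by
    intro z w hzw
    have h1 : u * s (z : F) = u * s (w : F) := congrArg Subtype.val hzw
    exact Subtype.ext (s.injective (mul_left_cancel₀ hu h1))
  have hφ : ∀ (a : k) (v : LL k D), φ (a • v) = a ^ (p ^ m) • φ v := by
    intro a v
    apply Subtype.ext
    rw [hφv, Submodule.coe_smul, Submodule.coe_smul, hφv, Algebra.smul_def, Algebra.smul_def,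
      map_mul, h, h0]
    ring
  have hne : ∀ {v : LL k D}, v ≠ 0 → (v : F) ≠ 0 := fun {v} hv hv' => hv (Subtype.ext hv')
  have he : ∀ v w : LL k D, v ≠ 0 → w ≠ 0 →
      (D + dv k (v : F) = D + dv k (w : F) ↔ ∃ a : k, a ≠ 0 ∧ w = a • v) := by
    intro v w hv hw
    rw [add_right_inj, dv_eq_iff (hne hv) (hne hw)]
    constructor
    · rintro ⟨a, ha, h1⟩; exact ⟨a, ha, Subtype.ext h1⟩
    · rintro ⟨a, ha, h1⟩; exact ⟨a, ha, congrArg Subtype.val h1⟩
  have key := lang_count (p := p) (n := m) hm φ hinj hφ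
    (fun z : LL k D => D + dv k (z : F)) he
  rw [← key]
  congr 1
  apply Nat.card_congr
  apply Equiv.subtypeEquivRight
  intro E
  have hφ0 : ∀ {v : LL k D}, v ≠ 0 → φ v ≠ 0 := fun {v} hv h1 =>
    hv (hinj (h1.trans (map_zero φ).symm))
  have hcrit : ∀ {v : LL k D}, v ≠ 0 →
      ((D + dv k (v : F)).mapDomain (plEquiv s s₀ h) = D + dv k (v : F) ↔
        ∃ c : k, φ v = c • v) := by
    intro v hv
    rw [← fcount_mem hu hDu (hne hv), ← hφv, add_right_inj]
    constructor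
    · intro h1
      obtain ⟨a, ha, h2⟩ := (dv_eq_iff (hne hv) (hne (hφ0 hv))).1 h1.symm
      exact ⟨a, Subtype.ext h2⟩
    · rintro ⟨c, hc⟩
      have hc0 : c ≠ 0 := by
        rintro rfl
        rw [zero_smul] at hc
        exact hφ0 hv hc
      exact ((dv_eq_iff (hne hv) (hne (hφ0 hv))).2
        ⟨c, hc0, congrArg Subtype.val hc⟩).symm
  constructor
  · rintro ⟨h1, h2, h3⟩
    obtain ⟨z, hz, hz0, rfl⟩ := eff_iff.1 ⟨h1, h3⟩
    have hv : (⟨z, hz⟩ : LL k D) ≠ 0 := fun h4 => hz0 (congrArg Subtype.val h4)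
    exact ⟨⟨z, hz⟩, hv, (hcrit hv).1 h2, rfl⟩
  · rintro ⟨v, hv, hc, rfl⟩
    obtain ⟨h1, h2⟩ := eff_iff.2 ⟨(v : F), v.2, hne hv, rfl⟩
    exact ⟨h1, (hcrit hv).2 hc, h2⟩

end Vale.Agent.P019P
end

section

/-!
# The zeta data of a curve over the algebraic closure of a finite field
-/

namespace Vale.Agent.P019P

set_option linter.style.haveILetI false

open Polynomial IntermediateField

variable {k F : Type*} [Field k] [Field F] [Algebra k F] [CFF k F]

/-- the action on principal divisors. -/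
theorem mapDomain_mem_prn (s : F ≃+* F) (s₀ : k ≃+* k)
    (h : ∀ a, s (algebraMap k F a) = algebraMap k F (s₀ a)) (D : Plk k F →₀ ℤ) :
    D ∈ prn k F ↔ D.mapDomain (plEquiv s s₀ h) ∈ prn k F := by
  constructor
  · rintro ⟨z, hz, rfl⟩
    exact ⟨s z, (map_ne_zero s).2 hz, (dv_plEquiv s s₀ h z).symm⟩
  · rintro ⟨w, hw, hD⟩
    obtain ⟨z, rfl⟩ := s.surjective w
    refine ⟨z, (map_ne_zero s).1 hw, ?_⟩
    rw [dv_plEquiv s s₀ h z] at hD
    exact Finsupp.mapDomain_injective (plEquiv s s₀ h).injective hD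

/-- the zeta data of a curve. -/
theorem exists_zdat (k F : Type*) [Field k] [Field F] [Algebra k F] [CFF k F]
    (hf : ∀ a : k, a ≠ 0 → ∃ n : ℕ, 0 < n ∧ a ^ n = 1) {p : ℕ} [hp : Fact p.Prime] [CharP k p] :
    ∃ Z : ZDat (Plk k F), Z.prin = prn k F ∧ Z.g = gen k F ∧ ∃ m : ℕ, 0 < m ∧ Z.q = p ^ m := by
  haveI : IsAlgClosed k := CFF.ac F
  obtain ⟨m, σ, x, hm, hσ, hx, hσx⟩ := exists_frob k F hf (p := p)
  haveI : PerfectRing k p := PerfectField.toPerfectRing p
  let σ₀ : k ≃+* k := iterateFrobeniusEquiv k p m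
  have h0 : ∀ a : k, σ₀ a = a ^ p ^ m := fun a => iterateFrobeniusEquiv_def k p m a
  have h : ∀ a, σ (algebraMap k F a) = algebraMap k F (σ₀ a) := fun a => by rw [hσ, h0]
  obtain ⟨P0⟩ := exists_place_cff k F
  obtain ⟨N, hN, hP0⟩ := pl_per hf σ σ₀ h0 h hx hσx P0
  have hpow : ∀ (n : ℕ) (a : k), (σ₀ ^ n) a = a ^ p ^ (m * n) := by
    intro n
    induction n with
    | zero => intro a; simp
    | succ n ih =>
      intro a
      rw [pow_succ, RingAut.mul_apply, ih, h0, ← pow_mul, ← pow_add, mul_add, mul_one, add_comm]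
  have hx' : ∀ n : ℕ, (σ ^ n) x = x := by
    intro n
    induction n with
    | zero => simp
    | succ n ih => rw [pow_succ, RingAut.mul_apply, hσx, ih]
  have hmN : 0 < m * N := Nat.mul_pos hm hN
  have hpow2 : ∀ (n : ℕ) (a : k), ((σ₀ ^ N) ^ n) a = a ^ p ^ (m * N * n) := by
    intro n a
    rw [← pow_mul, hpow, mul_assoc]
  refine ⟨{ σ := plEquiv (σ ^ N) (σ₀ ^ N) (semi_pow h N)
            q := p ^ (m * N)
            g := gen k F
            prin := prn k F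
            l := fun D => Module.finrank k (LL k D)
            κ := can k F
            P0 := P0
            two_le := ?_
            fix0 := ?_
            per := ?_
            fin := ?_
            deg_prin := ?_
            sig_prin := ?_
            rr := ?_
            l_neg := ?_
            l_prin := ?_
            l_zero := ?_
            count := ?_ }, rfl, rfl, m * N, hmN, rfl⟩
  · exact hp.out.two_le.trans (Nat.le_self_pow hmN.ne' p)
  · rw [← plEquiv_pow]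
    exact hP0
  · intro P
    exact pl_per hf (σ ^ N) (σ₀ ^ N) (hpow N) (semi_pow h N) hx (hx' N) P
  · intro n hn
    exact pl_fin hmN (σ ^ N) (σ₀ ^ N) (hpow N) (semi_pow h N) hx (hx' N) hn
  · rintro _ ⟨z, _, rfl⟩
    exact dg_dv z
  · intro D
    exact mapDomain_mem_prn _ _ _ D
  · intro D
    exact RR D
  · intro D hD
    exact LL_neg hD
  · intro D hD
    exact LL_prin hD
  · intro D hD hD'
    exact LL_zero hD hD'
  · intro n hn D hD
    have e1 := plEquiv_pow (σ ^ N) (σ₀ ^ N) (semi_pow h N) n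
    rw [e1] at hD ⊢
    have := count_eff (p := p) (m := m * N * n) (Nat.mul_pos hmN hn) ((σ ^ N) ^ n)
      ((σ₀ ^ N) ^ n) (hpow2 n) (semi_pow (semi_pow h N) n) D hD
    have e2 : (p ^ (m * N)) ^ n = p ^ (m * N * n) := (pow_mul p (m * N) n).symm
    have e3 : (p ^ (m * N)) ^ (n * Module.finrank k (LL k D)) =
        (p ^ (m * N * n)) ^ Module.finrank k (LL k D) := by
      rw [pow_mul (p ^ (m * N)), e2]
    rw [e2, e3]
    exact this

/-- `ℓ`-torsion and divisibility of the class group over the closure of a finite field. -/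
theorem pic_fin' (hf : ∀ a : k, a ≠ 0 → ∃ n : ℕ, 0 < n ∧ a ^ n = 1) {ℓ : ℕ} (hℓ : ℓ.Prime)
    (hℓk : (ℓ : k) ≠ 0) :
    (∀ D : Plk k F →₀ ℤ, dg D = 0 → ∃ E : Plk k F →₀ ℤ, dg E = 0 ∧ D - ℓ • E ∈ prn k F) ∧
    Nat.card {x : (Plk k F →₀ ℤ) ⧸ prn k F // ℓ • x = 0} = ℓ ^ (2 * gen k F) := by
  obtain ⟨p, hp, hc⟩ := exists_prime_char hf
  haveI : Fact p.Prime := ⟨hp⟩
  obtain ⟨Z, hZ, hg, m, hm, hq⟩ := exists_zdat k F hf (p := p)
  have hlq : ¬ ℓ ∣ Z.q := by
    rw [hq]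
    intro h
    have h1 := (Nat.prime_dvd_prime_iff_eq hℓ hp).1 (hℓ.dvd_of_dvd_pow h)
    rw [h1] at hℓk
    exact hℓk (CharP.cast_eq_zero k p)
  constructor
  · intro D hD
    obtain ⟨E, hE, hE'⟩ := Z.divisible hℓ hlq D hD
    exact ⟨E, hE, hZ ▸ hE'⟩
  · have := Z.card_tors hℓ hlq
    rw [hZ, hg] at this
    exact this

end Vale.Agent.P019P
end

section

/-!
# The number of unramified classes of a curve
-/

namespace Vale.Agent.P019P

open Vale.Agent.P019

set_option linter.style.haveILetI false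
set_option linter.unusedSectionVars false

open Polynomial IntermediateField

variable {F : Type*} [Field F] {ℓ : ℕ} [Fact ℓ.Prime] [NeZero (ℓ : F)] {k : Subfield F}

/-- the number of classes unramified outside a finite set of places. -/
theorem curveCard (hf : Fin' k) (F0 : IntermediateField k F) [CFF k F0]
    [IsPurelyInseparable F0 F] : CurveCard ℓ k (gen k F0) := by
  classical
  intro T hT
  have hℓ : ℓ.Prime := Fact.out
  have hf' : ∀ a : k, a ≠ 0 → ∃ n : ℕ, 0 < n ∧ a ^ n = 1 := by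
    intro a ha
    obtain ⟨n, hn, h1⟩ := hf a a.2 (fun h => ha (Subtype.ext h))
    exact ⟨n, hn, Subtype.ext h1⟩
  have hℓk : (ℓ : k) ≠ 0 := by
    intro h
    apply NeZero.ne (ℓ : F)
    have h1 := congrArg (algebraMap k F) h
    rwa [map_natCast, map_zero] at h1
  obtain ⟨hdiv, hcard⟩ := pic_fin' (k := k) (F := F0) hf' hℓ hℓk
  obtain ⟨f, hfz, hsurj, hker⟩ := exists_clHom F0 ℓ
  let T' : Finset (Plk k F0) := T.attach.image fun O => plRes F0 ⟨O.1, hT O.1 O.2⟩
  have hT' : T'.card = T.card := by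
    rw [Finset.card_image_of_injective, Finset.card_attach]
    intro O O' h
    have h1 := congrArg Subtype.val ((plRes F0).injective h)
    exact Subtype.ext h1
  have hmem : ∀ O : Plc k, plRes F0 O ∈ T' ↔ O.1 ∈ T := by
    intro O
    rw [Finset.mem_image]
    constructor
    · rintro ⟨O', _, h⟩
      rw [← (plRes F0).injective h]
      exact O'.2
    · intro h
      exact ⟨⟨O.1, h⟩, Finset.mem_attach _ _, rfl⟩
  have hc := card_abs (prn k F0) (by rintro _ ⟨z, _, rfl⟩; exact dg_dv z) hℓ hdiv hcard f hsurj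
    hker T'
  rw [hT'] at hc
  rw [← hc]
  refine Nat.card_congr (Equiv.subtypeEquivRight fun v => ?_)
  constructor
  · intro hv
    obtain ⟨z, hz, rfl⟩ := exists_cl F0 v
    refine ⟨⟨dv k z, z, hz, rfl⟩, hfz z hz, ?_⟩
    intro P hP
    have h1 : (plRes F0) ((plRes F0).symm P) = P := (plRes F0).apply_symm_apply P
    have h2 := hv ((plRes F0).symm P).1 ((plRes F0).symm P).2 (fun h => hP (by
      rw [← h1]
      exact (hmem _).2 h))
    rw [cl_mem_UC_iff F0 _ hz, h1] at h2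
    change (ℓ : ℤ) ∣ dv k z P
    rw [dv_apply]
    exact h2
  · rintro ⟨⟨_, z, hz, rfl⟩, rfl, hD⟩ O hO hOT
    rw [hfz z hz, cl_mem_UC_iff F0 ⟨O, hO⟩ hz]
    have h1 := hD (plRes F0 ⟨O, hO⟩) (fun h => hOT ((hmem ⟨O, hO⟩).1 h))
    change (ℓ : ℤ) ∣ dv k z _ at h1
    rw [dv_apply] at h1
    exact h1

end Vale.Agent.P019P
end

section

/-!
# The theorem on curves
-/

namespace Vale.Agent.P019P

open Vale.Agent.P019

set_option linter.style.haveILetI false
set_option linter.unusedSectionVars false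

open Polynomial IntermediateField

variable {F : Type*} [Field F] [PerfectField F] {ℓ : ℕ} [Fact ℓ.Prime] [NeZero (ℓ : F)]
  {k : Subfield F}

/-- the perfect closure of `k(x, y)`. -/
theorem pure_pair {x y : F} (htop : adj (adj k x) y = ⊤) :
    IsPurelyInseparable (IntermediateField.adjoin k ({x, y} : Set F)) F := by
  set F1 : IntermediateField k F := IntermediateField.adjoin k ({x, y} : Set F) with hF1
  haveI : ExpChar F1 (ringExpChar F) := (algebraMap F1 F).expChar (algebraMap F1 F).injective _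
  rw [isPurelyInseparable_iff_pow_mem F1 (ringExpChar F)]
  intro z
  have hx : x ∈ F1 := IntermediateField.subset_adjoin k _ (by simp)
  have hy : y ∈ F1 := IntermediateField.subset_adjoin k _ (by simp)
  have h1 : adj (adj k x) y ≤ pf F1.toSubfield := by
    refine adj_le (adj_le ?_ ?_) ?_
    · intro a ha
      exact le_pf _ (F1.algebraMap_mem ⟨a, ha⟩)
    · exact le_pf _ hx
    · exact le_pf _ hy
  rw [htop] at h1
  obtain ⟨n, hn⟩ := mem_pf.1 (h1 (Subfield.mem_top z))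
  exact ⟨n, ⟨_, hn⟩, rfl⟩

/-- the genus bound and Riemann-Hurwitz for a model. -/
theorem curveRH_of (h : Cv k) (F0 : IntermediateField k F) [CFF k F0]
    [IsPurelyInseparable F0 F] : CurveRH ℓ k (gen k F0) := by
  classical
  constructor
  · intro x hx N s hs hs5 hN
    obtain ⟨F1, hx1, hFG, hcff, hpi, hsep, hfin, hle⟩ := exists_sep_model h hx
    haveI := hcff
    haveI := hpi
    haveI := hsep
    rw [gen_model_eq h F0 F1]
    refine hle.trans ?_
    have hx1' : ∀ a : k, (⟨x, hx1⟩ : F1) ≠ algebraMap k F1 a := by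
      intro a ha
      apply hx
      have h1 := congrArg Subtype.val ha
      change x = (a : F) at h1
      rw [h1]
      exact a.2
    let s' : Finset k := s.attach.image fun c => ⟨c.1, hs c.1 c.2⟩
    have hs' : s'.card = 5 := by
      rw [Finset.card_image_of_injective, Finset.card_attach, hs5]
      intro c c' hcc
      exact Subtype.ext (congrArg (fun t : k => (t : F)) hcc)
    refine rh_five hx1' (Fact.out : ℓ.Prime).two_le N s' hs' ?_
    intro c hc
    have hcs : (c : F) ∈ s := by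
      obtain ⟨c', _, hcc⟩ := Finset.mem_image.1 hc
      rw [← hcc]
      exact c'.2
    have hxc : (⟨x, hx1⟩ : F1) - algebraMap k F1 c ≠ 0 := fun h0 => hx1' c (sub_eq_zero.1 h0)
    refine le_trans ?_ (hN c hcs)
    have hinj : Function.Injective fun P : Plk k F1 => (((plRes F1).symm P : Plc k) :
        ValuationSubring F) := fun P P' hPP =>
      (plRes F1).symm.injective (Subtype.ext hPP)
    rw [← hinj.encard_image]
    refine Set.encard_le_encard ?_
    rintro _ ⟨P, ⟨hP1, hP2⟩, rfl⟩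
    set O := (plRes F1).symm P with hO
    have hPO : plRes F1 O = P := (plRes F1).apply_symm_apply P
    refine ⟨O.2, ?_, ?_⟩
    · rw [← hPO] at hP1
      have h2 : ((⟨x, hx1⟩ : F1) - algebraMap k F1 c)⁻¹ ∉ (plRes F1 O).1 := by
        rw [(ord_spec _).mem]
        push Not
        refine ⟨inv_ne_zero hxc, ?_⟩
        have h3 := (ord_spec (plRes F1 O)).mul _ _ hxc (inv_ne_zero hxc)
        have h4 := (ord_spec (plRes F1 O)).mul 1 1 one_ne_zero one_ne_zero
        rw [mul_inv_cancel₀ hxc] at h3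
        rw [mul_one] at h4
        omega
      rw [mem_plRes, ← O.1.valuation_le_one_iff, not_le] at h2
      change 1 < O.1.valuation ((x - c)⁻¹) at h2
      rw [map_inv₀] at h2
      have h5 : O.1.valuation (x - c) ≠ 0 := by
        rw [Valuation.ne_zero_iff]
        intro h6
        exact hxc (Subtype.ext h6)
      exact (one_lt_inv₀ (zero_lt_iff.2 h5)).1 h2
    · rw [← hPO] at hP2
      intro h3
      exact hP2 ((cl_mem_UC_iff F1 O hxc).1 h3)
  · intro x y hx htop m n a ha hne h0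
    set F1 : IntermediateField k F := IntermediateField.adjoin k ({x, y} : Set F) with hF1
    haveI : IsPurelyInseparable F1 F := pure_pair htop
    have hxm : x ∈ F1 := IntermediateField.subset_adjoin k _ (by simp)
    have hym : y ∈ F1 := IntermediateField.subset_adjoin k _ (by simp)
    have hFG : F1.FG := ⟨{x, y}, by rw [Finset.coe_insert, Finset.coe_singleton]⟩
    haveI : CFF k F1 := cff_of h F1 hFG hxm hx
    rw [gen_model_eq h F0 F1]
    let x1 : F1 := ⟨x, hxm⟩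
    let y1 : F1 := ⟨y, hym⟩
    have hx1 : ∀ a : k, x1 ≠ algebraMap k F1 a := by
      intro a ha
      apply hx
      have h1 := congrArg Subtype.val ha
      change x = (a : F) at h1
      rw [h1]
      exact a.2
    have htop1 : IntermediateField.adjoin k {x1, y1} = ⊤ := by
      have h1 : (IntermediateField.adjoin k ({x1, y1} : Set F1)).map F1.val = F1 := by
        rw [IntermediateField.adjoin_map, Set.image_pair]
        rfl
      rw [eq_top_iff]
      rintro w -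
      have h2 : (w : F) ∈ (IntermediateField.adjoin k ({x1, y1} : Set F1)).map F1.val := by
        rw [h1]; exact w.2
      obtain ⟨v, hv, hvw⟩ := h2
      have h3 : v = w := Subtype.ext hvw
      rw [← h3]
      exact hv
    refine gen_le hx1 htop1 (a := fun i j => ⟨a i j, ha i j⟩) ?_ ?_
    · obtain ⟨i, hi, j, hj, hij⟩ := hne
      exact ⟨i, hi, j, hj, fun h2 => hij (congrArg Subtype.val h2)⟩
    · apply (algebraMap F1 F).injective
      rw [map_zero, ← h0, map_sum]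
      refine Finset.sum_congr rfl fun i _ => ?_
      rw [map_sum]
      refine Finset.sum_congr rfl fun j _ => ?_
      rw [map_mul, map_mul, map_pow, map_pow]
      rfl

/-- Riemann-Hurwitz (all algebraically closed constants). -/
theorem exists_curveRH' (h : Cv k) : ∃ g : ℕ, CurveRH ℓ k g := by
  obtain ⟨F0, hFG, hcff, hpi⟩ := exists_model h
  exact ⟨gen k F0, curveRH_of h F0⟩

/-- the number of `ℓ`-torsion classes is `ℓ ^ (2 g)`, constants algebraic over a finite field. -/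
theorem exists_curve' (h : Cv k) (hf : Fin' k) : ∃ g : ℕ, CurveRH ℓ k g ∧ CurveCard ℓ k g := by
  obtain ⟨F0, hFG, hcff, hpi⟩ := exists_model h
  exact ⟨gen k F0, curveRH_of h F0, curveCard hf F0⟩

end Vale.Agent.P019P
end

section

/-!
# The theorem on curves

`Cv.finite` is in `CSep.lean`, `Cv.fib_card` in `CFib.lean`, the proofs are in `GCurve.lean`.
-/

namespace Vale.Agent.P019P

open Vale.Agent.P019

set_option linter.style.haveILetI false
set_option linter.unusedSectionVars false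

open Polynomial Filter

variable {F : Type*} [Field F] [PerfectField F] {ℓ : ℕ} [Fact ℓ.Prime] [NeZero (ℓ : F)]
  {k : Subfield F}

/-- Riemann-Hurwitz (all algebraically closed constants). -/
theorem exists_curveRH (h : Cv k) : ∃ g : ℕ, CurveRH ℓ k g := exists_curveRH' h

/-- the number of `ℓ`-torsion classes is `ℓ ^ (2 g)`, constants algebraic over a finite field. -/
theorem exists_curve (h : Cv k) (hf : Fin' k) : ∃ g : ℕ, CurveRH ℓ k g ∧ CurveCard ℓ k g :=
  exists_curve' h hf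

end Vale.Agent.P019P
end

section

/-!
# Approximation: valuation rings on `k(t, s)`
-/

namespace Vale.Agent.P019P

open Vale.Agent.P019

set_option linter.style.haveILetI false
set_option linter.unusedSectionVars false

open Polynomial Filter

variable {K : Type*} [Field K] {k : Subfield K}

/-- elements of `k(s)(t)` as fractions. -/
theorem apb_mem_adj2 {t s z : K}
    (hz : z ∈ Vale.Agent.P019.adj (Vale.Agent.P019.adj k s) t) :
    ∃ f g : k[X][X], apbEv k.subtype t s g ≠ 0 ∧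
      z = apbEv k.subtype t s f / apbEv k.subtype t s g := by
  set A : Subring K := (apbEv k.subtype t s).range with hA
  have h1 : Vale.Agent.P019.adj (Vale.Agent.P019.adj k s) t ≤ Subfield.closure (A : Set K) := by
    refine Vale.Agent.P019.adj_le (Vale.Agent.P019.adj_le ?_ ?_) ?_
    · intro a ha
      exact Subfield.subset_closure ⟨C (C ⟨a, ha⟩), apbEv_CC _ _ _ _⟩
    · exact Subfield.subset_closure ⟨C X, apbEv_CX _ _ _⟩
    · exact Subfield.subset_closure ⟨X, apbEv_X _ _ _⟩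
  have h2 := h1 hz
  rw [Subfield.mem_closure_iff, Subring.closure_eq] at h2
  obtain ⟨_, ⟨f, rfl⟩, _, ⟨g, rfl⟩, rfl⟩ := h2
  by_cases hg : apbEv k.subtype t s g = 0
  · refine ⟨0, 1, by rw [map_one]; exact one_ne_zero, ?_⟩
    rw [hg, div_zero, map_zero, zero_div]
  · exact ⟨f, g, hg, rfl⟩

/-- the conditions determining a valuation ring on `k(t, s)`. -/
structure ApbLex (k : Subfield K) (t s : K) (R : ValuationSubring K) : Prop where
  triv : TrivOn R k
  ls : R.valuation s < 1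
  lt : ∀ m : ℕ, R.valuation (t / s ^ m) < 1

theorem ApbLex.lt0 {t s : K} {R : ValuationSubring K} (h : ApbLex k t s R) :
    R.valuation t < 1 := by
  have h1 := h.lt 0
  rwa [pow_zero, div_one] at h1

theorem apb_lex1 (t : K) {s : K} {P : k[X]} (hP : P ≠ 0) :
    ∃ (j : ℕ) (u : K), eval₂ k.subtype s P = s ^ j * u ∧
      ∀ R : ValuationSubring K, ApbLex k t s R → R.valuation u = 1 := by
  obtain ⟨Q, hQ, hQ2⟩ := exists_eq_pow_rootMultiplicity_mul_and_not_dvd P hP 0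
  rw [C_0, sub_zero] at hQ hQ2
  refine ⟨P.rootMultiplicity 0, eval₂ k.subtype s Q, ?_, ?_⟩
  · conv_lhs => rw [hQ]
    rw [eval₂_mul, eval₂_pow, eval₂_X]
  · intro R hR
    have h0 : Q.coeff 0 ≠ 0 := fun h => hQ2 (X_dvd_iff.2 h)
    have h1 : R.valuation ((Q.coeff 0 : k) : K) = 1 :=
      hR.triv.eq_one (Q.coeff 0).2 (fun h => h0 (Subtype.ext h))
    refine val_of_sub h1 ?_
    have h2 : eval₂ k.subtype 0 Q = ((Q.coeff 0 : k) : K) := by
      rw [eval₂_at_zero]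
      rfl
    rw [← h2]
    have hk : ∀ r : k, k.subtype r ∈ R := fun r => hR.triv _ r.2
    refine apb_cong hk hk (fun r => ?_) (apb_mem_of_lt hR.ls) (zero_mem R) ?_ Q
    · rw [sub_self, map_zero]
      exact zero_lt_one
    · rw [sub_zero]
      exact hR.ls

theorem apb_lex2 {t s : K} (hs : s ≠ 0) {f : k[X][X]} (hf : f ≠ 0) :
    ∃ (i j : ℕ) (u : K), apbEv k.subtype t s f = t ^ i * s ^ j * u ∧
      ∀ R : ValuationSubring K, ApbLex k t s R → R.valuation u = 1 := by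
  obtain ⟨h, hh, hh2⟩ := exists_eq_pow_rootMultiplicity_mul_and_not_dvd f hf 0
  rw [C_0, sub_zero] at hh hh2
  have h0 : h.coeff 0 ≠ 0 := fun h' => hh2 (X_dvd_iff.2 h')
  obtain ⟨j, u, hu, huR⟩ := apb_lex1 t (s := s) h0
  refine ⟨f.rootMultiplicity 0, j, u + t / s ^ j * apbEv k.subtype t s h.divX, ?_, ?_⟩
  · have h1 : apbEv k.subtype t s h = apbEv k.subtype t s h.divX * t + s ^ j * u := by
      conv_lhs => rw [← divX_mul_X_add h]
      rw [map_add, map_mul, apbEv_X, apbEv_C, hu]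
    conv_lhs => rw [hh]
    rw [map_mul, map_pow, apbEv_X, h1]
    have h2 : s ^ j ≠ 0 := pow_ne_zero _ hs
    field_simp
    ring
  · intro R hR
    have hk : ∀ r : k, k.subtype r ∈ R := fun r => hR.triv _ r.2
    have h1 : u + t / s ^ j * apbEv k.subtype t s h.divX - u =
        t / s ^ j * apbEv k.subtype t s h.divX := by ring
    refine val_of_sub (huR R hR) ?_
    rw [h1, map_mul]
    refine lt_of_le_of_lt (mul_le_of_le_one_right' ?_) (hR.lt j)
    rw [R.valuation_le_one_iff]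
    exact apbEv_mem hk (apb_mem_of_lt hR.lt0) (apb_mem_of_lt hR.ls) _

theorem apb_lex3 {t s : K} (ht : t ≠ 0) (hs : s ≠ 0) {z : K} (hz0 : z ≠ 0)
    (hz : z ∈ Vale.Agent.P019.adj (Vale.Agent.P019.adj k s) t) :
    ∃ (i j : ℤ) (u : K), z = t ^ i * s ^ j * u ∧
      ∀ R : ValuationSubring K, ApbLex k t s R → R.valuation u = 1 := by
  obtain ⟨f, g, hg, hfg⟩ := apb_mem_adj2 hz
  have hf : apbEv k.subtype t s f ≠ 0 := by
    intro h
    rw [h, zero_div] at hfg
    exact hz0 hfg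
  have hf0 : f ≠ 0 := by
    rintro rfl
    exact hf (map_zero _)
  have hg0 : g ≠ 0 := by
    rintro rfl
    exact hg (map_zero _)
  obtain ⟨i, j, u, h1, h2⟩ := apb_lex2 (t := t) hs hf0
  obtain ⟨i', j', u', h1', h2'⟩ := apb_lex2 (t := t) hs hg0
  refine ⟨(i : ℤ) - i', (j : ℤ) - j', u / u', ?_, ?_⟩
  · rw [hfg, h1, h1', zpow_sub₀ ht, zpow_sub₀ hs]
    simp only [zpow_natCast]
    ring
  · intro R hR
    rw [map_div₀, h2 R hR, h2' R hR, div_one]

theorem apb_lex_lt {t s : K} (hs : s ≠ 0) {R : ValuationSubring K}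
    (hR : ApbLex k t s R) {i j : ℤ} (hij : 0 < i ∨ (i = 0 ∧ 0 < j)) :
    R.valuation (t ^ i * s ^ j) < 1 := by
  rcases hij with hi | ⟨rfl, hj⟩
  · obtain ⟨n, hn⟩ := Int.eq_ofNat_of_zero_le (show 0 ≤ i - 1 by omega)
    have hi' : i = ((n + 1 : ℕ) : ℤ) := by push_cast; omega
    have hmj : 0 ≤ j + (j.natAbs : ℤ) * ((n + 1 : ℕ) : ℤ) := by
      have h1 : -j ≤ (j.natAbs : ℤ) := by omega
      have h2 : ∀ a : ℤ, 0 ≤ a → a ≤ a * ((n + 1 : ℕ) : ℤ) := by
        intro a ha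
        have h3 : (0 : ℤ) ≤ a * (n : ℤ) := mul_nonneg ha (Int.natCast_nonneg n)
        push_cast
        linarith
      have h4 := h2 (j.natAbs : ℤ) (Int.natCast_nonneg _)
      linarith
    obtain ⟨r, hr⟩ := Int.eq_ofNat_of_zero_le hmj
    have e : t ^ i * s ^ j = (t / s ^ j.natAbs) ^ (n + 1) * s ^ r := by
      have h1 : s ^ j = s ^ (r : ℤ) / (s ^ j.natAbs) ^ (n + 1) := by
        have h2 : (j : ℤ) = (r : ℤ) - (j.natAbs : ℤ) * ((n + 1 : ℕ) : ℤ) := by omega
        conv_lhs => rw [h2]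
        rw [zpow_sub₀ hs, zpow_mul, zpow_natCast, zpow_natCast, zpow_natCast]
      rw [h1, hi', zpow_natCast, zpow_natCast, div_pow]
      ring
    rw [e, map_mul, map_pow, map_pow]
    have h1 : R.valuation (t / s ^ j.natAbs) ^ (n + 1) < 1 :=
      pow_lt_one₀ zero_le (hR.lt _) (Nat.succ_ne_zero n)
    exact lt_of_le_of_lt (mul_le_of_le_one_right' (pow_le_one₀ zero_le hR.ls.le)) h1
  · obtain ⟨n, hn⟩ := Int.eq_ofNat_of_zero_le (show 0 ≤ j - 1 by omega)
    have hj' : j = ((n + 1 : ℕ) : ℤ) := by push_cast; omega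
    rw [zpow_zero, one_mul, hj', zpow_natCast, map_pow]
    exact pow_lt_one₀ zero_le hR.ls (Nat.succ_ne_zero n)

theorem apb_lex_mem {t s : K} (ht : t ≠ 0) (hs : s ≠ 0) {R : ValuationSubring K}
    (hR : ApbLex k t s R) {i j : ℤ} :
    t ^ i * s ^ j ∈ R ↔ 0 < i ∨ (i = 0 ∧ 0 ≤ j) := by
  constructor
  · intro h
    by_contra hcon
    have h1 : 0 < -i ∨ (-i = 0 ∧ 0 < -j) := by omega
    have h2 := apb_lex_lt hs hR h1
    rw [apb_lt_iff] at h2
    have h3 : t ^ (-i) * s ^ (-j) ≠ 0 := mul_ne_zero (zpow_ne_zero _ ht) (zpow_ne_zero _ hs)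
    apply h2.resolve_left h3
    have h4 : (t ^ (-i) * s ^ (-j))⁻¹ = t ^ i * s ^ j := by
      rw [mul_inv, zpow_neg, zpow_neg, inv_inv, inv_inv]
    rw [h4]
    exact h
  · rintro (hi | ⟨rfl, hj⟩)
    · exact apb_mem_of_lt (apb_lex_lt hs hR (Or.inl hi))
    · rcases hj.lt_or_eq with hj | rfl
      · exact apb_mem_of_lt (apb_lex_lt hs hR (Or.inr ⟨rfl, hj⟩))
      · rw [zpow_zero, zpow_zero, one_mul]
        exact one_mem R

theorem apb_lex4 {t s : K} (ht : t ≠ 0) (hs : s ≠ 0) {R₁ R₂ : ValuationSubring K}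
    (h₁ : ApbLex k t s R₁) (h₂ : ApbLex k t s R₂) {z : K}
    (hz : z ∈ Vale.Agent.P019.adj (Vale.Agent.P019.adj k s) t) : z ∈ R₁ ↔ z ∈ R₂ := by
  by_cases hz0 : z = 0
  · rw [hz0]
    exact ⟨fun _ => zero_mem _, fun _ => zero_mem _⟩
  obtain ⟨i, j, u, hu, huR⟩ := apb_lex3 ht hs hz0 hz
  have key : ∀ R : ValuationSubring K, ApbLex k t s R → (z ∈ R ↔ t ^ i * s ^ j ∈ R) := by
    intro R hR
    rw [← R.valuation_le_one_iff, ← R.valuation_le_one_iff, hu, map_mul, huR R hR, mul_one]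
  rw [key R₁ h₁, key R₂ h₂, apb_lex_mem ht hs h₁, apb_lex_mem ht hs h₂]

/-- `adj (adj k s) t` is contained in the perfect closure of the plain field `k(s)(t)`. -/
theorem apb_adj2_le [PerfectField K] (t s : K) :
    adj (adj k s) t ≤ pf (Vale.Agent.P019.adj (Vale.Agent.P019.adj k s) t) := by
  refine adj_le ?_ (le_pf _ (Vale.Agent.P019.mem_adj _ _))
  exact pf_mono (Vale.Agent.P019.le_adj _ _)

theorem apb_adj2_shift {t s b c : K} (hb : b ∈ k) (hc : c ∈ k) :
    Vale.Agent.P019.adj (Vale.Agent.P019.adj k s) t ≤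
      Vale.Agent.P019.adj (Vale.Agent.P019.adj k (s - c)) (t - b) := by
  have hk : k ≤ Vale.Agent.P019.adj (Vale.Agent.P019.adj k (s - c)) (t - b) :=
    (Vale.Agent.P019.le_adj _ _).trans (Vale.Agent.P019.le_adj _ _)
  refine Vale.Agent.P019.adj_le (Vale.Agent.P019.adj_le hk ?_) ?_
  · have h1 := Subfield.add_mem _ (Vale.Agent.P019.le_adj (Vale.Agent.P019.adj k (s - c)) (t - b)
      (Vale.Agent.P019.mem_adj k (s - c))) (hk hc)
    rwa [sub_add_cancel] at h1
  · have h1 := Subfield.add_mem _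
      (Vale.Agent.P019.mem_adj (Vale.Agent.P019.adj k (s - c)) (t - b)) (hk hb)
    rwa [sub_add_cancel] at h1

/-- two valuation rings with the same lexicographic data agree on `adj (adj k s) t`. -/
theorem apb_lex [PerfectField K] {t s b c : K} (hb : b ∈ k) (hc : c ∈ k) (ht : t - b ≠ 0)
    (hs : s - c ≠ 0) {R₁ R₂ : ValuationSubring K} (h₁ : ApbLex k (t - b) (s - c) R₁)
    (h₂ : ApbLex k (t - b) (s - c) R₂) {z : K} (hz : z ∈ adj (adj k s) t) :
    z ∈ R₁ ↔ z ∈ R₂ := by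
  obtain ⟨n, hn⟩ := mem_pf.1 (apb_adj2_le t s hz)
  have h1 := apb_lex4 ht hs h₁ h₂ (apb_adj2_shift hb hc hn)
  rwa [apb_mem_pow (qn_ne_zero K n), apb_mem_pow (qn_ne_zero K n)] at h1

end Vale.Agent.P019P
end

section

/-!
# Approximation: the model of a surface
-/

namespace Vale.Agent.P019P

open Vale.Agent.P019

set_option linter.style.haveILetI false
set_option linter.unusedSectionVars false

open Polynomial Filter

variable {K : Type*} [Field K] {k : Subfield K}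

/-- a model of a surface. -/
structure ApbM (k : Subfield K) (t s θ : K) (Φ U V : k[X][X][X]) (δ : k[X][X]) : Prop where
  mon : Φ.Monic
  min : (minpoly (adj (adj k s) t) θ).map (algebraMap (adj (adj k s) t) K) =
    Φ.map (apbEv k.subtype t s)
  top : ∀ z : K, ∃ n : ℕ, z ^ (ringExpChar K) ^ n ∈
    Vale.Agent.P019.adj (Vale.Agent.P019.adj (Vale.Agent.P019.adj k s) t) θ
  ne : δ ≠ 0
  bez : Φ * U + derivative Φ * V = C δ

theorem apb_eval₂_inj {E : Subfield K} {x : K} (hx : ¬ IsAlgebraic E x) {P : E[X]}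
    (h : eval₂ E.subtype x P = 0) : P = 0 := by
  by_contra hP
  exact hx ⟨P, hP, h⟩

theorem apbEv_inj {t s : K} (ht : ¬ IsAlgebraic (adj k s) t) (hs : ¬ IsAlgebraic k s) :
    Function.Injective (apbEv k.subtype t s) := by
  rw [injective_iff_map_eq_zero]
  intro f hf
  let j : k[X] →+* adj k s :=
    eval₂RingHom (Subfield.inclusion (le_adj k s)) ⟨s, mem_adj k s⟩
  have hj : (adj k s).subtype.comp j = eval₂RingHom k.subtype s := by
    ext
    · simp [j]
      rfl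
    · simp [j]
  have h1 : eval₂ (adj k s).subtype t (f.map j) = 0 := by
    rw [eval₂_map, hj]
    exact hf
  have h2 := apb_eval₂_inj ht h1
  ext1 n
  have h3 : j (f.coeff n) = 0 := by
    rw [← coeff_map, h2, coeff_zero]
  have h4 : eval₂ k.subtype s (f.coeff n) = 0 := by
    have h5 := congrArg (adj k s).subtype h3
    rw [map_zero] at h5
    rw [← h5]
    exact (RingHom.congr_fun hj (f.coeff n)).symm
  rw [apb_eval₂_inj hs h4, coeff_zero]

theorem apb_pow_mono {M₀ : Subfield K} {z : K} {m n : ℕ} (hmn : m ≤ n)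
    (h : z ^ (ringExpChar K) ^ m ∈ M₀) : z ^ (ringExpChar K) ^ n ∈ M₀ := by
  obtain ⟨r, rfl⟩ := Nat.exists_eq_add_of_le hmn
  rw [pow_add, pow_mul]
  exact M₀.pow_mem h _

theorem apb_unif_pow {M₀ : Subfield K} (S : Finset K) (h : ∀ z ∈ S, z ∈ pf M₀) :
    ∃ m : ℕ, ∀ z ∈ S, z ^ (ringExpChar K) ^ m ∈ M₀ := by
  classical
  induction S using Finset.induction_on with
  | empty => exact ⟨0, fun z hz => absurd hz (Finset.notMem_empty z)⟩
  | insert a S _ ih =>
    obtain ⟨m, hm⟩ := ih fun z hz => h z (Finset.mem_insert_of_mem hz)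
    obtain ⟨n, hn⟩ := mem_pf.1 (h a (Finset.mem_insert_self a S))
    refine ⟨max m n, fun z hz => ?_⟩
    rcases Finset.mem_insert.1 hz with rfl | hz
    · exact apb_pow_mono (le_max_right _ _) hn
    · exact apb_pow_mono (le_max_left _ _) (hm z hz)

theorem apb_common_den {t s : K} (S : Finset K)
    (h : ∀ z ∈ S, z ∈ Vale.Agent.P019.adj (Vale.Agent.P019.adj k s) t) :
    ∃ d : k[X][X], apbEv k.subtype t s d ≠ 0 ∧
      ∀ z ∈ S, ∃ f, apbEv k.subtype t s f = apbEv k.subtype t s d * z := by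
  classical
  induction S using Finset.induction_on with
  | empty =>
    exact ⟨1, by rw [map_one]; exact one_ne_zero, fun z hz => absurd hz (Finset.notMem_empty z)⟩
  | insert a S _ ih =>
    obtain ⟨d, hd, hdS⟩ := ih fun z hz => h z (Finset.mem_insert_of_mem hz)
    obtain ⟨f, g, hg, hfg⟩ := apb_mem_adj2 (h a (Finset.mem_insert_self a S))
    refine ⟨d * g, by rw [map_mul]; exact mul_ne_zero hd hg, fun z hz => ?_⟩
    rcases Finset.mem_insert.1 hz with rfl | hz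
    · refine ⟨d * f, ?_⟩
      rw [map_mul, map_mul, hfg]
      field_simp
    · obtain ⟨f', hf'⟩ := hdS z hz
      refine ⟨g * f', ?_⟩
      rw [map_mul, map_mul, hf']
      ring

/-- minimal polynomials of `q ^ m`-th powers over perfect subfields. -/
theorem apb_minpoly_pow (M : Subfield K) [PerfectField M] {θ : K} (hθ : IsIntegral M θ) (m : ℕ)
    (i : ℕ) : (((minpoly M (θ ^ (ringExpChar K) ^ m)).coeff i : M) : K) =
      (((minpoly M θ).coeff i : M) : K) ^ (ringExpChar K) ^ m := by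
  haveI : PerfectRing M (ringExpChar K) := PerfectField.toPerfectRing _
  let e : M ≃+* M := RingEquiv.ofBijective (iterateFrobenius M (ringExpChar K) m)
    (bijective_iterateFrobenius M (ringExpChar K) (n := m))
  have h1 : Irreducible ((minpoly M θ).map (e : M →+* M)) :=
    (MulEquiv.irreducible_iff (Polynomial.mapEquiv e)).2 (minpoly.irreducible hθ)
  have h2 : aeval (θ ^ (ringExpChar K) ^ m) ((minpoly M θ).map (e : M →+* M)) = 0 := by
    rw [aeval_def, eval₂_map]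
    have h3 : (algebraMap M K).comp (e : M →+* M) =
        (iterateFrobenius K (ringExpChar K) m).comp (algebraMap M K) := by
      ext x
      change ((iterateFrobenius M (ringExpChar K) m x : M) : K) =
        iterateFrobenius K (ringExpChar K) m (x : K)
      rw [iterateFrobenius_def, iterateFrobenius_def]
      rfl
    have h4 := minpoly.aeval M θ
    rw [aeval_def] at h4
    have h5 := congrArg (iterateFrobenius K (ringExpChar K) m) h4
    rw [hom_eval₂, map_zero, iterateFrobenius_def] at h5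
    rw [h3]
    exact h5
  have h6 := minpoly.eq_of_irreducible_of_monic h1 h2 ((minpoly.monic hθ).map _)
  rw [← h6, coeff_map]
  change ((iterateFrobenius M (ringExpChar K) m _ : M) : K) = _
  rw [iterateFrobenius_def]
  rfl

theorem apb_scale_coeff {M : Subfield K} {d : M} (hd : d ≠ 0) {θ : K} (hθ : IsIntegral M θ)
    (i : ℕ) : (((minpoly M ((d : K) * θ)).coeff i : M) : K) =
      (((minpoly M θ).coeff i : M) : K) * (d : K) ^ ((minpoly M θ).natDegree - i) := by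
  have h1 := IsIntegrallyClosed.minpoly_smul hd hθ
  have h2 : d • θ = (d : K) * θ := by rw [Algebra.smul_def]; rfl
  rw [h2] at h1
  rw [h1, coeff_scaleRoots]
  rfl

/-- the coefficients of the minimal polynomial become polynomials after scaling. -/
theorem apb_scale_range {M : Subfield K} {t s : K} {d : k[X][X]}
    (hdM : apbEv k.subtype t s d ∈ M) (hd : apbEv k.subtype t s d ≠ 0) {θ : K}
    (hθ : IsIntegral M θ) (h : ∀ i, ∃ f, apbEv k.subtype t s f = apbEv k.subtype t s d *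
      (((minpoly M θ).coeff i : M) : K)) (i : ℕ) :
    ∃ f, apbEv k.subtype t s f =
      (((minpoly M (apbEv k.subtype t s d * θ)).coeff i : M) : K) := by
  have hd' : (⟨_, hdM⟩ : M) ≠ 0 := fun h' => hd (congrArg Subtype.val h')
  have h1 := apb_scale_coeff hd' hθ i
  have h2 : ((⟨_, hdM⟩ : M) : K) = apbEv k.subtype t s d := rfl
  rw [h2] at h1
  rw [h1]
  rcases lt_trichotomy i (minpoly M θ).natDegree with hi | hi | hi
  · obtain ⟨f, hf⟩ := h i
    refine ⟨f * d ^ ((minpoly M θ).natDegree - i - 1), ?_⟩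
    obtain ⟨r, hr⟩ := Nat.exists_eq_add_of_lt hi
    rw [map_mul, map_pow, hf, hr]
    have e1 : i + r + 1 - i - 1 = r := by omega
    have e2 : i + r + 1 - i = r + 1 := by omega
    rw [e1, e2, pow_succ]
    ring
  · refine ⟨1, ?_⟩
    have e1 : (minpoly M θ).coeff i = 1 := by
      rw [hi]
      exact (minpoly.monic hθ).coeff_natDegree
    rw [e1, hi, Nat.sub_self, pow_zero, mul_one, map_one]
    rfl
  · refine ⟨0, ?_⟩
    rw [coeff_eq_zero_of_natDegree_lt hi, map_zero]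
    simp

theorem apb_exists_bez {t s θ : K} (hinj : Function.Injective (apbEv k.subtype t s))
    {M : Subfield K} [PerfectField M] (hθ : IsIntegral M θ) {Φ : k[X][X][X]} (hΦ : Φ.Monic)
    (hmin : (minpoly M θ).map (algebraMap M K) = Φ.map (apbEv k.subtype t s)) :
    ∃ (U V : k[X][X][X]) (δ : k[X][X]), δ ≠ 0 ∧ Φ * U + derivative Φ * V = C δ := by
  have hsep : (Φ.map (apbEv k.subtype t s)).Separable := by
    rw [← hmin]
    exact (PerfectField.separable_of_irreducible (minpoly.irreducible hθ)).map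
  have hdeg : Φ.natDegree = (minpoly M θ).natDegree := by
    have h1 := congrArg natDegree hmin
    rw [natDegree_map_eq_of_injective (algebraMap M K).injective,
      natDegree_map_eq_of_injective hinj] at h1
    exact h1.symm
  have hpos : Φ.natDegree ≠ 0 := by
    rw [hdeg]
    exact (minpoly.natDegree_pos hθ).ne'
  obtain ⟨U, V, -, -, h⟩ := exists_mul_add_mul_eq_C_resultant Φ (derivative Φ) le_rfl le_rfl
    (Or.inl hpos)
  refine ⟨U, V, _, ?_, h⟩
  intro h0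
  have h1 : IsCoprime (Φ.map (apbEv k.subtype t s)) ((derivative Φ).map (apbEv k.subtype t s)) := by
    rw [← derivative_map]
    exact hsep
  have h2 := (isUnit_resultant_iff_isCoprime (hΦ.map (apbEv k.subtype t s))).2 h1
  rw [natDegree_map_eq_of_injective hinj, natDegree_map_eq_of_injective hinj, resultant_map_map,
    h0, map_zero] at h2
  exact not_isUnit_zero h2

/-- existence of models. -/
theorem apb_exists_model [PerfectField K] (hfg : FG k (⊤ : Subfield K)) {t s : K}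
    (hS : Srf k t s) : ∃ (θ : K) (Φ U V : k[X][X][X]) (δ : k[X][X]), ApbM k t s θ Φ U V δ := by
  classical
  haveI : PerfectField (adj k s) := perfect_adj _ _
  haveI : PerfectField (adj (adj k s) t) := perfect_adj _ _
  set M : Subfield K := adj (adj k s) t with hM
  set M₀ : Subfield K := Vale.Agent.P019.adj (Vale.Agent.P019.adj k s) t with hM₀
  have hM₀M : M₀ ≤ M := (Vale.Agent.P019.adj_mono (adj0_le_adj k s) t).trans (adj0_le_adj _ t)
  have hkM : k ≤ M := (le_adj k s).trans (le_adj _ t)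
  obtain ⟨θ₀, hθ₀⟩ := exists_prim hkM hfg hS.alg
  have hint₀ : IsIntegral M θ₀ := (hS.alg θ₀).isIntegral
  obtain ⟨m, hm⟩ := apb_unif_pow (M₀ := M₀)
    ((minpoly M θ₀).support.image fun i => (((minpoly M θ₀).coeff i : M) : K)) (by
      intro z hz
      obtain ⟨i, -, rfl⟩ := Finset.mem_image.1 hz
      exact apb_adj2_le t s ((minpoly M θ₀).coeff i).2)
  have hm' : ∀ i, (((minpoly M θ₀).coeff i : M) : K) ^ (ringExpChar K) ^ m ∈ M₀ := by
    intro i
    by_cases hi : i ∈ (minpoly M θ₀).support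
    · exact hm _ (Finset.mem_image_of_mem _ hi)
    · rw [notMem_support_iff.1 hi]
      exact M₀.pow_mem M₀.zero_mem _
  set θ₁ : K := θ₀ ^ (ringExpChar K) ^ m with hθ₁
  have hint₁ : IsIntegral M θ₁ := hint₀.pow _
  have hc₁ : ∀ i, (((minpoly M θ₁).coeff i : M) : K) ∈ M₀ := by
    intro i
    rw [hθ₁, apb_minpoly_pow M hint₀ m i]
    exact hm' i
  obtain ⟨d, hd, hdS⟩ := apb_common_den (k := k) (t := t) (s := s)
    ((minpoly M θ₁).support.image fun i => (((minpoly M θ₁).coeff i : M) : K)) (by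
      intro z hz
      obtain ⟨i, -, rfl⟩ := Finset.mem_image.1 hz
      exact hc₁ i)
  have hd' : ∀ i, ∃ f, apbEv k.subtype t s f = apbEv k.subtype t s d *
      (((minpoly M θ₁).coeff i : M) : K) := by
    intro i
    by_cases hi : i ∈ (minpoly M θ₁).support
    · exact hdS _ (Finset.mem_image_of_mem _ hi)
    · refine ⟨0, ?_⟩
      rw [notMem_support_iff.1 hi, map_zero]
      simp
  have hevM₀ : ∀ f, apbEv k.subtype t s f ∈ M₀ := by
    intro f
    have hk : ∀ r : k, k.subtype r ∈ M₀ := fun r =>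
      (Vale.Agent.P019.le_adj _ _) ((Vale.Agent.P019.le_adj _ _) r.2)
    have h1 : ∀ P : k[X], eval₂ k.subtype s P ∈ M₀ := by
      intro P
      rw [eval₂_eq_sum_range]
      exact sum_mem fun i _ => mul_mem (hk _)
        (pow_mem (Vale.Agent.P019.le_adj _ _ (Vale.Agent.P019.mem_adj _ _)) _)
    change eval₂ (eval₂RingHom k.subtype s) t f ∈ M₀
    rw [eval₂_eq_sum_range]
    exact sum_mem fun i _ => mul_mem (h1 _) (pow_mem (Vale.Agent.P019.mem_adj _ _) _)
  set D : K := apbEv k.subtype t s d with hD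
  have hDM : D ∈ M := hM₀M (hevM₀ d)
  set θ : K := D * θ₁ with hθ
  have hint : IsIntegral M θ := (hS.alg θ).isIntegral
  have hrange := apb_scale_range (k := k) (t := t) (s := s) (d := d) hDM hd hint₁ hd'
  have hinj : Function.Injective (apbEv k.subtype t s) := apbEv_inj hS.tt hS.ss
  have hlift : (minpoly M θ).map (algebraMap M K) ∈ lifts (apbEv k.subtype t s) := by
    rw [lifts_iff_coeff_lifts]
    intro i
    rw [coeff_map]
    exact hrange i
  obtain ⟨Φ, hΦ, -, hΦm⟩ := lifts_and_natDegree_eq_and_monic hlift ((minpoly.monic hint).map _)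
  obtain ⟨U, V, δ, hδ, hb⟩ := apb_exists_bez hinj hint hΦm hΦ.symm
  refine ⟨θ, Φ, U, V, δ, ⟨hΦm, hΦ.symm, ?_, hδ, hb⟩⟩
  intro z
  rw [← mem_pf]
  have h1 : Vale.Agent.P019.adj M θ₀ ≤ pf (Vale.Agent.P019.adj M₀ θ) := by
    refine Vale.Agent.P019.adj_le ?_ ?_
    · exact (apb_adj2_le t s).trans (pf_mono (Vale.Agent.P019.le_adj _ _))
    · refine mem_pf.2 ⟨m, ?_⟩
      have h2 : θ₀ ^ (ringExpChar K) ^ m = θ / D := by
        rw [hθ, mul_comm, mul_div_assoc, div_self hd, mul_one]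
      rw [h2]
      exact Subfield.div_mem _ (Vale.Agent.P019.mem_adj _ _)
        (Vale.Agent.P019.le_adj _ _ (hevM₀ d))
  exact h1 (hθ₀ z)

end Vale.Agent.P019P
end

section

/-!
# Approximation: the approximating valuation rings
-/

namespace Vale.Agent.P019P

open Vale.Agent.P019

set_option linter.style.haveILetI false
set_option linter.unusedSectionVars false

open Polynomial Filter

variable {K : Type*} [Field K] {k F : Subfield K}

/-- the substitution `T = b + τ (S - c) ^ (N + 1)`. -/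
noncomputable def apbSub (hkF : k ≤ F) (τ : F) (b c : k) (N : ℕ) : k[X][X] →+* F[X] :=
  apbEv ((C : F →+* F[X]).comp (Subfield.inclusion hkF))
    (C (Subfield.inclusion hkF b) + C τ * (X - C (Subfield.inclusion hkF c)) ^ (N + 1)) X

theorem apbSub_ev (hkF : k ≤ F) (τ : F) (b c : k) (N : ℕ) {t s : K}
    (ht : t = b + τ * (s - c) ^ (N + 1)) :
    (eval₂RingHom F.subtype s).comp (apbSub hkF τ b c N) = apbEv k.subtype t s := by
  unfold apbSub
  rw [apbEv_comp]
  congr 1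
  · ext x
    simp
    rfl
  · rw [ht, coe_eval₂RingHom, eval₂_add, eval₂_mul, eval₂_pow, eval₂_sub, eval₂_C, eval₂_C,
      eval₂_X, eval₂_C]
    rfl
  · simp

theorem apbSub_eval (hkF : k ≤ F) (τ : F) (b c : k) (N : ℕ) :
    (evalRingHom (Subfield.inclusion hkF c)).comp (apbSub hkF τ b c N) =
      (Subfield.inclusion hkF).comp (apbEv (RingHom.id k) b c) := by
  unfold apbSub
  rw [apbEv_comp, apbEv_comp]
  congr 1
  · ext x
    simp
  · simp
  · simp

/-- the homomorphism `F[S] → M`, `S ↦ s`. -/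
noncomputable def apbJ {M : Subfield K} (hFM : F ≤ M) {s : K} (hs : s ∈ M) : F[X] →+* M :=
  eval₂RingHom (Subfield.inclusion hFM) ⟨s, hs⟩

theorem apbJ_comp {M : Subfield K} (hFM : F ≤ M) {s : K} (hs : s ∈ M) :
    (algebraMap M K).comp (apbJ hFM hs) = eval₂RingHom F.subtype s := by
  unfold apbJ
  ext
  · simp
    rfl
  · simp
    rfl

theorem apbJ_inj {M : Subfield K} (hFM : F ≤ M) {s : K} (hs : s ∈ M) (hsF : ¬ IsAlgebraic F s) :
    Function.Injective (apbJ hFM hs) := by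
  rw [injective_iff_map_eq_zero]
  intro P hP
  refine apb_eval₂_inj hsF ?_
  have h1 := congrArg (algebraMap M K) hP
  rw [map_zero] at h1
  rw [← h1]
  exact (RingHom.congr_fun (apbJ_comp hFM hs) P).symm

section main

variable {t s θ : K} {Φ U V : k[X][X][X]} {δ : k[X][X]}

theorem ApbM.root (hM : ApbM k t s θ Φ U V δ) : eval₂ (apbEv k.subtype t s) θ Φ = 0 := by
  have h1 := minpoly.aeval (adj (adj k s) t) θ
  rw [aeval_def, ← eval_map, hM.min, eval_map] at h1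
  exact h1

/-- the specialization kills the kernel. -/
theorem apb_ker (hM : ApbM k t s θ Φ U V δ) (hkF : k ≤ F) (hFM : F ≤ adj (adj k s) t)
    (hsF : ¬ IsAlgebraic F s) (τ : F) (b c ϑ : k) (N : ℕ) (ht : t = b + τ * (s - c) ^ (N + 1))
    (h0 : eval₂ (apbEv (RingHom.id k) b c) ϑ Φ = 0) (P : F[X][X])
    (hP : apbEv F.subtype θ s P = 0) :
    apbEv (RingHom.id F) (Subfield.inclusion hkF ϑ) (Subfield.inclusion hkF c) P = 0 := by
  have hsM : s ∈ adj (adj k s) t := le_adj _ _ (mem_adj k s)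
  set j := apbJ hFM hsM with hj
  set σ := apbSub hkF τ b c N with hσ
  have h1 : (Φ.map σ).map j = minpoly (adj (adj k s) t) θ := by
    apply Polynomial.map_injective (algebraMap (adj (adj k s) t) K)
      (algebraMap (adj (adj k s) t) K).injective
    rw [hM.min, Polynomial.map_map, Polynomial.map_map, hj, apbJ_comp, hσ, apbSub_ev hkF τ b c N ht]
  have h2 : aeval θ (P.map j) = 0 := by
    rw [aeval_def, eval₂_map, hj, apbJ_comp]
    exact hP
  have h3 : (Φ.map σ).map j ∣ P.map j := by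
    rw [h1]
    exact minpoly.dvd _ _ h2
  rw [map_dvd_map j (apbJ_inj hFM hsM hsF) (hM.mon.map σ)] at h3
  obtain ⟨Q, rfl⟩ := h3
  rw [map_mul]
  have h4 : apbEv (RingHom.id F) (Subfield.inclusion hkF ϑ) (Subfield.inclusion hkF c)
      (Φ.map σ) = 0 := by
    change eval₂ (eval₂RingHom (RingHom.id F) (Subfield.inclusion hkF c))
      (Subfield.inclusion hkF ϑ) (Φ.map σ) = 0
    rw [eval₂_map]
    have h5 : (eval₂RingHom (RingHom.id F) (Subfield.inclusion hkF c)).comp σ =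
        (Subfield.inclusion hkF).comp (apbEv (RingHom.id k) b c) := apbSub_eval hkF τ b c N
    rw [h5, ← hom_eval₂, h0, map_zero]
  rw [h4, zero_mul]

theorem apb_ev_der (hkF : k ≤ F) (τ : F) (b c ϑ : k) (N : ℕ) (G : k[X][X][X]) :
    apbEv (RingHom.id F) (Subfield.inclusion hkF ϑ) (Subfield.inclusion hkF c)
      (G.map (apbSub hkF τ b c N)) =
      Subfield.inclusion hkF (eval₂ (apbEv (RingHom.id k) b c) ϑ G) := by
  change eval₂ (eval₂RingHom (RingHom.id F) (Subfield.inclusion hkF c))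
      (Subfield.inclusion hkF ϑ) (G.map (apbSub hkF τ b c N)) = _
  rw [eval₂_map, hom_eval₂]
  congr 1
  exact apbSub_eval hkF τ b c N

theorem apb_ev_K (hkF : k ≤ F) (τ : F) (b c : k) (N : ℕ) (ht : t = b + τ * (s - c) ^ (N + 1))
    (G : k[X][X][X]) :
    apbEv F.subtype θ s (G.map (apbSub hkF τ b c N)) = eval₂ (apbEv k.subtype t s) θ G := by
  change eval₂ (eval₂RingHom F.subtype s) θ (G.map (apbSub hkF τ b c N)) = _
  rw [eval₂_map, apbSub_ev hkF τ b c N ht]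

/-- the valuation ring. -/
theorem apb_exists_W (hM : ApbM k t s θ Φ U V δ) (hkF : k ≤ F) (hFM : F ≤ adj (adj k s) t)
    (hsF : ¬ IsAlgebraic F s) (τ : F) (b c ϑ : k) (N : ℕ) (ht : t = b + τ * (s - c) ^ (N + 1))
    (h0 : eval₂ (apbEv (RingHom.id k) b c) ϑ Φ = 0)
    (h1 : eval₂ (apbEv (RingHom.id k) b c) ϑ (derivative Φ) ≠ 0) :
    ∃ W : ValuationSubring K, TrivOn W F ∧ s ∈ W ∧ W.valuation (s - c) < 1 ∧
      W.valuation (θ - ϑ) < 1 ∧
      W.valuation (eval₂ (apbEv k.subtype t s) θ (derivative Φ)) = 1 := by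
  obtain ⟨W, hW1, hW2⟩ := apb_exists_val (apbEv F.subtype θ s)
    (apbEv (RingHom.id F) (Subfield.inclusion hkF ϑ) (Subfield.inclusion hkF c))
    (apb_ker hM hkF hFM hsF τ b c ϑ N ht h0)
  have hWF : TrivOn W F := by
    intro a ha
    have h2 := hW1 (C (C ⟨a, ha⟩))
    rwa [apbEv_CC] at h2
  refine ⟨W, hWF, ?_, ?_, ?_, ?_⟩
  · have h2 := hW1 (C X)
    rwa [apbEv_CX] at h2
  · have h2 := hW2 (C X - C (C (Subfield.inclusion hkF c))) (by
      rw [map_sub, apbEv_CX, apbEv_CC, RingHom.id_apply, sub_self])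
    rw [map_sub, apbEv_CX, apbEv_CC] at h2
    exact h2
  · have h2 := hW2 (X - C (C (Subfield.inclusion hkF ϑ))) (by
      rw [map_sub, apbEv_X, apbEv_CC, RingHom.id_apply, sub_self])
    rw [map_sub, apbEv_X, apbEv_CC] at h2
    exact h2
  · set a : F := Subfield.inclusion hkF (eval₂ (apbEv (RingHom.id k) b c) ϑ (derivative Φ))
      with ha
    have ha0 : (a : K) ≠ 0 := by
      intro h
      apply h1
      have h3 : a = 0 := Subtype.ext h
      exact (map_eq_zero _).1 h3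
    refine val_of_sub (hWF.eq_one a.2 ha0) ?_
    have h2 := hW2 ((derivative Φ).map (apbSub hkF τ b c N) - C (C a)) (by
      rw [map_sub, apb_ev_der, apbEv_CC, RingHom.id_apply, ← ha, sub_self])
    rw [map_sub, apb_ev_K hkF τ b c N ht, apbEv_CC] at h2
    exact h2

/-- the valuation ring is nice. -/
theorem apb_nice [PerfectField K] [PerfectField F] (hM : ApbM k t s θ Φ U V δ) (hkF : k ≤ F)
    (τ : F) (b c : k) (N : ℕ) (ht : t = b + τ * (s - c) ^ (N + 1)) (hsc : s - c ≠ 0)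
    {W : ValuationSubring K} (hWF : TrivOn W F) (hsW : s ∈ W) (hWs : W.valuation (s - c) < 1)
    (hder : W.valuation (eval₂ (apbEv k.subtype t s) θ (derivative Φ)) = 1) :
    Nice W F (s - c) θ := by
  set F' : IntermediateField F K := IntermediateField.adjoin F {s - (c : K)} with hF'
  have hFF' : ∀ a ∈ F, a ∈ F' := fun a ha => F'.algebraMap_mem ⟨a, ha⟩
  have hcF' : (c : K) ∈ F' := hFF' _ (hkF c.2)
  have hscF' : s - (c : K) ∈ F' := IntermediateField.mem_adjoin_simple_self F _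
  have hsF' : s ∈ F' := by
    have h1 := F'.add_mem hscF' hcF'
    rwa [sub_add_cancel] at h1
  have htF' : t ∈ F' := by
    rw [ht]
    exact F'.add_mem (hFF' _ (hkF b.2)) (F'.mul_mem (hFF' _ τ.2) (pow_mem hscF' _))
  let j' : F[X] →+* F' := eval₂RingHom (algebraMap F F') ⟨s, hsF'⟩
  have hj' : (algebraMap F' K).comp j' = eval₂RingHom F.subtype s := by
    ext
    · simp [j']
      rfl
    · simp [j']
  set σ := apbSub hkF τ b c N with hσ
  have hcomp : (algebraMap F' K).comp (j'.comp σ) = apbEv k.subtype t s := by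
    rw [← RingHom.comp_assoc, hj', hσ, apbSub_ev hkF τ b c N ht]
  set Φ' : F'[X] := Φ.map (j'.comp σ) with hΦ'
  have hroot : aeval θ Φ' = 0 := by
    rw [aeval_def, hΦ', eval₂_map, hcomp]
    exact hM.root
  have hder' : W.valuation (aeval θ (derivative Φ')) = 1 := by
    rw [aeval_def, hΦ', derivative_map, eval₂_map, hcomp]
    exact hder
  have hint : IntCoeff W Φ' := by
    intro i
    rw [hΦ', coeff_map]
    have h1 : algebraMap F' K ((j'.comp σ) (Φ.coeff i)) =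
        eval₂ F.subtype s (σ (Φ.coeff i)) := by
      have h2 := RingHom.congr_fun hj' (σ (Φ.coeff i))
      exact h2
    rw [h1]
    exact apb_eval₂_mem (fun r => hWF _ r.2) hsW _
  obtain ⟨hθW, hrep, hres, halg⟩ := frp_core hsc hWF hWs F' hF' Φ' (hM.mon.map _) hint hroot hder'
  have hall : ∀ z : K, ∃ n : ℕ, z ^ (ringExpChar K) ^ n ∈ IntermediateField.adjoin F' {θ} := by
    intro z
    obtain ⟨n, hn⟩ := hM.top z
    refine ⟨n, ?_⟩
    have h1 : Vale.Agent.P019.adj (Vale.Agent.P019.adj (Vale.Agent.P019.adj k s) t) θ ≤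
        (IntermediateField.adjoin F' {θ}).toSubfield := by
      have h2 : ∀ a ∈ F', a ∈ (IntermediateField.adjoin F' {θ}).toSubfield := fun a ha =>
        (IntermediateField.adjoin F' {θ}).algebraMap_mem ⟨a, ha⟩
      refine Vale.Agent.P019.adj_le (Vale.Agent.P019.adj_le (Vale.Agent.P019.adj_le ?_ ?_) ?_) ?_
      · exact fun a ha => h2 a (hFF' a (hkF ha))
      · exact h2 _ hsF'
      · exact h2 _ htF'
      · exact IntermediateField.mem_adjoin_simple_self F' θ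
    exact h1 hn
  refine ⟨inferInstance, ⟨hsc, hWs, ?_⟩, hWF, hθW, ?_, halg⟩
  · intro z hz0
    obtain ⟨n, hn⟩ := hall z
    obtain ⟨i, hi⟩ := hrep _ hn (pow_ne_zero _ hz0)
    exact ⟨n, i, hi⟩
  · intro z hz
    obtain ⟨n, hn⟩ := hall z
    refine frp_res hWF hθW halg hz (n := n) (hres _ hn ?_)
    rw [map_pow]
    exact pow_le_one₀ zero_le hz

end main

end Vale.Agent.P019P
end

section

/-!
# Approximation: the limit of the approximating valuation rings
-/

namespace Vale.Agent.P019P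

open Vale.Agent.P019

set_option linter.style.haveILetI false
set_option linter.unusedSectionVars false

open Polynomial Filter

variable {K : Type*} [Field K] {k : Subfield K}

section main

variable {t s θ : K} {Φ U V : k[X][X][X]} {δ : k[X][X]}

theorem apb_s_sub (hS : Srf k t s) (c : k) : s - (c : K) ≠ 0 := by
  intro h
  apply hS.ss
  rw [sub_eq_zero.1 h]
  exact isAlgebraic_of_mem c.2

theorem apb_t_sub (hS : Srf k t s) (b : k) : t - (b : K) ≠ 0 := by
  intro h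
  apply hS.tt
  rw [sub_eq_zero.1 h]
  exact isAlgebraic_of_mem (le_adj k s b.2)

theorem ApbM.coeff_eq (hM : ApbM k t s θ Φ U V δ) (i : ℕ) :
    (((minpoly (adj (adj k s) t) θ).coeff i : adj (adj k s) t) : K) =
      apbEv k.subtype t s (Φ.coeff i) := by
  have h1 := congrArg (fun p => Polynomial.coeff p i) hM.min
  simp only [coeff_map] at h1
  exact h1

theorem ApbM.der (hM : ApbM k t s θ Φ U V δ) :
    aeval θ (derivative (minpoly (adj (adj k s) t) θ)) =
      eval₂ (apbEv k.subtype t s) θ (derivative Φ) := by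
  rw [aeval_def, ← eval_map, ← derivative_map, hM.min, derivative_map, eval_map]

/-- the limit is lexicographic. -/
theorem apb_lim_lex {b c : k} (Wn : ℕ → ValuationSubring K) (F : ℕ → Subfield K)
    (hWF : ∀ n, TrivOn (Wn n) (F n)) (hkF : ∀ n, k ≤ F n) (hsc : s - (c : K) ≠ 0)
    (hτ : ∀ n, (t - b) / (s - c) ^ (n + 1) ∈ F n) (hWs : ∀ n, (Wn n).valuation (s - c) < 1)
    (𝒰 : Ultrafilter ℕ) (h𝒰 : (𝒰 : Filter ℕ) ≤ atTop) :
    ApbLex k (t - b) (s - c) (apbLim Wn 𝒰) := by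
  refine ⟨?_, ?_, ?_⟩
  · intro a ha
    exact Eventually.of_forall fun n => hWF n a (hkF n ha)
  · exact apbLim_lt (Eventually.of_forall hWs)
  · intro m
    refine apbLim_lt (h𝒰 ?_)
    filter_upwards [eventually_ge_atTop m] with n hn
    have e : (t - b) / (s - c) ^ m = (t - b) / (s - c) ^ (n + 1) * (s - c) ^ (n + 1 - m) := by
      have h1 : (s - (c : K)) ^ (n + 1) = (s - c) ^ m * (s - c) ^ (n + 1 - m) := by
        rw [← pow_add]
        congr 1
        omega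
      rw [h1]
      have h2 : (s - (c : K)) ^ (n + 1 - m) ≠ 0 := pow_ne_zero _ hsc
      have h3 : (s - (c : K)) ^ m ≠ 0 := pow_ne_zero _ hsc
      field_simp
    rw [e, map_mul, map_pow]
    have h1 : (Wn n).valuation ((t - b) / (s - c) ^ (n + 1)) ≤ 1 := (hWF n).le_one (hτ n)
    have h2 : (Wn n).valuation (s - c) ^ (n + 1 - m) < 1 :=
      pow_lt_one₀ zero_le (hWs n) (by omega)
    exact lt_of_le_of_lt (mul_le_of_le_one_left' h1) h2

/-- the approximation property. -/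
theorem apb_limit [PerfectField K] (hS : Srf k t s) (hM : ApbM k t s θ Φ U V δ) {b c ϑ : k}
    {R₀ : ValuationSubring K} (hR : ApbLex k (t - b) (s - c) R₀)
    (hθ : R₀.valuation (θ - ϑ) < 1)
    (hder : R₀.valuation (eval₂ (apbEv k.subtype t s) θ (derivative Φ)) = 1)
    (Wn : ℕ → ValuationSubring K) (F : ℕ → Subfield K)
    (hWF : ∀ n, TrivOn (Wn n) (F n)) (hkF : ∀ n, k ≤ F n)
    (hτ : ∀ n, (t - b) / (s - c) ^ (n + 1) ∈ F n) (hWs : ∀ n, (Wn n).valuation (s - c) < 1)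
    (hWθ : ∀ n, (Wn n).valuation (θ - ϑ) < 1) {z : K} (hz : z ∈ R₀) :
    ∀ᶠ n in atTop, z ∈ Wn n := by
  by_contra hcon
  rw [not_eventually] at hcon
  have hne : (atTop ⊓ 𝓟 {n : ℕ | z ∉ Wn n}).NeBot := frequently_mem_iff_neBot.1 hcon
  set 𝒰 : Ultrafilter ℕ := Ultrafilter.of (atTop ⊓ 𝓟 {n : ℕ | z ∉ Wn n}) with h𝒰
  have hle : (𝒰 : Filter ℕ) ≤ atTop ⊓ 𝓟 {n : ℕ | z ∉ Wn n} := Ultrafilter.of_le _
  have hlex := apb_lim_lex (k := k) (t := t) (s := s) Wn F hWF hkF (apb_s_sub hS c) hτ hWs 𝒰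
    (hle.trans inf_le_left)
  have hkR : ∀ r : k, k.subtype r ∈ R₀ := fun r => hR.triv _ r.2
  have htR : t ∈ R₀ := by
    have h1 := add_mem (apb_mem_of_lt hR.lt0) (hR.triv _ b.2)
    rwa [sub_add_cancel] at h1
  have hsR : s ∈ R₀ := by
    have h1 := add_mem (apb_mem_of_lt hR.ls) (hR.triv _ c.2)
    rwa [sub_add_cancel] at h1
  have heq : R₀ = apbLim Wn 𝒰 := by
    refine uniq_ext (adj (adj k s) t) (hS.alg θ) ?_ (le_adj _ _ (le_adj _ _ ϑ.2)) ?_ ?_ hθ
      (apbLim_lt (Eventually.of_forall hWθ)) ?_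
    · intro w
      obtain ⟨n, hn⟩ := hM.top w
      refine ⟨n, ?_⟩
      exact Vale.Agent.P019.adj_mono
        ((Vale.Agent.P019.adj_mono (adj0_le_adj k s) t).trans (adj0_le_adj _ t)) θ hn
    · intro w hw
      exact apb_lex b.2 c.2 (apb_t_sub hS b) (apb_s_sub hS c) hR hlex hw
    · intro i
      rw [hM.coeff_eq i]
      exact apbEv_mem hkR htR hsR _
    · rw [hM.der]
      exact hder
  rw [heq] at hz
  have h1 : ∀ᶠ n in (𝒰 : Filter ℕ), z ∉ Wn n := hle (mem_inf_of_right (mem_principal_self _))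
  obtain ⟨n, h2, h3⟩ := ((apbLim_mem.1 hz).and h1).exists
  exact h3 h2

end main

end Vale.Agent.P019P
end

section

/-!
# Approximation: the residue field
-/

namespace Vale.Agent.P019P

open Vale.Agent.P019

set_option linter.style.haveILetI false
set_option linter.unusedSectionVars false

open Polynomial Filter

variable {K : Type*} [Field K] {k : Subfield K}

section rs

variable {W : ValuationSubring K}

theorem apb_rs_eval₂ {R : Type*} [CommRing R] {φ : R →+* K} (hφ : ∀ r, φ r ∈ W)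
    {ψ : R →+* IsLocalRing.ResidueField W} (h : ∀ r, ψ r = rs W (φ r)) {x : K} (hx : x ∈ W)
    (f : R[X]) : rs W (eval₂ φ x f) = eval₂ ψ (rs W x) f := by
  induction f using Polynomial.induction_on' with
  | add p q hp hq =>
    rw [eval₂_add, eval₂_add, rs_add (apb_eval₂_mem hφ hx p) (apb_eval₂_mem hφ hx q), hp, hq]
  | monomial n a =>
    rw [eval₂_monomial, eval₂_monomial, rs_mul (hφ a) (pow_mem hx n), rs_pow hx, h a]

theorem apb_rs_ev (hW : TrivOn W k) {t s : K} (ht : t ∈ W) (hs : s ∈ W) (f : k[X][X]) :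
    rs W (apbEv k.subtype t s f) = apbEv (barHom hW) (rs W t) (rs W s) f := by
  refine apb_rs_eval₂ (φ := eval₂RingHom k.subtype s) (ψ := eval₂RingHom (barHom hW) (rs W s))
    (fun r => apb_eval₂_mem (fun a => hW _ a.2) hs r) (fun r => ?_) ht f
  exact (apb_rs_eval₂ (φ := k.subtype) (ψ := barHom hW) (fun a => hW _ a.2) (fun a => rfl)
    hs r).symm

theorem apb_rs_ev3 (hW : TrivOn W k) {t s θ : K} (ht : t ∈ W) (hs : s ∈ W) (hθ : θ ∈ W)
    (f : k[X][X][X]) :
    rs W (eval₂ (apbEv k.subtype t s) θ f) =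
      eval₂ (apbEv (barHom hW) (rs W t) (rs W s)) (rs W θ) f :=
  apb_rs_eval₂ (fun r => apbEv_mem (fun a => hW _ a.2) ht hs r)
    (fun r => (apb_rs_ev hW ht hs r).symm) hθ f

end rs

section main

variable {t s θ : K} {Φ U V : k[X][X][X]} {δ : k[X][X]}

/-- the generic description of the valuations over `t = b`. -/
theorem apb_core [PerfectField K] (hS : Srf k t s) (hM : ApbM k t s θ Φ U V δ) :
    ∀ᶠ b in ae k, ∀ W : ValuationSubring K, Over W (adj k s) t b → θ ∈ W ∧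
      ∀ z : K, W.valuation z ≤ 1 → ∃ P Q : (adj k s)[X], W.valuation (aeval θ Q) = 1 ∧
        W.valuation (z * aeval θ Q - aeval θ P) < 1 := by
  haveI : PerfectField (adj k s) := perfect_adj _ _
  haveI : PerfectField (adj (adj k s) t) := perfect_adj _ _
  set F : Subfield K := adj k s with hF
  set F' : IntermediateField F K := IntermediateField.adjoin F {t} with hF'
  have htF' : t ∈ F' := IntermediateField.mem_adjoin_simple_self F t
  have hsF' : s ∈ F' := F'.algebraMap_mem ⟨s, mem_adj k s⟩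
  let e : k[X][X] →+* F' :=
    apbEv ((algebraMap F F').comp (Subfield.inclusion (le_adj k s))) ⟨t, htF'⟩ ⟨s, hsF'⟩
  have he : (algebraMap F' K).comp e = apbEv k.subtype t s := by
    have h1 : (algebraMap F' K).comp ((algebraMap F F').comp (Subfield.inclusion (le_adj k s))) =
        k.subtype := by
      ext x
      rfl
    change (algebraMap F' K).comp (apbEv _ _ _) = _
    rw [apbEv_comp, h1]
    rfl
  have hint : IsIntegral (adj F t) θ := (hS.alg θ).isIntegral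
  have hroot : aeval θ (Φ.map e) = 0 := by
    rw [aeval_def, eval₂_map, he]
    exact hM.root
  have hsep : (Φ.map e).Separable := by
    rw [← separable_map (algebraMap F' K), Polynomial.map_map, he, ← hM.min]
    exact (PerfectField.separable_of_irreducible (minpoly.irreducible hint)).map
  have h1 := frp_core_ae (F := F) (y := t) (θ := θ) hS.tt F' hF' (Φ.map e) (hM.mon.map e) hroot
    hsep
  filter_upwards [ae_mono (le_adj k s) h1] with b hb W hW
  obtain ⟨hθW, -, hres, halg⟩ := hb W hW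
  refine ⟨hθW, fun z hz => ?_⟩
  obtain ⟨n, hn⟩ := hM.top z
  refine frp_res hW.triv hθW halg hz (n := n) (hres _ ?_ ?_)
  · exact Vale.Agent.P019.adj_mono (Vale.Agent.P019.adj_mono (adj0_le_adj k s) t) θ hn
  · rw [map_pow]
    exact pow_le_one₀ zero_le hz

/-- the residue field is generated by the residue of `θ`. -/
theorem apb_gen {W : ValuationSubring K} {F : Subfield K} (hF : TrivOn W F) (hθ : θ ∈ W)
    (h : ∀ z : K, W.valuation z ≤ 1 → ∃ P Q : F[X], W.valuation (aeval θ Q) = 1 ∧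
        W.valuation (z * aeval θ Q - aeval θ P) < 1) (w : IsLocalRing.ResidueField W) :
    w ∈ Vale.Agent.P019.adj (bar hF) (rs W θ) := by
  obtain ⟨z, hz, rfl⟩ := rs_surj w
  obtain ⟨P, Q, hQ, hPQ⟩ := h z ((W.valuation_le_one_iff z).2 hz)
  have hmem : ∀ Q : F[X], aeval θ Q ∈ W := fun Q =>
    apb_eval₂_mem (φ := algebraMap F K) (fun r => hF _ r.2) hθ Q
  have haev : ∀ Q : F[X], rs W (aeval θ Q) ∈ Vale.Agent.P019.adj (bar hF) (rs W θ) := by
    intro Q
    rw [rs_aeval hF hθ]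
    exact frp_aeval_mem _ _
  have hQ0 : rs W (aeval θ Q) ≠ 0 := (rs_ne_zero (hmem Q)).2 hQ
  have h1 : rs W z * rs W (aeval θ Q) = rs W (aeval θ P) := by
    rw [← rs_mul hz (hmem Q), rs_eq (mul_mem hz (hmem Q)) (hmem P)]
    exact hPQ
  rw [eq_div_of_mul_eq hQ0 h1]
  exact Subfield.div_mem _ (haev P) (haev Q)

/-- degree of a simple extension. -/
theorem apb_finrank_le {κ : Type*} [Field κ] {E : Subfield κ} {x : κ}
    (hgen : ∀ w : κ, w ∈ Vale.Agent.P019.adj E x) {G : E[X]} (hG : G.Monic)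
    (h0 : aeval x G = 0) : Module.finrank E κ ≤ G.natDegree := by
  have hint : IsIntegral E x := ⟨G, hG, h0⟩
  have htop : IntermediateField.adjoin E {x} = ⊤ := by
    rw [eq_top_iff]
    intro w _
    exact mem_adjoin_simple.2 (hgen w)
  rw [← IntermediateField.finrank_top', ← htop, IntermediateField.adjoin.finrank hint]
  exact natDegree_le_of_dvd (minpoly.dvd _ _ h0) hG.ne_zero

end main

section res

variable {t s θ : K} {Φ U V : k[X][X][X]} {δ : k[X][X]} {W : ValuationSubring K}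

/-- the reduction of coefficients. -/
noncomputable def apbRed (hW : TrivOn W k) (b : k) (s : K) :
    k[X][X] →+* adj (bar hW) (rs W s) :=
  apbEv ((Subfield.inclusion (le_adj (bar hW) (rs W s))).comp (barEquiv hW).toRingHom)
    ((Subfield.inclusion (le_adj (bar hW) (rs W s))) (barEquiv hW b)) ⟨rs W s, mem_adj _ _⟩

theorem apbRed_coe (hW : TrivOn W k) (b : k) (s : K) :
    (algebraMap (adj (bar hW) (rs W s)) (IsLocalRing.ResidueField W)).comp (apbRed hW b s) =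
      apbEv (barHom hW) (rs W b) (rs W s) := by
  unfold apbRed
  rw [apbEv_comp]
  rfl

/-- the equation of the residue of `θ`. -/
theorem apb_red_root (hW : TrivOn W k) (hM : ApbM k t s θ Φ U V δ) {b : k}
    (hb : W.valuation (t - b) < 1) (hs : s ∈ W) (hθ : θ ∈ W) :
    aeval (rs W θ) (Φ.map (apbRed hW b s)) = 0 := by
  have ht : t ∈ W := by
    have h1 := add_mem (apb_mem_of_lt hb) (hW _ b.2)
    rwa [sub_add_cancel] at h1
  rw [aeval_def, eval₂_map, apbRed_coe, ← (rs_eq ht (hW _ b.2)).2 hb, ← apb_rs_ev3 hW ht hs hθ,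
    hM.root, rs_zero]

end res

end Vale.Agent.P019P
end

section

/-!
# Approximation: good places
-/

namespace Vale.Agent.P019P

open Vale.Agent.P019

set_option linter.style.haveILetI false
set_option linter.unusedSectionVars false

open Polynomial Filter

variable {K : Type*} [Field K] {k : Subfield K}

theorem apb_delta_ae {δ : k[X][X]} (hδ : δ ≠ 0) :
    ∀ᶠ a in ae k, ∀ b : k, (b : K) = a → δ.eval (C b) ≠ 0 := by
  refine frb_ae ?_
  rw [eventually_cofinite]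
  have h1 : {x : k[X] | IsRoot δ x}.Finite := finite_setOfPred_isRoot hδ
  refine (h1.preimage (f := fun b : k => C b) (C_injective.injOn)).subset ?_
  intro b hb
  rw [Set.mem_ofPred_eq] at hb
  push Not at hb
  obtain ⟨b', hb', h0⟩ := hb
  have h2 : b' = b := Subtype.ext hb'
  rw [h2] at h0
  exact h0

/-- a uniform bound for the degree of the specializations. -/
noncomputable def apbDeg (δ : k[X][X]) : ℕ :=
  (Finset.range (δ.natDegree + 1)).sup fun i => (δ.coeff i).natDegree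

theorem apbDeg_le (δ : k[X][X]) (b : k) : (δ.eval (C b)).natDegree ≤ apbDeg δ := by
  rw [eval_eq_sum_range]
  refine natDegree_sum_le_of_forall_le _ _ fun i hi => ?_
  rw [← C_pow]
  refine (natDegree_mul_C_le _ _).trans ?_
  exact Finset.le_sup (f := fun i => (δ.coeff i).natDegree) hi

theorem apb_eval_eq (δ : k[X][X]) (b c : k) :
    apbEv (RingHom.id k) b c δ = (δ.eval (C b)).eval c := by
  have h1 : apbEv (RingHom.id k) b c = (evalRingHom c).comp (evalRingHom (C b)) := by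
    unfold apbEv
    ext <;> simp
  rw [h1]
  rfl

section places

variable {κ : Type*} [Field κ] [PerfectField κ] {l : Subfield κ}

theorem apb_finrank_eq {E E' : Subfield κ} (h : E = E') :
    Module.finrank E κ = Module.finrank E' κ := by
  subst h
  rfl

theorem apb_adj_inv {x : κ} : adj l x⁻¹ = adj l x := by
  apply le_antisymm
  · exact adj_le (le_adj l x) ((adj l x).inv_mem (mem_adj l x))
  · refine adj_le (le_adj l _) ?_
    have h1 := (adj l x⁻¹).inv_mem (mem_adj l x⁻¹)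
    rwa [inv_inv] at h1

theorem apb_adj_sub {x c : κ} (hc : c ∈ l) : adj l (x - c) = adj l x := by
  apply le_antisymm
  · exact adj_le (le_adj l x) ((adj l x).sub_mem (mem_adj l x) (le_adj l x hc))
  · refine adj_le (le_adj l _) ?_
    have h1 := (adj l (x - c)).add_mem (mem_adj l (x - c)) (le_adj l _ hc)
    rwa [sub_add_cancel] at h1

/-- the places at which some element of a finite set vanishes. -/
theorem apb_places (h : Cv l) (S : Finset κ) (n : ℕ)
    (hS : ∀ x ∈ S, x ∉ l ∧ Module.finrank (adj l x) κ ≤ n) :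
    ∃ T : Finset (ValuationSubring κ), T.card ≤ S.card * n ∧ (∀ P ∈ T, P ∈ Plc l) ∧
      ∀ P ∈ Plc l, P ∉ T → ∀ x ∈ S, ¬ P.valuation x < 1 := by
  classical
  let f : κ → Finset (ValuationSubring κ) := fun x =>
    if hx : x ∉ l then (Cv.fib_card h hx).1.toFinset else ∅
  have hf : ∀ x (hx : x ∉ l), f x = (Cv.fib_card h hx).1.toFinset := fun x hx => dif_pos hx
  refine ⟨S.biUnion f, ?_, ?_, ?_⟩
  · refine Finset.card_biUnion_le_card_mul _ _ _ fun x hx => ?_
    obtain ⟨h1, h2⟩ := hS x hx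
    rw [hf x h1, ← Set.ncard_eq_toFinset_card _ (Cv.fib_card h h1).1]
    exact (Cv.fib_card h h1).2.trans h2
  · intro P hP
    obtain ⟨x, hx, hPx⟩ := Finset.mem_biUnion.1 hP
    rw [hf x (hS x hx).1, Set.Finite.mem_toFinset] at hPx
    exact hPx.1
  · intro P hP hPT x hx hlt
    apply hPT
    refine Finset.mem_biUnion.2 ⟨x, hx, ?_⟩
    rw [hf x (hS x hx).1, Set.Finite.mem_toFinset]
    exact ⟨hP, hlt⟩

theorem apb_mem_of_inv {P : ValuationSubring κ} {x : κ} (h : ¬ P.valuation x⁻¹ < 1) : x ∈ P := by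
  rw [apb_lt_iff, inv_inv] at h
  push Not at h
  exact h.2

/-- values at places. -/
theorem apb_value (h : Cv l) {P : ValuationSubring κ} (hP : P ∈ Plc l) {x : κ} (hx : x ∈ P) :
    ∃ c ∈ l, P.valuation (x - c) < 1 := by
  obtain ⟨c, hc, hcx⟩ := (mem_bar hP.1).1 ((Cv.place h hP).2 (rs P x))
  refine ⟨c, hc, ?_⟩
  rw [← rs_eq hx (hP.1 c hc)]
  exact hcx.symm

end places

section main

variable {t s θ : K} {Φ U V : k[X][X][X]} {δ : k[X][X]} {W : ValuationSubring K}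

/-- evaluation at constants. -/
theorem apb_const (b c ϑ : k) (G : k[X][X][X]) :
    eval₂ (apbEv k.subtype (b : K) (c : K)) (ϑ : K) G =
      ((eval₂ (apbEv (RingHom.id k) b c) ϑ G : k) : K) := by
  have h1 : k.subtype.comp (apbEv (RingHom.id k) b c) = apbEv k.subtype (b : K) (c : K) := by
    rw [apbEv_comp]
    rfl
  have h2 := hom_eval₂ G (apbEv (RingHom.id k) b c) k.subtype ϑ
  rw [h1] at h2
  exact h2.symm

/-- congruences modulo the maximal ideal of a lexicographic ring. -/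
theorem apb_lex_cong {b c ϑ : k} {R : ValuationSubring K} (hR : ApbLex k (t - b) (s - c) R)
    (hθ : R.valuation (θ - ϑ) < 1) (G : k[X][X][X]) :
    R.valuation (eval₂ (apbEv k.subtype t s) θ G -
      ((eval₂ (apbEv (RingHom.id k) b c) ϑ G : k) : K)) < 1 := by
  rw [← apb_const]
  have hkR : ∀ r : k, k.subtype r ∈ R := fun r => hR.triv _ r.2
  have htR : t ∈ R := by
    have h1 := add_mem (apb_mem_of_lt hR.lt0) (hR.triv _ b.2)
    rwa [sub_add_cancel] at h1
  have hsR : s ∈ R := by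
    have h1 := add_mem (apb_mem_of_lt hR.ls) (hR.triv _ c.2)
    rwa [sub_add_cancel] at h1
  have hθR : θ ∈ R := by
    have h1 := add_mem (apb_mem_of_lt hθ) (hR.triv _ ϑ.2)
    rwa [sub_add_cancel] at h1
  exact apb_cong (fun r => apbEv_mem hkR htR hsR r)
    (fun r => apbEv_mem hkR (hR.triv _ b.2) (hR.triv _ c.2) r)
    (fun r => apbEv_cong hkR htR hsR (hR.triv _ b.2) (hR.triv _ c.2) hR.lt0 hR.ls r)
    hθR (hR.triv _ ϑ.2) hθ G

theorem apb_good_zero (hM : ApbM k t s θ Φ U V δ) {b c ϑ : k} {R : ValuationSubring K}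
    (hR : ApbLex k (t - b) (s - c) R) (hθ : R.valuation (θ - ϑ) < 1) :
    eval₂ (apbEv (RingHom.id k) b c) ϑ Φ = 0 := by
  have h1 := apb_lex_cong hR hθ Φ
  rw [hM.root, zero_sub, Valuation.map_neg] at h1
  exact Subtype.ext (hR.triv.eq_zero (SetLike.coe_mem _) h1)

theorem apb_good_der (hM : ApbM k t s θ Φ U V δ) {b c ϑ : k}
    (h0 : eval₂ (apbEv (RingHom.id k) b c) ϑ Φ = 0) (hδ : (δ.eval (C b)).eval c ≠ 0) :
    eval₂ (apbEv (RingHom.id k) b c) ϑ (derivative Φ) ≠ 0 := by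
  intro h1
  apply hδ
  have h2 := congrArg (eval₂ (apbEv (RingHom.id k) b c) ϑ) hM.bez
  rw [eval₂_add, eval₂_mul, eval₂_mul, h0, h1, zero_mul, zero_mul, add_zero, eval₂_C] at h2
  rw [← apb_eval_eq]
  exact h2.symm

theorem apb_good_unit {b c ϑ : k} {R : ValuationSubring K}
    (hR : ApbLex k (t - b) (s - c) R) (hθ : R.valuation (θ - ϑ) < 1)
    (h1 : eval₂ (apbEv (RingHom.id k) b c) ϑ (derivative Φ) ≠ 0) :
    R.valuation (eval₂ (apbEv k.subtype t s) θ (derivative Φ)) = 1 := by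
  refine val_of_sub (hR.triv.eq_one (SetLike.coe_mem _) ?_) (apb_lex_cong hR hθ (derivative Φ))
  exact fun h => h1 (Subtype.ext h)

/-- the fields `F_N`. -/
theorem apb_field [PerfectField K] (hS : Srf k t s) (b c : k) (n : ℕ) {τ : K}
    (hτ : t = b + τ * (s - c) ^ (n + 1)) :
    adj k τ ≤ adj (adj k s) t ∧ ¬ IsAlgebraic (adj k τ) s ∧ FG k (adj k τ) ∧ ¬ adj k τ ≤ k := by
  have hsc := apb_s_sub hS c
  have hpow : (s - (c : K)) ^ (n + 1) ≠ 0 := pow_ne_zero _ hsc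
  have hτ' : τ = (t - b) / (s - c) ^ (n + 1) := by
    rw [eq_div_iff hpow, hτ]
    ring
  have key : ¬ IsAlgebraic (adj k s) τ := by
    intro h
    apply hS.tt
    have hr : adj k s ≤ rac (adj k s) := le_rac _
    have h1 : t ∈ rac (adj k s) := by
      rw [hτ]
      refine Subfield.add_mem _ (hr (le_adj k s b.2)) (Subfield.mul_mem _ (mem_rac.2 h) ?_)
      exact Subfield.pow_mem _ (Subfield.sub_mem _ (hr (mem_adj k s)) (hr (le_adj k s c.2))) _
    exact mem_rac.1 h1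
  refine ⟨?_, ?_, ?_, ?_⟩
  · have hk : k ≤ adj (adj k s) t := (le_adj k s).trans (le_adj _ t)
    refine adj_le hk ?_
    rw [hτ']
    exact Subfield.div_mem _ (Subfield.sub_mem _ (mem_adj _ _) (hk b.2))
      (Subfield.pow_mem _ (Subfield.sub_mem _ (le_adj _ _ (mem_adj k s)) (hk c.2)) _)
  · intro h
    exact key (exchange hS.ss h)
  · refine ⟨{τ}, ?_⟩
    rw [Finset.coe_singleton]
    rfl
  · intro h
    exact key (isAlgebraic_of_mem (le_adj k s (h (mem_adj k τ))))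

/-- the approximation at a good place. -/
theorem apb_good [PerfectField K] (hS : Srf k t s) (hM : ApbM k t s θ Φ U V δ) {b c ϑ : k}
    {R : ValuationSubring K} (hR : ApbLex k (t - b) (s - c) R)
    (hθ : R.valuation (θ - ϑ) < 1) (hδ : (δ.eval (C b)).eval c ≠ 0) :
    ∃ (F : ℕ → Subfield K) (Wn : ℕ → ValuationSubring K),
      (∀ n, k ≤ F n ∧ FG k (F n) ∧ ¬ F n ≤ k ∧ Nice (Wn n) (F n) (s - c) θ) ∧
      ∀ z ∈ R, ∀ᶠ n in atTop, z ∈ Wn n := by
  have h0 := apb_good_zero hM hR hθ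
  have h1 := apb_good_der hM h0 hδ
  have hsc := apb_s_sub hS c
  have hT : ∀ n : ℕ, t = b + (t - b) / (s - c) ^ (n + 1) * (s - c) ^ (n + 1) := by
    intro n
    rw [div_mul_cancel₀ _ (pow_ne_zero _ hsc)]
    ring
  let τ : ℕ → K := fun n => (t - b) / (s - c) ^ (n + 1)
  have hex : ∀ n, ∃ W : ValuationSubring K, Nice W (adj k (τ n)) (s - c) θ ∧
      W.valuation (θ - ϑ) < 1 := by
    intro n
    obtain ⟨hf1, hf2, -, -⟩ := apb_field hS b c n (hT n)
    haveI : PerfectField (adj k (τ n)) := perfect_adj _ _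
    obtain ⟨W, hW1, hW2, hW3, hW4, hW5⟩ := apb_exists_W hM (le_adj k (τ n)) hf1 hf2
      ⟨τ n, mem_adj k (τ n)⟩ b c ϑ n (hT n) h0 h1
    exact ⟨W, apb_nice hM (le_adj k (τ n)) ⟨τ n, mem_adj k (τ n)⟩ b c n (hT n) hsc hW1 hW2 hW3 hW5,
      hW4⟩
  choose Wn hWn using hex
  refine ⟨fun n => adj k (τ n), Wn, fun n => ?_, fun z hz => ?_⟩
  · obtain ⟨-, -, hf3, hf4⟩ := apb_field hS b c n (hT n)
    exact ⟨le_adj _ _, hf3, hf4, (hWn n).1⟩
  · exact apb_limit hS hM hR hθ (apb_good_unit hR hθ h1) Wn (fun n => adj k (τ n))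
      (fun n => (hWn n).1.triv) (fun n => le_adj _ _) (fun n => mem_adj _ _)
      (fun n => (hWn n).1.unif.lt) (fun n => (hWn n).2) hz

/-- the composite valuation is lexicographic. -/
theorem apb_compos_lex {b c : k} (hS : Srf k t s) (hW : TrivOn W k) (hWs : TrivOn W (adj k s))
    (hWt : W.valuation (t - b) < 1) {P : ValuationSubring (IsLocalRing.ResidueField W)}
    (hP : TrivOn P (bar hW)) (hPs : P.valuation (rs W s - rs W c) < 1) :
    W.valuation (s - c) = 1 ∧ P.valuation (rs W (s - c)) < 1 ∧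
      ApbLex k (t - b) (s - c) (compos W P) := by
  have hscm : s - (c : K) ∈ adj k s := Subfield.sub_mem _ (mem_adj k s) (le_adj k s c.2)
  have h1 : W.valuation (s - c) = 1 := hWs.eq_one hscm (apb_s_sub hS c)
  have h2 : P.valuation (rs W (s - c)) < 1 := by
    rw [rs_sub (hWs _ (mem_adj k s)) (hW _ c.2)]
    exact hPs
  refine ⟨h1, h2, ?_, ?_, ?_⟩
  · intro a ha
    exact ⟨hW a ha, hP _ (rs_mem_bar hW ha)⟩
  · exact apb_compos_lt (mem_of_val h1) h2
  · intro m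
    refine apb_compos_lt' ?_
    rw [map_div₀, map_pow, h1, one_pow, div_one]
    exact hWt

end main

end Vale.Agent.P019P
end

section

/-!
# Approximation of composite valuations by nice ones
-/

namespace Vale.Agent.P019P

open Vale.Agent.P019

set_option linter.style.haveILetI false
set_option linter.unusedSectionVars false

open Polynomial Filter

variable {K : Type*} [Field K] [PerfectField K] {ℓ : ℕ} [Fact ℓ.Prime] [NeZero (ℓ : K)]

/-- the approximation for one valuation ring. -/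
theorem apb_one {K : Type*} [Field K] [PerfectField K] {k : Subfield K} {t s θ : K}
    {Φ U V : k[X][X][X]} {δ : k[X][X]} (hS : Srf k t s) (hM : ApbM k t s θ Φ U V δ) {b : k}
    {W : ValuationSubring K} (hO : Over W (adj k s) t b) (hW : TrivOn W k) (hC : Cv (bar hW))
    (hs : rs W s ∉ bar hW) (hδ : δ.eval (C b) ≠ 0) (hθ : θ ∈ W)
    (hres : ∀ z : K, W.valuation z ≤ 1 → ∃ P Q : (adj k s)[X], W.valuation (aeval θ Q) = 1 ∧
        W.valuation (z * aeval θ Q - aeval θ P) < 1) :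
    ∃ T : Finset (ValuationSubring (IsLocalRing.ResidueField W)),
        T.card ≤ (1 + apbDeg δ) * Φ.natDegree ∧ (∀ P ∈ T, P ∈ Plc (bar hW)) ∧
        ∀ P ∈ Plc (bar hW), P ∉ T →
        ∃ (π : K) (F : ℕ → Subfield K) (Wn : ℕ → ValuationSubring K) (θ : ℕ → K),
          W.valuation π = 1 ∧ P.valuation (rs W π) < 1 ∧
          (∀ n, k ≤ F n ∧ FG k (F n) ∧ ¬ F n ≤ k ∧ Nice (Wn n) (F n) π (θ n)) ∧
          ∀ z : K, z ∈ compos W P → ∀ᶠ n in atTop, z ∈ Wn n := by
  classical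
  haveI : PerfectField (IsLocalRing.ResidueField W) := rs_perfect hW
  have hsW : s ∈ W := hO.triv _ (mem_adj k s)
  have hroot := apb_red_root hW hM hO.lt hsW hθ
  have hgen : ∀ w : IsLocalRing.ResidueField W, w ∈ Vale.Agent.P019.adj
      (adj (bar hW) (rs W s)) (rs W θ) := by
    intro w
    rw [← bar_adj hW hO.triv]
    exact apb_gen hO.triv hθ hres w
  have hfin : Module.finrank (adj (bar hW) (rs W s)) (IsLocalRing.ResidueField W) ≤
      Φ.natDegree := by
    have h1 := apb_finrank_le hgen (hM.mon.map (apbRed hW b s)) hroot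
    rwa [hM.mon.natDegree_map] at h1
  set S : Finset (IsLocalRing.ResidueField W) := insert (rs W s)⁻¹
    ((δ.eval (C b)).roots.toFinset.image fun c : k => rs W s - rs W (c : K)) with hSdef
  have hS1 : ∀ x ∈ S, x ∉ bar hW ∧
      Module.finrank (adj (bar hW) x) (IsLocalRing.ResidueField W) ≤ Φ.natDegree := by
    intro x hx
    rcases Finset.mem_insert.1 hx with rfl | hx
    · refine ⟨fun h => hs ?_, ?_⟩
      · have h1 := (bar hW).inv_mem h
        rwa [inv_inv] at h1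
      · rw [apb_finrank_eq apb_adj_inv]
        exact hfin
    · obtain ⟨c, -, rfl⟩ := Finset.mem_image.1 hx
      have hc : rs W (c : K) ∈ bar hW := rs_mem_bar hW c.2
      refine ⟨fun h => hs ?_, ?_⟩
      · have h1 := (bar hW).add_mem h hc
        rwa [sub_add_cancel] at h1
      · rw [apb_finrank_eq (apb_adj_sub hc)]
        exact hfin
  have hScard : S.card ≤ 1 + apbDeg δ := by
    refine (Finset.card_insert_le _ _).trans ?_
    have h1 : ((δ.eval (C b)).roots.toFinset.image fun c : k => rs W s - rs W (c : K)).card ≤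
        apbDeg δ := by
      refine Finset.card_image_le.trans ?_
      refine (Multiset.toFinset_card_le _).trans ?_
      exact (card_roots' _).trans (apbDeg_le δ b)
    omega
  obtain ⟨T, hT1, hT2, hT3⟩ := apb_places hC S Φ.natDegree hS1
  refine ⟨T, hT1.trans (Nat.mul_le_mul_right _ hScard), hT2, fun P hP hPT => ?_⟩
  have hx := hT3 P hP hPT
  have hsP : rs W s ∈ P := apb_mem_of_inv (hx _ (Finset.mem_insert_self _ _))
  obtain ⟨c', hc', hcs⟩ := apb_value hC hP hsP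
  obtain ⟨c, hc, rfl⟩ := (mem_bar hW).1 hc'
  have hδc : (δ.eval (C b)).eval (⟨c, hc⟩ : k) ≠ 0 := by
    intro h0
    refine hx _ (Finset.mem_insert_of_mem (Finset.mem_image.2 ⟨⟨c, hc⟩, ?_, rfl⟩)) hcs
    rw [Multiset.mem_toFinset, mem_roots hδ]
    exact h0
  have hθP : rs W θ ∈ P := by
    refine mem_of_root (hM.mon.map (apbRed hW b s)) ?_ hroot
    intro i
    rw [coeff_map]
    have h1 := RingHom.congr_fun (apbRed_coe hW b s) (Φ.coeff i)
    rw [RingHom.comp_apply] at h1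
    rw [h1]
    exact apbEv_mem (fun r => hP.1 _ (rs_mem_bar hW r.2)) (hP.1 _ (rs_mem_bar hW b.2)) hsP _
  obtain ⟨ϑ', hϑ', hθϑ⟩ := apb_value hC hP hθP
  obtain ⟨ϑ, hϑ, rfl⟩ := (mem_bar hW).1 hϑ'
  obtain ⟨h1, h2, hlex⟩ := apb_compos_lex (c := ⟨c, hc⟩) hS hW hO.triv hO.lt hP.1 hcs
  have hθR : (compos W P).valuation (θ - ((⟨ϑ, hϑ⟩ : k) : K)) < 1 := by
    refine apb_compos_lt (sub_mem hθ (hW _ hϑ)) ?_
    rw [rs_sub hθ (hW _ hϑ)]
    exact hθϑ
  obtain ⟨F, Wn, hF, hlim⟩ := apb_good hS hM hlex hθR hδc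
  exact ⟨s - c, F, Wn, fun _ => θ, h1, h2, hF, hlim⟩

/-- the approximating valuations: for all but boundedly many places `P` of the residue curve of
`W` there are a sequence of nice valuations `W_N`, trivial on some `k(y_N)`, whose ultralimits
are the composite valuation. -/
theorem exists_appr {k : Subfield K} (hk : IsAlgClosed k) (hfg : FG k (⊤ : Subfield K)) {t s : K}
    (hS : Srf k t s) :
    ∃ τ : ℕ, ∀ᶠ b in ae k, ∀ W : ValuationSubring K, Over W (adj k s) t b →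
      ∀ hW : TrivOn W k, ∃ T : Finset (ValuationSubring (IsLocalRing.ResidueField W)),
        T.card ≤ τ ∧ (∀ P ∈ T, P ∈ Plc (bar hW)) ∧ ∀ P ∈ Plc (bar hW), P ∉ T →
        ∃ (π : K) (F : ℕ → Subfield K) (Wn : ℕ → ValuationSubring K) (θ : ℕ → K),
          W.valuation π = 1 ∧ P.valuation (rs W π) < 1 ∧
          (∀ n, k ≤ F n ∧ FG k (F n) ∧ ¬ F n ≤ k ∧ Nice (Wn n) (F n) π (θ n)) ∧
          ∀ z : K, z ∈ compos W P → ∀ᶠ n in atTop, z ∈ Wn n := by
  obtain ⟨θ, Φ, U, V, δ, hM⟩ := apb_exists_model hfg hS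
  refine ⟨(1 + apbDeg δ) * Φ.natDegree, ?_⟩
  filter_upwards [ae_mem k, Srf.over hk hfg hS, apb_core hS hM, apb_delta_ae hM.ne]
    with b hb h1 h2 h3 W hO hW
  obtain ⟨-, hW', hC, hs⟩ := h1 W hO
  obtain ⟨hθ, hres⟩ := h2 W hO
  exact apb_one (b := ⟨b, hb⟩) hS hM hO hW hC hs (h3 ⟨b, hb⟩ rfl) hθ hres

end Vale.Agent.P019P
end

section

/-!
# Transfer of places of the residue curve
-/

namespace Vale.Agent.P019P

open Vale.Agent.P019

set_option linter.style.haveILetI false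
set_option linter.unusedSectionVars false

open Polynomial Filter

section apc

variable {F : Type*} [Field F]

theorem apc_val_one {O : ValuationSubring F} {z : F} :
    O.valuation z = 1 ↔ z ≠ 0 ∧ z ∈ O ∧ z⁻¹ ∈ O := by
  constructor
  · intro h
    refine ⟨?_, mem_of_val h, mem_of_val (by rw [map_inv₀, h, inv_one])⟩
    rintro rfl
    rw [map_zero] at h
    exact zero_ne_one h
  · rintro ⟨h0, h1, h2⟩
    rw [← O.valuation_le_one_iff] at h1 h2
    rw [map_inv₀] at h2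
    have h3 : 0 < O.valuation z := zero_lt_iff.2 ((Valuation.ne_zero_iff _).2 h0)
    exact le_antisymm h1 ((inv_le_one₀ h3).1 h2)

theorem apc_lt_one {O : ValuationSubring F} {z : F} (hz : z ∉ O) : O.valuation z⁻¹ < 1 := by
  rw [← O.valuation_le_one_iff, not_le] at hz
  rw [map_inv₀]
  exact inv_lt_one_of_one_lt₀ hz

theorem apc_inv_notMem {O : ValuationSubring F} {z : F} (h0 : z ≠ 0) (hz : O.valuation z < 1) :
    z⁻¹ ∉ O := by
  intro h
  have h1 : O.valuation z = 1 :=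
    apc_val_one.2 ⟨h0, (O.valuation_le_one_iff z).1 hz.le, h⟩
  exact hz.ne h1

/-- ultraproduct of valuation rings. -/
def apc_ultVal (𝒰 : Ultrafilter ℕ) (O : ℕ → ValuationSubring F) : ValuationSubring F where
  carrier := {z | ∀ᶠ n in 𝒰, z ∈ O n}
  mul_mem' := fun hx hy => by
    filter_upwards [hx, hy] with n h1 h2 using mul_mem h1 h2
  one_mem' := Filter.Eventually.of_forall fun n => one_mem _
  add_mem' := fun hx hy => by
    filter_upwards [hx, hy] with n h1 h2 using add_mem h1 h2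
  zero_mem' := Filter.Eventually.of_forall fun n => zero_mem _
  neg_mem' := fun hx => by
    filter_upwards [hx] with n h1 using neg_mem h1
  mem_or_inv_mem' := by
    intro x
    exact Ultrafilter.eventually_or.1
      (Filter.Eventually.of_forall fun n => (O n).mem_or_inv_mem x)

theorem apc_mem_ultVal {𝒰 : Ultrafilter ℕ} {O : ℕ → ValuationSubring F} {z : F} :
    z ∈ apc_ultVal 𝒰 O ↔ ∀ᶠ n in 𝒰, z ∈ O n := Iff.rfl

theorem apc_ultVal_unit {𝒰 : Ultrafilter ℕ} {O : ℕ → ValuationSubring F} {z : F}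
    (hz : (apc_ultVal 𝒰 O).valuation z = 1) : ∀ᶠ n in 𝒰, (O n).valuation z = 1 := by
  obtain ⟨h0, h1, h2⟩ := apc_val_one.1 hz
  filter_upwards [apc_mem_ultVal.1 h1, apc_mem_ultVal.1 h2] with n h3 h4
  exact apc_val_one.2 ⟨h0, h3, h4⟩

/-- ultralimit of functionals. -/
theorem apc_exists_ulim {ℓ : ℕ} [Fact ℓ.Prime] {M : Type*} [AddCommGroup M] [Module (ZMod ℓ) M]
    (𝒰 : Ultrafilter ℕ) (f : ℕ → M →ₗ[ZMod ℓ] ZMod ℓ) :
    ∃ g : M →ₗ[ZMod ℓ] ZMod ℓ, ∀ v, ∀ᶠ n in 𝒰, f n v = g v := by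
  haveI : NeZero ℓ := ⟨(Fact.out : ℓ.Prime).ne_zero⟩
  have h1 : ∀ v : M, ∃ c : ZMod ℓ, ∀ᶠ n in 𝒰, f n v = c := by
    intro v
    obtain ⟨c, hc⟩ := (𝒰.map fun n => f n v).eq_pure_of_finite
    refine ⟨c, ?_⟩
    have h2 : ({c} : Set (ZMod ℓ)) ∈ 𝒰.map fun n => f n v := by
      rw [hc]
      exact Ultrafilter.mem_pure.2 rfl
    exact h2
  choose g hg using h1
  refine ⟨{ toFun := g, map_add' := ?_, map_smul' := ?_ }, hg⟩
  · intro v w
    obtain ⟨n, hn, hn1, hn2⟩ := ((hg (v + w)).and ((hg v).and (hg w))).exists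
    rw [← hn, ← hn1, ← hn2, map_add]
  · intro c v
    obtain ⟨n, hn, hn1⟩ := ((hg (c • v)).and (hg v)).exists
    rw [← hn, ← hn1, map_smul, RingHom.id_apply]

/-- units of the composite ring. -/
theorem apc_compos_unit {W : ValuationSubring F} {P : ValuationSubring (IsLocalRing.ResidueField W)}
    {z : F} (hz : W.valuation z = 1) (hz' : P.valuation (rs W z) = 1) :
    (compos W P).valuation z = 1 := by
  obtain ⟨h0, h1, h2⟩ := apc_val_one.1 hz
  obtain ⟨-, h3, h4⟩ := apc_val_one.1 hz'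
  exact apc_val_one.2 ⟨h0, mem_compos.2 ⟨h1, h3⟩, mem_compos.2 ⟨h2, by rwa [rs_inv hz]⟩⟩

/-- functionals killing `U1` induce functionals on the classes of the residue field. -/
theorem apc_exists_ind {ℓ : ℕ} [Fact ℓ.Prime] (W : ValuationSubring F)
    (f : V ℓ F →ₗ[ZMod ℓ] ZMod ℓ) (hf : ∀ v ∈ U1 ℓ W, f v = 0) :
    ∃ h : V ℓ (IsLocalRing.ResidueField W) →ₗ[ZMod ℓ] ZMod ℓ,
      ∀ z : F, W.valuation z = 1 → h (cl ℓ (rs W z)) = f (cl ℓ z) := by
  obtain ⟨r, hr1, hrs, hrk⟩ := exists_resmap (ℓ := ℓ) W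
  obtain ⟨s, hs⟩ := LinearMap.exists_rightInverse_of_surjective r (LinearMap.range_eq_top.2 hrs)
  refine ⟨f ∘ₗ (UC ℓ W).subtype ∘ₗ s, fun z hz => ?_⟩
  rw [← hr1 z hz]
  have h1 : r (s (r ⟨cl ℓ z, cl_mem_UC hz⟩) - ⟨cl ℓ z, cl_mem_UC hz⟩) = 0 := by
    rw [map_sub, sub_eq_zero]
    exact LinearMap.congr_fun hs _
  have h2 := hf _ ((hrk _).1 h1)
  have h3 : f ((s (r ⟨cl ℓ z, cl_mem_UC hz⟩) - ⟨cl ℓ z, cl_mem_UC hz⟩ : UC ℓ W) : V ℓ F) =
      f (s (r ⟨cl ℓ z, cl_mem_UC hz⟩) : V ℓ F) - f (cl ℓ z) := by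
    rw [← map_sub]; rfl
  rw [h3, sub_eq_zero] at h2
  exact h2

theorem apc_ker_of_unif [PerfectField F] {ℓ : ℕ} [Fact ℓ.Prime] [NeZero (ℓ : F)]
    {P : ValuationSubring F} {ϖ : F} (hP : IsUnif P ϖ) (h : V ℓ F →ₗ[ZMod ℓ] ZMod ℓ)
    (h0 : ∀ z, P.valuation z = 1 → h (cl ℓ z) = 0) (hne : h ≠ 0) (v : V ℓ F) :
    v ∈ UC ℓ P ↔ h v = 0 := by
  have h1 := hP.eq_smul_fn ℓ h h0
  have h2 : h (cl ℓ ϖ) ≠ 0 := by
    intro h3
    apply hne
    ext w
    rw [h1 w, h3, zero_mul, LinearMap.zero_apply]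
  rw [hP.mem_UC_iff, h1 v, mul_eq_zero, or_iff_right h2]

/-- archimedean property. -/
theorem apc_arch {O : ValuationSubring F} {ϖ : F} (h : IsUnif O ϖ) {z y : F}
    (hy : 1 < O.valuation y) : ∃ N : ℕ, O.valuation z < O.valuation y ^ N := by
  by_cases hz : z = 0
  · exact ⟨0, by rw [hz, map_zero, pow_zero]; exact zero_lt_one⟩
  have hy0 : y ≠ 0 := by
    rintro rfl
    rw [map_zero] at hy
    exact not_lt_zero hy
  obtain ⟨i, a, ha⟩ := h.rep z hz
  obtain ⟨j, b, hb⟩ := h.rep y hy0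
  have hϖ : 0 < O.valuation ϖ := zero_lt_iff.2 ((Valuation.ne_zero_iff _).2 h.ne)
  have e1 : O.valuation z ^ (ringExpChar F ^ i) = O.valuation ϖ ^ (-a) := by
    rw [map_mul, map_pow, map_zpow₀] at ha
    rw [zpow_neg, eq_inv_of_mul_eq_one_left ha]
  have e2 : O.valuation y ^ (ringExpChar F ^ j) = O.valuation ϖ ^ (-b) := by
    rw [map_mul, map_pow, map_zpow₀] at hb
    rw [zpow_neg, eq_inv_of_mul_eq_one_left hb]
  have hb1 : -b ≤ -1 := by
    by_contra hcon
    have h3 : O.valuation ϖ ^ (-b) ≤ 1 := by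
      have h4 := zpow_le_zpow_right_of_le_one₀ hϖ h.lt.le (show (0 : ℤ) ≤ -b by omega)
      rwa [zpow_zero] at h4
    rw [← e2] at h3
    exact absurd (one_lt_pow₀ hy (qpow_pos F j).ne') (not_lt.2 h3)
  have h4 : (O.valuation ϖ)⁻¹ ≤ O.valuation y ^ (ringExpChar F ^ j) := by
    rw [e2, ← zpow_neg_one]
    exact zpow_le_zpow_right_of_le_one₀ hϖ h.lt.le hb1
  -- bound of `z`
  have h5 : O.valuation z ≤ (O.valuation ϖ)⁻¹ ^ a.natAbs := by
    rw [← pow_le_pow_iff_left₀ zero_le zero_le (qpow_pos F i).ne', e1]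
    have h6 : (O.valuation ϖ)⁻¹ ^ a.natAbs = O.valuation ϖ ^ (-(a.natAbs : ℤ)) := by
      rw [zpow_neg, zpow_natCast, inv_pow]
    have h7 : O.valuation ϖ ^ (-a) ≤ (O.valuation ϖ)⁻¹ ^ a.natAbs := by
      rw [h6]
      exact zpow_le_zpow_right_of_le_one₀ hϖ h.lt.le (by omega)
    have h8 : 1 ≤ (O.valuation ϖ)⁻¹ ^ a.natAbs :=
      one_le_pow₀ ((one_le_inv₀ hϖ).2 h.lt.le)
    exact h7.trans (le_self_pow₀ h8 (qpow_pos F i).ne')
  refine ⟨ringExpChar F ^ j * a.natAbs + 1, ?_⟩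
  have h9 : O.valuation z ≤ O.valuation y ^ (ringExpChar F ^ j * a.natAbs) := by
    refine h5.trans ?_
    rw [pow_mul]
    exact pow_le_pow_left₀ zero_le h4 _
  refine lt_of_le_of_lt h9 ?_
  exact pow_lt_pow_right₀ hy (Nat.lt_succ_self _)

/-- the image of a smaller valuation ring in the residue field. -/
noncomputable def apc_resVal {O O' : ValuationSubring F} (hO : O' ≤ O) :
    ValuationSubring (IsLocalRing.ResidueField O) where
  carrier := {c | ∃ z ∈ O', rs O z = c}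
  mul_mem' := by
    rintro _ _ ⟨x, hx, rfl⟩ ⟨y, hy, rfl⟩
    exact ⟨x * y, mul_mem hx hy, rs_mul (hO hx) (hO hy)⟩
  one_mem' := ⟨1, one_mem _, rs_one⟩
  add_mem' := by
    rintro _ _ ⟨x, hx, rfl⟩ ⟨y, hy, rfl⟩
    exact ⟨x + y, add_mem hx hy, rs_add (hO hx) (hO hy)⟩
  zero_mem' := ⟨0, zero_mem _, rs_zero⟩
  neg_mem' := by
    rintro _ ⟨x, hx, rfl⟩
    exact ⟨-x, neg_mem hx, rs_neg (hO hx)⟩
  mem_or_inv_mem' := by
    intro c
    obtain ⟨z, hz, rfl⟩ := rs_surj c
    by_cases h0 : rs O z = 0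
    · exact Or.inl ⟨0, zero_mem _, by rw [h0, rs_zero]⟩
    have hz1 : O.valuation z = 1 := (rs_ne_zero hz).1 h0
    rcases O'.mem_or_inv_mem z with h | h
    · exact Or.inl ⟨z, h, rfl⟩
    · exact Or.inr ⟨z⁻¹, h, rs_inv hz1⟩

theorem apc_max_le {O O' : ValuationSubring F} (hO : O' ≤ O) {x : F} (hx : O.valuation x < 1) :
    x ∈ O' := by
  by_contra h
  have h1 : x ≠ 0 := by
    rintro rfl
    exact h (zero_mem _)
  have h2 : x⁻¹ ∈ O' := (O'.mem_or_inv_mem x).resolve_left h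
  exact apc_inv_notMem h1 hx (hO h2)

theorem apc_mem_resVal {O O' : ValuationSubring F} (hO : O' ≤ O) {z : F} (hz : z ∈ O) :
    rs O z ∈ apc_resVal hO ↔ z ∈ O' := by
  constructor
  · rintro ⟨w, hw, hwz⟩
    have h1 := (rs_eq (hO hw) hz).1 hwz
    have h2 := apc_max_le hO h1
    have h3 := sub_mem hw h2
    rwa [sub_sub_cancel] at h3
  · intro h
    exact ⟨z, h, rfl⟩

end apc

variable {K L : Type*} [Field K] [Field L] [PerfectField K] [PerfectField L] {ℓ : ℕ}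
  [Fact ℓ.Prime] [NeZero (ℓ : K)] [NeZero (ℓ : L)] {Θ : V ℓ K ≃ₗ[ZMod ℓ] V ℓ L}

/-- a valuation ring killed by a functional killing `U1 ℓ O` is contained in `O`. -/
theorem apc_le {O O' : ValuationSubring L} {ϖ' : L} (hϖ' : IsUnif O ϖ')
    (f : V ℓ L →ₗ[ZMod ℓ] ZMod ℓ) (hf : ∀ v ∈ U1 ℓ O, f v = 0)
    (hf' : ∀ z, O'.valuation z = 1 → f (cl ℓ z) = 0) (hne : f ≠ 0) : O' ≤ O := by
  intro y hy
  by_contra hyO
  apply hne
  have hyv : 1 < O.valuation y := by
    rw [← O.valuation_le_one_iff, not_le] at hyO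
    exact hyO
  have hy0 : y ≠ 0 := by
    rintro rfl
    exact hyO (zero_mem _)
  have key : ∀ z : L, z ∉ O' → f (cl ℓ z) = 0 := by
    intro z hz
    have hz0 : z ≠ 0 := by
      rintro rfl
      exact hz (zero_mem _)
    obtain ⟨N, hN⟩ := apc_arch hϖ' (z := z) hyv
    have hyN : O.valuation z < O.valuation (y ^ N) ^ ℓ := by
      refine lt_of_lt_of_le hN ?_
      rw [map_pow]
      exact le_self_pow₀ (one_le_pow₀ hyv.le) (Fact.out : ℓ.Prime).ne_zero
    set w : L := (y ^ N) ^ ℓ with hw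
    have hw0 : w ≠ 0 := pow_ne_zero _ (pow_ne_zero _ hy0)
    have hwO' : w ∈ O' := pow_mem (pow_mem hy N) ℓ
    have hm : O.valuation (z / w) < 1 := by
      rw [map_div₀, hw, map_pow _ (y ^ N) ℓ]
      refine (div_lt_one₀ ?_).2 hyN
      exact lt_of_le_of_lt zero_le hyN
    have e1 : w + z = w * (1 + z / w) := by
      field_simp
    have h1 : f (cl ℓ (w + z)) = 0 := by
      rw [e1, cl_mul ℓ hw0 (one_add_ne_zero hm), map_add, hf _ (cl_mem_U1 hm), hw, cl_pow_self,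
        map_zero, add_zero]
    have hm' : O'.valuation (w * z⁻¹) < 1 := by
      rw [map_mul]
      exact mul_lt_one_of_nonneg_of_lt_one_right ((O'.valuation_le_one_iff w).2 hwO') zero_le
        (apc_lt_one hz)
    have e2 : w + z = z * (1 + w * z⁻¹) := by
      field_simp
      ring
    rw [e2, cl_mul ℓ hz0 (one_add_ne_zero hm'), map_add, hf' _ (val_one_add hm'), add_zero] at h1
    exact h1
  refine LinearMap.ext fun v => ?_
  obtain ⟨z, hz0, rfl⟩ := cl_surj ℓ v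
  rw [LinearMap.zero_apply]
  by_cases hz : z ∈ O'
  · by_cases hz' : z⁻¹ ∈ O'
    · exact hf' _ (apc_val_one.2 ⟨hz0, hz, hz'⟩)
    · have h1 := key _ hz'
      rw [cl_inv, map_neg, neg_eq_zero] at h1
      exact h1
  · exact key _ hz

/-- transfer of a place of the residue curve which is approximated. -/
theorem place_transfer {k : Subfield K} (hk : IsAlgClosed k) (hfgk : FG k (⊤ : Subfield K))
    {l : Subfield L} (hl : IsAlgClosed l) (hfgl : FG l (⊤ : Subfield L)) (hfl : Fin' l)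
    (hΘ : Compatible Θ) {x y : L} (hL : Srf l x y) {W : ValuationSubring K} (hW : TrivOn W k)
    (hCv : Cv (bar hW)) {ϖ : K} (hϖ : IsUnif W ϖ) {O : ValuationSubring L} (hT : Tr Θ W ϖ O)
    {Θ' : V ℓ (IsLocalRing.ResidueField W) ≃ₗ[ZMod ℓ] V ℓ (IsLocalRing.ResidueField O)}
    (hΘ' : ResMap ℓ Θ W O Θ') {P : ValuationSubring (IsLocalRing.ResidueField W)}
    (hP : P ∈ Plc (bar hW))
    {π : K} {F : ℕ → Subfield K} {Wn : ℕ → ValuationSubring K} {θ : ℕ → K}
    (hπ : W.valuation π = 1) (hπ' : P.valuation (rs W π) < 1)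
    (hn : ∀ n, k ≤ F n ∧ FG k (F n) ∧ ¬ F n ≤ k ∧ Nice (Wn n) (F n) π (θ n))
    (hlim : ∀ z : K, z ∈ compos W P → ∀ᶠ n in atTop, z ∈ Wn n) :
    ∃ Q ∈ Plc (bar (hfl.triv O)), ∀ v, Θ' v ∈ UC ℓ Q ↔ v ∈ UC ℓ P := by
  -- the transferred valuations
  have hO : ∀ n, ∃ O' : ValuationSubring L, Tr Θ (Wn n) π O' := by
    intro n
    obtain ⟨h1, h2, h3, h4⟩ := hn n
    obtain ⟨y, hyF, hyk⟩ := SetLike.not_le_iff_exists.1 h3
    haveI := h4.pf
    exact exists_tr0 hk hfgk hl hΘ h1 h2 h4 hyk (h4.triv.mono (adj_le h1 hyF))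
  choose On hOn using hO
  set 𝒰 : Ultrafilter ℕ := Filter.hyperfilter ℕ with h𝒰
  have h𝒰le : (𝒰 : Filter ℕ) ≤ atTop := Nat.hyperfilter_le_atTop
  -- the limit functional
  obtain ⟨fU, hfU⟩ := apc_exists_ulim 𝒰 (fun n => (hn n).2.2.2.unif.fn ℓ)
  have hfUπ : fU (cl ℓ π) = 1 := by
    obtain ⟨n, hn1⟩ := (hfU (cl ℓ π)).exists
    rw [← hn1]
    exact (hn n).2.2.2.unif.fn_self ℓ
  set O' : ValuationSubring L := apc_ultVal 𝒰 On with hO'
  set f' : V ℓ L →ₗ[ZMod ℓ] ZMod ℓ := fU ∘ₗ Θ.symm.toLinearMap with hf'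
  have hf'a : ∀ v, f' v = fU (Θ.symm v) := fun v => rfl
  have hf'π : f' (Θ (cl ℓ π)) = 1 := by
    rw [hf'a, LinearEquiv.symm_apply_apply, hfUπ]
  have hf'O' : ∀ z, O'.valuation z = 1 → f' (cl ℓ z) = 0 := by
    intro z hz
    obtain ⟨n, h1, h2⟩ := ((apc_ultVal_unit hz).and (hfU (Θ.symm (cl ℓ z)))).exists
    rw [hf'a, ← h2]
    exact (hOn n).unit _ z h1
  -- step 2
  have hfR : ∀ z : K, (compos W P).valuation z = 1 → fU (cl ℓ z) = 0 := by
    intro z hz
    obtain ⟨h0, h1, h2⟩ := apc_val_one.1 hz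
    have h3 := h𝒰le ((hlim z h1).and (hlim _ h2))
    obtain ⟨n, ⟨h4, h5⟩, h6⟩ := (Filter.Eventually.and h3 (hfU (cl ℓ z))).exists
    rw [← h6]
    exact (hn n).2.2.2.unif.fn_unit ℓ z (apc_val_one.2 ⟨h0, h4, h5⟩)
  have hfU1 : ∀ v ∈ U1 ℓ W, fU v = 0 := by
    rintro _ ⟨m, hm, rfl⟩
    apply hfR
    have h1 : rs W (1 + m) = 1 := by
      have h2 : m ∈ W := (W.valuation_le_one_iff m).1 hm.le
      rw [rs_add (one_mem _) h2, rs_one, (rs_eq_zero h2).2 hm, add_zero]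
    exact apc_compos_unit (val_one_add hm) (by rw [h1, map_one])
  obtain ⟨h, hh⟩ := apc_exists_ind W fU hfU1
  haveI : PerfectField (IsLocalRing.ResidueField W) := rs_perfect hW
  haveI : NeZero (ℓ : IsLocalRing.ResidueField W) := rs_neZero hW
  have hhP : ∀ c, P.valuation c = 1 → h (cl ℓ c) = 0 := by
    intro c hc
    obtain ⟨z, hz, rfl⟩ := rs_surj c
    have hz1 : W.valuation z = 1 := (rs_ne_zero hz).1 (apc_val_one.1 hc).1
    rw [hh z hz1]
    exact hfR z (apc_compos_unit hz1 hc)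
  have hhne : h ≠ 0 := by
    intro h0
    have h1 := hh π hπ
    rw [h0, LinearMap.zero_apply, hfUπ] at h1
    exact zero_ne_one h1
  obtain ⟨⟨πP, hπP⟩, -⟩ := hCv.place hP
  have hkerP := apc_ker_of_unif hπP h hhP hhne
  -- step 3
  have hf'U1 : ∀ v ∈ U1 ℓ O, f' v = 0 := by
    intro v hv
    rw [hf'a]
    apply hfU1
    rw [← hT.iff, LinearEquiv.apply_symm_apply]
    exact hv
  obtain ⟨xc, hxc, -⟩ := hCv.ex
  have hNC : NoCtr ℓ (IsLocalRing.ResidueField W) := noCtr hCv.ac hCv.fg hxc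
  have hUC := Tr.uc hΘ (exists_neg hk) (exists_neg hl) hϖ hT hNC
  have hOtop : O ≠ ⊤ := by
    intro htop
    have h1 : Θ (cl ℓ ϖ) ∈ UC ℓ O := by
      obtain ⟨z, hz0, hz⟩ := cl_surj ℓ (Θ (cl ℓ ϖ))
      rw [← hz]
      refine cl_mem_UC (apc_val_one.2 ⟨hz0, ?_, ?_⟩)
      · rw [htop]; exact ValuationSubring.mem_top _
      · rw [htop]; exact ValuationSubring.mem_top _
    have h2 := (hUC _).1 h1
    rw [LinearEquiv.symm_apply_apply, hϖ.fn_self ℓ] at h2
    exact one_ne_zero h2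
  have hres : ∃ c : IsLocalRing.ResidueField O, c ∉ bar (hfl.triv O) := by
    by_contra hcon
    push Not at hcon
    have hac : IsAlgClosed (bar (hfl.triv O)) := bar_isAlgClosed (hfl.triv O) hl
    apply hhne
    refine LinearMap.ext fun v => ?_
    obtain ⟨c, hc0, hc⟩ := cl_surj ℓ (Θ' v)
    have h1 : Θ' v = 0 := by
      rw [← hc]
      exact line_cl_const hac (hcon c)
    have h2 : v = 0 := by
      rw [← Θ'.symm_apply_apply v, h1, map_zero]
    rw [h2, map_zero, map_zero]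
  obtain ⟨⟨ϖ', hϖ'⟩, hCvO, -⟩ := hL.val hl hfgl (hfl.triv O) hOtop hres
  -- step 4
  have hf'ne : f' ≠ 0 := by
    intro h0
    rw [h0, LinearMap.zero_apply] at hf'π
    exact zero_ne_one hf'π
  have hle : O' ≤ O := apc_le hϖ' f' hf'U1 hf'O' hf'ne
  -- step 5
  have hneO : ¬ O ≤ O' := by
    intro hcon
    have h1 : O' = O := le_antisymm hle hcon
    have h2 : Θ (cl ℓ π) ∈ UC ℓ O := by
      rw [hUC, LinearEquiv.symm_apply_apply]
      exact hϖ.fn_unit ℓ π hπ
    obtain ⟨z, hz, hz'⟩ := h2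
    rw [hz', hf'O' z (by rw [h1]; exact hz)] at hf'π
    exact zero_ne_one hf'π
  -- step 6
  haveI : PerfectField (IsLocalRing.ResidueField O) := rs_perfect (hfl.triv O)
  haveI : NeZero (ℓ : IsLocalRing.ResidueField O) := rs_neZero (hfl.triv O)
  have hQ : apc_resVal hle ∈ Plc (bar (hfl.triv O)) := by
    refine ⟨?_, ?_⟩
    · intro c hc
      obtain ⟨e, he, rfl⟩ := (mem_bar (hfl.triv O)).1 hc
      exact ⟨e, hfl.triv O' e he, rfl⟩
    · intro htop
      apply hneO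
      intro z hz
      rw [← apc_mem_resVal hle hz, htop]
      exact ValuationSubring.mem_top _
  refine ⟨apc_resVal hle, hQ, ?_⟩
  obtain ⟨h', hh'⟩ := apc_exists_ind O f' hf'U1
  have hh'Q : ∀ c, (apc_resVal hle).valuation c = 1 → h' (cl ℓ c) = 0 := by
    intro c hc
    obtain ⟨z, hz, rfl⟩ := rs_surj c
    obtain ⟨h1, h2, h3⟩ := apc_val_one.1 hc
    have hz1 : O.valuation z = 1 := (rs_ne_zero hz).1 h1
    obtain ⟨h4, -, h5⟩ := apc_val_one.1 hz1
    rw [hh' z hz1]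
    rw [← rs_inv hz1] at h3
    exact hf'O' z (apc_val_one.2 ⟨h4, (apc_mem_resVal hle hz).1 h2, (apc_mem_resVal hle h5).1 h3⟩)
  have hcomp : ∀ v, h' (Θ' v) = h v := by
    intro v
    obtain ⟨c, hc0, rfl⟩ := cl_surj ℓ v
    obtain ⟨z, hz, rfl⟩ := rs_surj c
    have hz1 : W.valuation z = 1 := (rs_ne_zero hz).1 hc0
    have h1 : Θ (cl ℓ z) ∈ UC ℓ O := by
      rw [hUC, LinearEquiv.symm_apply_apply]
      exact hϖ.fn_unit ℓ z hz1
    obtain ⟨z', hz', hzz⟩ := h1
    rw [hΘ' z z' hz1 hz' hzz, hh' z' hz', hf'a, ← hzz, LinearEquiv.symm_apply_apply, hh z hz1]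
  have hh'ne : h' ≠ 0 := by
    intro h0
    apply hhne
    refine LinearMap.ext fun v => ?_
    rw [← hcomp, h0, LinearMap.zero_apply, LinearMap.zero_apply]
  obtain ⟨⟨πQ, hπQ⟩, -⟩ := hCvO.place hQ
  have hkerQ := apc_ker_of_unif hπQ h' hh'Q hh'ne
  intro v
  rw [hkerQ, hkerP, hcomp]

end Vale.Agent.P019P
end

section

/-!
# The degree bound
-/

namespace Vale.Agent.P019P

open Vale.Agent.P019

set_option linter.style.haveILetI false
set_option linter.unusedSectionVars false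

open Polynomial Filter

/-! ### two curves with corresponding places -/

section dbd

variable {F₁ F₂ : Type*} [Field F₁] [Field F₂] {ℓ : ℕ} [Fact ℓ.Prime]
  {k₁ : Subfield F₁} {k₂ : Subfield F₂} {Θ' : V ℓ F₁ ≃ₗ[ZMod ℓ] V ℓ F₂}
  {T : Finset (ValuationSubring F₁)} {Q : ValuationSubring F₁ → ValuationSubring F₂}

/-- comparison of the numbers of classes with bounded ramification. -/
theorem dbd_count {g₁ g₂ : ℕ} (h₁ : CurveCard ℓ k₁ g₁) (h₂ : CurveCard ℓ k₂ g₂)
    (hT : ∀ P ∈ T, P ∈ Plc k₁)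
    (hQ : ∀ P ∈ Plc k₁, P ∉ T → Q P ∈ Plc k₂ ∧ ∀ v, Θ' v ∈ UC ℓ (Q P) ↔ v ∈ UC ℓ P)
    (T' : Finset (ValuationSubring F₂)) (hT' : ∀ O ∈ T', O ∈ Plc k₂ ∧
      ∀ P ∈ Plc k₁, P ∉ T → Q P ≠ O) :
    2 * g₂ + (T'.card - 1) ≤ 2 * g₁ + (T.card - 1) := by
  have e1 := h₁ T hT
  have e2 := h₂ T' fun O hO => (hT' O hO).1
  have hℓ : 2 ≤ ℓ := (Fact.out : ℓ.Prime).two_le
  have hfin : Finite {v : V ℓ F₁ // ∀ O ∈ Plc k₁, O ∉ T → v ∈ UC ℓ O} := by
    apply Nat.finite_of_card_ne_zero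
    rw [e1]
    exact pow_ne_zero _ (by omega)
  have hle : Nat.card {v : V ℓ F₂ // ∀ O ∈ Plc k₂, O ∉ T' → v ∈ UC ℓ O} ≤
      Nat.card {v : V ℓ F₁ // ∀ O ∈ Plc k₁, O ∉ T → v ∈ UC ℓ O} := by
    refine Nat.card_le_card_of_injective (fun v => ⟨Θ'.symm v.1, fun P hP hPT => ?_⟩) ?_
    · obtain ⟨hQP, hv⟩ := hQ P hP hPT
      rw [← hv, LinearEquiv.apply_symm_apply]
      exact v.2 _ hQP fun h => (hT' _ h).2 P hP hPT rfl
    · intro v w hvw
      have h3 : Θ'.symm v.1 = Θ'.symm w.1 := congrArg Subtype.val hvw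
      exact Subtype.ext (Θ'.symm.injective h3)
  rw [e1, e2] at hle
  exact (Nat.pow_le_pow_iff_right hℓ).1 hle

/-- the genera. -/
theorem dbd_genus {g₁ g₂ : ℕ} (h₁ : CurveCard ℓ k₁ g₁) (h₂ : CurveCard ℓ k₂ g₂)
    (hT : ∀ P ∈ T, P ∈ Plc k₁)
    (hQ : ∀ P ∈ Plc k₁, P ∉ T → Q P ∈ Plc k₂ ∧ ∀ v, Θ' v ∈ UC ℓ (Q P) ↔ v ∈ UC ℓ P) :
    g₂ ≤ g₁ + T.card := by
  have h := dbd_count h₁ h₂ hT hQ ∅ fun O hO => absurd hO (Finset.notMem_empty O)
  rw [Finset.card_empty] at h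
  omega

/-- the places which do not correspond. -/
theorem dbd_rest {g₁ g₂ : ℕ} (h₁ : CurveCard ℓ k₁ g₁) (h₂ : CurveCard ℓ k₂ g₂)
    (hT : ∀ P ∈ T, P ∈ Plc k₁)
    (hQ : ∀ P ∈ Plc k₁, P ∉ T → Q P ∈ Plc k₂ ∧ ∀ v, Θ' v ∈ UC ℓ (Q P) ↔ v ∈ UC ℓ P) :
    {O : ValuationSubring F₂ | O ∈ Plc k₂ ∧ ∀ P ∈ Plc k₁, P ∉ T → Q P ≠ O}.encard ≤
      (2 * g₁ + T.card + 1 : ℕ) := by
  by_contra hcon
  push Not at hcon
  obtain ⟨t, hts, htc⟩ := Set.exists_subset_encard_eq
    (k := ((2 * g₁ + T.card + 2 : ℕ) : ℕ∞)) (Order.add_one_le_of_lt hcon)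
  have hfin : t.Finite := Set.finite_of_encard_eq_coe htc
  have h := dbd_count h₁ h₂ hT hQ hfin.toFinset fun O hO => hts (hfin.mem_toFinset.1 hO)
  have h3 : hfin.toFinset.card = 2 * g₁ + T.card + 2 := by
    have h4 : (hfin.toFinset.card : ℕ∞) = t.encard := (hfin.encard_eq_coe_toFinset_card).symm
    rw [htc] at h4
    exact_mod_cast h4
  omega

/-- inverse of a generator. -/
theorem dbd_adj_inv {F : Type*} [Field F] [PerfectField F] (E : Subfield F) (x : F) :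
    adj E x⁻¹ = adj E x := by
  have key : ∀ z : F, adj E z⁻¹ ≤ adj E z := by
    intro z
    haveI : PerfectField (adj E z) := perfect_of_pf_le (by
      unfold adj
      rw [pf_pf])
    exact adj_le (le_adj E z) ((adj E z).inv_mem (mem_adj E z))
  refine le_antisymm (key x) ?_
  have h := key x⁻¹
  rwa [inv_inv] at h

/-- the non-units of a function. -/
theorem dbd_nonunit {F : Type*} [Field F] [PerfectField F] [NeZero (ℓ : F)] {k : Subfield F}
    (h : Cv k) {y : F} (hy0 : y ≠ 0) {M : ℕ} (hM : y ∉ k → Module.finrank (adj k y) F ≤ M) :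
    {P : ValuationSubring F | P ∈ Plc k ∧ cl ℓ y ∉ UC ℓ P}.encard ≤ (2 * M : ℕ) := by
  by_cases hy : y ∈ k
  · have h0 : {P : ValuationSubring F | P ∈ Plc k ∧ cl ℓ y ∉ UC ℓ P} = ∅ := by
      rw [Set.eq_empty_iff_forall_notMem]
      rintro P ⟨hP, hc⟩
      apply hc
      exact ⟨y, hP.1.eq_one hy hy0, rfl⟩
    rw [h0, Set.encard_empty]
    exact zero_le
  · have h1 := h.fib_card hy
    have hy' : y⁻¹ ∉ k := fun h2 => hy (by simpa using k.inv_mem h2)
    have h2 := h.fib_card hy'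
    rw [dbd_adj_inv] at h2
    have hsub : {P : ValuationSubring F | P ∈ Plc k ∧ cl ℓ y ∉ UC ℓ P} ⊆
        {O : ValuationSubring F | O ∈ Plc k ∧ O.valuation y < 1} ∪
          {O : ValuationSubring F | O ∈ Plc k ∧ O.valuation y⁻¹ < 1} := by
      rintro P ⟨hP, hc⟩
      rcases lt_trichotomy (P.valuation y) 1 with h3 | h3 | h3
      · exact Or.inl ⟨hP, h3⟩
      · exact absurd ⟨y, h3, rfl⟩ hc
      · refine Or.inr ⟨hP, ?_⟩
        rw [map_inv₀]
        exact inv_lt_one_of_one_lt₀ h3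
    refine (Set.encard_le_encard hsub).trans ((Set.encard_union_le _ _).trans ?_)
    rw [← h1.1.cast_ncard_eq, ← h2.1.cast_ncard_eq]
    have h5 := h1.2.trans (hM hy)
    have h6 := h2.2.trans (hM hy)
    exact_mod_cast (by omega : _ ≤ 2 * M)

/-- the degree bound for two curves with corresponding places. -/
theorem dbd_abs [PerfectField F₁] [NeZero (ℓ : F₁)] {g₁ g₂ : ℕ} (hcv : Cv k₁)
    (h₁ : CurveCard ℓ k₁ g₁) (h₂ : CurveCard ℓ k₂ g₂) (hrh : CurveRH ℓ k₂ g₂)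
    (hT : ∀ P ∈ T, P ∈ Plc k₁)
    (hQ : ∀ P ∈ Plc k₁, P ∉ T → Q P ∈ Plc k₂ ∧ ∀ v, Θ' v ∈ UC ℓ (Q P) ↔ v ∈ UC ℓ P)
    {x : F₂} (hx : x ∉ k₂) (s : Finset F₂) (hs : ∀ c ∈ s, c ∈ k₂) (hs5 : s.card = 5) {M : ℕ}
    (hy : ∀ c ∈ s, ∃ y : F₁, y ≠ 0 ∧ Θ' (cl ℓ y) = cl ℓ (x - c) ∧
      (y ∉ k₁ → Module.finrank (adj k₁ y) F₁ ≤ M)) :
    Module.finrank (adj k₂ x) F₂ ≤
      4 * (g₁ + T.card) + 5 * (2 * M + (2 * g₁ + T.card + 1)) := by
  refine (hrh.rh x hx (2 * M + (2 * g₁ + T.card + 1)) s hs hs5 fun c hc => ?_).trans ?_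
  · obtain ⟨y, hy0, hyc, hyM⟩ := hy c hc
    have hsub : {O : ValuationSubring F₂ | O ∈ Plc k₂ ∧ O.valuation (x - c) < 1 ∧
        cl ℓ (x - c) ∉ UC ℓ O} ⊆
        Q '' {P : ValuationSubring F₁ | P ∈ Plc k₁ ∧ cl ℓ y ∉ UC ℓ P} ∪
          {O : ValuationSubring F₂ | O ∈ Plc k₂ ∧ ∀ P ∈ Plc k₁, P ∉ T → Q P ≠ O} := by
      rintro O ⟨hO, -, hOc⟩
      by_cases h : ∀ P ∈ Plc k₁, P ∉ T → Q P ≠ O
      · exact Or.inr ⟨hO, h⟩
      · left
        push Not at h
        obtain ⟨P, hP, hPT, rfl⟩ := h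
        refine ⟨P, ⟨hP, fun hcP => hOc ?_⟩, rfl⟩
        rw [← hyc, (hQ P hP hPT).2]
        exact hcP
    refine (Set.encard_le_encard hsub).trans ((Set.encard_union_le _ _).trans ?_)
    rw [Nat.cast_add]
    exact add_le_add ((Set.encard_image_le _ _).trans (dbd_nonunit hcv hy0 hyM))
      (dbd_rest h₁ h₂ hT hQ)
  · have h3 := dbd_genus h₁ h₂ hT hQ
    omega

end dbd

variable {K L : Type*} [Field K] [Field L] [PerfectField K] [PerfectField L] {ℓ : ℕ}
  [Fact ℓ.Prime] [NeZero (ℓ : K)] [NeZero (ℓ : L)] {Θ : V ℓ K ≃ₗ[ZMod ℓ] V ℓ L}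

theorem dbd_fin {K : Type*} [Field K] {k : Subfield K} (hk : Fin' k) {W : ValuationSubring K}
    (hW : TrivOn W k) : Fin' (bar hW) := by
  intro a ha ha0
  obtain ⟨e, he, rfl⟩ := (mem_bar hW).1 ha
  have he0 : e ≠ 0 := by
    rintro rfl
    exact ha0 rs_zero
  obtain ⟨n, hn, h⟩ := hk e he he0
  exact ⟨n, hn, by rw [← rs_pow (hW e he), h, rs_one]⟩

theorem dbd_ne_top {W : ValuationSubring K} {π : K} {O : ValuationSubring L}
    (hT : Tr Θ W π O) (hW : IsUnif W π) : O ≠ ⊤ := by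
  rintro rfl
  refine hT.not_triv hW (E := ⊤) ?_ fun z _ => ValuationSubring.mem_top z
  obtain ⟨z, hz0, hz⟩ := cl_surj ℓ (Θ (cl ℓ π))
  rw [← hz]
  exact cl_mem_VS (Subfield.mem_top z)

/-- the degree bound for a single valuation. -/
theorem dbd_point {k : Subfield K} (hk : IsAlgClosed k) (hfgk : FG k (⊤ : Subfield K))
    (hfk : Fin' k) {l : Subfield L} (hl : IsAlgClosed l) (hfgl : FG l (⊤ : Subfield L))
    (hfl : Fin' l) (hΘ : Compatible Θ) {x y : L} (hL : Srf l x y) {g : L}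
    {W : ValuationSubring K} (hW : TrivOn W k) (hcv : Cv (bar hW)) {ϖ : K} (hϖ : IsUnif W ϖ)
    {O : ValuationSubring L} (hT : Tr Θ W ϖ O) (hOg : O.valuation g = 1)
    (hgO : rs O g ∉ bar (hfl.triv O)) {τ G M : ℕ}
    (happr : ∃ T : Finset (ValuationSubring (IsLocalRing.ResidueField W)),
        T.card ≤ τ ∧ (∀ P ∈ T, P ∈ Plc (bar hW)) ∧ ∀ P ∈ Plc (bar hW), P ∉ T →
        ∃ (π : K) (F : ℕ → Subfield K) (Wn : ℕ → ValuationSubring K) (θ : ℕ → K),
          W.valuation π = 1 ∧ P.valuation (rs W π) < 1 ∧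
          (∀ n, k ≤ F n ∧ FG k (F n) ∧ ¬ F n ≤ k ∧ Nice (Wn n) (F n) π (θ n)) ∧
          ∀ z : K, z ∈ compos W P → ∀ᶠ n in atTop, z ∈ Wn n)
    (hG : ∀ g : ℕ, CurveRH ℓ (bar hW) g → g ≤ G) (s₀ : Finset L) (hs₀ : ∀ c ∈ s₀, c ∈ l)
    (hs5 : s₀.card = 5) (hy : ∀ c ∈ s₀, ∃ y : K, W.valuation y = 1 ∧
      Θ (cl ℓ y) = cl ℓ (g - c) ∧ (rs W y ∉ bar hW →
        Module.finrank (adj (bar hW) (rs W y)) (IsLocalRing.ResidueField W) ≤ M)) :
    Module.finrank (adj (bar (hfl.triv O)) (rs O g)) (IsLocalRing.ResidueField O) ≤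
      4 * (G + τ) + 5 * (2 * M + (2 * G + τ + 1)) := by
  classical
  haveI := rs_perfect hW
  haveI := rs_neZero (ℓ := ℓ) hW
  haveI := rs_perfect (hfl.triv O)
  haveI := rs_neZero (ℓ := ℓ) (hfl.triv O)
  obtain ⟨x₁, hx₁, -⟩ := hcv.ex
  have hNC : NoCtr ℓ (IsLocalRing.ResidueField W) := noCtr hcv.ac hcv.fg hx₁
  obtain ⟨Θ', hΘ', hres⟩ := Tr.res hΘ (exists_neg hk) (exists_neg hl) hϖ hT hNC
  obtain ⟨-, hcvO, -⟩ := Srf.val hl hfgl hL (hfl.triv O) (dbd_ne_top hT hϖ) ⟨_, hgO⟩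
  obtain ⟨g₁, hrh1, hcc1⟩ := exists_curve (ℓ := ℓ) hcv (dbd_fin hfk hW)
  obtain ⟨g₂, hrh2, hcc2⟩ := exists_curve (ℓ := ℓ) hcvO (dbd_fin hfl _)
  obtain ⟨T, hTτ, hT1, hT2⟩ := happr
  have hQ : ∀ P : ValuationSubring (IsLocalRing.ResidueField W),
      ∃ Q : ValuationSubring (IsLocalRing.ResidueField O), P ∈ Plc (bar hW) → P ∉ T →
        Q ∈ Plc (bar (hfl.triv O)) ∧ ∀ v, Θ' v ∈ UC ℓ Q ↔ v ∈ UC ℓ P := by
    intro P
    by_cases hP : P ∈ Plc (bar hW) ∧ P ∉ T
    · obtain ⟨π, F, Wn, θ, h1, h2, h3, h4⟩ := hT2 P hP.1 hP.2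
      obtain ⟨Q, hQ1, hQ2⟩ := place_transfer hk hfgk hl hfgl hfl hΘ hL hW hcv hϖ hT hres hP.1
        h1 h2 h3 h4
      exact ⟨Q, fun _ _ => ⟨hQ1, hQ2⟩⟩
    · exact ⟨⊤, fun h1 h2 => absurd ⟨h1, h2⟩ hP⟩
  choose Q hQ using hQ
  have hinj : Set.InjOn (rs O) (s₀ : Set L) := fun c hc c' hc' h =>
    rs_injOn (hfl.triv O) (hs₀ c hc) (hs₀ c' hc') h
  have key := dbd_abs (Θ' := Θ') hcv hcc1 hcc2 hrh2 hT1 hQ hgO (s₀.image (rs O))
    (fun c hc => by
      obtain ⟨c', hc', rfl⟩ := Finset.mem_image.1 hc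
      exact rs_mem_bar _ (hs₀ c' hc'))
    (by rw [Finset.card_image_of_injOn hinj, hs5]) (M := M)
    (fun c hc => by
      obtain ⟨c', hc', rfl⟩ := Finset.mem_image.1 hc
      obtain ⟨z, hz, hzc, hzM⟩ := hy c' hc'
      have hc'O : c' ∈ O := hfl.triv O c' (hs₀ c' hc')
      have hgc : O.valuation (g - c') = 1 := by
        rw [← rs_ne_zero (sub_mem (mem_of_val hOg) hc'O), rs_sub (mem_of_val hOg) hc'O,
          sub_ne_zero]
        intro h
        exact hgO (h ▸ rs_mem_bar _ (hs₀ c' hc'))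
      refine ⟨rs W z, (rs_ne_zero (mem_of_val hz)).2 hz, ?_, hzM⟩
      rw [hres z (g - c') hz hgc hzc, rs_sub (mem_of_val hOg) hc'O])
  have hg₁ := hG g₁ hrh1
  omega

/-- the degree bound. -/
theorem deg_bound {k : Subfield K} (hk : IsAlgClosed k) (hfgk : FG k (⊤ : Subfield K))
    (hfk : Fin' k) {l : Subfield L} (hl : IsAlgClosed l) (hfgl : FG l (⊤ : Subfield L))
    (hfl : Fin' l) (hΘ : Compatible Θ) {t s : K} (hK : Srf k t s) {x y : L} (hL : Srf l x y)
    {g : L} (hg : g ∉ l) : ∃ d : ℕ, ∀ᶠ b in ae k, ∀ W : ValuationSubring K,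
      Over W (adj k s) t b → ∀ O : ValuationSubring L, Tr Θ W (t - b) O → O.valuation g = 1 →
        rs O g ∉ bar (hfl.triv O) →
        Module.finrank (adj (bar (hfl.triv O)) (rs O g)) (IsLocalRing.ResidueField O) ≤ d := by
  classical
  -- constants
  obtain ⟨s₀, hs₀, hs₀5⟩ := (infinite_of_isAlgClosed hl).exists_subset_card_eq 5
  have hy : ∀ c : L, ∃ z : K, z ≠ 0 ∧ cl ℓ z = Θ.symm (cl ℓ (g - c)) := fun c =>
    cl_surj ℓ _
  choose y' hy0 hyc using hy
  obtain ⟨τ, hτ⟩ := exists_appr hk hfgk hK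
  obtain ⟨G, hG⟩ := Srf.gen_le (ℓ := ℓ) hk hfgk hK
  have hM := fun c : L => Srf.deg_le hk hfgk hK (hy0 c)
  choose M hM using hM
  refine ⟨4 * (G + τ) + 5 * (2 * (∑ c ∈ s₀, M c) + (2 * G + τ + 1)), ?_⟩
  have hMs : ∀ᶠ b in ae k, ∀ c ∈ s₀, ∀ W : ValuationSubring K, Over W (adj k s) t b →
      W.valuation (y' c) = 1 ∧ ∀ hW : TrivOn W k, rs W (y' c) ∉ bar hW →
        Module.finrank (adj (bar hW) (rs W (y' c))) (IsLocalRing.ResidueField W) ≤ M c :=
    (Filter.eventually_all_finset s₀).2 fun c _ => hM c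
  filter_upwards [hτ, hG, hMs, Srf.over hk hfgk hK] with b hτb hGb hMb hov W hW O hT hOg hgO
  obtain ⟨hunif, hWk, hcvW, hsW⟩ := hov W hW
  refine dbd_point hk hfgk hfk hl hfgl hfl hΘ hL hWk hcvW hunif hT hOg hgO (hτb W hW hWk)
    (hGb W hW hWk) s₀ (fun c hc => hs₀ hc) hs₀5 fun c hc => ⟨y' c, (hMb c hc W hW).1, ?_, ?_⟩
  · rw [hyc, LinearEquiv.apply_symm_apply]
  · intro h
    exact ((hMb c hc W hW).2 hWk h).trans (Finset.single_le_sum (fun _ _ => Nat.zero_le _) hc)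

end Vale.Agent.P019P
end

section

/-!
# Transcendence degrees of residue fields
-/

namespace Vale.Agent.P019P

open Vale.Agent.P019

set_option linter.style.haveILetI false
set_option linter.unusedSectionVars false
set_option linter.unusedVariables false

open Polynomial Filter

universe u v

theorem e1_root {K : Type*} [Field K] {k : Subfield K} (hk : IsAlgClosed k) {ℓ : ℕ} (hℓ : 0 < ℓ)
    {c : K} (hc : c ∈ k) : ∃ d : K, d ^ ℓ = c := by
  haveI := hk
  obtain ⟨d, hd⟩ := IsAlgClosed.exists_pow_nat_eq (⟨c, hc⟩ : k) hℓ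
  exact ⟨d, by
    have h := congrArg Subtype.val hd
    exact h⟩

theorem e1_neg_one {K : Type*} [Field K] {k : Subfield K} (hk : IsAlgClosed k) {ℓ : ℕ}
    (hℓ : 0 < ℓ) : ∃ i : K, i ^ ℓ = -1 := e1_root hk hℓ (k.neg_mem k.one_mem)

theorem e1_notMem {K : Type*} [Field K] {k : Subfield K} {B : Finset K} (hB : Indp k B) {v : K}
    (hv : v ∈ B) : v ∉ k := fun h =>
  hB ∅ (Finset.empty_subset B) v hv (Finset.notMem_empty v)
    (isAlgebraic_of_mem (le_gsp k ∅ h))

theorem e1_indp_single {K : Type*} [Field K] {k : Subfield K} (hk : IsAlgClosed k) {y : K}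
    (hy : y ∉ k) : Indp k {y} := by
  intro S hS v hv hvS
  rw [Finset.mem_singleton] at hv
  subst hv
  have h1 : S = ∅ := by
    rcases Finset.subset_singleton_iff.1 hS with h | h
    · exact h
    · rw [h] at hvS
      exact absurd (Finset.mem_singleton_self _) hvS
  rw [h1, gsp_empty]
  exact fun h => hy (RAC_of_isAlgClosed k hk v h)

/-- there is an element which is not a constant. -/
theorem e1_exists {K : Type*} {M : Type*} [Field K] [Field M] [PerfectField K] {ℓ : ℕ}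
    [Fact ℓ.Prime] [NeZero (ℓ : K)] {k : Subfield K} (hk : IsAlgClosed k)
    (hfg : FG k (⊤ : Subfield K)) {l : Subfield M} (hl : IsAlgClosed l)
    (Θ : V ℓ K ≃ₗ[ZMod ℓ] V ℓ M) {t : K} (ht : t ∉ k) : ∃ y : M, y ∉ l := by
  by_contra hcon
  push Not at hcon
  have h1 := VS_infinite (ℓ := ℓ) (E := ⊤) hk hfg le_top fun h => ht (h (Subfield.mem_top t))
  have h2 : ∀ v : V ℓ K, v = 0 := by
    intro v
    obtain ⟨z, hz0, hz⟩ := cl_surj ℓ (Θ v)
    obtain ⟨d, hd⟩ := e1_root hl (Fact.out : ℓ.Prime).pos (hcon z)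
    have hd0 : d ≠ 0 := by
      rintro rfl
      rw [zero_pow (Fact.out : ℓ.Prime).ne_zero] at hd
      exact hz0 hd.symm
    rw [(cl_eq_zero_iff ℓ hz0).2 ⟨d, hd0, hd⟩] at hz
    exact Θ.injective (by rw [← hz, map_zero])
  refine h1 (Set.Finite.subset (Set.finite_singleton (0 : V ℓ K)) fun v _ => h2 v)

/-- the residue field of a nice valuation has no centre. -/
theorem e1_noCtr {K : Type*} [Field K] [PerfectField K] {ℓ : ℕ} [Fact ℓ.Prime] [NeZero (ℓ : K)]
    {k : Subfield K} (hk : IsAlgClosed k) {B : Finset K} (hB : Indp k B) (hBne : B.Nonempty)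
    {W : ValuationSubring K} {π θ : K} (hW : Nice W (gsp k B) π θ) (hWk : TrivOn W k) :
    NoCtr ℓ (IsLocalRing.ResidueField W) := by
  haveI := hk
  haveI := rs_perfect hWk
  haveI := rs_neZero (ℓ := ℓ) hWk
  obtain ⟨y, hy⟩ := hBne
  refine noCtr (bar_isAlgClosed hWk hk) (Nice.td hB hW hWk).2 (x := rs W y) fun h => ?_
  obtain ⟨e, he, hey⟩ := (mem_bar hWk).1 h
  have h1 : e = y := rs_injOn hW.triv (le_gsp k B he) (mem_gsp hy) hey
  exact e1_notMem hB hy (h1 ▸ he)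

/-- the isomorphism of the residue fields. -/
theorem e1_res {K : Type*} {L : Type*} [Field K] [Field L] [PerfectField K] [PerfectField L]
    {ℓ : ℕ} [Fact ℓ.Prime] [NeZero (ℓ : K)] [NeZero (ℓ : L)] {Θ : V ℓ K ≃ₗ[ZMod ℓ] V ℓ L}
    {k : Subfield K} (hk : IsAlgClosed k) {l : Subfield L}
    (hl : IsAlgClosed l) (hΘ : Compatible Θ)
    {B : Finset K} (hB : Indp k B) (hBne : B.Nonempty)
    {W : ValuationSubring K} {π θ : K} (hW : Nice W (gsp k B) π θ)
    {O : ValuationSubring L} (hT : Tr Θ W π O) :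
    ∃ Θ' : V ℓ (IsLocalRing.ResidueField W) ≃ₗ[ZMod ℓ] V ℓ (IsLocalRing.ResidueField O),
      Compatible Θ' := by
  obtain ⟨Θ', h, -⟩ := Tr.res hΘ (e1_neg_one hk (Fact.out : ℓ.Prime).pos)
    (e1_neg_one hl (Fact.out : ℓ.Prime).pos) hW.unif hT
    (e1_noCtr hk hB hBne hW (hW.triv.mono (le_gsp k B)))
  exact ⟨Θ', h⟩

/-- the transcendence degree does not drop under compatible isomorphisms. -/
theorem dim_ge {ℓ : ℕ} [Fact ℓ.Prime] (n : ℕ) : ∀ {K : Type u} {M : Type v} [Field K] [Field M]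
    [PerfectField K] [PerfectField M] [NeZero (ℓ : K)] [NeZero (ℓ : M)] {k : Subfield K}
    (_ : IsAlgClosed k) (_ : FG k (⊤ : Subfield K)) {l : Subfield M} (_ : IsAlgClosed l)
    (_ : Fin' l) {Θ : V ℓ K ≃ₗ[ZMod ℓ] V ℓ M} (_ : Compatible Θ) (_ : Td k n),
    ∃ B : Finset M, B.card = n ∧ Indp l B := by
  induction n with
  | zero =>
    intro K M _ _ _ _ _ _ k hk hfg l hl hfl Θ hΘ hTd
    exact ⟨∅, Finset.card_empty, fun S _ v hv => absurd hv (Finset.notMem_empty v)⟩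
  | succ n ih =>
    intro K M _ _ _ _ _ _ k hk hfg l hl hfl Θ hΘ hTd
    classical
    haveI := hk
    haveI := hl
    obtain ⟨t, ht⟩ : ∃ t : K, t ∉ k := by
      obtain ⟨B, hBc, hB, -⟩ := id hTd
      obtain ⟨t, ht⟩ : B.Nonempty := by
        rw [← Finset.card_pos, hBc]
        exact Nat.succ_pos n
      exact ⟨t, e1_notMem hB ht⟩
    rcases Nat.eq_zero_or_pos n with hn | hn
    · obtain ⟨y, hy⟩ := e1_exists hk hfg hl Θ ht
      exact ⟨{y}, by rw [Finset.card_singleton, hn], e1_indp_single hl hy⟩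
    · obtain ⟨B, hBc, hB, htB, halg, -⟩ := hTd.exists_basis hk hfg ht
      have hBne : B.Nonempty := by
        rw [← Finset.card_pos, hBc]
        exact hn
      obtain ⟨θ, hθ⟩ := exists_over_nice hk hfg hB htB halg
      haveI := ae_neBot_of_isAlgClosed hk
      obtain ⟨b, ⟨W, hWo⟩, hNb⟩ := hθ.exists
      have hN := hNb W hWo
      have hWk : TrivOn W k := hN.triv.mono (le_gsp k B)
      obtain ⟨y, hy⟩ := id hBne
      haveI := gsp_perfect k B
      obtain ⟨O, hT⟩ := exists_tr0 hk hfg hl hΘ (le_gsp k B) (gsp_fg k B) hN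
        (e1_notMem hB hy) (hN.triv.mono (adj_le (le_gsp k B) (mem_gsp hy)))
      have hO : TrivOn O l := hfl.triv O
      obtain ⟨Θ', hΘ'⟩ := e1_res hk hl hΘ hB hBne hN hT
      haveI := rs_perfect hWk
      haveI := rs_perfect hO
      haveI := rs_neZero (ℓ := ℓ) hWk
      haveI := rs_neZero (ℓ := ℓ) hO
      have htd := Nice.td hB hN hWk
      rw [hBc] at htd
      obtain ⟨B1, hB1c, hB1⟩ := ih (bar_isAlgClosed hWk hk) htd.2 (bar_isAlgClosed hO hl)
        (dbd_fin hfl hO) hΘ' htd.1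
      obtain ⟨B', hB'c, hB', h, -⟩ := indp_lift hO hB1
      obtain ⟨X, hX0, hX⟩ := rsb_exists_small (dbd_ne_top hT hN.unif)
      have hXa : ¬ IsAlgebraic (gsp l B') X := fun ha => by
        rw [h.eq_one_of_isAlgebraic ha hX0] at hX
        exact lt_irrefl _ hX
      have hXB : X ∉ B' := fun hm => hXa (isAlgebraic_of_mem (mem_gsp hm))
      exact ⟨insert X B', by rw [Finset.card_insert_of_notMem hXB, hB'c, hB1c], hB'.insert hXa⟩

/-- the residue fields of transferred valuations. -/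
theorem res_td {K : Type u} {L : Type v} [Field K] [Field L] [PerfectField K] [PerfectField L]
    {ℓ : ℕ} [Fact ℓ.Prime] [NeZero (ℓ : K)] [NeZero (ℓ : L)] {Θ : V ℓ K ≃ₗ[ZMod ℓ] V ℓ L}
    {k : Subfield K} (hk : IsAlgClosed k) (hfgk : FG k (⊤ : Subfield K)) {l : Subfield L}
    (hl : IsAlgClosed l) (hfgl : FG l (⊤ : Subfield L)) (hfl : Fin' l) (hΘ : Compatible Θ)
    {B : Finset K} (hB : Indp k B) (hBne : B.Nonempty) (hL : Td l (B.card + 1))
    {W : ValuationSubring K} {π θ : K} (hW : Nice W (gsp k B) π θ)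
    {O : ValuationSubring L} (hT : Tr Θ W π O) (hO : TrivOn O l) :
    (∃ ϖ, IsUnif O ϖ) ∧ Td (bar hO) B.card ∧
      FG (bar hO) (⊤ : Subfield (IsLocalRing.ResidueField O)) := by
  classical
  haveI := hk
  haveI := hl
  have hWk : TrivOn W k := hW.triv.mono (le_gsp k B)
  obtain ⟨Θ', hΘ'⟩ := e1_res hk hl hΘ hB hBne hW hT
  haveI := rs_perfect hWk
  haveI := rs_perfect hO
  haveI := rs_neZero (ℓ := ℓ) hWk
  haveI := rs_neZero (ℓ := ℓ) hO
  have htd := Nice.td hB hW hWk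
  obtain ⟨B1, hB1c, hB1⟩ := dim_ge B.card (bar_isAlgClosed hWk hk) htd.2 (bar_isAlgClosed hO hl)
    (dbd_fin hfl hO) hΘ' htd.1
  obtain ⟨B', hB'c, hB', h, hbar⟩ := indp_lift hO hB1
  obtain ⟨B2, hsub, hB2, halg⟩ := hB'.extend hfgl
  have hc : B2.card = B'.card + 1 := by
    have h1 : Td l B2.card := ⟨B2, rfl, hB2, halg⟩
    rw [h1.unique hL, hB'c, hB1c]
  obtain ⟨y, hyB, rfl⟩ : ∃ y, y ∉ B' ∧ B2 = insert y B' := by
    have h1 : (B2 \ B').card = 1 := by
      rw [Finset.card_sdiff_of_subset hsub]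
      omega
    obtain ⟨y, hy⟩ := Finset.card_eq_one.1 h1
    have h2 : y ∈ B2 \ B' := by
      rw [hy]
      exact Finset.mem_singleton_self y
    refine ⟨y, (Finset.mem_sdiff.1 h2).2, ?_⟩
    rw [← Finset.sdiff_union_of_subset hsub, hy]
    rfl
  haveI := gsp_perfect l B'
  have hya : ¬ IsAlgebraic (gsp l B') y :=
    hB2 B' hsub y (Finset.mem_insert_self y B') hyB
  rw [gsp_insert] at halg
  obtain ⟨h1, h2, h3⟩ := val_struct (hfgl.mono (le_gsp l B') le_top) hya halg h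
    (dbd_ne_top hT hW.unif)
  rw [hbar] at h3
  refine ⟨h1, ⟨B1, hB1c, hB1, fun z => ?_⟩, (gsp_fg (bar hO) B1).trans h3⟩
  rw [← hbar]
  exact h2 z

end Vale.Agent.P019P
end

section

/-!
# The degree of the residue fields
-/

namespace Vale.Agent.P019P

open Vale.Agent.P019

set_option linter.style.haveILetI false
set_option linter.unusedSectionVars false

open Polynomial Filter

variable {K : Type*} [Field K]

/-- a monic relation from linearly dependent powers. -/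
theorem e2r_poly {A R : Type*} [Field A] [Field R] [Algebra A R] (c : R) (d : ℕ)
    (h : ¬ LinearIndependent A (fun i : Fin (d + 1) => c ^ (i : ℕ))) :
    ∃ p : A[X], p.Monic ∧ p.natDegree ≤ d ∧ aeval c p = 0 := by
  classical
  rw [Fintype.not_linearIndependent_iff] at h
  obtain ⟨g, hg, i0, hi0⟩ := h
  set p0 : A[X] := ∑ i : Fin (d + 1), C (g i) * X ^ (i : ℕ) with hp
  have hcoef : p0.coeff i0 = g i0 := by
    rw [hp, finsetSum_coeff, Finset.sum_eq_single i0]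
    · simp
    · intro j _ hj
      rw [coeff_C_mul, coeff_X_pow, if_neg, mul_zero]
      exact fun h => hj (Fin.ext h.symm)
    · intro h; exact absurd (Finset.mem_univ _) h
  have hp0 : p0 ≠ 0 := by
    intro h0
    rw [h0, coeff_zero] at hcoef
    exact hi0 hcoef.symm
  have hdeg : p0.natDegree ≤ d :=
    natDegree_sum_le_of_forall_le _ _ fun i _ =>
      (natDegree_C_mul_X_pow_le _ _).trans (Nat.lt_succ_iff.1 i.2)
  have hroot : aeval c p0 = 0 := by
    rw [hp, map_sum, ← hg]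
    refine Finset.sum_congr rfl fun i _ => ?_
    rw [map_mul, aeval_C, map_pow, aeval_X, Algebra.smul_def]
  refine ⟨p0 * C p0.leadingCoeff⁻¹, monic_mul_leadingCoeff_inv hp0, ?_, ?_⟩
  · rw [natDegree_mul_leadingCoeff_inv _ hp0]
    exact hdeg
  · rw [map_mul, hroot, zero_mul]

/-- the degree of the residue field is bounded. -/
theorem res_deg [PerfectField K] {F : Subfield K} [PerfectField F]
    (hfg : FG F (⊤ : Subfield K)) {t : K} (ht : ¬ IsAlgebraic F t)
    (halg : ∀ z : K, IsAlgebraic (adj F t) z) :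
    ∃ d : ℕ, ∀ (W : ValuationSubring K) (hW : TrivOn W F) (b : K), b ∈ F →
      W.valuation (t - b) < 1 → ∀ c : IsLocalRing.ResidueField W,
      ∃ p : (bar hW)[X], p.Monic ∧ p.natDegree ≤ d ∧ aeval c p = 0 := by
  obtain ⟨S, hS⟩ := hfg
  have halg' : ∀ z : K, IsAlgebraic (IntermediateField.adjoin F {t}) z := fun z =>
    isAlgebraic_adjoin_simple'.2 (halg z)
  set L := IntermediateField.adjoin (IntermediateField.adjoin F {t}) (S : Set K) with hLdef
  haveI : FiniteDimensional (IntermediateField.adjoin F {t}) L :=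
    IntermediateField.finiteDimensional_adjoin fun x _ => (halg' x).isIntegral
  have hAL : ∀ z ∈ IntermediateField.adjoin F {t}, z ∈ L := fun z hz =>
    L.algebraMap_mem (⟨z, hz⟩ : IntermediateField.adjoin F {t})
  have hL : F ≤ L.toSubfield := fun z hz =>
    hAL z ((IntermediateField.adjoin F {t}).algebraMap_mem (⟨z, hz⟩ : F))
  have hSL : F ⊔ Subfield.closure (S : Set K) ≤ L.toSubfield :=
    sup_le hL (Subfield.closure_le.2 fun z hz => IntermediateField.subset_adjoin _ _ hz)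
  have hpow : ∀ z : K, ∃ m : ℕ, z ^ ringExpChar K ^ m ∈ L := by
    intro z
    have h1 : z ∈ pf (F ⊔ Subfield.closure (S : Set K)) := hS ▸ Subfield.mem_top z
    obtain ⟨m, hm⟩ := mem_pf.1 h1
    exact ⟨m, hSL hm⟩
  refine ⟨Module.finrank (IntermediateField.adjoin F {t}) L, fun W hW b hb hlt c => ?_⟩
  refine e2r_poly c _ fun hli => ?_
  haveI : PerfectField (bar hW) := bar_perfect hW
  have hX0 : t - b ≠ 0 := by
    intro h
    rw [sub_eq_zero] at h
    apply ht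
    rw [h]
    exact isAlgebraic_algebraMap (⟨b, hb⟩ : F)
  obtain ⟨z, hz, rfl⟩ := rs_surj c
  obtain ⟨m, hm⟩ := hpow z
  have h1 := linearIndependent_pow hli m
  rw [rs_ringExpChar hW] at h1
  have h2 : LinearIndependent (bar hW)
      (fun i : Fin (Module.finrank (IntermediateField.adjoin F {t}) L + 1) =>
        rs W ((z ^ ringExpChar K ^ m) ^ (i : ℕ))) := by
    convert h1 using 2 with i
    rw [rs_pow (pow_mem hz _), rs_pow hz, ← pow_mul, ← pow_mul, mul_comm]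
  have h3 := rsb_indep hW hX0 hlt (fun i => pow_mem (pow_mem hz _) _) h2
  rw [adjoin_sub F t ⟨b, hb⟩] at h3
  have h4 : LinearIndependent (IntermediateField.adjoin F {t})
      (fun i : Fin (Module.finrank (IntermediateField.adjoin F {t}) L + 1) =>
        (⟨(z ^ ringExpChar K ^ m) ^ (i : ℕ), pow_mem hm _⟩ : L)) :=
    LinearIndependent.of_comp L.val.toLinearMap h3
  have h5 := h4.fintype_card_le_finrank
  rw [Fintype.card_fin] at h5
  omega

end Vale.Agent.P019P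
end

section

/-!
# Killed classes come from a common element
-/

namespace Vale.Agent.P019P

open Vale.Agent.P019

set_option linter.style.haveILetI false
set_option linter.unusedSectionVars false

open Polynomial

section kill

variable {Ω : Type*} [Field Ω] [PerfectField Ω]

theorem FG.sup_right {E L B : Subfield Ω} [PerfectField B] (h : FG E L) (hEB : E ≤ B) :
    FG B (L ⊔ B : Subfield Ω) := by
  haveI := h.perfect
  obtain ⟨S, hS⟩ := h
  refine ⟨S, le_antisymm ?_ ?_⟩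
  · refine sup_le ?_ (le_sup_left.trans (le_pf _))
    rw [hS]
    exact pf_mono (sup_le_sup_right hEB _)
  · refine pf_le (sup_le le_sup_right ?_)
    refine le_trans ?_ (le_sup_left : L ≤ L ⊔ B)
    rw [hS]
    exact le_sup_right.trans (le_pf _)

theorem mem_of_pow_mem {l A B : Subfield Ω} (hl : RAC l) (hlA : l ≤ A) (hlB : l ≤ B)
    (hB : IsAlgClosed B) (hfree : Fre l A B) {ℓ : ℕ} (hℓ : 0 < ℓ) {w : Ω} (hw : w ∈ A ⊔ B)
    (h : w ^ ℓ ∈ A) : w ∈ A :=
  rac_sup_gen hl hlA hlB hB hfree hw (IsAlgebraic.of_pow hℓ (isAlgebraic_of_mem h))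

theorem kill [IsAlgClosed Ω] (ℓ : ℕ) [Fact ℓ.Prime] [NeZero (ℓ : Ω)] {l L Bs : Subfield Ω}
    (hl : IsAlgClosed l) (hfg : FG l L) (hlB : l ≤ Bs) (hBs : IsAlgClosed Bs) {y1 y2 : Ω}
    (hy1 : y1 ∈ L) (hy2 : y2 ∈ L) (hL : ∀ a ∈ L, IsAlgebraic (adj (adj l y1) y2) a)
    (h1 : ¬ IsAlgebraic Bs y1) (h2 : ¬ IsAlgebraic (adj l y1) y2)
    (h3 : IsAlgebraic (adj Bs y1) y2) (X : Set Ω) (hX : ∀ x ∈ X, x ∈ L ∧ x ≠ 0)
    (hinf : ∀ n : ℕ, ∃ x : Fin n → Ω, (∀ i, x i ∈ X) ∧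
      ∀ i j, i ≠ j → ¬ ∃ w ∈ L, x i = x j * w ^ ℓ)
    (hpow : ∀ x ∈ X, ∃ r ∈ L ⊔ Bs, r ^ ℓ = x) : ∃ h ∈ L, h ∈ Bs ∧ h ∉ l := by
  classical
  have hℓ : 0 < ℓ := (Fact.out : ℓ.Prime).pos
  have hlR : RAC l := RAC_of_isAlgClosed l hl
  have hBR : RAC Bs := RAC_of_isAlgClosed Bs hBs
  have hlL : l ≤ L := hfg.le
  haveI : PerfectField L := hfg.perfect
  haveI : PerfectField Bs := perfect_of_RAC hBR
  haveI : PerfectField l := perfect_of_RAC hlR
  -- finitely many parameters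
  obtain ⟨T, hT, hTy⟩ : ∃ T : Finset Ω, (∀ c ∈ T, c ∈ Bs) ∧
      IsAlgebraic (adj (rcl l T) y1) y2 := by
    have h4 : IsAlgebraic (Bs ⊔ Subfield.closure {y1} : Subfield Ω) y2 := isAlgebraic_adj.1 h3
    obtain ⟨C, hC, hCN⟩ := isAlgebraic_sup_finite h4
    refine ⟨C, fun c hc => hC hc, ?_⟩
    exact isAlgebraic_adj.2 (hCN (rcl l C) (fun c hc => mem_rcl hc))
  -- the critical step
  obtain ⟨T₀, hT₀, b, hb, hbC, hbalg, hCalg⟩ : ∃ T₀ : Finset Ω, (∀ c ∈ T₀, c ∈ Bs) ∧ ∃ b ∈ Bs,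
      b ∉ rcl l T₀ ∧ IsAlgebraic (adj (rac (adj (rcl l T₀) b)) y1) y2 ∧
      ¬ IsAlgebraic (adj (rcl l T₀) y1) y2 := by
    by_contra hcon
    push Not at hcon
    exact h2 (chain_down (B := Bs) hlR (fun N => IsAlgebraic (adj N y1) y2)
      (fun T' hT' b hb hbN h => hcon T' hT' b hb hbN h) T hT hTy)
  set C := rcl l T₀ with hCdef
  have hCR : RAC C := rcl_RAC l T₀
  have hlC : l ≤ C := le_rcl l T₀
  have hCB : C ≤ Bs := rcl_le hBR hlB hT₀
  have hCac : IsAlgClosed C := isAlgClosed_of_RAC hBs hCR hCB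
  haveI : PerfectField C := perfect_of_RAC hCR
  set B := rac (adj C b) with hBdef
  have hBBs : B ≤ Bs := RAC_adj_le hBR hCB hb
  have hCB' : C ≤ B := (le_adj _ _).trans (le_rac _)
  have hBac : IsAlgClosed B := isAlgClosed_of_RAC hBs (RAC_rac _) hBBs
  haveI : PerfectField B := perfect_of_RAC (RAC_rac _)
  have hC1 : ¬ IsAlgebraic C y1 := fun h => h1 (isAlgebraic_mono hCB h)
  have hB1 : ¬ IsAlgebraic B y1 := fun h => h1 (isAlgebraic_mono hBBs h)
  -- `b` is algebraic over `L C`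
  have hbLC : IsAlgebraic (L ⊔ C : Subfield Ω) b := by
    have h4 : IsAlgebraic (adj (adj C b) y1) y2 := by
      have h5 : adj B y1 ≤ rac (adj (adj C b) y1) := by
        have h6 : Vale.Agent.P019.adj B y1 ≤ rac (adj (adj C b) y1) :=
          Vale.Agent.P019.adj_le (rac_mono (le_adj _ _)) (le_rac _ (mem_adj _ _))
        have h7 : rac (adj B y1) ≤ rac (adj (adj C b) y1) := by
          rw [rac_adj B]
          exact (RAC_rac _).le h6
        exact (le_rac _).trans h7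
      exact mem_rac.1 (RAC_rac _ _ (isAlgebraic_mono h5 hbalg))
    have h5 := exchange hCalg (adj_comm_alg h4)
    have h6 : adj (adj C y1) y2 ≤ L ⊔ C :=
      adj_le (adj_le le_sup_right ((le_sup_left : L ≤ L ⊔ C) hy1))
        ((le_sup_left : L ≤ L ⊔ C) hy2)
    exact isAlgebraic_mono h6 h5
  have hfreeLC : Fre l L C := Fre.of_two hL hC1 hCalg
  have hLalgB : ∀ a ∈ L, IsAlgebraic (adj B y1) a := by
    intro a ha
    have h5 : adj (adj l y1) y2 ≤ rac (adj B y1) := by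
      have h6 : Vale.Agent.P019.adj (adj l y1) y2 ≤ rac (adj B y1) := by
        refine Vale.Agent.P019.adj_le ?_ (mem_rac.2 hbalg)
        exact (adj_mono (hlC.trans hCB') y1).trans (le_rac _)
      have h7 : rac (adj (adj l y1) y2) ≤ rac (adj B y1) := by
        rw [rac_adj (adj l y1)]
        exact (RAC_rac _).le h6
      exact (le_rac _).trans h7
    exact mem_rac.1 (RAC_rac _ _ (isAlgebraic_mono h5 (hL a ha)))
  have hfreeB : Fre B (L ⊔ B) Bs := by
    refine Fre.of_one (y := y1) ?_ h1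
    intro a ha
    have h5 : L ⊔ B ≤ rac (adj B y1) :=
      sup_le (fun c hc => mem_rac.2 (hLalgB c hc)) ((le_adj _ _).trans (le_rac _))
    exact mem_rac.1 (h5 ha)
  obtain ⟨-, hE⟩ := gal ℓ hCac (FG.sup_right hfg hlC) hbLC hbC X
    (fun x hx => ⟨(le_sup_left : L ≤ L ⊔ C) (hX x hx).1, (hX x hx).2⟩) (by
      intro n
      obtain ⟨x, hxX, hx⟩ := hinf n
      refine ⟨x, hxX, fun i j hij hcon => hx i j hij ?_⟩
      obtain ⟨w, hw, hwe⟩ := hcon
      refine ⟨w, ?_, hwe⟩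
      refine mem_of_pow_mem hlR hlL hlC hCac hfreeLC hℓ hw ?_
      have h5 : w ^ ℓ = x i / x j := by
        rw [hwe]
        field_simp [(hX _ (hxX j)).2]
      rw [h5]
      exact L.div_mem (hX _ (hxX i)).1 (hX _ (hxX j)).1) (by
      intro x hx
      obtain ⟨r, hr, hrx⟩ := hpow x hx
      refine ⟨r, ?_, hrx⟩
      have h5 : r ∈ (L ⊔ B) ⊔ Bs := (sup_le_sup_right le_sup_left Bs : L ⊔ Bs ≤ _) hr
      have h6 : r ∈ L ⊔ B := by
        refine mem_of_pow_mem (RAC_rac _) le_sup_right hBBs hBs hfreeB hℓ h5 ?_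
        rw [hrx]
        exact (le_sup_left : L ≤ L ⊔ B) (hX x hx).1
      exact (sup_le_sup_right le_sup_left B : L ⊔ B ≤ (L ⊔ C) ⊔ B) h6)
  -- specialization
  obtain ⟨E, hlE, hEL, htd, hXE⟩ : ∃ E : Subfield Ω, l ≤ E ∧ E ≤ L ⊔ l ∧ Td1 l E ∧
      ∀ x ∈ X, ∃ e ∈ E, ∃ w ∈ L ⊔ l, x = e * w ^ ℓ := by
    refine chain_down (B := C) hlR (fun N => ∃ E : Subfield Ω, N ≤ E ∧ E ≤ L ⊔ N ∧ Td1 N E ∧
      ∀ x ∈ X, ∃ e ∈ E, ∃ w ∈ L ⊔ N, x = e * w ^ ℓ) ?_ T₀ (fun c hc => mem_rcl hc) ?_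
    · rintro T' hT' c hc hcN ⟨E, hE1, hE2, hE3, hE4⟩
      have hNC : rcl l T' ≤ C := rcl_le hCR hlC hT'
      exact spec_step (A := L) (N := rcl l T') (isAlgClosed_of_RAC hBs (rcl_RAC _ _)
        (hNC.trans hCB)) (fun h => hcN (hfreeLC _ (rcl_RAC _ _) (le_rcl _ _) hNC c hc h)) hX
        hE1 hE2 hE3 hE4
    · refine ⟨B ⊓ (L ⊔ C), le_inf hCB' le_sup_right, inf_le_right, ?_, hE⟩
      intro u hu v hv
      by_cases huC : u ∈ C
      · exact Or.inl huC
      · right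
        exact line_swap hCR (mem_rac.1 (Subfield.mem_inf.1 hu).1) huC
          (mem_rac.1 (Subfield.mem_inf.1 hv).1)
  rw [sup_eq_left.2 hlL] at hEL hXE
  by_contra hcon
  push Not at hcon
  -- a nonconstant element of `E`
  obtain ⟨y0, hy0, hy0l⟩ : ∃ y0 ∈ E, y0 ∉ l := by
    by_contra hno
    push Not at hno
    obtain ⟨x, hxX, hx⟩ := hinf 2
    obtain ⟨e, he, w, hw, hew⟩ := hXE _ (hxX 0)
    obtain ⟨e', he', w', hw', hew'⟩ := hXE _ (hxX 1)
    have he0 : e ≠ 0 := by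
      rintro rfl
      rw [zero_mul] at hew
      exact (hX _ (hxX 0)).2 hew
    have he'0 : e' ≠ 0 := by
      rintro rfl
      rw [zero_mul] at hew'
      exact (hX _ (hxX 1)).2 hew'
    have hw'0 : w' ≠ 0 := by
      rintro rfl
      rw [zero_pow hℓ.ne', mul_zero] at hew'
      exact (hX _ (hxX 1)).2 hew'
    obtain ⟨d, hd, hd'⟩ := asm_pow_eq hl hℓ (l.div_mem (hno e he) (hno e' he'))
    refine hx 0 1 (by decide) ⟨d * w / w', L.div_mem (L.mul_mem (hlL hd) hw) hw', ?_⟩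
    rw [hew, hew', div_pow, mul_pow, hd']
    field_simp
  have hy0B : ¬ IsAlgebraic Bs y0 := fun h => hy0l (hcon y0 (hEL hy0) (hBR y0 h))
  have hEalg : ∀ a ∈ E, IsAlgebraic (adj l y0) a := fun a ha =>
    (htd y0 hy0 a ha).resolve_left hy0l
  have hfreeE : Fre l E Bs := Fre.of_one hEalg hy0B
  obtain ⟨ζ, hζl, hζ⟩ := finK_prim hl ℓ
  have hfgB : FG Bs (L ⊔ Bs : Subfield Ω) := FG.sup_right hfg hlB
  have hfgE : FG (E ⊔ Bs : Subfield Ω) (L ⊔ Bs : Subfield Ω) :=
    hfgB.mono le_sup_right (sup_le_sup_right hEL Bs)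
  obtain ⟨N, hN⟩ := fk ℓ hfgE ((le_sup_left : E ≤ E ⊔ Bs) (hlE hζl)) hζ
  obtain ⟨x, hxX, hx⟩ := hinf (N + 1)
  choose e he w hw hew using fun i => hXE _ (hxX i)
  choose r hr hrx using fun i => hpow _ (hxX i)
  have hx0 : ∀ i, x i ≠ 0 := fun i => (hX _ (hxX i)).2
  have he0 : ∀ i, e i ≠ 0 := by
    intro i h0
    have := hew i
    rw [h0, zero_mul] at this
    exact hx0 i this
  have hw0 : ∀ i, w i ≠ 0 := by
    intro i h0
    have := hew i
    rw [h0, zero_pow hℓ.ne', mul_zero] at this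
    exact hx0 i this
  obtain ⟨i, j, hij, y, hy, hy0', hyij⟩ := hN e (fun i => ⟨(le_sup_left : E ≤ E ⊔ Bs) (he i),
    he0 i, r i / w i, Subfield.div_mem _ (hr i) ((le_sup_left : L ≤ L ⊔ Bs) (hw i)), by
      rw [div_pow, hrx, hew]
      field_simp [hw0 i]⟩)
  have hyE : y ∈ E := by
    refine mem_of_pow_mem hlR hlE hlB hBs hfreeE hℓ hy ?_
    have h5 : y ^ ℓ = e i / e j := by
      rw [hyij]
      field_simp [he0 j]
    rw [h5]
    exact E.div_mem (he i) (he j)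
  refine hx i j hij ⟨y * w i / w j, L.div_mem (L.mul_mem (hEL hyE) (hw i)) (hw j), ?_⟩
  rw [hew i, hew j, hyij, div_pow, mul_pow]
  have h6 := pow_ne_zero ℓ (hw0 j)
  field_simp

end kill

end Vale.Agent.P019P
end

section

/-!
# Killed classes, finite extensions
-/

namespace Vale.Agent.P019P

open Vale.Agent.P019

set_option linter.style.haveILetI false
set_option linter.unusedSectionVars false

open Polynomial

variable {Ω : Type*} [Field Ω] [PerfectField Ω]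

/-- infinitely many classes of `L` die in a function field `κ` over `Bs`. -/
theorem ft_sub [IsAlgClosed Ω] (ℓ : ℕ) [Fact ℓ.Prime] [NeZero (ℓ : Ω)] {l L Bs κ : Subfield Ω}
    (hl : IsAlgClosed l) (hfg : FG l L) (hlB : l ≤ Bs) (hBs : IsAlgClosed Bs) {y1 y2 : Ω}
    (hy1 : y1 ∈ L) (hy2 : y2 ∈ L) (hL : ∀ a ∈ L, IsAlgebraic (adj (adj l y1) y2) a)
    (h1 : ¬ IsAlgebraic Bs y1) (h2 : ¬ IsAlgebraic (adj l y1) y2)
    (h3 : IsAlgebraic (adj Bs y1) y2) (hκ : FG Bs κ) (hLκ : L ≤ κ)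
    (X : Set Ω) (hX : ∀ x ∈ X, x ∈ L ∧ x ≠ 0)
    (hinf : ∀ n : ℕ, ∃ x : Fin n → Ω, (∀ i, x i ∈ X) ∧
      ∀ i j, i ≠ j → ¬ ∃ w ∈ L, x i = x j * w ^ ℓ)
    (hpow : ∀ x ∈ X, ∃ r ∈ κ, r ^ ℓ = x) : ∃ h ∈ L, h ∈ Bs ∧ h ∉ l := by
  classical
  have hℓ : 0 < ℓ := (Fact.out : ℓ.Prime).pos
  obtain ⟨ζ, hζl, hζ⟩ := finK_prim hl ℓ
  have hfgE : FG (L ⊔ Bs : Subfield Ω) κ := hκ.mono le_sup_right (sup_le hLκ hκ.le)
  obtain ⟨N, hN⟩ := fk ℓ hfgE ((le_sup_right : Bs ≤ L ⊔ Bs) (hlB hζl)) hζ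
  let X₀ : Set Ω := {u | (∃ x ∈ X, ∃ x' ∈ X, u = x / x') ∧ ∃ r ∈ L ⊔ Bs, r ^ ℓ = u}
  refine kill ℓ hl hfg hlB hBs hy1 hy2 hL h1 h2 h3 X₀ ?_ ?_ ?_
  · rintro _ ⟨⟨x, hx, x', hx', rfl⟩, -⟩
    exact ⟨L.div_mem (hX x hx).1 (hX x' hx').1, div_ne_zero (hX x hx).2 (hX x' hx').2⟩
  · by_contra hcon
    push Not at hcon
    obtain ⟨n, hn⟩ := hcon
    have hn0 : n ≠ 0 := by
      rintro rfl
      obtain ⟨i, -⟩ := hn (fun i => i.elim0) (fun i => i.elim0)
      exact i.elim0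
    obtain ⟨m, rfl⟩ := Nat.exists_eq_succ_of_ne_zero hn0
    refine pigeon (fun x => x ∈ X) (fun x y => ∃ w ∈ L ⊔ Bs, x = y * w ^ ℓ)
      (fun x y => ∃ w ∈ L, x = y * w ^ ℓ) ?_ ?_ ?_ N m ?_ ?_ hinf
    · rintro x y hx hy ⟨w, hw, h⟩
      have hw0 : w ≠ 0 := by
        rintro rfl
        rw [zero_pow hℓ.ne', mul_zero] at h
        exact (hX x hx).2 h
      refine ⟨w⁻¹, Subfield.inv_mem _ hw, ?_⟩
      rw [h, inv_pow, mul_inv_cancel_right₀ (pow_ne_zero _ hw0)]
    · rintro x y z - - - ⟨w, hw, h⟩ ⟨w', hw', h'⟩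
      refine ⟨w' * w, Subfield.mul_mem _ hw' hw, ?_⟩
      rw [h, h', mul_pow, mul_assoc]
    · intro x _
      exact ⟨1, Subfield.one_mem _, by rw [one_pow, mul_one]⟩
    · intro x hx
      obtain ⟨i, j, hij, y, hy, -, hxy⟩ := hN x (fun i =>
        ⟨(le_sup_left : L ≤ L ⊔ Bs) (hX _ (hx i)).1, (hX _ (hx i)).2, by
          obtain ⟨r, hr, hrx⟩ := hpow _ (hx i)
          exact ⟨r, hr, hrx⟩⟩)
      exact ⟨i, j, hij, y, hy, hxy⟩
    · intro x hx hR
      have hx0 : ∀ i, x i ≠ 0 := fun i => (hX _ (hx i)).2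
      obtain ⟨i, j, hij, w, hw, hxw⟩ := hn (fun i => x i / x 0) (fun i => by
        refine ⟨⟨x i, hx i, x 0, hx 0, rfl⟩, ?_⟩
        obtain ⟨w, hw, h⟩ := hR i 0
        refine ⟨w, hw, ?_⟩
        rw [h]
        field_simp [hx0 0])
      refine ⟨i, j, hij, w, hw, ?_⟩
      have h0 := hx0 0
      have h5 : x i / x 0 = x j / x 0 * w ^ ℓ := hxw
      field_simp at h5
      exact h5
  · rintro _ ⟨-, h⟩
    exact h

end Vale.Agent.P019P
end

section

/-!
# Step A: field theory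
-/

namespace Vale.Agent.P019P

open Vale.Agent.P019

set_option linter.style.haveILetI false
set_option linter.unusedSectionVars false

open Polynomial Filter

section

variable {Ω : Type*} [Field Ω]

/-- algebraic extensions of bounded degree are generated by one element. -/
theorem bd_prim {M κ : Subfield Ω} [PerfectField M] (hM : M ≤ κ)
    (halg : ∀ r ∈ κ, IsAlgebraic M r) {d : ℕ} (hd : ∀ r ∈ κ, (minpoly M r).natDegree ≤ d) :
    ∃ γ ∈ κ, κ ≤ Vale.Agent.P019.adj M γ := by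
  classical
  obtain ⟨m, ⟨γ, hγ, hγm⟩, hmax⟩ : ∃ m : ℕ, (∃ γ ∈ κ, (minpoly M γ).natDegree = m) ∧
      ∀ m' : ℕ, (∃ γ ∈ κ, (minpoly M γ).natDegree = m') → m' ≤ m := by
    have h1 : ∃ m : ℕ, ∃ γ ∈ κ, (minpoly M γ).natDegree = m := ⟨_, 0, κ.zero_mem, rfl⟩
    have h2 : ∀ m : ℕ, (∃ γ ∈ κ, (minpoly M γ).natDegree = m) → m ≤ d := by
      rintro m ⟨γ, hγ, rfl⟩
      exact hd γ hγ
    exact ⟨Nat.findGreatest (fun m => ∃ γ ∈ κ, (minpoly M γ).natDegree = m) d,
      Nat.findGreatest_spec (P := fun m => ∃ γ ∈ κ, (minpoly M γ).natDegree = m)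
        (h2 _ h1.choose_spec) h1.choose_spec,
      fun m' hm' => Nat.le_findGreatest (h2 m' hm') hm'⟩
  refine ⟨γ, hγ, fun r hr => ?_⟩
  obtain ⟨b, hb, hbC⟩ := ul1_primitive (E := M) {γ, r} (Set.toFinite _) (by
    rintro x hx
    rcases hx with rfl | rfl
    · exact halg _ hγ
    · exact halg _ hr)
  have hsub : ∀ x ∈ IntermediateField.adjoin M {γ, r}, x ∈ κ := by
    intro x hx
    induction hx using IntermediateField.adjoin_induction with
    | mem x hx =>
      rcases hx with rfl | rfl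
      · exact hγ
      · exact hr
    | algebraMap x => exact hM x.2
    | add x y _ _ hx hy => exact κ.add_mem hx hy
    | mul x y _ _ hx hy => exact κ.mul_mem hx hy
    | inv x _ hx => exact κ.inv_mem hx
  have hbκ : b ∈ κ := hsub b (by rw [hbC]; exact IntermediateField.mem_adjoin_simple_self M b)
  have hγb : IntermediateField.adjoin M {γ} ≤ IntermediateField.adjoin M {b} := by
    rw [← hbC]
    exact IntermediateField.adjoin.mono M _ _ (by simp)
  haveI : FiniteDimensional M (IntermediateField.adjoin M {b}) :=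
    IntermediateField.adjoin.finiteDimensional hb.isIntegral
  have heq : IntermediateField.adjoin M {γ} = IntermediateField.adjoin M {b} := by
    refine IntermediateField.eq_of_le_of_finrank_le hγb ?_
    rw [IntermediateField.adjoin.finrank hb.isIntegral,
      IntermediateField.adjoin.finrank (halg γ hγ).isIntegral, hγm]
    exact hmax _ ⟨b, hbκ, rfl⟩
  have hr1 : r ∈ IntermediateField.adjoin M {γ} := by
    rw [heq, ← hbC]
    exact IntermediateField.subset_adjoin M _ (by simp)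
  exact mem_adjoin_simple.1 hr1

/-- finitely generated fields and embeddings. -/
theorem fg_map {L : Type*} [Field L] [PerfectField L] [PerfectField Ω] (j : L →+* Ω) {l : Subfield L}
    (h : FG l (⊤ : Subfield L)) : FG (l.map j) ((⊤ : Subfield L).map j) := by
  classical
  obtain ⟨S, hS⟩ := h
  refine ⟨S.image j, le_antisymm ?_ ?_⟩
  · rw [hS]
    refine (map_pf_le j _).trans (pf_mono ?_)
    rw [Subfield.map_le_iff_le_comap]
    refine sup_le ?_ ?_
    · rw [← Subfield.map_le_iff_le_comap]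
      exact le_sup_left
    · rw [Subfield.closure_le]
      intro x hx
      exact (le_sup_right : Subfield.closure ((S.image j : Finset Ω) : Set Ω) ≤ _)
        (Subfield.subset_closure (by simpa using ⟨x, hx, rfl⟩))
  · haveI : PerfectField ((⊤ : Subfield L).map j) := perfect_map j _
    refine pf_le (sup_le (sub_map_mono j le_top) ?_)
    rw [Subfield.closure_le]
    intro x hx
    obtain ⟨y, -, rfl⟩ := by simpa using hx
    exact ⟨y, Subfield.mem_top y, rfl⟩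

/-- algebraic dependence from a bounded relation. -/
theorem brel_alg {B : Subfield Ω} (hB : RAC B) {X Y : Ω} (hX : X ∉ B) {d : ℕ} {c : ℕ → ℕ → Ω}
    (hc : ∀ i j, c i j ∈ B)
    (h0 : ∃ i ∈ Finset.range (d + 1), ∃ j ∈ Finset.range (d + 1), c i j ≠ 0)
    (h : ∑ i ∈ Finset.range (d + 1), ∑ j ∈ Finset.range (d + 1), c i j * X ^ i * Y ^ j = 0) :
    IsAlgebraic (adj B X) Y := by
  have hmem : ∀ j, (∑ i ∈ Finset.range (d + 1), c i j * X ^ i) ∈ adj B X := fun j =>
    sum_mem fun i _ => mul_mem (le_adj B X (hc i j)) (pow_mem (mem_adj B X) i)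
  refine (apd_minpoly (E := adj B X)
    (a := fun j => ⟨∑ i ∈ Finset.range (d + 1), c i j * X ^ i, hmem j⟩) (n := d) ?_ ?_).1
  · obtain ⟨i, hi, j, hj, hij⟩ := h0
    refine ⟨j, hj, fun h1 => ?_⟩
    exact apd_ne_zero hB hX (a := fun i => c i j) (fun i => hc i j) ⟨i, hi, hij⟩
      (congrArg Subtype.val h1)
  · rw [← h, Finset.sum_comm]
    refine Finset.sum_congr rfl fun j _ => ?_
    change (∑ i ∈ Finset.range (d + 1), c i j * X ^ i) * Y ^ j = _
    rw [Finset.sum_mul]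

end

end Vale.Agent.P019P
end

section

/-!
# Limits of residue fields
-/

namespace Vale.Agent.P019P

open Vale.Agent.P019

set_option linter.style.haveILetI false
set_option linter.unusedSectionVars false

open Polynomial Filter

section e2

variable {K : Type*} [Field K]

/-- the residue field embeds into an algebraically closed field. -/
theorem exists_emb {W : ValuationSubring K} {F : Subfield K} (hW : TrivOn W F)
    (halg : ∀ c : IsLocalRing.ResidueField W, IsAlgebraic (bar hW) c)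
    {Ω : Type*} [Field Ω] [IsAlgClosed Ω] [Algebra K Ω] :
    ∃ ι : IsLocalRing.ResidueField W →+* Ω, ∀ z ∈ F, ι (rs W z) = algebraMap K Ω z := by
  letI : Algebra (bar hW) Ω :=
    (((algebraMap K Ω).comp F.subtype).comp (barEquiv hW).symm.toRingHom).toAlgebra
  haveI : Algebra.IsAlgebraic (bar hW) (IsLocalRing.ResidueField W) := ⟨halg⟩
  let ι : IsLocalRing.ResidueField W →ₐ[bar hW] Ω := IsAlgClosed.lift
  refine ⟨ι, fun z hz => ?_⟩
  have h1 := ι.commutes (barEquiv hW ⟨z, hz⟩)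
  have h2 : algebraMap (bar hW) (IsLocalRing.ResidueField W) (barEquiv hW ⟨z, hz⟩) = rs W z := rfl
  rw [h2] at h1
  rw [RingHom.coe_coe, h1]
  change (algebraMap K Ω) ((barEquiv hW).symm (barEquiv hW ⟨z, hz⟩) : F) = _
  rw [RingEquiv.symm_apply_apply]

/-- limits of homomorphisms of residue fields. -/
theorem exists_lim {I : Type*} (U : Ultrafilter I) {L Ω : Type*} [Field L] [Field Ω]
    (O : I → ValuationSubring L) (ρ : ∀ i, IsLocalRing.ResidueField (O i) →+* Ω)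
    (h : ∀ z : L, z ≠ 0 → ∀ᶠ i in U, (O i).valuation z = 1) :
    ∃ A : L →+* Gm U Ω, ∀ z, A z = gm U (fun i => ρ i (rs (O i) z)) := by
  have hmem : ∀ z : L, ∀ᶠ i in U, z ∈ O i := by
    intro z
    by_cases hz : z = 0
    · exact Eventually.of_forall fun i => hz ▸ (O i).zero_mem
    · exact (h z hz).mono fun i hi => mem_of_val hi
  refine ⟨{ toFun := fun z => gm U (fun i => ρ i (rs (O i) z))
            map_one' := ?_, map_mul' := ?_, map_zero' := ?_, map_add' := ?_ }, fun z => rfl⟩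
  · simp only [rs_one, map_one]
    exact map_one (gm U)
  · intro x y
    rw [← gm_mul, gm_eq]
    filter_upwards [hmem x, hmem y] with i h1 h2
    rw [rs_mul h1 h2, map_mul]
  · simp only [rs_zero, map_zero]
    exact map_zero (gm U)
  · intro x y
    rw [← gm_add, gm_eq]
    filter_upwards [hmem x, hmem y] with i h1 h2
    rw [rs_add h1 h2, map_add]

/-- limits of bounded relations. -/
theorem brel_lim {I : Type*} {U : Ultrafilter I} {Ω : Type*} [Field Ω] {E : Subfield Ω} {D : ℕ}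
    {x y : I → Ω} (h : ∀ᶠ i in U, BRel E D (x i) (y i)) :
    BRel (uSub U (fun _ => E)) D (gm U x) (gm U y) := by
  classical
  have h1 : ∀ i, ∃ c : ℕ → ℕ → Ω, (∀ a b, c a b ∈ E) ∧
      (BRel E D (x i) (y i) →
      (∃ a ∈ Finset.range (D + 1), ∃ b ∈ Finset.range (D + 1), c a b ≠ 0) ∧
      ∑ a ∈ Finset.range (D + 1), ∑ b ∈ Finset.range (D + 1),
        c a b * x i ^ a * y i ^ b = 0) := by
    intro i
    by_cases hi : BRel E D (x i) (y i)
    · obtain ⟨c, hc, hc0, hcs⟩ := hi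
      exact ⟨c, hc, fun _ => ⟨hc0, hcs⟩⟩
    · exact ⟨fun _ _ => 0, fun _ _ => E.zero_mem, fun h' => absurd h' hi⟩
  choose c hc hcr using h1
  refine ⟨fun a b => gm U (fun i => c i a b), fun a b => ⟨_, rfl, fun i => hc i a b⟩, ?_, ?_⟩
  · by_contra hcon
    push Not at hcon
    have h4 : ∀ᶠ i in U, ∀ a ∈ Finset.range (D + 1), ∀ b ∈ Finset.range (D + 1),
        c i a b = 0 := by
      rw [Filter.eventually_all_finset]
      intro a ha
      rw [Filter.eventually_all_finset]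
      intro b hb
      exact gm_eq_zero.1 (hcon a ha b hb)
    obtain ⟨i, hi, hi2⟩ := (h4.and h).exists
    obtain ⟨⟨a, ha, b, hb, hab⟩, -⟩ := hcr i hi2
    exact hab (hi a ha b hb)
  · have h2 : ∑ a ∈ Finset.range (D + 1), ∑ b ∈ Finset.range (D + 1),
        gm U (fun i => c i a b) * gm U x ^ a * gm U y ^ b =
        gm U (fun i => ∑ a ∈ Finset.range (D + 1), ∑ b ∈ Finset.range (D + 1),
          c i a b * x i ^ a * y i ^ b) := by
      rw [gm_sum]
      refine Finset.sum_congr rfl fun a _ => ?_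
      rw [gm_sum]
      refine Finset.sum_congr rfl fun b _ => ?_
      rw [gm_mul, gm_mul, gm_pow, gm_pow]
    rw [h2, gm_eq_zero]
    exact h.mono fun i hi => (hcr i hi).2

theorem brel_alg' {Ω : Type*} [Field Ω] {E : Subfield Ω} (hE : IsAlgClosed E) {D : ℕ} {x y : Ω}
    (h : BRel E D x y) (hx : x ∉ E) : IsAlgebraic (adj E x) y := by
  obtain ⟨c, hc, hc0, hcs⟩ := h
  exact brel_alg (RAC_of_isAlgClosed E hE) hx hc hc0 hcs

theorem BRel.mono {Ω : Type*} [Field Ω] {E E' : Subfield Ω} (hE : E ≤ E') {D D' : ℕ}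
    (hD : D ≤ D') {x y : Ω} (h : BRel E D x y) : BRel E' D' x y := by
  classical
  obtain ⟨c, hc, ⟨a, ha, b, hb, hab⟩, hcs⟩ := h
  have hsub : Finset.range (D + 1) ⊆ Finset.range (D' + 1) := by
    intro i hi
    rw [Finset.mem_range] at hi ⊢
    omega
  let c' : ℕ → ℕ → Ω := fun a b =>
    if a ∈ Finset.range (D + 1) ∧ b ∈ Finset.range (D + 1) then c a b else 0
  have hin : ∀ a ∈ Finset.range (D + 1), ∀ b ∈ Finset.range (D + 1), c' a b = c a b :=
    fun a ha b hb => if_pos ⟨ha, hb⟩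
  have hout1 : ∀ a, a ∉ Finset.range (D + 1) → ∀ b, c' a b = 0 :=
    fun a ha b => if_neg fun h => ha h.1
  have hout2 : ∀ a, ∀ b, b ∉ Finset.range (D + 1) → c' a b = 0 :=
    fun a b hb => if_neg fun h => hb h.2
  refine ⟨c', fun a b => ?_, ⟨a, hsub ha, b, hsub hb, ?_⟩, ?_⟩
  · by_cases h : a ∈ Finset.range (D + 1) ∧ b ∈ Finset.range (D + 1)
    · rw [hin a h.1 b h.2]
      exact hE (hc a b)
    · have h' : c' a b = 0 := if_neg h
      rw [h']
      exact E'.zero_mem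
  · rw [hin a ha b hb]
    exact hab
  · refine Eq.trans ?_ hcs
    rw [← Finset.sum_subset hsub]
    · refine Finset.sum_congr rfl fun a ha => ?_
      rw [← Finset.sum_subset hsub]
      · refine Finset.sum_congr rfl fun b hb => ?_
        rw [hin a ha b hb]
      · intro b _ hb
        rw [hout2 a b hb, zero_mul, zero_mul]
    · intro a _ ha
      refine Finset.sum_eq_zero fun b _ => ?_
      rw [hout1 a ha b, zero_mul, zero_mul]

end e2

end Vale.Agent.P019P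
end

section

/-!
# The degree bound
-/

namespace Vale.Agent.P019P

open Vale.Agent.P019

set_option linter.style.haveILetI false
set_option linter.unusedSectionVars false

open Polynomial Filter

/-- algebraic dependence from a bounded relation. -/
theorem e3d_alg {κ : Type*} [Field κ] [PerfectField κ] {B : Subfield κ} (hB : RAC B) {X Y : κ}
    (hX : X ∉ B) {d : ℕ} (hb : BRel B d X Y) : IsAlgebraic (adj B X) Y := by
  obtain ⟨c, hc, h0, h⟩ := hb
  have hmem : ∀ j, (∑ i ∈ Finset.range (d + 1), c i j * X ^ i) ∈ adj B X := fun j =>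
    sum_mem fun i _ => mul_mem (le_adj B X (hc i j)) (pow_mem (mem_adj B X) i)
  refine (apd_minpoly (E := adj B X)
    (a := fun j => ⟨∑ i ∈ Finset.range (d + 1), c i j * X ^ i, hmem j⟩) (n := d) ?_ ?_).1
  · obtain ⟨i, hi, j, hj, hij⟩ := h0
    refine ⟨j, hj, fun h1 => ?_⟩
    exact apd_ne_zero hB hX (a := fun i => c i j) (fun i => hc i j) ⟨i, hi, hij⟩
      (congrArg Subtype.val h1)
  · rw [← h, Finset.sum_comm]
    refine Finset.sum_congr rfl fun j _ => ?_
    change (∑ i ∈ Finset.range (d + 1), c i j * X ^ i) * Y ^ j = _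
    rw [Finset.sum_mul]

/-- the curve. -/
theorem e3d_cv {κ : Type*} [Field κ] [PerfectField κ] {E : Subfield κ} (hE : IsAlgClosed E)
    {s θ : κ} (hs : s ∉ E) (htop : adj (adj E s) θ = ⊤) {m : ℕ} (hθ : BRel E m s θ) : Cv E where
  ac := hE
  fg := by
    classical
    refine ⟨{s, θ}, (top_le_iff.1 ?_).symm⟩
    rw [← htop]
    have hs' : s ∈ pf (E ⊔ Subfield.closure ((({s, θ} : Finset κ)) : Set κ)) :=
      le_pf _ ((le_sup_right : Subfield.closure ((({s, θ} : Finset κ)) : Set κ) ≤ _)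
        (Subfield.subset_closure (by simp)))
    have hθ' : θ ∈ pf (E ⊔ Subfield.closure ((({s, θ} : Finset κ)) : Set κ)) :=
      le_pf _ ((le_sup_right : Subfield.closure ((({s, θ} : Finset κ)) : Set κ) ≤ _)
        (Subfield.subset_closure (by simp)))
    exact adj_le (adj_le (le_sup_left.trans (le_pf _)) hs') hθ'
  ex := by
    refine ⟨s, hs, fun z => ?_⟩
    have h1 : IsAlgebraic (adj E s) θ := e3d_alg (RAC_of_isAlgClosed _ hE) hs hθ
    haveI : PerfectField (rac (adj E s)) := perfect_of_RAC (RAC_rac _)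
    have h2 : adj (adj E s) θ ≤ rac (adj E s) := adj_le (le_rac _) (mem_rac.2 h1)
    rw [htop] at h2
    exact mem_rac.1 (h2 (Subfield.mem_top z))

/-- the degree bound from the Riemann-Hurwitz inequality. -/
theorem deg5 {κ : Type*} [Field κ] [PerfectField κ] (ℓ : ℕ) [Fact ℓ.Prime] [NeZero (ℓ : κ)]
    {E : Subfield κ} (hE : IsAlgClosed E) {s θ : κ} (hs : s ∉ E) (htop : adj (adj E s) θ = ⊤)
    {m : ℕ} (hθ : BRel E m s θ) {Z : κ} (hZ : Z ∉ E) {S : Finset κ} (hS : S.card = 5)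
    (hP : ∀ c ∈ S, c ∈ E ∧ ∃ y : κ, y ≠ 0 ∧ BRel E m s y ∧ ∃ (e : ℕ) (h : κ),
      Z - c = y ^ e * h ^ ℓ) :
    Module.Finite (adj E Z) κ ∧ Module.finrank (adj E Z) κ ≤ 14 * m ^ 2 := by
  have hcv : Cv E := e3d_cv hE hs htop hθ
  refine ⟨hcv.finite hZ, ?_⟩
  obtain ⟨g, hg⟩ := exists_curveRH (ℓ := ℓ) hcv
  obtain ⟨a, ha, ha0, har⟩ := hθ
  have hgb : g ≤ m * m := hg.gb s θ hs htop m m a ha ha0 har
  have hrh := hg.rh Z hZ (2 * (m * m)) S (fun c hc => (hP c hc).1) hS fun c hc => by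
    obtain ⟨hcE, y, hy0, ⟨b, hb, hb0, hbr⟩, e, h, hyh⟩ := hP c hc
    refine le_trans (Set.encard_le_encard ?_) (dbd_nonunit (ℓ := ℓ) hcv hy0 (M := m * m)
      fun hy => apd_deg (RAC_of_isAlgClosed _ hE) hs hy htop hb ha hb0 ha0 hbr har)
    rintro P ⟨hPP, -, hP2⟩
    refine ⟨hPP, fun hyU => hP2 ?_⟩
    have hne : Z - c ≠ 0 := fun h1 => hZ (by rw [sub_eq_zero.1 h1]; exact hcE)
    rw [hyh] at hne
    rw [hyh, cl_mul ℓ (left_ne_zero_of_mul hne) (right_ne_zero_of_mul hne), cl_pow_self, add_zero,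
      cl_pow]
    exact Submodule.smul_of_tower_mem _ _ hyU
  nlinarith

end Vale.Agent.P019P
end

section

/-!
# Bounds on curves over algebraically closed fields
-/

namespace Vale.Agent.P019P

open Vale.Agent.P019

set_option linter.style.haveILetI false
set_option linter.unusedSectionVars false

open Polynomial Filter

/-- the condition at five points. -/
def Five' (ℓ : ℕ) {Ω : Type*} [Field Ω] (E R : Subfield Ω) (m : ℕ) (s Z : Ω) : Prop :=
  ∃ S : Finset Ω, S.card = 5 ∧ ∀ c ∈ S, c ∈ E ∧ c ∈ R ∧ ∃ y ∈ R, y ≠ 0 ∧ BRel E m s y ∧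
    ∃ (e : ℕ), ∃ h ∈ R, Z - c = y ^ e * h ^ ℓ

section e3gen

variable {Ω : Type*} [Field Ω]

theorem e3_up {C E : Subfield Ω} {d : ℕ} {x y : C}
    (h : BRel (E.comap C.subtype) d x y) : BRel E d (x : Ω) (y : Ω) := by
  obtain ⟨c, hc, ⟨a, ha, b, hb, hab⟩, hcs⟩ := h
  refine ⟨fun a b => (c a b : Ω), fun a b => hc a b, ⟨a, ha, b, hb, ?_⟩, ?_⟩
  · exact fun h0 => hab (Subtype.ext h0)
  · have h1 := congrArg C.subtype hcs
    simpa only [map_sum, map_mul, map_pow, map_zero, Subfield.subtype_apply] using h1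

theorem e3_down {C E : Subfield Ω} (hEC : E ≤ C) {d : ℕ} {x y : C}
    (h : BRel E d (x : Ω) (y : Ω)) : BRel (E.comap C.subtype) d x y := by
  obtain ⟨c, hc, ⟨a, ha, b, hb, hab⟩, hcs⟩ := h
  refine ⟨fun a b => ⟨c a b, hEC (hc a b)⟩, fun a b => hc a b, ⟨a, ha, b, hb, ?_⟩, ?_⟩
  · exact fun h0 => hab (congrArg Subtype.val h0)
  · apply C.subtype.injective
    rw [map_zero, ← hcs]
    simp only [map_sum, map_mul, map_pow, Subfield.subtype_apply]

theorem e3_closed {C E : Subfield Ω} (hEC : E ≤ C) (hE : IsAlgClosed E) :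
    IsAlgClosed (E.comap C.subtype) := by
  let f : E →+* (E.comap C.subtype) :=
    ((Subfield.inclusion hEC).codRestrict (E.comap C.subtype) (fun x => x.2))
  have hf : Function.Bijective f := by
    refine ⟨f.injective, fun y => ⟨⟨(y : C), y.2⟩, ?_⟩⟩
    exact Subtype.ext (Subtype.ext rfl)
  exact IsAlgClosed.of_ringEquiv E _ (RingEquiv.ofBijective f hf)

theorem e3_top [PerfectField Ω] {C E : Subfield Ω} [PerfectField C] (hEC : E ≤ C) (s θ : C)
    (hC : C ≤ adj (adj E (s : Ω)) (θ : Ω)) :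
    adj (adj (E.comap C.subtype) s) θ = ⊤ := by
  have hmap : E ≤ (E.comap C.subtype).map C.subtype := fun z hz => ⟨⟨z, hEC hz⟩, hz, rfl⟩
  have key : ∀ (F : Subfield C) (y : C),
      adj (F.map C.subtype) (y : Ω) ≤ (adj F y).map C.subtype := by
    intro F y
    have h1 : Vale.Agent.P019.adj (F.map C.subtype) (y : Ω) ≤ (adj F y).map C.subtype := by
      refine Vale.Agent.P019.adj_le ?_ ⟨y, mem_adj F y, rfl⟩
      rintro _ ⟨x, hx, rfl⟩
      exact ⟨x, le_adj F y hx, rfl⟩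
    haveI : PerfectField ((adj F y).map C.subtype : Subfield Ω) := by
      refine perfect_of_root ?_
      rintro _ ⟨x, hx, rfl⟩
      obtain ⟨z, hz, hzx⟩ := exists_root_q (adj F y) hx 1
      refine ⟨C.subtype z, ⟨z, hz, rfl⟩, ?_⟩
      have h2 : ringExpChar Ω = ringExpChar C := by
        haveI : ExpChar C (ringExpChar Ω) := expChar_sub C
        exact (ringExpChar.eq C (ringExpChar Ω)).symm
      rw [← map_pow, h2, ← hzx, pow_one]
    exact pf_le h1
  have h4 : adj E (s : Ω) ≤ (adj (E.comap C.subtype) s).map C.subtype :=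
    (adj_mono hmap _).trans (key _ s)
  have h3 : C ≤ (adj (adj (E.comap C.subtype) s) θ).map C.subtype :=
    hC.trans ((adj_mono h4 _).trans (key _ θ))
  rw [eq_top_iff]
  intro z _
  obtain ⟨y, hy, hyz⟩ := h3 z.2
  have h7 : y = z := Subtype.ext hyz
  exact h7 ▸ hy

theorem e3_mono {E : Subfield Ω} {d D : ℕ} (hD : d ≤ D) {x y : Ω} (h : BRel E d x y) :
    BRel E D x y := by
  classical
  obtain ⟨c, hc, ⟨a, ha, b, hb, hab⟩, hcs⟩ := h
  have hsub : Finset.range (d + 1) ⊆ Finset.range (D + 1) := by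
    intro i hi
    rw [Finset.mem_range] at hi ⊢
    omega
  refine ⟨fun a b => if a ∈ Finset.range (d + 1) ∧ b ∈ Finset.range (d + 1) then c a b else 0,
    fun a b => ?_, ⟨a, hsub ha, b, hsub hb, ?_⟩, ?_⟩
  · dsimp only
    split_ifs
    exacts [hc a b, E.zero_mem]
  · dsimp only
    rwa [if_pos ⟨ha, hb⟩]
  · refine Eq.trans ?_ hcs
    rw [← Finset.sum_subset hsub]
    · refine Finset.sum_congr rfl fun a ha => ?_
      rw [← Finset.sum_subset hsub]
      · refine Finset.sum_congr rfl fun b hb => ?_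
        dsimp only
        rw [if_pos ⟨ha, hb⟩]
      · intro b _ hb
        dsimp only
        rw [if_neg (fun h => hb h.2), zero_mul, zero_mul]
    · intro a _ ha
      refine Finset.sum_eq_zero fun b _ => ?_
      dsimp only
      rw [if_neg (fun h => ha h.1), zero_mul, zero_mul]

/-- a relation of bidegree `(1, 1)` for an element of `E`. -/
theorem e3_const {E : Subfield Ω} {y : Ω} (x : Ω) (hy : y ∈ E) : BRel E 1 x y := by
  refine ⟨fun i j => if i = 0 then (if j = 0 then -y else 1) else 0, fun i j => ?_,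
    ⟨0, by simp, 1, by simp, by simp⟩, ?_⟩
  · dsimp only
    split_ifs
    exacts [E.neg_mem hy, E.one_mem, E.zero_mem]
  · simp [Finset.sum_range_succ]

theorem e3_const_add {E : Subfield Ω} {x y : Ω} (hy : x + y ∈ E) : BRel E 1 x y := by
  refine ⟨fun i j => if i = 0 then (if j = 0 then -(x + y) else 1) else (if j = 0 then 1 else 0),
    fun i j => ?_, ⟨0, by simp, 1, by simp, by simp⟩, ?_⟩
  · dsimp only
    split_ifs
    exacts [E.neg_mem hy, E.one_mem, E.one_mem, E.zero_mem]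
  · simp [Finset.sum_range_succ]

/-- relations from polynomials. -/
theorem e3_ofPoly {E : Subfield Ω} {x y : Ω} {D : ℕ} {Φ : E[X][X]} (hΦ : Φ ≠ 0)
    (h1 : Φ.natDegree ≤ D) (h3 : ∀ j, (Φ.coeff j).natDegree ≤ D)
    (h0 : aevalAeval x y Φ = 0) : BRel E D x y := by
  refine ⟨fun i j => (((Φ.coeff j).coeff i : E) : Ω), fun i j => ((Φ.coeff j).coeff i).2, ?_, ?_⟩
  · by_contra hcon
    push Not at hcon
    apply hΦ
    ext j i
    rw [coeff_zero, coeff_zero]
    by_cases hj : j ∈ Finset.range (D + 1)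
    · by_cases hi : i ∈ Finset.range (D + 1)
      · exact hcon i hi j hj
      · have h4 : D < i := by
          rw [Finset.mem_range] at hi
          omega
        rw [coeff_eq_zero_of_natDegree_lt (lt_of_le_of_lt (h3 j) h4)]
    · have h4 : D < j := by
        rw [Finset.mem_range] at hj
        omega
      rw [coeff_eq_zero_of_natDegree_lt (lt_of_le_of_lt h1 h4), coeff_zero]
  · rw [urel_eval, eval₂_eq_sum_range' _ (Nat.lt_succ_of_le h1)] at h0
    rw [Finset.sum_comm, ← h0]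
    refine Finset.sum_congr rfl fun j _ => ?_
    rw [RingHom.coe_coe, aeval_eq_sum_range' (Nat.lt_succ_of_le (h3 j)), Finset.sum_mul]
    rfl

/-- polynomials from relations. -/
theorem e3_toPoly {E : Subfield Ω} {x y : Ω} {d : ℕ} (h : BRel E d x y) :
    ∃ Φ : E[X][X], Φ ≠ 0 ∧ Φ.natDegree ≤ d ∧ (∀ j, (Φ.coeff j).natDegree ≤ d) ∧
      aevalAeval x y Φ = 0 := by
  classical
  obtain ⟨c, hc, ⟨a, ha, b, hb, hab⟩, hcs⟩ := h
  let A : ℕ → E[X] := fun j => ∑ i ∈ Finset.range (d + 1), C (⟨c i j, hc i j⟩ : E) * X ^ i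
  have hA : ∀ j i, (A j).coeff i = if i ∈ Finset.range (d + 1) then (⟨c i j, hc i j⟩ : E)
      else 0 := by
    intro j i
    simp only [A, finsetSum_coeff, coeff_C_mul, coeff_X_pow, mul_ite, mul_one, mul_zero]
    rw [Finset.sum_ite_eq]
  let Φ : E[X][X] := ∑ j ∈ Finset.range (d + 1), C (A j) * X ^ j
  have hΦ : ∀ j, Φ.coeff j = if j ∈ Finset.range (d + 1) then A j else 0 := by
    intro j
    simp only [Φ, finsetSum_coeff, coeff_C_mul, coeff_X_pow, mul_ite, mul_one, mul_zero]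
    rw [Finset.sum_ite_eq]
  refine ⟨Φ, ?_, ?_, ?_, ?_⟩
  · intro h0
    apply hab
    have h1 : (Φ.coeff b).coeff a = 0 := by rw [h0, coeff_zero, coeff_zero]
    rw [hΦ, if_pos hb, hA, if_pos ha] at h1
    exact congrArg Subtype.val h1
  · rw [natDegree_le_iff_coeff_eq_zero]
    intro j hj
    rw [hΦ, if_neg]
    rw [Finset.mem_range]
    omega
  · intro j
    rw [natDegree_le_iff_coeff_eq_zero]
    intro i hi
    rw [hΦ]
    split_ifs
    · rw [hA, if_neg]
      rw [Finset.mem_range]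
      omega
    · exact coeff_zero _
  · simp only [Φ, map_sum, map_mul, map_pow, aevalAeval_C, aevalAeval_Y]
    rw [← hcs, Finset.sum_comm]
    refine Finset.sum_congr rfl fun j _ => ?_
    simp only [A, map_sum, map_mul, map_pow, aeval_C, aeval_X]
    rw [Finset.sum_mul]
    rfl

/-- the substitution `y := x + y`. -/
theorem e3_shift {E : Subfield Ω} {x y : Ω} {d : ℕ} (h : BRel E d x (x + y)) :
    BRel E (2 * d) x y := by
  obtain ⟨Φ, h0, h1, h2, h3⟩ := e3_toPoly h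
  refine e3_ofPoly (Φ := taylor X Φ) ?_ ?_ ?_ ?_
  · rwa [Ne, map_eq_zero_iff _ (taylor_injective _)]
  · rw [natDegree_taylor]
    omega
  · intro j
    rw [taylor_coeff, eval_eq_sum_range]
    refine natDegree_sum_le_of_forall_le _ _ fun i hi => ?_
    rw [Finset.mem_range] at hi
    refine (natDegree_mul_le).trans ?_
    have h4 : ((hasseDeriv j Φ).coeff i).natDegree ≤ d := by
      rw [hasseDeriv_coeff]
      refine (natDegree_mul_le).trans ?_
      rw [natDegree_natCast, zero_add]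
      exact h2 _
    have h5 : (X ^ i : E[X]).natDegree ≤ i := by
      rw [natDegree_X_pow]
    have h6 : (hasseDeriv j Φ).natDegree ≤ d :=
      (natDegree_hasseDeriv_le Φ j).trans (by omega)
    omega
  · have h4 : aevalAeval x y (taylor X Φ) = aevalAeval x (x + y) Φ := by
      rw [urel_eval, urel_eval, taylor_apply, eval₂_comp, eval₂_add, eval₂_X, eval₂_C,
        RingHom.coe_coe, aeval_X, add_comm]
    rw [h4, h3]

theorem e3_swap {E : Subfield Ω} {x y : Ω} {d : ℕ} (h : BRel E d x y) : BRel E d y x := by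
  obtain ⟨c, hc, ⟨a, ha, b, hb, hab⟩, hcs⟩ := h
  refine ⟨fun i j => c j i, fun i j => hc j i, ⟨b, hb, a, ha, hab⟩, ?_⟩
  rw [← hcs, Finset.sum_comm]
  refine Finset.sum_congr rfl fun i _ => Finset.sum_congr rfl fun j _ => ?_
  ring

end e3gen

section e3main

variable {Ω : Type*} [Field Ω] {ℓ : ℕ} [Fact ℓ.Prime] [NeZero (ℓ : Ω)]
  {E R : Subfield Ω} {m : ℕ}

/-- the degree bound inside the curve. -/
theorem e3_deg {C : Subfield Ω} [PerfectField C] (hEC : E ≤ C) (hRC : R ≤ C)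
    (hE : IsAlgClosed E) {s θ Z : C} (hsE : (s : Ω) ∉ E)
    (htop : adj (adj (E.comap C.subtype) s) θ = ⊤) (hθ : BRel E m (s : Ω) (θ : Ω))
    (hZE : (Z : Ω) ∉ E) (hZ5 : Five' ℓ E R m (s : Ω) (Z : Ω)) :
    Z ∉ E.comap C.subtype ∧ Module.Finite (adj (E.comap C.subtype) Z) C ∧
      Module.finrank (adj (E.comap C.subtype) Z) C ≤ 14 * m ^ 2 := by
  classical
  refine ⟨hZE, ?_⟩
  obtain ⟨S, hS, hP⟩ := hZ5
  haveI : NeZero (ℓ : C) := ⟨fun h => NeZero.ne (ℓ : Ω) (by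
    have h1 := congrArg C.subtype h
    simpa using h1)⟩
  have hS' : (S.subtype (· ∈ C)).card = 5 := by
    rw [Finset.card_subtype, Finset.filter_true_of_mem, hS]
    exact fun c hc => hEC (hP c hc).1
  refine deg5 ℓ (S := (S.subtype (· ∈ C))) (e3_closed hEC hE) hsE htop (e3_down hEC hθ) hZE hS' ?_
  intro c hc
  obtain ⟨h1, -, y, hy, hy0, hyr, e, h, hh, heq⟩ := hP c (Finset.mem_subtype.1 hc)
  refine ⟨h1, ⟨y, hRC hy⟩, fun h0 => hy0 (congrArg Subtype.val h0), e3_down hEC hyr, e,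
    ⟨h, hRC hh⟩, Subtype.ext ?_⟩
  exact heq

end e3main

/-- two elements with the condition at five points are related. -/
theorem dirb {Ω : Type*} [Field Ω] [PerfectField Ω] (ℓ : ℕ) [Fact ℓ.Prime] [NeZero (ℓ : Ω)]
    {E R : Subfield Ω} (hE : IsAlgClosed E) [PerfectField R] {s θ : Ω} (hs : s ∈ R)
    (hθR : θ ∈ R) (hsE : s ∉ E) (hRθ : R ≤ adj (adj E s) θ) {m : ℕ} (hθ : BRel E m s θ)
    {X Y : Ω} (hX : X ∈ R) (hY : Y ∈ R) (hX5 : Five' ℓ E R m s X) (hY5 : Five' ℓ E R m s Y)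
    (hXY5 : Five' ℓ E R m s (X + Y)) : X ∈ E ∨ BRel E (28 * m ^ 2 + 1) X Y := by
  by_cases hXE : X ∈ E
  · exact Or.inl hXE
  right
  by_cases hYE : Y ∈ E
  · exact e3_mono (by omega) (e3_const X hYE)
  by_cases hZE : X + Y ∈ E
  · exact e3_mono (by omega) (e3_const_add hZE)
  have hEC : E ≤ adj (adj E s) θ := (le_adj E s).trans (le_adj _ θ)
  obtain ⟨C, hC⟩ : ∃ C : Subfield Ω, C = adj (adj E s) θ := ⟨_, rfl⟩
  haveI : PerfectField C := by
    rw [hC]
    exact perfect_adj _ _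
  have hC' : C ≤ adj (adj E s) θ := hC.le
  rw [← hC] at hRθ hEC
  obtain ⟨s', rfl⟩ : ∃ s' : C, (s' : Ω) = s := ⟨⟨s, hRθ hs⟩, rfl⟩
  obtain ⟨θ', rfl⟩ : ∃ θ' : C, (θ' : Ω) = θ := ⟨⟨θ, hRθ hθR⟩, rfl⟩
  obtain ⟨X', rfl⟩ : ∃ X' : C, (X' : Ω) = X := ⟨⟨X, hRθ hX⟩, rfl⟩
  obtain ⟨Y', rfl⟩ : ∃ Y' : C, (Y' : Ω) = Y := ⟨⟨Y, hRθ hY⟩, rfl⟩
  have htop := e3_top hEC s' θ' hC'
  have h1 := e3_deg (ℓ := ℓ) hEC hRθ hE hsE htop hθ hXE hX5
  have h2 := e3_deg (ℓ := ℓ) hEC hRθ hE hsE htop hθ hYE hY5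
  rw [← Subfield.coe_add] at hZE hXY5
  have h3 := e3_deg (ℓ := ℓ) hEC hRθ hE hsE htop hθ hZE hXY5
  rcases exists_brel (e3_closed hEC hE) h1 h2 h3 with h | h | h
  · exact e3_mono (by omega) (e3_up h)
  · have h4 := e3_up h
    rw [Subfield.coe_add] at h4
    exact e3_mono (by omega) (e3_shift h4)
  · have h4 := e3_up h
    rw [Subfield.coe_add, add_comm] at h4
    exact e3_mono (by omega) (e3_swap (e3_shift h4))

/-- an element with the condition at five points is related to a twist of `s`. -/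
theorem dirb_tw {Ω : Type*} [Field Ω] [PerfectField Ω] (ℓ : ℕ) [Fact ℓ.Prime] [NeZero (ℓ : Ω)]
    {E R : Subfield Ω} (hE : IsAlgClosed E) [PerfectField R] {s θ : Ω} (hs : s ∈ R)
    (hθR : θ ∈ R) (hsE : s ∉ E) (hRθ : R ≤ adj (adj E s) θ) {m : ℕ} (hθ : BRel E m s θ)
    {X : Ω} (hX : X ∈ R) (hXE : X ∉ E) (hX5 : Five' ℓ E R m s X) :
    ∃ (i j : ℕ) (σ : Ω), σ ^ (ringExpChar Ω) ^ i = s ^ (ringExpChar Ω) ^ j ∧
      BRel E (28 * m ^ 2 + 1) X σ := by
  have hEC : E ≤ adj (adj E s) θ := (le_adj E s).trans (le_adj _ θ)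
  obtain ⟨C, hC⟩ : ∃ C : Subfield Ω, C = adj (adj E s) θ := ⟨_, rfl⟩
  haveI : PerfectField C := by
    rw [hC]
    exact perfect_adj _ _
  have hC' : C ≤ adj (adj E s) θ := hC.le
  rw [← hC] at hRθ hEC
  obtain ⟨s', rfl⟩ : ∃ s' : C, (s' : Ω) = s := ⟨⟨s, hRθ hs⟩, rfl⟩
  obtain ⟨θ', rfl⟩ : ∃ θ' : C, (θ' : Ω) = θ := ⟨⟨θ, hRθ hθR⟩, rfl⟩
  obtain ⟨X', rfl⟩ : ∃ X' : C, (X' : Ω) = X := ⟨⟨X, hRθ hX⟩, rfl⟩
  have htop := e3_top hEC s' θ' hC'
  have h1 := e3_deg (ℓ := ℓ) hEC hRθ hE hsE htop hθ hXE hX5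
  have hac := e3_closed hEC hE
  have hθ' := e3_down hEC hθ
  have hcv := e3d_cv hac hsE htop hθ'
  have hs0 : s' ∉ E.comap C.subtype := hsE
  have hm : 1 ≤ m := by
    rcases Nat.eq_zero_or_pos m with rfl | h
    · exfalso
      obtain ⟨c, -, ⟨a, ha, b, hb, hab⟩, hcs⟩ := hθ
      simp only [zero_add, Finset.range_one, Finset.mem_singleton] at ha hb
      simp only [zero_add, Finset.range_one, Finset.sum_singleton, pow_zero, mul_one] at hcs
      subst ha hb
      exact hab hcs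
    · exact h
  have h2 : Module.finrank (adj (E.comap C.subtype) s') C ≤ 1 * m := by
    obtain ⟨d, hd, hd0, hdr⟩ := hθ'
    refine apd_deg (RAC_of_isAlgClosed _ hac) hs0 hs0 htop
      (c := fun i j => if i = 0 then (if j = 1 then -1 else 0) else (if j = 0 then 1 else 0))
      (fun i j => ?_) hd ⟨0, by simp, 1, by simp, by simp⟩ hd0 ?_ hdr
    · split_ifs
      exacts [neg_mem (one_mem _), zero_mem _, one_mem _, zero_mem _]
    · simp [Finset.sum_range_succ]
  have h5 : 1 * m ≤ 14 * m ^ 2 := by nlinarith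
  obtain ⟨i, j, σ, hσ, hr⟩ := exists_twb hac h1 ⟨hs0, hcv.finite hs0, h2.trans h5⟩
  have hq : ringExpChar C = ringExpChar Ω := by
    haveI : ExpChar C (ringExpChar Ω) := expChar_sub C
    exact ringExpChar.eq C (ringExpChar Ω)
  rw [hq] at hσ
  refine ⟨i, j, (σ : Ω), ?_, e3_mono (by omega) (e3_up hr)⟩
  have h4 := congrArg Subtype.val hσ
  simpa using h4

end Vale.Agent.P019P
end

section

/-!
# The five points condition in all directions
-/

namespace Vale.Agent.P019P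

open Vale.Agent.P019

set_option linter.style.haveILetI false
set_option linter.unusedSectionVars false

open Polynomial Filter

section e5apriv

theorem e5a_brel_mono {Ω : Type*} [Field Ω] {E : Subfield Ω} {D D' : ℕ}
    (hD : D ≤ D') {x y : Ω} (h : BRel E D x y) : BRel E D' x y := by
  classical
  obtain ⟨c, hc, ⟨i, hi, j, hj, hij⟩, hs⟩ := h
  have hsub : Finset.range (D + 1) ⊆ Finset.range (D' + 1) :=
    Finset.range_subset_range.2 (by omega)
  let c' : ℕ → ℕ → Ω := fun i j =>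
    if i ∈ Finset.range (D + 1) ∧ j ∈ Finset.range (D + 1) then c i j else 0
  have hc'1 : ∀ {i j}, i ∈ Finset.range (D + 1) → j ∈ Finset.range (D + 1) → c' i j = c i j :=
    fun h1 h2 => if_pos ⟨h1, h2⟩
  have hc'0 : ∀ {i j}, ¬ (i ∈ Finset.range (D + 1) ∧ j ∈ Finset.range (D + 1)) → c' i j = 0 :=
    fun h => if_neg h
  refine ⟨c', ?_, ⟨i, hsub hi, j, hsub hj, ?_⟩, ?_⟩
  · intro i j
    by_cases h : i ∈ Finset.range (D + 1) ∧ j ∈ Finset.range (D + 1)
    · rw [hc'1 h.1 h.2]; exact hc i j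
    · rw [hc'0 h]; exact E.zero_mem
  · rw [hc'1 hi hj]; exact hij
  · refine Eq.trans (Eq.symm ?_) hs
    refine Finset.sum_subset_zero_on_sdiff hsub ?_ ?_
    · intro i hi
      rw [Finset.mem_sdiff] at hi
      refine Finset.sum_eq_zero fun j _ => ?_
      rw [hc'0 (fun h => hi.2 h.1), zero_mul, zero_mul]
    · intro i hi
      refine Finset.sum_subset_zero_on_sdiff hsub ?_ ?_
      · intro j hj
        rw [Finset.mem_sdiff] at hj
        rw [hc'0 (fun h => hj.2 h.2), zero_mul, zero_mul]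
      · intro j hj
        rw [hc'1 hi hj]

theorem e5a_brel_map {F Ω : Type*} [Field F] [Field Ω] (f : F →+* Ω) {E : Subfield F}
    {E' : Subfield Ω} (hE : ∀ c ∈ E, f c ∈ E') {D : ℕ} {x y : F} (h : BRel E D x y) :
    BRel E' D (f x) (f y) := by
  obtain ⟨c, hc, ⟨i, hi, j, hj, hij⟩, hs⟩ := h
  refine ⟨fun i j => f (c i j), fun i j => hE _ (hc i j), ⟨i, hi, j, hj, ?_⟩, ?_⟩
  · exact (map_ne_zero f).2 hij
  · have h1 := congrArg f hs
    simpa only [map_sum, map_mul, map_pow, map_zero] using h1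

variable {K : Type*} [Field K] {Ω : Type*} [Field Ω] [Algebra K Ω]

theorem e5a_char : ringExpChar Ω = ringExpChar K := by
  haveI : ExpChar Ω (ringExpChar K) := expChar_of_injective_algebraMap
    (algebraMap K Ω).injective (ringExpChar K)
  exact ringExpChar.eq Ω (ringExpChar K)

/-- the image of `gsp k T` is in `rcl` of the images. -/
theorem e5a_gsp_rcl [DecidableEq Ω] {k : Subfield K} {T : Finset K} {x : K} (hx : x ∈ gsp k T) :
    algebraMap K Ω x ∈ rcl (k.map (algebraMap K Ω)) (T.image (algebraMap K Ω)) := by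
  obtain ⟨n, hn⟩ := mem_pf.1 hx
  have h1 : k ⊔ Subfield.closure (T : Set K) ≤
      (rcl (k.map (algebraMap K Ω)) (T.image (algebraMap K Ω))).comap (algebraMap K Ω) := by
    refine sup_le ?_ (Subfield.closure_le.2 ?_)
    · intro a ha
      exact le_rcl _ _ ⟨a, ha, rfl⟩
    · intro a ha
      exact mem_rcl (Finset.mem_image_of_mem _ ha)
  have h2 : algebraMap K Ω x ^ ringExpChar K ^ n ∈
      rcl (k.map (algebraMap K Ω)) (T.image (algebraMap K Ω)) := by
    rw [← map_pow]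
    exact h1 hn
  refine rcl_RAC _ _ _ (IsAlgebraic.of_pow (n := ringExpChar K ^ n) ?_ (isAlgebraic_of_mem h2))
  exact pow_pos (expChar_pos K _) n

/-- the image of `gsp k B` is in `adj` of `rcl` of the images without `v` and the image of `v`. -/
theorem e5a_gsp_adj [DecidableEq K] [DecidableEq Ω] {k : Subfield K} {B : Finset K} {x v : K}
    (hx : x ∈ gsp k B) :
    algebraMap K Ω x ∈ adj (rcl (k.map (algebraMap K Ω)) ((B.erase v).image (algebraMap K Ω)))
      (algebraMap K Ω v) := by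
  obtain ⟨n, hn⟩ := mem_pf.1 hx
  have h1 : k ⊔ Subfield.closure (B : Set K) ≤
      (Vale.Agent.P019.adj (rcl (k.map (algebraMap K Ω)) ((B.erase v).image (algebraMap K Ω)))
      (algebraMap K Ω v)).comap (algebraMap K Ω) := by
    refine sup_le ?_ (Subfield.closure_le.2 ?_)
    · intro a ha
      exact Vale.Agent.P019.le_adj _ _ (le_rcl _ _ ⟨a, ha, rfl⟩)
    · intro a ha
      by_cases hav : a = v
      · subst hav
        exact Vale.Agent.P019.mem_adj _ _
      · refine Vale.Agent.P019.le_adj _ _ (mem_rcl (Finset.mem_image_of_mem _ ?_))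
        exact Finset.mem_erase.2 ⟨hav, ha⟩
  refine mem_adj_iff.2 ⟨n, ?_⟩
  rw [e5a_char (K := K), ← map_pow]
  exact h1 hn

/-- relations in all directions. -/
theorem e5a_rel [PerfectField K] [DecidableEq K] [DecidableEq Ω] {k : Subfield K} {B : Finset K}
    {t : K} (halg : ∀ z : K, IsAlgebraic (adj (gsp k B) t) z) (w : K) :
    ∃ m : ℕ, ∀ᶠ b in ae k, ∀ W : ValuationSubring K, Over W (gsp k B) t b → w ∈ W →
      ∀ ι : IsLocalRing.ResidueField W →+* Ω,
      (∀ z ∈ gsp k B, ι (rs W z) = algebraMap K Ω z) → ∀ v ∈ B,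
      BRel (rcl (k.map (algebraMap K Ω)) ((B.erase v).image (algebraMap K Ω))) m
        (algebraMap K Ω v) (ι (rs W w)) := by
  have key : ∀ v ∈ B, ∃ m : ℕ, ∀ᶠ b in ae k, ∀ W : ValuationSubring K,
      Over W (gsp k B) t b → w ∈ W → ∀ ι : IsLocalRing.ResidueField W →+* Ω,
      (∀ z ∈ gsp k B, ι (rs W z) = algebraMap K Ω z) →
      BRel (rcl (k.map (algebraMap K Ω)) ((B.erase v).image (algebraMap K Ω))) m
        (algebraMap K Ω v) (ι (rs W w)) := by
    intro v hv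
    have hB : gsp k B = adj (gsp k (B.erase v)) v := by
      rw [← gsp_insert, Finset.insert_erase hv]
    have hw : IsAlgebraic (adj (adj (gsp k (B.erase v)) v) t) w := by
      rw [← hB]; exact halg w
    obtain ⟨m, hm⟩ := apd_rel hw
    refine ⟨m, ?_⟩
    filter_upwards [ae_mono (le_gsp k (B.erase v)) hm, ae_mem k] with b hb hbk W hO hwW ι hι
    have hsub : gsp k (B.erase v) ≤ gsp k B := gsp_mono k (Finset.erase_subset v B)
    have hWG : TrivOn W (gsp k (B.erase v)) := fun c hc => hO.triv c (hsub hc)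
    have hvB : v ∈ gsp k B := mem_gsp hv
    have hr : BRel (bar hWG) m (rs W v) (rs W w) :=
      hb W hWG hO.lt (hO.mem (le_gsp k B hbk)) (hO.triv _ hvB) hwW
    rw [← hι v hvB]
    refine e5a_brel_map ι ?_ hr
    intro c hc
    obtain ⟨e, he, rfl⟩ := (mem_bar hWG).1 hc
    rw [hι e (hsub he)]
    exact e5a_gsp_rcl he
  choose! m hm using key
  refine ⟨B.sup m, ?_⟩
  have h1 : ∀ᶠ b in ae k, ∀ v ∈ B, ∀ W : ValuationSubring K,
      Over W (gsp k B) t b → w ∈ W → ∀ ι : IsLocalRing.ResidueField W →+* Ω,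
      (∀ z ∈ gsp k B, ι (rs W z) = algebraMap K Ω z) →
      BRel (rcl (k.map (algebraMap K Ω)) ((B.erase v).image (algebraMap K Ω))) (m v)
        (algebraMap K Ω v) (ι (rs W w)) := by
    rw [Filter.eventually_all_finset]
    exact hm
  filter_upwards [h1] with b hb W hO hwW ι hι v hv
  exact e5a_brel_mono (Finset.le_sup hv) (hb v hv W hO hwW ι hι)

end e5apriv

variable {K L : Type*} [Field K] [Field L] [PerfectField K] [PerfectField L] {ℓ : ℕ}
  [Fact ℓ.Prime] [NeZero (ℓ : K)] [NeZero (ℓ : L)]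

/-- generators of the residue fields in all directions. -/
theorem exists_gen {k : Subfield K} (hk : IsAlgClosed k) (hfgk : FG k (⊤ : Subfield K))
    {B : Finset K} (hB : Indp k B) {t : K}
    (ht : ¬ IsAlgebraic (gsp k B) t) (halg : ∀ z : K, IsAlgebraic (adj (gsp k B) t) z)
    {Ω : Type*} [Field Ω] [IsAlgClosed Ω] [Algebra K Ω] [DecidableEq K] [DecidableEq Ω] :
    ∃ (m : ℕ) (θ : K), ∀ᶠ b in ae k, ∀ W : ValuationSubring K,
      Over W (gsp k B) t b → ∀ (ι : IsLocalRing.ResidueField W →+* Ω),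
      (∀ z ∈ gsp k B, ι (rs W z) = algebraMap K Ω z) →
      ∀ v ∈ B,
        BRel (rcl (k.map (algebraMap K Ω)) ((B.erase v).image (algebraMap K Ω))) m
          (algebraMap K Ω v) (ι (rs W θ)) ∧
        ι.fieldRange ≤ adj (adj (rcl (k.map (algebraMap K Ω))
          ((B.erase v).image (algebraMap K Ω))) (algebraMap K Ω v)) (ι (rs W θ)) := by
  obtain ⟨θ, hθ⟩ := exists_over_nice hk hfgk hB ht halg
  obtain ⟨m, hm⟩ := e5a_rel (Ω := Ω) halg θ
  refine ⟨m, θ, ?_⟩
  filter_upwards [hθ, hm] with b h1 h2 W hO ι hι v hv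
  have hN := h1.2 W hO
  refine ⟨h2 W hO hN.mem ι hι v hv, ?_⟩
  rintro _ ⟨c, rfl⟩
  obtain ⟨z, hz, rfl⟩ := rs_surj c
  obtain ⟨P, Q, hQ, hPQ⟩ := hN.res z ((W.valuation_le_one_iff z).2 hz)
  have hmem : ∀ R : (gsp k B)[X], aeval θ R ∈ W := fun R =>
    aeval_mem hN.mem (fun i => hN.triv _ (R.coeff i).2)
  have hin : ∀ R : (gsp k B)[X], ι (rs W (aeval θ R)) ∈ adj (adj (rcl (k.map (algebraMap K Ω))
      ((B.erase v).image (algebraMap K Ω))) (algebraMap K Ω v)) (ι (rs W θ)) := by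
    intro R
    induction R using Polynomial.induction_on' with
    | add p q hp hq =>
      rw [map_add, rs_add (hmem p) (hmem q), map_add]
      exact Subfield.add_mem _ hp hq
    | monomial n a =>
      rw [← C_mul_X_pow_eq_monomial, map_mul, aeval_C, map_pow, aeval_X]
      change ι (rs W ((a : K) * θ ^ n)) ∈ _
      rw [rs_mul (hN.triv _ a.2) (pow_mem hN.mem n), rs_pow hN.mem, map_mul, map_pow, hι _ a.2]
      exact Subfield.mul_mem _ (le_adj _ _ (e5a_gsp_adj a.2)) (Subfield.pow_mem _ (mem_adj _ _) n)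
  have h3 : ι (rs W z) * ι (rs W (aeval θ Q)) = ι (rs W (aeval θ P)) := by
    rw [← map_mul, ← rs_mul hz (hmem Q), (rs_eq (mul_mem hz (hmem Q)) (hmem P)).2 hPQ]
  have hQ0 : ι (rs W (aeval θ Q)) ≠ 0 := (map_ne_zero ι).2 ((rs_ne_zero (hmem Q)).2 hQ)
  rw [eq_div_of_mul_eq hQ0 h3]
  exact Subfield.div_mem _ (hin P) (hin Q)

/-- bounds of the transferred functions in all directions. -/
theorem exists_five {k : Subfield K} (hk : IsAlgClosed k) (hfgk : FG k (⊤ : Subfield K))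
    {l : Subfield L} (hl : IsAlgClosed l) {B : Finset K} (hB : Indp k B) {t : K}
    (ht : ¬ IsAlgebraic (gsp k B) t) (halg : ∀ z : K, IsAlgebraic (adj (gsp k B) t) z)
    {Ω : Type*} [Field Ω] [IsAlgClosed Ω] [Algebra K Ω] [DecidableEq K] [DecidableEq Ω]
    (Θ : V ℓ K ≃ₗ[ZMod ℓ] V ℓ L) (g : L) : ∃ m : ℕ, ∀ᶠ b in ae k, ∀ W : ValuationSubring K,
      Over W (gsp k B) t b → ∀ O : ValuationSubring L, O.valuation g ≤ 1 →
      ∀ (ι : IsLocalRing.ResidueField W →+* Ω),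
      (∀ z ∈ gsp k B, ι (rs W z) = algebraMap K Ω z) →
      ∀ (hW : TrivOn W k) (hO : TrivOn O l)
        (α : IsLocalRing.ResidueField W ≃+* IsLocalRing.ResidueField O) (e : (ZMod ℓ)ˣ),
        (∀ x, x ∈ bar hW ↔ α x ∈ bar hO) →
        (∀ (z : K) (y : L), W.valuation z = 1 → O.valuation y = 1 → Θ (cl ℓ z) = cl ℓ y →
          cl ℓ (rs O y) = (e : ZMod ℓ) • cl ℓ (α (rs W z))) →
        ∀ v ∈ B, Five' ℓ (rcl (k.map (algebraMap K Ω)) ((B.erase v).image (algebraMap K Ω)))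
          ι.fieldRange m (algebraMap K Ω v) (ι (α.symm (rs O g))) := by
  classical
  haveI : Infinite l := inferInstance
  obtain ⟨S0', hS0'⟩ := Infinite.exists_subset_card_eq l 5
  set S0 : Finset L := S0'.map ⟨Subtype.val, Subtype.val_injective⟩ with hS0def
  have hS0l : ∀ c ∈ S0, c ∈ l := by
    intro c hc
    rw [hS0def, Finset.mem_map] at hc
    obtain ⟨c', -, rfl⟩ := hc
    exact c'.2
  have hS0c : S0.card = 5 := by rw [hS0def, Finset.card_map, hS0']
  have hy : ∀ c : L, ∃ y : K, y ≠ 0 ∧ Θ (cl ℓ y) = cl ℓ (g - c) := by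
    intro c
    obtain ⟨y, hy0, hy⟩ := cl_surj ℓ (Θ.symm (cl ℓ (g - c)))
    exact ⟨y, hy0, by rw [hy, LinearEquiv.apply_symm_apply]⟩
  choose y hy0 hyΘ using hy
  have hrel : ∀ c : L, _ := fun c => e5a_rel (Ω := Ω) halg (y c)
  choose m hm using hrel
  refine ⟨S0.sup m, ?_⟩
  have hE1 : ∀ᶠ b in ae k, ∀ c ∈ S0, ∀ W : ValuationSubring K, Over W (gsp k B) t b → y c ∈ W →
      ∀ ι : IsLocalRing.ResidueField W →+* Ω,
      (∀ z ∈ gsp k B, ι (rs W z) = algebraMap K Ω z) → ∀ v ∈ B,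
      BRel (rcl (k.map (algebraMap K Ω)) ((B.erase v).image (algebraMap K Ω))) (m c)
        (algebraMap K Ω v) (ι (rs W (y c))) := by
    rw [Filter.eventually_all_finset]
    exact fun c _ => hm c
  have hE2 : ∀ᶠ b in ae k, ∀ c ∈ S0, ∀ W : ValuationSubring K, Over W (gsp k B) t b →
      W.valuation (y c) = 1 := by
    rw [Filter.eventually_all_finset]
    exact fun c _ => ae_mono (le_gsp k B) (unit_over (hy0 c) (halg (y c)))
  filter_upwards [hE1, hE2] with b h1 h2 W hOv O hg ι hι hW hO α e hbar htr v hv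
  have hgO : g ∈ O := (O.valuation_le_one_iff g).1 hg
  refine ⟨S0.image (fun c => ι (α.symm (rs O c))), ?_, ?_⟩
  · rw [Finset.card_image_of_injOn, hS0c]
    intro c hc c' hc' hcc
    exact rs_injOn hO (hS0l c hc) (hS0l c' hc') (α.symm.injective (ι.injective hcc))
  · intro c' hc'
    obtain ⟨c, hc, rfl⟩ := Finset.mem_image.1 hc'
    have hcl := hS0l c hc
    have hcO : c ∈ O := hO c hcl
    have hyv := h2 c hc W hOv
    refine ⟨?_, ⟨_, rfl⟩, ι (rs W (y c)), ⟨_, rfl⟩, ?_, ?_, ?_⟩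
    · have hb1 : α.symm (rs O c) ∈ bar hW := by
        rw [hbar, RingEquiv.apply_symm_apply]
        exact rs_mem_bar hO hcl
      obtain ⟨a, ha, hae⟩ := (mem_bar hW).1 hb1
      rw [← hae, hι a (le_gsp k B ha)]
      exact le_rcl _ _ ⟨a, ha, rfl⟩
    · exact (map_ne_zero ι).2 ((rs_ne_zero (mem_of_val hyv)).2 hyv)
    · exact e5a_brel_mono (Finset.le_sup hc) (h1 c hc W hOv (mem_of_val hyv) ι hι v hv)
    · have hZ : ι (α.symm (rs O g)) - ι (α.symm (rs O c)) = ι (α.symm (rs O (g - c))) := by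
        rw [rs_sub hgO hcO, map_sub, map_sub]
      have hgc : g - c ∈ O := sub_mem hgO hcO
      rw [hZ]
      by_cases hv1 : O.valuation (g - c) = 1
      · have h3 := htr (y c) (g - c) hyv hv1 (hyΘ c)
        have hx0 : rs O (g - c) ≠ 0 := (rs_ne_zero hgc).2 hv1
        have hx1 : α (rs W (y c)) ≠ 0 := by
          rw [Ne, EmbeddingLike.map_eq_zero_iff]
          exact (rs_ne_zero (mem_of_val hyv)).2 hyv
        have h4 : (e : ZMod ℓ) • cl ℓ (α (rs W (y c))) =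
            cl ℓ (α (rs W (y c)) ^ (e : ZMod ℓ).val) := by
          rw [cl_pow, ← Nat.cast_smul_eq_nsmul (ZMod ℓ), ZMod.natCast_zmod_val]
        rw [h4, cl_eq_iff ℓ hx0 (pow_ne_zero _ hx1)] at h3
        obtain ⟨w, -, hw⟩ := h3
        refine ⟨(e : ZMod ℓ).val, ι (α.symm w), ⟨_, rfl⟩, ?_⟩
        rw [hw, map_mul, map_mul, map_pow, map_pow, map_pow, map_pow, RingEquiv.symm_apply_apply]
      · refine ⟨0, 0, Subfield.zero_mem _, ?_⟩
        have h5 : rs O (g - c) = 0 := by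
          by_contra hne
          exact hv1 ((rs_ne_zero hgc).1 hne)
        rw [h5, map_zero, map_zero, zero_pow (Fact.out : ℓ.Prime).ne_zero, mul_zero]

end Vale.Agent.P019P
end

section

/-!
# Killed classes, arbitrary transcendence degree
-/

namespace Vale.Agent.P019P

open Vale.Agent.P019

set_option linter.style.haveILetI false
set_option linter.unusedSectionVars false

open Polynomial

section kill

variable {Ω : Type*} [Field Ω]

theorem Fre.mono_right {l A B B' : Subfield Ω} (h : Fre l A B) (hB : B' ≤ B) : Fre l A B' :=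
  fun N hN hlN hNB a ha halg => h N hN hlN (hNB.trans hB) a (hB ha) halg

/-- freeness of `l(Y, y)` from freeness of `l(Y)`. -/
theorem Fre.step {l F A C : Subfield Ω} {y : Ω} (hF : Fre l F C)
    (hA : ∀ a ∈ A, IsAlgebraic (adj F y) a) (hy : ¬ IsAlgebraic (F ⊔ C : Subfield Ω) y) :
    Fre l A C := by
  intro N hN hlN hNC a ha halg
  refine hF N hN hlN hNC a ha ?_
  by_contra hcon
  have h1 : IsAlgebraic (adj (F ⊔ N) y) a :=
    isAlgebraic_sup_of_adj (fun a ha => isAlgebraic_mono (adj_mono le_sup_left y) (hA a ha))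
      ((le_sup_right : N ≤ F ⊔ N).trans (le_adj _ _)) halg
  have h2 := exchange hcon h1
  apply hy
  have h3 : adj (F ⊔ N) a ≤ rac (F ⊔ C) := by
    have h4 : Vale.Agent.P019.adj (F ⊔ N) a ≤ F ⊔ C :=
      Vale.Agent.P019.adj_le (sup_le_sup_left hNC F) ((le_sup_right : C ≤ F ⊔ C) ha)
    have h5 : rac (adj (F ⊔ N) a) ≤ rac (F ⊔ C) := by
      rw [rac_adj]
      exact rac_mono h4
    exact (le_rac _).trans h5
  exact mem_rac.1 (RAC_rac _ y (isAlgebraic_mono h3 h2))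

/-- change of the base. -/
theorem Fre.base {l F A B C : Subfield Ω} (hF : Fre l F C) (hlB : l ≤ B) (_hBC : B ≤ C)
    (hA : ∀ a ∈ A, IsAlgebraic (F ⊔ B : Subfield Ω) a) : Fre B A C := by
  intro N hN hBN hNC a ha halg
  refine hF N hN (hlB.trans hBN) hNC a ha ?_
  exact isAlgebraic_sup_of_adj
    (fun a ha => isAlgebraic_mono (sup_le_sup_left hBN F) (hA a ha)) le_sup_right halg

variable [PerfectField Ω]

theorem kill' [IsAlgClosed Ω] (ℓ : ℕ) [Fact ℓ.Prime] [NeZero (ℓ : Ω)] {l L Bs F : Subfield Ω}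
    (hl : IsAlgClosed l) (hfg : FG l L) (hlB : l ≤ Bs) (hBs : IsAlgClosed Bs) {y : Ω}
    (hlF : l ≤ F) (hFL : F ≤ L) (hy : y ∈ L) (hL : ∀ a ∈ L, IsAlgebraic (adj F y) a)
    (h1 : Fre l F Bs) (h2 : ¬ IsAlgebraic F y)
    (h3 : IsAlgebraic (F ⊔ Bs : Subfield Ω) y) (X : Set Ω) (hX : ∀ x ∈ X, x ∈ L ∧ x ≠ 0)
    (hinf : ∀ n : ℕ, ∃ x : Fin n → Ω, (∀ i, x i ∈ X) ∧
      ∀ i j, i ≠ j → ¬ ∃ w ∈ L, x i = x j * w ^ ℓ)
    (hpow : ∀ x ∈ X, ∃ r ∈ L ⊔ Bs, r ^ ℓ = x) : ∃ h ∈ L, h ∈ Bs ∧ h ∉ l := by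
  classical
  have hℓ : 0 < ℓ := (Fact.out : ℓ.Prime).pos
  have hlR : RAC l := RAC_of_isAlgClosed l hl
  have hBR : RAC Bs := RAC_of_isAlgClosed Bs hBs
  have hlL : l ≤ L := hfg.le
  haveI : PerfectField L := hfg.perfect
  haveI : PerfectField Bs := perfect_of_RAC hBR
  haveI : PerfectField l := perfect_of_RAC hlR
  -- finitely many parameters
  obtain ⟨T, hT, hTy⟩ : ∃ T : Finset Ω, (∀ c ∈ T, c ∈ Bs) ∧
      IsAlgebraic (F ⊔ rcl l T : Subfield Ω) y := by
    have h4 : IsAlgebraic (Bs ⊔ Subfield.closure (F : Set Ω) : Subfield Ω) y := by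
      rw [Subfield.closure_eq, sup_comm]
      exact h3
    obtain ⟨C, hC, hCN⟩ := isAlgebraic_sup_finite h4
    refine ⟨C, fun c hc => hC hc, ?_⟩
    have h5 := hCN (rcl l C) (fun c hc => mem_rcl hc)
    rw [Subfield.closure_eq, sup_comm] at h5
    exact h5
  -- the critical step
  obtain ⟨T₀, hT₀, b, hb, hbC, hbalg, hCalg⟩ : ∃ T₀ : Finset Ω, (∀ c ∈ T₀, c ∈ Bs) ∧ ∃ b ∈ Bs,
      b ∉ rcl l T₀ ∧ IsAlgebraic (F ⊔ rac (adj (rcl l T₀) b) : Subfield Ω) y ∧
      ¬ IsAlgebraic (F ⊔ rcl l T₀ : Subfield Ω) y := by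
    by_contra hcon
    push Not at hcon
    have h4 := chain_down (B := Bs) hlR (fun N => IsAlgebraic (F ⊔ N : Subfield Ω) y)
      (fun T' hT' b hb hbN h => hcon T' hT' b hb hbN h) T hT hTy
    rw [sup_eq_left.2 hlF] at h4
    exact h2 h4
  set C := rcl l T₀ with hCdef
  have hCR : RAC C := rcl_RAC l T₀
  have hlC : l ≤ C := le_rcl l T₀
  have hCB : C ≤ Bs := rcl_le hBR hlB hT₀
  have hCac : IsAlgClosed C := isAlgClosed_of_RAC hBs hCR hCB
  haveI : PerfectField C := perfect_of_RAC hCR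
  set B := rac (adj C b) with hBdef
  have hBBs : B ≤ Bs := RAC_adj_le hBR hCB hb
  have hCB' : C ≤ B := (le_adj _ _).trans (le_rac _)
  have hBac : IsAlgClosed B := isAlgClosed_of_RAC hBs (RAC_rac _) hBBs
  haveI : PerfectField B := perfect_of_RAC (RAC_rac _)
  -- `b` is algebraic over `L C`
  have hbLC : IsAlgebraic (L ⊔ C : Subfield Ω) b := by
    have h4 : IsAlgebraic (adj (F ⊔ C) b) y := by
      have h5 : F ⊔ B ≤ rac (adj (F ⊔ C) b) := by
        refine sup_le ((le_sup_left : F ≤ F ⊔ C).trans ((le_adj _ _).trans (le_rac _))) ?_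
        exact rac_mono (adj_mono le_sup_right b)
      exact mem_rac.1 (RAC_rac _ _ (isAlgebraic_mono h5 hbalg))
    have h5 := exchange hCalg h4
    have h6 : adj (F ⊔ C) y ≤ L ⊔ C :=
      adj_le (sup_le_sup_right hFL C) ((le_sup_left : L ≤ L ⊔ C) hy)
    exact isAlgebraic_mono h6 h5
  have hfreeLC : Fre l L C := (h1.mono_right hCB).step hL hCalg
  have hLalgB : ∀ a ∈ L, IsAlgebraic (F ⊔ B : Subfield Ω) a := by
    intro a ha
    have h5 : adj F y ≤ rac (F ⊔ B) := by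
      have h6 : Vale.Agent.P019.adj F y ≤ rac (F ⊔ B) :=
        Vale.Agent.P019.adj_le ((le_sup_left : F ≤ F ⊔ B).trans (le_rac _)) (mem_rac.2 hbalg)
      have h7 : rac (adj F y) ≤ rac (F ⊔ B) := by
        rw [rac_adj F]
        exact (RAC_rac _).le h6
      exact (le_rac _).trans h7
    exact mem_rac.1 (RAC_rac _ _ (isAlgebraic_mono h5 (hL a ha)))
  have hfreeB : Fre B (L ⊔ B) Bs := by
    refine h1.base (hlC.trans hCB') hBBs ?_
    intro a ha
    have h5 : L ⊔ B ≤ rac (F ⊔ B) :=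
      sup_le (fun c hc => mem_rac.2 (hLalgB c hc)) (le_sup_right.trans (le_rac _))
    exact mem_rac.1 (h5 ha)
  obtain ⟨-, hE⟩ := gal ℓ hCac (FG.sup_right hfg hlC) hbLC hbC X
    (fun x hx => ⟨(le_sup_left : L ≤ L ⊔ C) (hX x hx).1, (hX x hx).2⟩) (by
      intro n
      obtain ⟨x, hxX, hx⟩ := hinf n
      refine ⟨x, hxX, fun i j hij hcon => hx i j hij ?_⟩
      obtain ⟨w, hw, hwe⟩ := hcon
      refine ⟨w, ?_, hwe⟩
      refine mem_of_pow_mem hlR hlL hlC hCac hfreeLC hℓ hw ?_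
      have h5 : w ^ ℓ = x i / x j := by
        rw [hwe]
        field_simp [(hX _ (hxX j)).2]
      rw [h5]
      exact L.div_mem (hX _ (hxX i)).1 (hX _ (hxX j)).1) (by
      intro x hx
      obtain ⟨r, hr, hrx⟩ := hpow x hx
      refine ⟨r, ?_, hrx⟩
      have h5 : r ∈ (L ⊔ B) ⊔ Bs := (sup_le_sup_right le_sup_left Bs : L ⊔ Bs ≤ _) hr
      have h6 : r ∈ L ⊔ B := by
        refine mem_of_pow_mem (RAC_rac _) le_sup_right hBBs hBs hfreeB hℓ h5 ?_
        rw [hrx]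
        exact (le_sup_left : L ≤ L ⊔ B) (hX x hx).1
      exact (sup_le_sup_right le_sup_left B : L ⊔ B ≤ (L ⊔ C) ⊔ B) h6)
  -- specialization
  obtain ⟨E, hlE, hEL, htd, hXE⟩ : ∃ E : Subfield Ω, l ≤ E ∧ E ≤ L ⊔ l ∧ Td1 l E ∧
      ∀ x ∈ X, ∃ e ∈ E, ∃ w ∈ L ⊔ l, x = e * w ^ ℓ := by
    refine chain_down (B := C) hlR (fun N => ∃ E : Subfield Ω, N ≤ E ∧ E ≤ L ⊔ N ∧ Td1 N E ∧
      ∀ x ∈ X, ∃ e ∈ E, ∃ w ∈ L ⊔ N, x = e * w ^ ℓ) ?_ T₀ (fun c hc => mem_rcl hc) ?_
    · rintro T' hT' c hc hcN ⟨E, hE1, hE2, hE3, hE4⟩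
      have hNC : rcl l T' ≤ C := rcl_le hCR hlC hT'
      exact spec_step (A := L) (N := rcl l T') (isAlgClosed_of_RAC hBs (rcl_RAC _ _)
        (hNC.trans hCB)) (fun h => hcN (hfreeLC _ (rcl_RAC _ _) (le_rcl _ _) hNC c hc h)) hX
        hE1 hE2 hE3 hE4
    · refine ⟨B ⊓ (L ⊔ C), le_inf hCB' le_sup_right, inf_le_right, ?_, hE⟩
      intro u hu v hv
      by_cases huC : u ∈ C
      · exact Or.inl huC
      · right
        exact line_swap hCR (mem_rac.1 (Subfield.mem_inf.1 hu).1) huC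
          (mem_rac.1 (Subfield.mem_inf.1 hv).1)
  rw [sup_eq_left.2 hlL] at hEL hXE
  by_contra hcon
  push Not at hcon
  -- a nonconstant element of `E`
  obtain ⟨y0, hy0, hy0l⟩ : ∃ y0 ∈ E, y0 ∉ l := by
    by_contra hno
    push Not at hno
    obtain ⟨x, hxX, hx⟩ := hinf 2
    obtain ⟨e, he, w, hw, hew⟩ := hXE _ (hxX 0)
    obtain ⟨e', he', w', hw', hew'⟩ := hXE _ (hxX 1)
    have he0 : e ≠ 0 := by
      rintro rfl
      rw [zero_mul] at hew
      exact (hX _ (hxX 0)).2 hew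
    have he'0 : e' ≠ 0 := by
      rintro rfl
      rw [zero_mul] at hew'
      exact (hX _ (hxX 1)).2 hew'
    have hw'0 : w' ≠ 0 := by
      rintro rfl
      rw [zero_pow hℓ.ne', mul_zero] at hew'
      exact (hX _ (hxX 1)).2 hew'
    obtain ⟨d, hd, hd'⟩ := asm_pow_eq hl hℓ (l.div_mem (hno e he) (hno e' he'))
    refine hx 0 1 (by decide) ⟨d * w / w', L.div_mem (L.mul_mem (hlL hd) hw) hw', ?_⟩
    rw [hew, hew', div_pow, mul_pow, hd']
    field_simp
  have hy0B : ¬ IsAlgebraic Bs y0 := fun h => hy0l (hcon y0 (hEL hy0) (hBR y0 h))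
  have hEalg : ∀ a ∈ E, IsAlgebraic (adj l y0) a := fun a ha =>
    (htd y0 hy0 a ha).resolve_left hy0l
  have hfreeE : Fre l E Bs := Fre.of_one hEalg hy0B
  obtain ⟨ζ, hζl, hζ⟩ := finK_prim hl ℓ
  have hfgB : FG Bs (L ⊔ Bs : Subfield Ω) := FG.sup_right hfg hlB
  have hfgE : FG (E ⊔ Bs : Subfield Ω) (L ⊔ Bs : Subfield Ω) :=
    hfgB.mono le_sup_right (sup_le_sup_right hEL Bs)
  obtain ⟨N, hN⟩ := fk ℓ hfgE ((le_sup_left : E ≤ E ⊔ Bs) (hlE hζl)) hζ
  obtain ⟨x, hxX, hx⟩ := hinf (N + 1)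
  choose e he w hw hew using fun i => hXE _ (hxX i)
  choose r hr hrx using fun i => hpow _ (hxX i)
  have hx0 : ∀ i, x i ≠ 0 := fun i => (hX _ (hxX i)).2
  have he0 : ∀ i, e i ≠ 0 := by
    intro i h0
    have := hew i
    rw [h0, zero_mul] at this
    exact hx0 i this
  have hw0 : ∀ i, w i ≠ 0 := by
    intro i h0
    have := hew i
    rw [h0, zero_pow hℓ.ne', mul_zero] at this
    exact hx0 i this
  obtain ⟨i, j, hij, y, hy, hy0', hyij⟩ := hN e (fun i => ⟨(le_sup_left : E ≤ E ⊔ Bs) (he i),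
    he0 i, r i / w i, Subfield.div_mem _ (hr i) ((le_sup_left : L ≤ L ⊔ Bs) (hw i)), by
      rw [div_pow, hrx, hew]
      field_simp [hw0 i]⟩)
  have hyE : y ∈ E := by
    refine mem_of_pow_mem hlR hlE hlB hBs hfreeE hℓ hy ?_
    have h5 : y ^ ℓ = e i / e j := by
      rw [hyij]
      field_simp [he0 j]
    rw [h5]
    exact E.div_mem (he i) (he j)
  refine hx i j hij ⟨y * w i / w j, L.div_mem (L.mul_mem (hEL hyE) (hw i)) (hw j), ?_⟩
  rw [hew i, hew j, hyij, div_pow, mul_pow]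
  have h6 := pow_ne_zero ℓ (hw0 j)
  field_simp

/-- infinitely many classes of `L` die in a function field `κ` over `Bs`. -/
theorem ft_sub' [IsAlgClosed Ω] (ℓ : ℕ) [Fact ℓ.Prime] [NeZero (ℓ : Ω)]
    {l L Bs κ F : Subfield Ω}
    (hl : IsAlgClosed l) (hfg : FG l L) (hlB : l ≤ Bs) (hBs : IsAlgClosed Bs) {y : Ω}
    (hlF : l ≤ F) (hFL : F ≤ L) (hy : y ∈ L) (hL : ∀ a ∈ L, IsAlgebraic (adj F y) a)
    (h1 : Fre l F Bs) (h2 : ¬ IsAlgebraic F y)
    (h3 : IsAlgebraic (F ⊔ Bs : Subfield Ω) y) (hκ : FG Bs κ) (hLκ : L ≤ κ)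
    (X : Set Ω) (hX : ∀ x ∈ X, x ∈ L ∧ x ≠ 0)
    (hinf : ∀ n : ℕ, ∃ x : Fin n → Ω, (∀ i, x i ∈ X) ∧
      ∀ i j, i ≠ j → ¬ ∃ w ∈ L, x i = x j * w ^ ℓ)
    (hpow : ∀ x ∈ X, ∃ r ∈ κ, r ^ ℓ = x) : ∃ h ∈ L, h ∈ Bs ∧ h ∉ l := by
  classical
  have hℓ : 0 < ℓ := (Fact.out : ℓ.Prime).pos
  obtain ⟨ζ, hζl, hζ⟩ := finK_prim hl ℓ
  have hfgE : FG (L ⊔ Bs : Subfield Ω) κ := hκ.mono le_sup_right (sup_le hLκ hκ.le)
  obtain ⟨N, hN⟩ := fk ℓ hfgE ((le_sup_right : Bs ≤ L ⊔ Bs) (hlB hζl)) hζ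
  let X₀ : Set Ω := {u | (∃ x ∈ X, ∃ x' ∈ X, u = x / x') ∧ ∃ r ∈ L ⊔ Bs, r ^ ℓ = u}
  refine kill' ℓ hl hfg hlB hBs hlF hFL hy hL h1 h2 h3 X₀ ?_ ?_ ?_
  · rintro _ ⟨⟨x, hx, x', hx', rfl⟩, -⟩
    exact ⟨L.div_mem (hX x hx).1 (hX x' hx').1, div_ne_zero (hX x hx).2 (hX x' hx').2⟩
  · by_contra hcon
    push Not at hcon
    obtain ⟨n, hn⟩ := hcon
    have hn0 : n ≠ 0 := by
      rintro rfl
      obtain ⟨i, -⟩ := hn (fun i => i.elim0) (fun i => i.elim0)
      exact i.elim0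
    obtain ⟨m, rfl⟩ := Nat.exists_eq_succ_of_ne_zero hn0
    refine pigeon (fun x => x ∈ X) (fun x y => ∃ w ∈ L ⊔ Bs, x = y * w ^ ℓ)
      (fun x y => ∃ w ∈ L, x = y * w ^ ℓ) ?_ ?_ ?_ N m ?_ ?_ hinf
    · rintro x y hx hy ⟨w, hw, h⟩
      have hw0 : w ≠ 0 := by
        rintro rfl
        rw [zero_pow hℓ.ne', mul_zero] at h
        exact (hX x hx).2 h
      refine ⟨w⁻¹, Subfield.inv_mem _ hw, ?_⟩
      rw [h, inv_pow, mul_inv_cancel_right₀ (pow_ne_zero _ hw0)]
    · rintro x y z - - - ⟨w, hw, h⟩ ⟨w', hw', h'⟩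
      refine ⟨w' * w, Subfield.mul_mem _ hw' hw, ?_⟩
      rw [h, h', mul_pow, mul_assoc]
    · intro x _
      exact ⟨1, Subfield.one_mem _, by rw [one_pow, mul_one]⟩
    · intro x hx
      obtain ⟨i, j, hij, y, hy, -, hxy⟩ := hN x (fun i =>
        ⟨(le_sup_left : L ≤ L ⊔ Bs) (hX _ (hx i)).1, (hX _ (hx i)).2, by
          obtain ⟨r, hr, hrx⟩ := hpow _ (hx i)
          exact ⟨r, hr, hrx⟩⟩)
      exact ⟨i, j, hij, y, hy, hxy⟩
    · intro x hx hR
      have hx0 : ∀ i, x i ≠ 0 := fun i => (hX _ (hx i)).2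
      obtain ⟨i, j, hij, w, hw, hxw⟩ := hn (fun i => x i / x 0) (fun i => by
        refine ⟨⟨x i, hx i, x 0, hx 0, rfl⟩, ?_⟩
        obtain ⟨w, hw, h⟩ := hR i 0
        refine ⟨w, hw, ?_⟩
        rw [h]
        field_simp [hx0 0])
      refine ⟨i, j, hij, w, hw, ?_⟩
      have h0 := hx0 0
      have h5 : x i / x 0 = x j / x 0 * w ^ ℓ := hxw
      field_simp at h5
      exact h5
  · rintro _ ⟨-, h⟩
    exact h

end kill

end Vale.Agent.P019P
end

section

/-!
# Geometry of the ultrapower of an algebraically closed field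
-/

namespace Vale.Agent.P019P

open Vale.Agent.P019

set_option linter.style.haveILetI false
set_option linter.unusedSectionVars false

open Polynomial Filter

variable {Ω : Type*} [Field Ω] {I : Type*} {U : Ultrafilter I}

/-- linear disjointness in the ultrapower. -/
theorem e4g_lin {R P Q : Subfield Ω} (hR : IsAlgClosed R) (hQ : IsAlgClosed Q) (hRP : R ≤ P)
    (hRQ : R ≤ Q) (h : Fre R P Q) {ι : Type*} [Fintype ι] {q : ι → Gm U Ω}
    (hq : ∀ j, q j ∈ uSub U (fun _ => P))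
    (hind : LinearIndependent (uSub U (fun _ => R)) q) :
    LinearIndependent (uSub U (fun _ => Q)) q := by
  classical
  have hq' : ∀ j, ∃ f : I → Ω, gm U f = q j ∧ ∀ i, f i ∈ P := hq
  choose a ha haP using hq'
  rw [Fintype.linearIndependent_iff] at hind ⊢
  intro g hg j₀
  by_contra hgj
  have hc : ∀ j, ∃ f : I → Ω, gm U f = ((g j : uSub U (fun _ => Q)) : Gm U Ω) ∧ ∀ i, f i ∈ Q :=
    fun j => (g j).2
  choose c hc hcQ using hc
  have h1 : ∀ᶠ i in U, ∑ j, c j i * a j i = 0 := by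
    rw [← gm_eq_zero, gm_sum Finset.univ (fun j i => c j i * a j i), ← hg]
    refine Finset.sum_congr rfl fun j _ => ?_
    rw [gm_mul, hc, ha]
    rfl
  have h2 : ∀ᶠ i in U, c j₀ i ≠ 0 := by
    rw [Ultrafilter.eventually_not, ← gm_eq_zero, hc]
    exact fun h0 => hgj (Subtype.ext h0)
  have h3 : ∀ i, ∃ d : ι → Ω, (∀ j, d j ∈ R) ∧ ∑ j, d j * a j i = 0 ∧
      (∑ j, c j i * a j i = 0 → c j₀ i ≠ 0 → ∃ j, d j ≠ 0) := by
    intro i
    by_cases hi : ∑ j, c j i * a j i = 0 ∧ c j₀ i ≠ 0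
    · have h4 : ¬ LinearIndependent R (fun j => a j i) := by
        intro h5
        have h6 := Fre.indep hR hQ hRP hRQ h (fun j => haP j i) h5
        rw [Fintype.linearIndependent_iff] at h6
        have h7 := h6 (fun j => ⟨c j i, hcQ j i⟩) hi.1 j₀
        exact hi.2 (congrArg Subtype.val h7)
      rw [Fintype.not_linearIndependent_iff] at h4
      obtain ⟨d, hd, j, hj⟩ := h4
      exact ⟨fun j => (d j : Ω), fun j => (d j).2, hd,
        fun _ _ => ⟨j, fun h0 => hj (Subtype.ext h0)⟩⟩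
    · exact ⟨0, fun _ => R.zero_mem, by simp, fun h5 h6 => absurd ⟨h5, h6⟩ hi⟩
  choose d hdR hd0 hdne using h3
  have h4 : ∃ j, ∀ᶠ i in U, d i j ≠ 0 := by
    by_contra hcon
    have h5 : ∀ j, ∀ᶠ i in U, d i j = 0 := fun j => by
      by_contra h6
      exact hcon ⟨j, Ultrafilter.eventually_not.2 h6⟩
    have h6 : ∀ᶠ i in U, ∀ j, d i j = 0 := Filter.eventually_all.2 h5
    obtain ⟨i, hi1, hi2, hi3⟩ := (h1.and (h2.and h6)).exists
    obtain ⟨j, hj⟩ := hdne i hi1 hi2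
    exact hj (hi3 j)
  obtain ⟨j, hj⟩ := h4
  have h5 := hind (fun j => ⟨gm U (fun i => d i j), _, rfl, fun i => hdR i j⟩) (by
    have h6 : ∑ j, gm U (fun i => d i j) * gm U (a j) = 0 := by
      have h7 : gm U (fun i => ∑ j, d i j * a j i) = 0 := by
        rw [gm_eq_zero]
        exact Eventually.of_forall hd0
      rw [gm_sum Finset.univ (fun j i => d i j * a j i)] at h7
      rw [← h7]
      exact Finset.sum_congr rfl fun j _ => (gm_mul (fun i => d i j) (a j)).symm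
    rw [← h6]
    refine Finset.sum_congr rfl fun j _ => ?_
    rw [ha]
    rfl) j
  have h6 : gm U (fun i => d i j) = 0 := congrArg Subtype.val h5
  rw [gm_eq_zero] at h6
  obtain ⟨i, hi1, hi2⟩ := (h6.and hj).exists
  exact hi2 hi1

/-- algebraic independence through linear independence of monomials. -/
theorem e4g_alg {K : Type*} [Field K] {F : Subfield K} {r : ℕ} {p : Fin r → K} :
    AlgebraicIndependent F p ↔ ∀ s : Finset (Fin r →₀ ℕ),
      LinearIndependent F (fun m : s => (m : Fin r →₀ ℕ).prod fun i k => p i ^ k) := by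
  classical
  constructor
  · intro h s
    have h1 := (MvPolynomial.basisMonomials (Fin r) F).linearIndependent.map'
      (MvPolynomial.aeval p).toLinearMap (LinearMap.ker_eq_bot.2 h)
    have h2 := h1.comp (fun m : s => (m : Fin r →₀ ℕ)) Subtype.val_injective
    have h3 : ((MvPolynomial.aeval p : MvPolynomial (Fin r) F →ₐ[F] K).toLinearMap ∘
        (MvPolynomial.basisMonomials (Fin r) F)) ∘ (fun m : s => (m : Fin r →₀ ℕ)) =
        fun m : s => (m : Fin r →₀ ℕ).prod fun i k => p i ^ k := by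
      funext m
      simp [MvPolynomial.aeval_monomial]
    rwa [h3] at h2
  · intro h
    rw [algebraicIndependent_iff]
    intro f hf
    have h1 := Fintype.linearIndependent_iff.1 (h f.support) (fun m => f.coeff m) (by
      rw [← hf]
      have h2 : ∑ m : f.support, f.coeff (m : Fin r →₀ ℕ) •
          ((m : Fin r →₀ ℕ).prod fun i k => p i ^ k) =
          ∑ m ∈ f.support, f.coeff m • (m.prod fun i k => p i ^ k) :=
        Finset.sum_coe_sort f.support fun m => f.coeff m • (m.prod fun i k => p i ^ k)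
      rw [h2]
      conv_rhs => rw [f.as_sum, map_sum]
      refine Finset.sum_congr rfl fun m _ => ?_
      rw [MvPolynomial.aeval_monomial]
      rfl)
    ext m
    by_cases hm : m ∈ f.support
    · rw [h1 ⟨m, hm⟩]
      rfl
    · rw [MvPolynomial.notMem_support_iff.1 hm]
      rfl

/-- freeness in the ultrapower. -/
theorem gm_fre [IsAlgClosed Ω] {R P Q : Subfield Ω} (hR : IsAlgClosed R) (hQ : IsAlgClosed Q)
    (hRP : R ≤ P) (hRQ : R ≤ Q) (h : Fre R P Q) {r : ℕ} {p : Fin r → Gm U Ω}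
    (hp : ∀ i, p i ∈ uSub U (fun _ => P))
    (hind : AlgebraicIndependent (uSub U (fun _ => R)) p) :
    AlgebraicIndependent (uSub U (fun _ => Q)) p := by
  rw [e4g_alg] at hind ⊢
  intro s
  refine e4g_lin hR hQ hRP hRQ h (fun m => ?_) (hind s)
  exact prod_mem fun i _ => pow_mem (hp i) _

theorem e4g_mono {E F : Subfield Ω} (h : E ≤ F) :
    uSub U (fun _ => E) ≤ uSub U (fun _ => F) := by
  rintro _ ⟨f, rfl, hf⟩
  exact ⟨f, rfl, fun i => h (hf i)⟩

theorem e4g_snoc {K : Type*} [Field K] {r : ℕ} {N : Subfield K} {y : Fin r → K} {z : K}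
    (hy : AlgebraicIndependent N (Fin.snoc y z : Fin (r + 1) → K)) : z ∉ clx N y := by
  rw [algebraicIndependent_equiv' finSuccEquivLast
    (f := fun o : Option (Fin r) => o.elim z y)
    (g := (Fin.snoc y z : Fin (r + 1) → K)) (by
      funext i
      refine Fin.lastCases ?_ (fun j => ?_) i
      · simp
      · simp), AlgebraicIndependent.option_iff] at hy
  intro hz
  exact hy.2 ((isAlgebraic_adjoin_iff' N (Set.range y) z).2 (mem_rac.1 hz))

/-- finite sets have transcendence bases. -/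
theorem e4g_basis {K : Type*} [Field K] {R N : Subfield K} (S : Finset K)
    (hS : ∀ c ∈ S, c ∈ N) : ∃ (r : ℕ) (y : Fin r → K), (∀ i, y i ∈ N) ∧
      AlgebraicIndependent R y ∧ ∀ c ∈ S, c ∈ clx R y := by
  classical
  induction S using Finset.induction_on with
  | empty =>
    refine ⟨0, Fin.elim0, fun i => i.elim0, algebraicIndependent_empty_type, fun c hc => ?_⟩
    exact absurd hc (Finset.notMem_empty c)
  | insert b S _ ih =>
    obtain ⟨r, y, hyN, hy, hyS⟩ := ih fun c hc => hS c (Finset.mem_insert_of_mem hc)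
    by_cases hb : b ∈ clx R y
    · refine ⟨r, y, hyN, hy, fun c hc => ?_⟩
      rcases Finset.mem_insert.1 hc with rfl | hc
      · exact hb
      · exact hyS c hc
    · refine ⟨r + 1, Fin.snoc y b, fun i => ?_, indep_snoc hy hb, fun c hc => ?_⟩
      · refine Fin.lastCases ?_ (fun j => ?_) i
        · rw [Fin.snoc_last]
          exact hS b (Finset.mem_insert_self b S)
        · rw [Fin.snoc_castSucc]
          exact hyN j
      · have h1 : clx R y ≤ clx R (Fin.snoc y b : Fin (r + 1) → K) := by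
          refine clx_le (RAC_rac _) (le_clx _ _) fun j => ?_
          have h2 := mem_clx R (Fin.snoc y b : Fin (r + 1) → K) j.castSucc
          rwa [Fin.snoc_castSucc] at h2
        rcases Finset.mem_insert.1 hc with rfl | hc
        · have h2 := mem_clx R (Fin.snoc y c : Fin (r + 1) → K) (Fin.last r)
          rwa [Fin.snoc_last] at h2
        · exact h1 (hyS c hc)

/-- freeness of the ultrapowers. -/
theorem e4g_fre [IsAlgClosed Ω] {R P Q : Subfield Ω} (hR : IsAlgClosed R) (hQ : IsAlgClosed Q)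
    (hRP : R ≤ P) (hRQ : R ≤ Q) (h : Fre R P Q) :
    Fre (uSub U (fun _ => R)) (uSub U (fun _ => Q)) (uSub U (fun _ => P)) := by
  intro N hN hRN hNP a ha halg
  by_contra haN
  obtain ⟨C, hC, hCN⟩ := isAlgebraic_sup_finite (k := N)
    (L := (uSub U (fun _ => Q) : Set (Gm U Ω))) (z := a) (by
    rw [Subfield.closure_eq, sup_comm]
    exact halg)
  obtain ⟨r, y, hyN, hy, hyS⟩ := e4g_basis (R := uSub U (fun _ => R)) (N := N) C
    fun c hc => hC hc
  have h1 : IsAlgebraic (clx (uSub U (fun _ => R)) y ⊔ uSub U (fun _ => Q) :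
      Subfield (Gm U Ω)) a := by
    have h2 := hCN (clx (uSub U (fun _ => R)) y) fun c hc => hyS c hc
    rwa [Subfield.closure_eq] at h2
  have h2 : a ∉ clx (uSub U (fun _ => R)) y := fun h3 => haN (clx_le hN hRN hyN h3)
  have h3 : AlgebraicIndependent (uSub U (fun _ => Q))
      (Fin.snoc y a : Fin (r + 1) → Gm U Ω) := by
    refine gm_fre hR hQ hRP hRQ h (fun i => ?_) (indep_snoc hy h2)
    refine Fin.lastCases ?_ (fun j => ?_) i
    · rw [Fin.snoc_last]
      exact ha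
    · rw [Fin.snoc_castSucc]
      exact hNP (hyN j)
  refine e4g_snoc h3 ?_
  have h4 : clx (uSub U (fun _ => R)) y ⊔ uSub U (fun _ => Q) ≤
      clx (uSub U (fun _ => Q)) y := by
    refine sup_le (clx_le (RAC_rac _) ((e4g_mono hRQ).trans (le_clx _ _)) fun i => ?_)
      (le_clx _ _)
    exact mem_clx _ _ i
  exact RAC_rac _ a (isAlgebraic_mono h4 h1)

/-- one step. -/
theorem e4g_step {K : Type*} [Field K] [DecidableEq K] {R P Q : Subfield K} (hP : RAC P)
    (hRP : R ≤ P) (hRQ : R ≤ Q) (h : Fre R Q P) {T : Finset K} (hT : ∀ c ∈ T, c ∈ Q) {v : K}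
    (hv : v ∈ P) {x : K} (hxT : x ∈ rcl P T) (hxv : IsAlgebraic (adj Q v) x) :
    x ∈ rcl R (insert v T) := by
  classical
  obtain ⟨S, hSP, hSN⟩ := isAlgebraic_sup_finite (mem_rac.1 hxT)
  set C := rcl R (insert v T) with hC
  have hCR : RAC C := rcl_RAC _ _
  have h0 : x ∈ rcl C S := by
    refine mem_rac.2 (isAlgebraic_mono ?_ (hSN (Subfield.closure (S : Set K))
      Subfield.subset_closure))
    refine sup_le le_sup_right (le_sup_of_le_left (Subfield.closure_le.2 fun c hc => ?_))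
    exact mem_rcl (Finset.mem_insert_of_mem hc)
  refine chain_down (B := P) hCR (fun N => x ∈ N) ?_ S (fun c hc => hSP hc) h0
  intro S' hS' b hb hbN hx
  by_contra hxS
  have h1 : IsAlgebraic (adj (rcl C S') x) b :=
    exchange (fun h => hxS (rcl_RAC _ _ x h)) (mem_rac.1 hx)
  -- the common field
  set N := rcl R (insert v S') with hNdef
  have hNP : N ≤ P := by
    refine rcl_le hP hRP fun c hc => ?_
    rcases Finset.mem_insert.1 hc with rfl | hc
    · exact hv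
    · exact hS' c hc
  have hle : Q ⊔ N ≤ rac (Q ⊔ N) := le_rac _
  have h2 : rcl C S' ≤ rac (Q ⊔ N) := by
    refine rcl_le (RAC_rac _) (rcl_le (RAC_rac _) (hRQ.trans (le_sup_left.trans hle)) ?_) ?_
    · intro c hc
      rcases Finset.mem_insert.1 hc with rfl | hc
      · exact hle ((le_sup_right : N ≤ Q ⊔ N) (mem_rcl (Finset.mem_insert_self _ _)))
      · exact hle ((le_sup_left : Q ≤ Q ⊔ N) (hT c hc))
    · intro c hc
      exact hle ((le_sup_right : N ≤ Q ⊔ N) (mem_rcl (Finset.mem_insert_of_mem hc)))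
  have h3 : x ∈ rac (Q ⊔ N) := by
    have h4 : adj Q v ≤ rac (Q ⊔ N) := by
      refine (le_rac _).trans (RAC_adj_le (RAC_rac _) (le_sup_left.trans hle) ?_)
      exact hle ((le_sup_right : N ≤ Q ⊔ N) (mem_rcl (Finset.mem_insert_self _ _)))
    exact RAC_rac _ x (isAlgebraic_mono h4 hxv)
  have h5 : IsAlgebraic (Q ⊔ N : Subfield K) b := by
    refine mem_rac.1 (RAC_rac _ b (isAlgebraic_mono ?_ h1))
    exact (le_rac _).trans (RAC_adj_le (RAC_rac _) h2 h3)
  have h6 : b ∈ N := h N (rcl_RAC _ _) (le_rcl _ _) hNP b hb h5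
  apply hbN
  refine (rcl_le (rcl_RAC _ _) ?_ ?_ : N ≤ rcl C S') h6
  · exact (le_rcl R (insert v T)).trans (le_rcl C S')
  · intro c hc
    rcases Finset.mem_insert.1 hc with rfl | hc
    · exact le_rcl C S' (mem_rcl (Finset.mem_insert_self _ _))
    · exact mem_rcl hc

theorem e4g_rcl_mono {K : Type*} [Field K] {l : Subfield K} {S T : Finset K} (h : S ⊆ T) :
    rcl l S ≤ rcl l T :=
  rcl_le (rcl_RAC _ _) (le_rcl _ _) fun _ hc => mem_rcl (h hc)

theorem e4g_closed [IsAlgClosed Ω] {E : Subfield Ω} (hE : RAC E) : IsAlgClosed E := by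
  have h1 : IsAlgClosed (⊤ : Subfield Ω) :=
    IsAlgClosed.of_ringEquiv Ω (⊤ : Subfield Ω) Subfield.topEquiv.symm
  exact isAlgClosed_of_RAC h1 hE le_top

/-- the induction. -/
theorem e4g_ind [IsAlgClosed Ω] [DecidableEq Ω] [DecidableEq (Gm U Ω)] {k : Subfield Ω}
    (hk : IsAlgClosed k) {B : Finset Ω}
    (hB : Indp k B) {σ : Ω → Gm U Ω}
    (hσ : ∀ v ∈ B, ∃ f : I → Ω, gm U f = σ v ∧ ∀ i, rcl k {f i} = rcl k {v}) {x : Gm U Ω}
    (hx0 : x ∈ uSub U (fun _ => rcl k B))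
    (hx : ∀ v ∈ B, IsAlgebraic (adj (uSub U (fun _ => rcl k (B.erase v))) (σ v)) x)
    (T : Finset Ω) (hT : T ⊆ B) : x ∈ rcl (uSub U (fun _ => rcl k (B \ T))) (T.image σ) := by
  classical
  have hmem : ∀ v ∈ B, ∀ S : Finset Ω, v ∈ S → σ v ∈ uSub U (fun _ => rcl k S) := by
    intro v hv S hvS
    obtain ⟨f, hf, hfv⟩ := hσ v hv
    refine ⟨f, hf, fun i => ?_⟩
    have h1 : rcl k {v} ≤ rcl k S := e4g_rcl_mono (Finset.singleton_subset_iff.2 hvS)
    refine h1 ?_
    rw [← hfv i]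
    exact mem_rcl (Finset.mem_singleton_self _)
  induction T using Finset.induction_on with
  | empty =>
    refine le_rcl _ _ ?_
    rwa [Finset.sdiff_empty]
  | insert v T hvT ih =>
    have hTB : T ⊆ B := fun c hc => hT (Finset.mem_insert_of_mem hc)
    have hvB : v ∈ B := hT (Finset.mem_insert_self v T)
    have e1 : (B \ T) ∩ (B.erase v) = B \ (insert v T) := by
      ext c
      simp only [Finset.mem_inter, Finset.mem_sdiff, Finset.mem_erase, Finset.mem_insert]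
      tauto
    have hfre := rcl_fre hk hB (S := B \ T) (T := B.erase v) Finset.sdiff_subset
      (Finset.erase_subset v B)
    rw [e1] at hfre
    have hRP : rcl k (B \ insert v T) ≤ rcl k (B \ T) :=
      e4g_rcl_mono (by rw [← e1]; exact Finset.inter_subset_left)
    have hRQ : rcl k (B \ insert v T) ≤ rcl k (B.erase v) :=
      e4g_rcl_mono (by rw [← e1]; exact Finset.inter_subset_right)
    have hPc : RAC (uSub U (fun _ => rcl k (B \ T))) :=
      RAC_of_isAlgClosed _ (isAlgClosed_uSub fun _ => e4g_closed (rcl_RAC _ _))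
    rw [Finset.image_insert]
    refine e4g_step hPc (e4g_mono hRP) (e4g_mono hRQ)
      (e4g_fre (e4g_closed (rcl_RAC _ _)) (e4g_closed (rcl_RAC _ _)) hRP hRQ hfre) ?_ ?_ (ih hTB)
      (hx v hvB)
    · intro c hc
      obtain ⟨w, hw, rfl⟩ := Finset.mem_image.1 hc
      refine hmem w (hTB hw) _ (Finset.mem_erase.2 ⟨?_, hTB hw⟩)
      rintro rfl
      exact hvT hw
    · exact hmem v hvB _ (Finset.mem_sdiff.2 ⟨hvB, hvT⟩)

/-- the main geometric lemma. -/
theorem geo [IsAlgClosed Ω] [DecidableEq Ω] {k : Subfield Ω} (hk : IsAlgClosed k) {B : Finset Ω}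
    (hB : Indp k B) {σ : Ω → Gm U Ω}
    (hσ : ∀ v ∈ B, ∃ f : I → Ω, gm U f = σ v ∧ ∀ i, rcl k {f i} = rcl k {v}) {x : Gm U Ω}
    (hx0 : x ∈ uSub U (fun _ => rcl k B))
    (hx : ∀ v ∈ B, IsAlgebraic (adj (uSub U (fun _ => rcl k (B.erase v))) (σ v)) x) :
    ∃ T : Finset (Gm U Ω), (∀ y ∈ T, ∃ v ∈ B, y = σ v) ∧
      IsAlgebraic (gsp (uSub U (fun _ => k)) T) x := by
  classical
  refine ⟨B.image σ, fun y hy => ?_, ?_⟩
  · obtain ⟨v, hv, rfl⟩ := Finset.mem_image.1 hy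
    exact ⟨v, hv, rfl⟩
  · have h1 := e4g_ind hk hB hσ hx0 hx B (Finset.Subset.refl B)
    rw [Finset.sdiff_self, rcl_empty (RAC_of_isAlgClosed k hk)] at h1
    exact isAlgebraic_mono (le_pf _) (mem_rac.1 h1)

end Vale.Agent.P019P
end

section

/-!
# Elements of bounded degree in the ultrapower
-/

namespace Vale.Agent.P019P

open Vale.Agent.P019

set_option linter.style.haveILetI false
set_option linter.unusedSectionVars false

open Polynomial Filter

variable {Ω : Type*} [Field Ω] {I : Type*} {U : Ultrafilter I}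

section e4r

variable [PerfectField Ω] {k : Subfield Ω}

/-- perfectness of ultraproducts. -/
theorem e4r_perfect {R : I → Subfield Ω} (hR : ∀ i, PerfectField (R i)) :
    PerfectField (uSub U R) := by
  refine perfect_of_root ?_
  rintro _ ⟨f, rfl, hf⟩
  have h : ∀ i, ∃ y ∈ R i, y ^ ringExpChar Ω = f i := by
    intro i
    haveI := hR i
    obtain ⟨y, hy, hyz⟩ := exists_root_q (R i) (hf i) 1
    exact ⟨y, hy, by rwa [pow_one] at hyz⟩
  choose y hy hyf using h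
  refine ⟨gm U y, ⟨y, rfl, hy⟩, ?_⟩
  rw [ringExpChar_gm, ← gm_pow]
  exact congrArg _ (funext hyf)

/-- the twist of a member. -/
theorem e4r_mem {B' : Finset Ω} {v w : Ω} (hv : v ∈ gsp k B') {a b : ℕ}
    (h : w ^ (ringExpChar Ω) ^ a = v ^ (ringExpChar Ω) ^ b) : w ∈ gsp k B' := by
  haveI := gsp_perfect k B'
  refine mem_of_pow_q (n := a) ?_
  rw [h]
  exact pow_mem hv _

theorem e4r_uSub {B' : Finset Ω} {v : Ω} (hv : v ∈ B') {y : Gm U Ω}
    (hy : ∃ f : I → Ω, gm U f = y ∧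
      ∀ i, ∃ a b : ℕ, (f i) ^ (ringExpChar Ω) ^ a = v ^ (ringExpChar Ω) ^ b) :
    y ∈ uSub U (fun _ => gsp k B') := by
  obtain ⟨f, hf, h⟩ := hy
  refine ⟨f, hf, fun i => ?_⟩
  obtain ⟨a, b, hab⟩ := h i
  exact e4r_mem (mem_gsp hv) hab

theorem e4r_gsp_le {B' : Finset Ω} {σ : Ω → Gm U Ω}
    (hσ : ∀ v ∈ B', ∃ f : I → Ω, gm U f = σ v ∧
      ∀ i, ∃ a b : ℕ, (f i) ^ (ringExpChar Ω) ^ a = v ^ (ringExpChar Ω) ^ b)
    {T : Finset (Gm U Ω)} (hT : ∀ y ∈ T, ∃ v ∈ B', y = σ v) :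
    gsp (uSub U (fun _ => k)) T ≤ uSub U (fun _ => gsp k B') := by
  haveI := gsp_perfect k B'
  refine gsp_le (uSub_mono (le_gsp k B')) fun y hy => ?_
  obtain ⟨v, hv, rfl⟩ := hT y hy
  exact e4r_uSub hv (hσ v hv)

theorem e4r_transc {B B' : Finset Ω} (hB : Indp k B) (hB' : B' ⊆ B) {v : Ω} (hv : v ∈ B)
    (hvB' : v ∉ B') {y : Gm U Ω} (hy : ∃ f : I → Ω, gm U f = y ∧
      ∀ i, ∃ a b : ℕ, (f i) ^ (ringExpChar Ω) ^ a = v ^ (ringExpChar Ω) ^ b) :
    ¬ IsAlgebraic (uSub U (fun _ => gsp k B')) y := by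
  obtain ⟨f, rfl, h⟩ := hy
  refine gm_transc (E := fun _ => gsp k B') (Eventually.of_forall fun i hi => ?_)
  obtain ⟨a, b, hab⟩ := h i
  have h1 : IsAlgebraic (gsp k B') (v ^ (ringExpChar Ω) ^ b) := by
    rw [← hab]
    exact isAlgebraic_pow_iff.2 hi
  exact hB B' hB' v hv hvB' (isAlgebraic_pow_iff.1 h1)

theorem e4r_adj (G : Subfield Ω) {v w : Ω} {a b : ℕ}
    (h : w ^ (ringExpChar Ω) ^ a = v ^ (ringExpChar Ω) ^ b) : adj G v ≤ adj G w := by
  refine adj_le (le_adj G w) ?_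
  refine mem_of_pow_q (n := b) ?_
  rw [← h]
  exact pow_mem (mem_adj G w) _

end e4r

/-- the twisted elements are independent. -/
theorem gm_indp [PerfectField Ω] {k : Subfield Ω} [PerfectField k] {B : Finset Ω}
    (hB : Indp k B) {σ : Ω → Gm U Ω}
    (hσ : ∀ v ∈ B, ∃ f : I → Ω, gm U f = σ v ∧
      ∀ i, ∃ a b : ℕ, (f i) ^ (ringExpChar Ω) ^ a = v ^ (ringExpChar Ω) ^ b) :
    ∃ S : Finset (Gm U Ω), (∀ y, y ∈ S ↔ ∃ v ∈ B, y = σ v) ∧ S.card = B.card ∧
      Indp (uSub U (fun _ => k)) S := by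
  classical
  refine ⟨B.image σ, fun y => ?_, ?_, ?_⟩
  · rw [Finset.mem_image]
    exact ⟨fun ⟨v, hv, h⟩ => ⟨v, hv, h.symm⟩, fun ⟨v, hv, h⟩ => ⟨v, hv, h.symm⟩⟩
  · refine Finset.card_image_of_injOn ?_
    intro v hv w hw hvw
    by_contra hne
    refine e4r_transc hB (B' := {w}) (Finset.singleton_subset_iff.2 hw) hv
      (fun h => hne (Finset.mem_singleton.1 h)) (hσ v hv) ?_
    refine isAlgebraic_of_mem ?_
    rw [show σ v = σ w from hvw]
    exact e4r_uSub (Finset.mem_singleton_self w) (hσ w hw)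
  · intro T hT y hy hyT halg
    obtain ⟨v, hv, rfl⟩ := Finset.mem_image.1 hy
    have hsub : B.filter (fun w => σ w ∈ T) ⊆ B := Finset.filter_subset _ _
    refine e4r_transc hB hsub hv (fun h => hyT (Finset.mem_filter.1 h).2) (hσ v hv) ?_
    refine isAlgebraic_mono (e4r_gsp_le (fun w hw => hσ w (hsub hw)) fun z hz => ?_) halg
    obtain ⟨w, hw, rfl⟩ := Finset.mem_image.1 (hT hz)
    exact ⟨w, Finset.mem_filter.2 ⟨hw, hz⟩, rfl⟩

/-- the elements of the ultraproduct of `k(B)` which are algebraic over `Λ(σ)`. -/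
theorem gsp_rac_gm [PerfectField Ω] {k : Subfield Ω} [PerfectField k]
    {B : Finset Ω} (hB : Indp k B) {σ : Ω → Gm U Ω}
    (hσ : ∀ v ∈ B, ∃ f : I → Ω, gm U f = σ v ∧
      ∀ i, ∃ a b : ℕ, (f i) ^ (ringExpChar Ω) ^ a = v ^ (ringExpChar Ω) ^ b)
    {S : Finset (Gm U Ω)} (hS : ∀ y, y ∈ S ↔ ∃ v ∈ B, y = σ v) {x : Gm U Ω}
    (hx : x ∈ uSub U (fun _ => gsp k B))
    (halg : IsAlgebraic (gsp (uSub U (fun _ => k)) S) x) :
    x ∈ gsp (uSub U (fun _ => k)) S := by
  classical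
  have key : ∀ B' : Finset Ω, B' ⊆ B → ∀ z ∈ uSub U (fun _ => gsp k B'),
      IsAlgebraic (gsp (uSub U (fun _ => k)) (B'.image σ)) z →
      z ∈ gsp (uSub U (fun _ => k)) (B'.image σ) := by
    intro B'
    induction B' using Finset.induction_on with
    | empty =>
      intro _ z hz _
      rw [gsp_empty] at hz
      exact le_gsp _ _ hz
    | insert v B' hvB' ih =>
      intro hsub z hz hzalg
      have hsub' : B' ⊆ B := (Finset.subset_insert v B').trans hsub
      have hv : v ∈ B := hsub (Finset.mem_insert_self v B')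
      have ih' := ih hsub'
      obtain ⟨f, hf, hfv⟩ := hσ v hv
      haveI i1 : PerfectField (gsp k B') := gsp_perfect k B'
      haveI i2 : PerfectField (gsp (uSub U (fun _ => k)) (B'.image σ)) := gsp_perfect _ _
      have hAB : gsp (uSub U (fun _ => k)) (B'.image σ) ≤ uSub U (fun _ => gsp k B') := by
        refine e4r_gsp_le (fun w hw => hσ w (hsub' hw)) fun y hy => ?_
        obtain ⟨w, hw, rfl⟩ := Finset.mem_image.1 hy
        exact ⟨w, hw, rfl⟩
      have htr : ∀ᶠ i : I in U, ¬ IsAlgebraic (gsp k B') (f i) := by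
        refine Eventually.of_forall fun i hi => ?_
        obtain ⟨a, b, hab⟩ := hfv i
        have h1 : IsAlgebraic (gsp k B') (v ^ (ringExpChar Ω) ^ b) := by
          rw [← hab]
          exact isAlgebraic_pow_iff.2 hi
        exact hB B' hsub' v hv hvB' (isAlgebraic_pow_iff.1 h1)
      have hz1 : z ∈ uSub U (fun i => adj (gsp k B') (f i)) := by
        obtain ⟨g, hg, hgm⟩ := hz
        refine ⟨g, hg, fun i => ?_⟩
        obtain ⟨a, b, hab⟩ := hfv i
        have h2 := hgm i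
        rw [gsp_insert] at h2
        exact e4r_adj (gsp k B') hab h2
      rw [Finset.image_insert, gsp_insert, ← hf] at hzalg ⊢
      have hz2 : z ∈ adj (uSub U (fun _ => gsp k B')) (gm U f) :=
        rat_gm (E := fun _ => gsp k B') (g := f) htr hz1 (isAlgebraic_mono (adj_mono hAB _) hzalg)
      exact var_rac hAB ih' (gm_transc (E := fun _ => gsp k B') (g := f) htr) hz2 hzalg
  have hSB : S = B.image σ := by
    ext y
    rw [hS, Finset.mem_image]
    exact ⟨fun ⟨v, hv, h⟩ => ⟨v, hv, h.symm⟩, fun ⟨v, hv, h⟩ => ⟨v, hv, h.symm⟩⟩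
  rw [hSB] at halg ⊢
  exact key B subset_rfl x hx halg

/-- a common bound of the degrees over the ultraproduct. -/
theorem e4r_deg {G : Subfield Ω} {R : I → Subfield Ω} {d : ℕ}
    (hd : ∀ i, ∀ c ∈ R i, ∃ p : G[X], p.Monic ∧ p.natDegree ≤ d ∧ aeval c p = 0)
    {x : Gm U Ω} (hx : x ∈ uSub U R) :
    ∃ P : (uSub U (fun _ => G))[X], P.Monic ∧ P.natDegree ≤ d ∧ aeval x P = 0 := by
  obtain ⟨f, rfl, hf⟩ := hx
  have h1 : ∀ i, ∃ c : ℕ → G, (f i) ^ d + ∑ j ∈ Finset.range d, (c j : Ω) * (f i) ^ j = 0 := by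
    intro i
    obtain ⟨p, hp, hpd, hp0⟩ := hd i (f i) (hf i)
    set q : G[X] := p * X ^ (d - p.natDegree) with hq
    have hqm : q.Monic := hp.mul (monic_X_pow _)
    have hqd : q.natDegree = d := by
      rw [hq, hp.natDegree_mul (monic_X_pow _), natDegree_X_pow]
      omega
    refine ⟨q.coeff, ?_⟩
    have h2 : aeval (f i) q = 0 := by rw [hq, map_mul, hp0, zero_mul]
    conv_lhs at h2 => rw [hqm.as_sum, hqd]
    rw [map_add, map_pow, aeval_X, map_sum] at h2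
    rw [← h2]
    congr 1
    refine Finset.sum_congr rfl fun j _ => ?_
    rw [map_mul, aeval_C, map_pow, aeval_X]
    rfl
  choose c hc using h1
  obtain ⟨b, hb⟩ : ∃ b : ℕ → uSub U (fun _ => G), ∀ j, ((b j : uSub U (fun _ => G)) : Gm U Ω) =
      gm U (fun i => (c i j : Ω)) :=
    ⟨fun j => ⟨gm U (fun i => (c i j : Ω)), gm_mem_uSub.2 (Eventually.of_forall fun i =>
      (c i j).2)⟩, fun j => rfl⟩
  let P : (uSub U (fun _ => G))[X] := X ^ d + ∑ j ∈ Finset.range d, C (b j) * X ^ j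
  have hlt : (∑ j ∈ Finset.range d, C (b j) * X ^ j).degree < (d : WithBot ℕ) := by
    refine (degree_sum_le _ _).trans_lt ?_
    rw [Finset.sup_lt_iff (by exact_mod_cast WithBot.bot_lt_coe d)]
    intro j hj
    refine (degree_C_mul_X_pow_le _ _).trans_lt ?_
    exact_mod_cast Finset.mem_range.1 hj
  refine ⟨P, monic_X_pow_add hlt, ?_, ?_⟩
  · exact natDegree_le_of_degree_le
      ((degree_add_le _ _).trans (max_le (degree_X_pow_le d) hlt.le))
  · have h2 : aeval (gm U f) P = gm U (fun i => (f i) ^ d +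
        ∑ j ∈ Finset.range d, (c i j : Ω) * (f i) ^ j) := by
      rw [gm_add, gm_pow, gm_sum, map_add, map_pow, aeval_X, map_sum]
      congr 1
      refine Finset.sum_congr rfl fun j _ => ?_
      rw [map_mul, map_pow, aeval_X, aeval_C, gm_mul, gm_pow, ← hb]
      rfl
    rw [h2]
    refine (congrArg (gm U) (funext hc)).trans ?_
    exact map_zero (gm U)

/-- the degree over a relatively algebraically closed subfield. -/
theorem e4r_minpoly {K : Type*} [Field K] {A B : Subfield K} (hAB : A ≤ B)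
    (hrac : ∀ z ∈ B, IsAlgebraic A z → z ∈ A) {x : K} (hx : IsAlgebraic A x) {d : ℕ}
    {P : B[X]} (hP : P.Monic) (hPd : P.natDegree ≤ d) (hP0 : aeval x P = 0) :
    (minpoly A x).natDegree ≤ d := by
  have hxB : IsAlgebraic B x := isAlgebraic_mono hAB hx
  set m := minpoly B x with hm
  have hmm : m.Monic := minpoly.monic hxB.isIntegral
  have hmd : m.natDegree ≤ d :=
    (natDegree_le_of_dvd (minpoly.dvd B x hP0) hP.ne_zero).trans hPd
  set Q := minpoly A x with hQ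
  have hQm : Q.Monic := minpoly.monic hx.isIntegral
  have hdvd : m ∣ Q.map (Subfield.inclusion hAB) := by
    refine minpoly.dvd B x ?_
    rw [uvar_aeval_map]
    exact minpoly.aeval A x
  have hdvd2 : m.map B.subtype ∣ Q.map (algebraMap A K) := by
    have h1 := map_dvd (mapRingHom B.subtype) hdvd
    have h2 : (Q.map (Subfield.inclusion hAB)).map B.subtype = Q.map (algebraMap A K) := by
      rw [Polynomial.map_map]
      rfl
    rw [← h2]
    exact h1
  have hint : ∀ i, ((m.coeff i : B) : K) ∈ A := by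
    intro i
    apply hrac _ (m.coeff i).2
    have h1 := isIntegral_coeff_of_dvd Q (m.map B.subtype) hQm (hmm.map _) hdvd2 i
    rw [coeff_map] at h1
    exact h1.isAlgebraic
  obtain ⟨q, hq⟩ : ∃ q : A[X], q.map (Subfield.inclusion hAB) = m := by
    have h1 : m ∈ lifts (Subfield.inclusion hAB) := by
      rw [lifts_iff_coeff_lifts]
      intro i
      exact ⟨⟨_, hint i⟩, Subtype.ext rfl⟩
    exact h1
  have hq0 : aeval x q = 0 := by
    rw [← uvar_aeval_map hAB, hq]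
    exact minpoly.aeval B x
  have hqd : q.natDegree = m.natDegree := by
    rw [← hq, natDegree_map]
  have hqne : q ≠ 0 := by
    rintro rfl
    rw [Polynomial.map_zero] at hq
    exact hmm.ne_zero hq.symm
  calc Q.natDegree ≤ q.natDegree := natDegree_le_of_dvd (minpoly.dvd A x hq0) hqne
    _ = m.natDegree := hqd
    _ ≤ d := hmd

/-- the elements of bounded degree. -/
theorem gm_fin [PerfectField Ω] {k : Subfield Ω} [PerfectField k]
    {B : Finset Ω} (hB : Indp k B) {σ : Ω → Gm U Ω}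
    (hσ : ∀ v ∈ B, ∃ f : I → Ω, gm U f = σ v ∧
      ∀ i, ∃ a b : ℕ, (f i) ^ (ringExpChar Ω) ^ a = v ^ (ringExpChar Ω) ^ b)
    {S : Finset (Gm U Ω)} (hS : ∀ y, y ∈ S ↔ ∃ v ∈ B, y = σ v) {R : I → Subfield Ω}
    (hR : ∀ i, gsp k B ≤ R i) (hRp : ∀ i, PerfectField (R i)) {d : ℕ}
    (hd : ∀ i, ∀ c ∈ R i, ∃ p : (gsp k B)[X], p.Monic ∧ p.natDegree ≤ d ∧ aeval c p = 0) :
    FG (uSub U (fun _ => k)) (uSub U R ⊓ rac (gsp (uSub U (fun _ => k)) S) : Subfield (Gm U Ω)) := by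
  set P : Subfield (Gm U Ω) := gsp (uSub U (fun _ => k)) S with hPdef
  haveI i1 : PerfectField P := gsp_perfect _ _
  haveI i2 : PerfectField (uSub U R) := e4r_perfect hRp
  haveI i3 : PerfectField (rac P) := perfect_of_RAC (RAC_rac P)
  haveI i4 : PerfectField (uSub U R ⊓ rac P : Subfield (Gm U Ω)) := perfect_inf
  have hPF : P ≤ uSub U (fun _ => gsp k B) :=
    e4r_gsp_le hσ fun y hy => (hS y).1 hy
  have hFR : uSub U (fun _ => gsp k B) ≤ uSub U R := by
    rintro _ ⟨f, rfl, hf⟩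
    exact ⟨f, rfl, fun i => hR i (hf i)⟩
  have hPκ : P ≤ uSub U R ⊓ rac P := le_inf (hPF.trans hFR) (le_rac P)
  have hrac : ∀ z ∈ uSub U (fun _ => gsp k B), IsAlgebraic P z → z ∈ P :=
    fun z hz hz' => gsp_rac_gm hB hσ hS hz hz'
  obtain ⟨γ, hγ, hγκ⟩ := bd_prim (d := d) hPκ (fun r hr => mem_rac.1 (Subfield.mem_inf.1 hr).2)
    (fun r hr => by
      obtain ⟨p, hp, hpd, hp0⟩ := e4r_deg hd (Subfield.mem_inf.1 hr).1
      exact e4r_minpoly hPF hrac (mem_rac.1 (Subfield.mem_inf.1 hr).2) hp hpd hp0)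
  have heq : (uSub U R ⊓ rac P : Subfield (Gm U Ω)) = adj P γ :=
    le_antisymm (hγκ.trans (le_pf _)) (adj_le hPκ hγ)
  rw [heq]
  exact (gsp_fg _ S).adj_right γ

end Vale.Agent.P019P
end

section

/-!
# The field theoretic lemma in any transcendence degree
-/

namespace Vale.Agent.P019P

open Vale.Agent.P019

set_option linter.style.haveILetI false
set_option linter.unusedSectionVars false

open Polynomial Filter

section e4b

universe u

variable {K Ω : Type u} [Field K] [Field Ω] (j : K →+* Ω)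

theorem e4b_closed_map {l : Subfield K} (hl : IsAlgClosed l) : IsAlgClosed (l.map j) := by
  let e0 : l →+* l.map j := (j.comp l.subtype).codRestrict (l.map j) fun x => ⟨x, x.2, rfl⟩
  let e : l ≃+* l.map j := RingEquiv.ofBijective e0 ⟨e0.injective, by
    rintro ⟨_, ⟨x, hx, rfl⟩⟩
    exact ⟨⟨x, hx⟩, rfl⟩⟩
  exact IsAlgClosed.of_ringEquiv _ _ e

theorem e4b_fg_map [PerfectField K] [PerfectField Ω] {l L : Subfield K}
    (h : FG l L) : FG (l.map j) (L.map j) := by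
  classical
  haveI : PerfectField L := h.perfect
  have hlL := h.le
  obtain ⟨S, hS⟩ := h
  have hSL : ∀ x ∈ S, x ∈ L := by
    intro x hx
    rw [hS]
    exact (le_sup_right.trans (le_pf _) : Subfield.closure (S : Set K) ≤ _)
      (Subfield.subset_closure hx)
  refine ⟨S.image j, le_antisymm ?_ ?_⟩
  · conv_lhs => rw [hS]
    refine (map_pf_le j _).trans (pf_mono ?_)
    rw [Subfield.map_le_iff_le_comap]
    refine sup_le ?_ ?_
    · rw [← Subfield.map_le_iff_le_comap]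
      exact le_sup_left
    · rw [Subfield.closure_le]
      intro x hx
      exact (le_sup_right : Subfield.closure ((S.image j : Finset Ω) : Set Ω) ≤ _)
        (Subfield.subset_closure (by simpa using ⟨x, hx, rfl⟩))
  · haveI : PerfectField (L.map j) := perfect_map j _
    refine pf_le (sup_le (sub_map_mono j hlL) ?_)
    rw [Subfield.closure_le]
    intro x hx
    obtain ⟨y, hy, rfl⟩ := by simpa using hx
    exact ⟨y, hSL y hy, rfl⟩

/-- freeness and embeddings. -/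
theorem e4b_fre_map {l A B : Subfield K} (h : Fre l A B) :
    Fre (l.map j) (A.map j) (B.map j) := by
  intro N hN hlN hNB a ha halg
  obtain ⟨a0, ha0, rfl⟩ := ha
  have hNe : N = (N.comap j).map j := by
    apply le_antisymm
    · intro z hz
      obtain ⟨z0, -, rfl⟩ := hNB hz
      exact ⟨z0, hz, rfl⟩
    · rintro _ ⟨z, hz, rfl⟩
      exact hz
  refine h (N.comap j) ?_ ?_ ?_ a0 ha0 ?_
  · intro z hz
    refine hN (j z) ?_
    rw [hNe]
    exact isAlgebraic_map j hz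
  · intro z hz
    exact hlN ⟨z, hz, rfl⟩
  · intro z hz
    obtain ⟨z0, hz0, hzz⟩ := hNB hz
    rwa [← j.injective hzz]
  · apply isAlgebraic_of_map j
    rw [Subfield.map_sup, ← hNe]
    exact halg

end e4b

section e4b2

variable {K : Type*} [Field K] [PerfectField K]

/-- independent elements generate a free subfield. -/
theorem e4b_fre_gsp {l Λ : Subfield K} [PerfectField l] [PerfectField Λ] (hlΛ : l ≤ Λ)
    {B : Finset K} (hB : Indp Λ B) (S : Finset K) (hS : S ⊆ B) : Fre l (gsp l S) Λ := by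
  classical
  induction S using Finset.induction_on with
  | empty =>
    intro N hN hlN _ a _ halg
    rw [gsp_empty, sup_eq_right.2 hlN] at halg
    exact hN a halg
  | insert v S hvS ih =>
    have hSB : S ⊆ B := (Finset.subset_insert v S).trans hS
    refine (ih hSB).step (y := v) ?_ ?_
    · intro a ha
      rw [gsp_insert] at ha
      exact isAlgebraic_of_mem ha
    · intro halg
      refine hB S hSB v (hS (Finset.mem_insert_self v S)) hvS (isAlgebraic_mono ?_ halg)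
      haveI := gsp_perfect Λ S
      exact sup_le (gsp_le (hlΛ.trans (le_gsp Λ S)) fun x hx => mem_gsp hx) (le_gsp Λ S)

/-- a maximal part of `B` independent over `Λ`. -/
theorem e4b_max (Λ : Subfield K) (B : Finset K) :
    ∃ B1 ⊆ B, Indp Λ B1 ∧ ∀ b ∈ B, IsAlgebraic (gsp Λ B1) b := by
  classical
  have hne : (B.powerset.filter fun S => Indp Λ S).Nonempty :=
    ⟨∅, Finset.mem_filter.2 ⟨Finset.empty_mem_powerset B, fun S _ v hv =>
      absurd hv (Finset.notMem_empty v)⟩⟩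
  obtain ⟨B1, hB1, hmax⟩ := Finset.exists_max_image _ Finset.card hne
  obtain ⟨h1, h2⟩ := Finset.mem_filter.1 hB1
  refine ⟨B1, Finset.mem_powerset.1 h1, h2, fun b hb => ?_⟩
  by_contra hcon
  have hbB : b ∉ B1 := fun h => hcon (isAlgebraic_of_mem (mem_gsp h))
  have h3 := hmax (insert b B1) (Finset.mem_filter.2 ⟨Finset.mem_powerset.2
    (Finset.insert_subset hb (Finset.mem_powerset.1 h1)), h2.insert hcon⟩)
  rw [Finset.card_insert_of_notMem hbB] at h3
  omega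

end e4b2

/-- the general form of `ft`: `L` of transcendence degree `m + 1` over `l`, `κ` algebraic over
`Λ L` and of transcendence degree `m` over `Λ`. -/
theorem ftn {κ : Type*} [Field κ] [PerfectField κ] (ℓ : ℕ) [Fact ℓ.Prime] [NeZero (ℓ : κ)]
    {Λ : Subfield κ} (hΛ : IsAlgClosed Λ) (hfgκ : FG Λ (⊤ : Subfield κ)) {l L : Subfield κ}
    (hl : IsAlgClosed l) (hlΛ : l ≤ Λ) (hfg : FG l L) {m : ℕ} (htd : Td Λ m) {B : Finset κ}
    (hB : Indp l B) (hBc : B.card = m + 1) (hBL : ∀ x ∈ B, x ∈ L)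
    (hLB : ∀ z ∈ L, IsAlgebraic (gsp l B) z)
    (halg : ∀ z : κ, IsAlgebraic (Λ ⊔ L : Subfield κ) z)
    (hinf : ∀ N : ℕ, ∃ x : Fin N → κ, (∀ i, x i ∈ L ∧ x i ≠ 0 ∧ ∃ h : κ, h ^ ℓ = x i) ∧
      ∀ i j, i ≠ j → ¬ ∃ w ∈ L, x i = x j * w ^ ℓ) : ∃ e ∈ L, e ∈ Λ ∧ e ∉ l := by
  classical
  haveI : PerfectField Λ := perfect_of_RAC (RAC_of_isAlgClosed Λ hΛ)
  haveI : PerfectField l := perfect_of_RAC (RAC_of_isAlgClosed l hl)
  haveI : PerfectField L := hfg.perfect
  obtain ⟨B1, hB1B, hB1, hmax⟩ := e4b_max Λ B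
  have hB1t : ∀ z : κ, IsAlgebraic (gsp Λ B1) z := by
    intro z
    have h1 : gsp l B ≤ rac (gsp Λ B1) :=
      gsp_le (hlΛ.trans ((le_gsp Λ B1).trans (le_rac _))) fun x hx => mem_rac.2 (hmax x hx)
    have h2 : Λ ⊔ L ≤ rac (gsp Λ B1) := sup_le ((le_gsp Λ B1).trans (le_rac _)) fun x hx =>
      mem_rac.2 (isAlgebraic_rac (isAlgebraic_mono h1 (hLB x hx)))
    exact isAlgebraic_rac (isAlgebraic_mono h2 (halg z))
  have hcard : B1.card = m := Td.unique ⟨B1, rfl, hB1, hB1t⟩ htd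
  obtain ⟨y, hyB, hyB1⟩ : ∃ y ∈ B, y ∉ B1 :=
    Finset.exists_mem_notMem_of_card_lt_card (by omega)
  have hins : insert y B1 = B := by
    refine Finset.eq_of_subset_of_card_le (Finset.insert_subset hyB hB1B) ?_
    rw [Finset.card_insert_of_notMem hyB1]
    omega
  haveI := gsp_perfect l B1
  have hyF : ¬ IsAlgebraic (gsp l B1) y := hB B1 hB1B y hyB hyB1
  have hFL : gsp l B1 ≤ L := gsp_le hfg.le fun x hx => hBL x (hB1B hx)
  have hyΛ : IsAlgebraic (gsp l B1 ⊔ Λ : Subfield κ) y := by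
    refine isAlgebraic_mono ?_ (hB1t y)
    exact gsp_le le_sup_right fun x hx =>
      (le_sup_left : gsp l B1 ≤ gsp l B1 ⊔ Λ) (mem_gsp hx)
  let j : κ →+* AlgebraicClosure κ := algebraMap κ (AlgebraicClosure κ)
  haveI : NeZero (ℓ : AlgebraicClosure κ) := ⟨by
    rw [← map_natCast j, Ne, map_eq_zero]
    exact NeZero.ne (ℓ : κ)⟩
  obtain ⟨_, ⟨e, heL, rfl⟩, heΛ, hel⟩ := ft_sub' ℓ (l := l.map j) (L := L.map j)
    (Bs := Λ.map j) (κ := (⊤ : Subfield κ).map j) (F := (gsp l B1).map j) (y := j y)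
    (e4b_closed_map j hl) (e4b_fg_map j hfg) (sub_map_mono j hlΛ) (e4b_closed_map j hΛ)
    (sub_map_mono j (le_gsp l B1)) (sub_map_mono j hFL) ⟨y, hBL y hyB, rfl⟩ (by
      rintro _ ⟨z, hz, rfl⟩
      have h1 := hLB z hz
      rw [← hins, gsp_insert] at h1
      exact isAlgebraic_mono (map_adj_le j _ _) (isAlgebraic_map j h1))
    (e4b_fre_map j (e4b_fre_gsp hlΛ hB1 B1 (Finset.Subset.refl _)))
    (fun h => hyF (isAlgebraic_of_map j h)) (by
      rw [← Subfield.map_sup]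
      exact isAlgebraic_map j hyΛ)
    (e4b_fg_map j hfgκ) (sub_map_mono j le_top)
    (j '' {x | x ∈ L ∧ x ≠ 0 ∧ ∃ h : κ, h ^ ℓ = x}) (by
      rintro _ ⟨x, ⟨hx, hx0, -⟩, rfl⟩
      exact ⟨⟨x, hx, rfl⟩, by rw [Ne, map_eq_zero]; exact hx0⟩) (by
      intro n
      obtain ⟨x, hxX, hx⟩ := hinf n
      refine ⟨fun i => j (x i), fun i => ⟨x i, hxX i, rfl⟩, ?_⟩
      rintro a b hab ⟨_, ⟨w, hw, rfl⟩, hweq⟩
      refine hx a b hab ⟨w, hw, ?_⟩
      rw [← map_pow, ← map_mul] at hweq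
      exact j.injective hweq) (by
      rintro _ ⟨x, ⟨-, -, h, hh⟩, rfl⟩
      exact ⟨j h, ⟨h, Subfield.mem_top h, rfl⟩, by rw [← map_pow, hh]⟩)
  refine ⟨e, heL, ?_, fun h => hel ⟨e, h, rfl⟩⟩
  obtain ⟨e', he', hee⟩ := heΛ
  rwa [← j.injective hee]

end Vale.Agent.P019P
end

section

/-!
# Step A: limits of residue fields of bounded degree
-/

namespace Vale.Agent.P019P

open Vale.Agent.P019

set_option linter.style.haveILetI false
set_option linter.unusedSectionVars false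

open Polynomial Filter

variable {L : Type*} [Field L] [PerfectField L] {I : Type*} {U : Ultrafilter I}
  {O : I → ValuationSubring L} {l : Subfield L}

theorem Ulu.ev_mem (hu : Ulu U O) (x : L) : ∀ᶠ i in U, x ∈ O i := by
  by_cases hx : x = 0
  · rw [hx]; exact Eventually.of_forall fun i => (O i).zero_mem
  · exact (hu x hx).mono fun i hi => ((O i).valuation_le_one_iff x).1 hi.le

/-- constants of the limit. -/
theorem Ulu.j_mem_iff (hu : Ulu U O) (hO : ∀ i, TrivOn (O i) l)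
    (hlO : ∀ x ∈ uSub U (fun _ => l), x ∈ (ulP U O).O) {h : L} :
    hu.j h ∈ (ulP U O).im (uSub U (fun _ => l)) hlO ↔
      ∃ c : I → L, (∀ i, c i ∈ l) ∧ ∀ᶠ i in U, (O i).valuation (h - c i) < 1 := by
  have key : ∀ c : I → L, (∀ i, c i ∈ l) → (hu.j h = (ulP U O).ev (gm U c) ↔
      ∀ᶠ i in U, (O i).valuation (h - c i) < 1) := by
    intro c hc
    have h1 := ulP_ev_eq (U := U) (O := O) (f := fun _ => h) (g := c) (hu.ev_mem h)
      (Eventually.of_forall fun i => hO i _ (hc i))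
    exact h1
  constructor
  · intro hh
    obtain ⟨y, ⟨f, rfl, hf⟩, hy⟩ := (ulP U O).mem_im.1 hh
    exact ⟨f, hf, (key f hf).1 hy.symm⟩
  · rintro ⟨c, hc, h1⟩
    rw [(key c hc).2 h1]
    exact (ulP U O).ev_mem_im hlO ⟨c, rfl, hc⟩

theorem Ulu.notMem_bar (hu : Ulu U O) (hO : ∀ i, TrivOn (O i) l)
    (hlO : ∀ x ∈ uSub U (fun _ => l), x ∈ (ulP U O).O) {h : L}
    (hh : hu.j h ∉ (ulP U O).im (uSub U (fun _ => l)) hlO) :
    ∀ᶠ i in U, rs (O i) h ∉ bar (hO i) := by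
  by_contra hcon
  rw [Ultrafilter.eventually_not, not_not] at hcon
  apply hh
  rw [hu.j_mem_iff hO]
  have h1 : ∀ i, ∃ c ∈ l, rs (O i) h ∈ bar (hO i) → rs (O i) c = rs (O i) h := by
    intro i
    by_cases hi : rs (O i) h ∈ bar (hO i)
    · obtain ⟨c, hc, hce⟩ := (mem_bar (hO i)).1 hi
      exact ⟨c, hc, fun _ => hce⟩
    · exact ⟨0, l.zero_mem, fun h' => absurd h' hi⟩
  choose c hc hce using h1
  refine ⟨c, hc, ?_⟩
  filter_upwards [hcon, hu.ev_mem h] with i hi hi'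
  exact (rs_eq hi' (hO i _ (hc i))).1 (hce i hi).symm

/-- limits of bounded relations. -/
theorem Ulu.alg_of_brel (hu : Ulu U O) (hl : IsAlgClosed l) (hO : ∀ i, TrivOn (O i) l)
    (hlO : ∀ x ∈ uSub U (fun _ => l), x ∈ (ulP U O).O) {y1 y2 : L}
    (hy : hu.j y1 ∉ (ulP U O).im (uSub U (fun _ => l)) hlO) {d : ℕ}
    (h : ∀ᶠ i in U, BRel (bar (hO i)) d (rs (O i) y1) (rs (O i) y2)) :
    IsAlgebraic (adj ((ulP U O).im (uSub U (fun _ => l)) hlO) (hu.j y1)) (hu.j y2) := by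
  classical
  set P := ulP U O with hP
  set Bs := P.im (uSub U (fun _ => l)) hlO with hBs
  have hBsac : IsAlgClosed Bs := P.isAlgClosed_im hlO (isAlgClosed_uSub fun _ => hl)
  have h1 : ∀ i, ∃ c : ℕ → ℕ → L, (∀ a b, c a b ∈ l) ∧
      (BRel (bar (hO i)) d (rs (O i) y1) (rs (O i) y2) →
      (∃ a ∈ Finset.range (d + 1), ∃ b ∈ Finset.range (d + 1), rs (O i) (c a b) ≠ 0) ∧
      ∑ a ∈ Finset.range (d + 1), ∑ b ∈ Finset.range (d + 1),
        rs (O i) (c a b) * rs (O i) y1 ^ a * rs (O i) y2 ^ b = 0) := by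
    intro i
    by_cases hi : BRel (bar (hO i)) d (rs (O i) y1) (rs (O i) y2)
    · obtain ⟨c, hc, hc0, hcs⟩ := hi
      choose c' hc' hcc using fun a b => (mem_bar (hO i)).1 (hc a b)
      refine ⟨c', hc', fun _ => ?_⟩
      simp only [hcc]
      exact ⟨hc0, hcs⟩
    · exact ⟨fun _ _ => 0, fun _ _ => l.zero_mem, fun h' => absurd h' hi⟩
  choose c hc hcr using h1
  have hcu : ∀ a b, gm U (fun i => c i a b) ∈ uSub U (fun _ => l) :=
    fun a b => ⟨fun i => c i a b, rfl, fun i => hc i a b⟩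
  have hy1 := hu.gc_mem y1
  have hy2 := hu.gc_mem y2
  refine brel_alg (RAC_of_isAlgClosed Bs hBsac) hy (d := d)
    (c := fun a b => P.ev (gm U (fun i => c i a b))) (fun a b => P.ev_mem_im hlO (hcu a b)) ?_ ?_
  · -- one of the coefficients is nonzero
    have h2 : ∀ᶠ i in U, ∃ a ∈ Finset.range (d + 1), ∃ b ∈ Finset.range (d + 1), c i a b ≠ 0 := by
      refine h.mono fun i hi => ?_
      obtain ⟨⟨a, ha, b, hb, hab⟩, -⟩ := hcr i hi
      refine ⟨a, ha, b, hb, fun h0 => hab ?_⟩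
      rw [h0, rs_zero]
    have h3 : ∃ a ∈ Finset.range (d + 1), ∃ b ∈ Finset.range (d + 1), ∀ᶠ i in U, c i a b ≠ 0 := by
      by_contra hcon
      push Not at hcon
      have h4 : ∀ᶠ i in U, ∀ a ∈ Finset.range (d + 1), ∀ b ∈ Finset.range (d + 1),
          c i a b = 0 := by
        rw [Filter.eventually_all_finset]
        intro a ha
        rw [Filter.eventually_all_finset]
        intro b hb
        exact hcon a ha b hb
      obtain ⟨i, hi, a, ha, b, hb, hab⟩ := (h4.and h2).exists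
      exact hab (hi a ha b hb)
    obtain ⟨a, ha, b, hb, hab⟩ := h3
    refine ⟨a, ha, b, hb, fun h0 => ?_⟩
    have h5 : gm U (fun i => c i a b) = 0 := by
      refine P.ev_inj hlO (hcu a b) (Subfield.zero_mem _) ?_
      rw [h0, Pl.ev_zero]
    rw [gm_eq_zero] at h5
    obtain ⟨i, hi1, hi2⟩ := (h5.and hab).exists
    exact hi2 hi1
  · have h2 : ∀ᶠ i in U, (O i).valuation (∑ a ∈ Finset.range (d + 1),
        ∑ b ∈ Finset.range (d + 1), c i a b * y1 ^ a * y2 ^ b) < 1 := by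
      filter_upwards [h, hu.ev_mem y1, hu.ev_mem y2] with i hi h1 h2
      have hm : ∀ a b, c i a b * y1 ^ a * y2 ^ b ∈ O i := fun a b =>
        mul_mem (mul_mem (hO i _ (hc i a b)) (pow_mem h1 a)) (pow_mem h2 b)
      rw [← rs_eq_zero (sum_mem fun a _ => sum_mem fun b _ => hm a b)]
      rw [← (hcr i hi).2]
      have hsum : ∀ (s : Finset ℕ) (f : ℕ → L), (∀ a, f a ∈ O i) →
          rs (O i) (∑ a ∈ s, f a) = ∑ a ∈ s, rs (O i) (f a) := by
        intro s f hf
        induction s using Finset.induction_on with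
        | empty => rw [Finset.sum_empty, Finset.sum_empty, rs_zero]
        | insert a s ha ih =>
          rw [Finset.sum_insert ha, Finset.sum_insert ha,
            rs_add (hf a) (sum_mem fun b _ => hf b), ih]
      rw [hsum _ _ fun a => sum_mem fun b _ => hm a b]
      refine Finset.sum_congr rfl fun a _ => ?_
      rw [hsum _ _ fun b => hm a b]
      refine Finset.sum_congr rfl fun b _ => ?_
      rw [rs_mul (mul_mem (hO i _ (hc i a b)) (pow_mem h1 a)) (pow_mem h2 b),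
        rs_mul (hO i _ (hc i a b)) (pow_mem h1 a), rs_pow h1, rs_pow h2]
    rw [← uVal_lt_one (U := U)] at h2
    have hcO : ∀ a b, gm U (fun i => c i a b) ∈ P.O := fun a b => hlO _ (hcu a b)
    have hterm : ∀ a b, gm U (fun i => c i a b) * gc U y1 ^ a * gc U y2 ^ b ∈ P.O := fun a b =>
      mul_mem (mul_mem (hcO a b) (pow_mem hy1 a)) (pow_mem hy2 b)
    have h3 : gm U (fun i => ∑ a ∈ Finset.range (d + 1), ∑ b ∈ Finset.range (d + 1),
        c i a b * y1 ^ a * y2 ^ b) = ∑ a ∈ Finset.range (d + 1),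
        ∑ b ∈ Finset.range (d + 1), gm U (fun i => c i a b) * gc U y1 ^ a * gc U y2 ^ b := by
      rw [gm_sum]
      refine Finset.sum_congr rfl fun a _ => ?_
      rw [gm_sum]
      refine Finset.sum_congr rfl fun b _ => ?_
      rw [gm_mul, gm_mul, gc_apply, gc_apply, ← gm_pow, ← gm_pow]
    rw [h3] at h2
    have h4 : P.ev (∑ a ∈ Finset.range (d + 1), ∑ b ∈ Finset.range (d + 1),
        gm U (fun i => c i a b) * gc U y1 ^ a * gc U y2 ^ b) = 0 := by
      rw [Pl.ev_eq_zero_iff _ (sum_mem fun a _ => sum_mem fun b _ => hterm a b)]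
      exact h2
    rw [Pl.ev_sum _ _ _ fun a _ => sum_mem fun b _ => hterm a b] at h4
    rw [← h4]
    refine Finset.sum_congr rfl fun a _ => ?_
    rw [Pl.ev_sum _ _ _ fun b _ => hterm a b]
    refine Finset.sum_congr rfl fun b _ => ?_
    rw [Pl.ev_mul _ (mul_mem (hcO a b) (pow_mem hy1 a)) (pow_mem hy2 b),
      Pl.ev_mul _ (hcO a b) (pow_mem hy1 a), Pl.ev_pow _ hy1, Pl.ev_pow _ hy2]
    rfl

/-- the rational function field of the limit is relatively algebraically closed in the limit of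
the rational function fields. -/
theorem Ulu.rac_one (hu : Ulu U O) (hl : IsAlgClosed l)
    (hlO : ∀ x ∈ uSub U (fun _ => l), x ∈ (ulP U O).O) {y : L}
    (hy : hu.j y ∉ (ulP U O).im (uSub U (fun _ => l)) hlO)
    (hRO : ∀ x ∈ uSub U (fun _ => adj l y), x ∈ (ulP U O).O) :
    adj ((ulP U O).im (uSub U (fun _ => l)) hlO) (hu.j y) ≤
      (ulP U O).im (uSub U (fun _ => adj l y)) hRO ∧
    ∀ z ∈ (ulP U O).im (uSub U (fun _ => adj l y)) hRO,
      IsAlgebraic (adj ((ulP U O).im (uSub U (fun _ => l)) hlO) (hu.j y)) z →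
      z ∈ adj ((ulP U O).im (uSub U (fun _ => l)) hlO) (hu.j y) := by
  haveI : PerfectField l := perfect_of_RAC (RAC_of_isAlgClosed l hl)
  set P := ulP U O with hP
  set M := uSub U (fun _ => l) with hM
  set N := uSub U (fun _ => adj l y) with hN
  have hMN : M ≤ N := uSub_mono (le_adj l y)
  have hyN : gc U y ∈ N := gc_mem_uSub (mem_adj l y)
  have hle : adj M (gc U y) ≤ N := adj_le hMN hyN
  have e1 : P.im (adj M (gc U y)) (fun x hx => hRO x (hle hx)) =
      adj (P.im M (fun x hx => hRO x (hMN hx))) (P.ev (gc U y)) :=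
    Pl.im_adj P hRO hMN hyN
  have e2 : adj (P.im M hlO) (hu.j y) = P.im (adj M (gc U y)) (fun x hx => hRO x (hle hx)) :=
    e1.symm
  rw [e2]
  refine ⟨P.im_mono hRO hle, ?_⟩
  intro z hz halg
  obtain ⟨x, hx, rfl⟩ := P.mem_im.1 hz
  have h1 : IsAlgebraic (adj M (gc U y)) x := P.isAlgebraic_of_im hRO hle hx halg
  refine P.ev_mem_im _ ?_
  refine rat_gm (E := fun _ => l) (g := fun _ => y) (Eventually.of_forall fun _ hcon => ?_) hx h1
  apply hy
  refine P.ev_mem_im hlO (gc_mem_uSub ?_)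
  exact RAC_of_isAlgClosed l hl y hcon

/-- the degree of elements of the limit. -/
theorem Ulu.deg_le (hu : Ulu U O) (hl : IsAlgClosed l) (hO : ∀ i, TrivOn (O i) l)
    (hlO : ∀ x ∈ uSub U (fun _ => l), x ∈ (ulP U O).O) {y : L}
    (hy : hu.j y ∉ (ulP U O).im (uSub U (fun _ => l)) hlO) {d : ℕ}
    (hd : ∀ᶠ i in U, Module.Finite (adj (bar (hO i)) (rs (O i) y))
      (IsLocalRing.ResidueField (O i)) ∧
      Module.finrank (adj (bar (hO i)) (rs (O i) y)) (IsLocalRing.ResidueField (O i)) ≤ d)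
    {w : I → L} (hw : ∀ᶠ i in U, w i ∈ O i)
    (halg : IsAlgebraic (adj ((ulP U O).im (uSub U (fun _ => l)) hlO) (hu.j y))
      ((ulP U O).ev (gm U w))) :
    (minpoly (adj ((ulP U O).im (uSub U (fun _ => l)) hlO) (hu.j y))
      ((ulP U O).ev (gm U w))).natDegree ≤ d := by
  classical
  have hTr : ∀ᶠ i in U, ∃ hx : TrivOn (O i) (adj l y), bar hx = adj (bar (hO i)) (rs (O i) y) := by
    filter_upwards [hu.notMem_bar hO hlO hy, hu.ev_mem y] with i hi hi'
    haveI : IsAlgClosed (bar (hO i)) := bar_isAlgClosed (hO i) hl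
    have h1 : TrivOn (O i) (adj l y) := rsb_triv (hO i) hi' fun h =>
      hi (RAC_of_isAlgClosed _ inferInstance _ h)
    exact ⟨h1, bar_adj (hO i) h1⟩
  have hRO : ∀ x ∈ uSub U (fun _ => adj l y), x ∈ (ulP U O).O :=
    ulP_triv (hTr.mono fun i hi => hi.1)
  obtain ⟨hle, hrac⟩ := hu.rac_one hl hlO hy hRO
  refine (ul1_natDegree hle hrac halg).trans ?_
  set P := ulP U O with hP
  set R := P.im (uSub U (fun _ => adj l y)) hRO with hR
  -- the polynomial
  have h1 : ∀ᶠ i in U, ∃ a : ℕ → L, (∀ j, a j ∈ adj l y) ∧ a d = 1 ∧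
      (O i).valuation (∑ j ∈ Finset.range (d + 1), a j * w i ^ j) < 1 := by
    filter_upwards [hTr, hd, hw] with i hi hdi hwi
    obtain ⟨hx, hbar⟩ := hi
    obtain ⟨hfin, hrank⟩ := hdi
    set m := minpoly (adj (bar (hO i)) (rs (O i) y)) (rs (O i) (w i)) with hm
    have hint : IsIntegral (adj (bar (hO i)) (rs (O i) y)) (rs (O i) (w i)) :=
      IsIntegral.of_finite _ _
    have hmd : m.natDegree ≤ d := (minpoly.natDegree_le _).trans hrank
    have hmm : m.Monic := minpoly.monic hint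
    set p := m * X ^ (d - m.natDegree) with hp
    have hpm : p.Monic := hmm.mul (monic_X_pow _)
    have hpd : p.natDegree = d := by
      rw [hp, hmm.natDegree_mul (monic_X_pow _), natDegree_X_pow]
      omega
    have hp0 : aeval (rs (O i) (w i)) p = 0 := by
      rw [hp, map_mul, hm, minpoly.aeval, zero_mul]
    have hcoef : ∀ j, ∃ a ∈ adj l y, rs (O i) a = ((p.coeff j : adj (bar (hO i)) (rs (O i) y)) :
        IsLocalRing.ResidueField (O i)) := by
      intro j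
      have h2 : ((p.coeff j : adj (bar (hO i)) (rs (O i) y)) :
        IsLocalRing.ResidueField (O i)) ∈ bar hx := by
        rw [hbar]
        exact (p.coeff j).2
      exact (mem_bar hx).1 h2
    choose a ha hae using hcoef
    refine ⟨fun j => if j = d then 1 else a j, fun j => ?_, if_pos rfl, ?_⟩
    · change (if j = d then 1 else a j) ∈ adj l y
      split_ifs
      · exact Subfield.one_mem _
      · exact ha j
    · have hmem : ∀ j, (if j = d then 1 else a j) * w i ^ j ∈ O i := fun j => by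
        refine mul_mem ?_ (pow_mem hwi j)
        split_ifs
        · exact one_mem _
        · exact hx _ (ha j)
      rw [← rs_eq_zero (sum_mem fun j _ => hmem j)]
      have hsum : ∀ (s : Finset ℕ) (f : ℕ → L), (∀ a, f a ∈ O i) →
          rs (O i) (∑ a ∈ s, f a) = ∑ a ∈ s, rs (O i) (f a) := by
        intro s f hf
        induction s using Finset.induction_on with
        | empty => rw [Finset.sum_empty, Finset.sum_empty, rs_zero]
        | insert a s ha ih =>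
          rw [Finset.sum_insert ha, Finset.sum_insert ha,
            rs_add (hf a) (sum_mem fun b _ => hf b), ih]
      rw [hsum _ _ hmem, ← hp0, aeval_eq_sum_range' (n := d + 1) (by omega)]
      refine Finset.sum_congr rfl fun j _ => ?_
      rw [Algebra.smul_def]
      split_ifs with hjd
      · subst hjd
        rw [one_mul, rs_pow hwi]
        have h3 : p.coeff j = 1 := by
          rw [← hpd]
          exact hpm.coeff_natDegree
        rw [h3, map_one, one_mul]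
      · rw [rs_mul (hx _ (ha j)) (pow_mem hwi j), rs_pow hwi, hae]
        rfl
  have h2 : ∀ i, ∃ a : ℕ → L, (∀ j, a j ∈ adj l y) ∧ a d = 1 ∧ ((∃ a : ℕ → L,
      (∀ j, a j ∈ adj l y) ∧ a d = 1 ∧
      (O i).valuation (∑ j ∈ Finset.range (d + 1), a j * w i ^ j) < 1) →
      (O i).valuation (∑ j ∈ Finset.range (d + 1), a j * w i ^ j) < 1) := by
    intro i
    by_cases hc : ∃ a : ℕ → L, (∀ j, a j ∈ adj l y) ∧ a d = 1 ∧
      (O i).valuation (∑ j ∈ Finset.range (d + 1), a j * w i ^ j) < 1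
    · obtain ⟨a, ha, hd, h⟩ := hc
      exact ⟨a, ha, hd, fun _ => h⟩
    · exact ⟨fun _ => 1, fun _ => Subfield.one_mem _, rfl, fun h' => absurd h' hc⟩
  choose a ha had hav using h2
  have hau : ∀ j, gm U (fun i => a i j) ∈ uSub U (fun _ => adj l y) := fun j =>
    ⟨fun i => a i j, rfl, fun i => ha i j⟩
  have haO : ∀ j, gm U (fun i => a i j) ∈ P.O := fun j => hRO _ (hau j)
  have hwO : gm U w ∈ P.O := ulP_mem hw
  refine (apd_minpoly (E := R) (n := d)
    (a := fun j => ⟨P.ev (gm U (fun i => a i j)), P.ev_mem_im hRO (hau j)⟩) ?_ ?_).2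
  · refine ⟨d, Finset.mem_range.2 (Nat.lt_succ_self d), fun h0 => ?_⟩
    have h3 : P.ev (gm U (fun i => a i d)) = 0 := congrArg Subtype.val h0
    have h4 : gm U (fun i => a i d) = 1 := by
      rw [← map_one (gm U), gm_eq]
      exact Eventually.of_forall fun i => had i
    rw [h4, Pl.ev_one] at h3
    exact one_ne_zero h3
  · change ∑ j ∈ Finset.range (d + 1), P.ev (gm U (fun i => a i j)) * P.ev (gm U w) ^ j = 0
    have h3 : ∀ᶠ i in U, (O i).valuation (∑ j ∈ Finset.range (d + 1), a i j * w i ^ j) < 1 :=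
      h1.mono fun i hi => hav i hi
    rw [← uVal_lt_one (U := U)] at h3
    have h4 : gm U (fun i => ∑ j ∈ Finset.range (d + 1), a i j * w i ^ j) =
        ∑ j ∈ Finset.range (d + 1), gm U (fun i => a i j) * gm U w ^ j := by
      rw [gm_sum]
      refine Finset.sum_congr rfl fun j _ => ?_
      rw [gm_mul, gm_pow]
    rw [h4] at h3
    have hterm : ∀ j, gm U (fun i => a i j) * gm U w ^ j ∈ P.O := fun j =>
      mul_mem (haO j) (pow_mem hwO j)
    have h5 : P.ev (∑ j ∈ Finset.range (d + 1), gm U (fun i => a i j) * gm U w ^ j) = 0 := by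
      rw [Pl.ev_eq_zero_iff _ (sum_mem fun j _ => hterm j)]
      exact h3
    rw [Pl.ev_sum _ _ _ fun j _ => hterm j] at h5
    rw [← h5]
    refine Finset.sum_congr rfl fun j _ => ?_
    rw [Pl.ev_mul _ (haO j) (pow_mem hwO j), Pl.ev_pow _ hwO]

end Vale.Agent.P019P
end

section

/-!
# Step A: a special element
-/

namespace Vale.Agent.P019P

open Vale.Agent.P019

set_option linter.style.haveILetI false
set_option linter.unusedSectionVars false

open Polynomial Filter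

variable {L : Type*} [Field L] [PerfectField L] {I : Type*} {U : Ultrafilter I}
  {O : I → ValuationSubring L} {l : Subfield L}

/-- the image of the residue field of the limit. -/
noncomputable def ulRes (U : Ultrafilter I) (O : I → ValuationSubring L) :
    Subfield (AlgebraicClosure (IsLocalRing.ResidueField (uVal U O))) :=
  (algebraMap (IsLocalRing.ResidueField (uVal U O))
    (AlgebraicClosure (IsLocalRing.ResidueField (uVal U O)))).fieldRange

theorem ev_mem_ulRes {z : Gm U L} (hz : z ∈ (ulP U O).O) : (ulP U O).ev z ∈ ulRes U O := by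
  rw [Pl.ev_of_mem _ hz]
  exact ⟨IsLocalRing.residue (uVal U O) ⟨z, hz⟩, rfl⟩

theorem mem_ulRes {r : AlgebraicClosure (IsLocalRing.ResidueField (uVal U O))} :
    r ∈ ulRes U O ↔ ∃ w : I → L, (∀ᶠ i in U, w i ∈ O i) ∧ (ulP U O).ev (gm U w) = r := by
  constructor
  · rintro ⟨c, rfl⟩
    obtain ⟨⟨z, hz⟩, rfl⟩ := IsLocalRing.residue_surjective c
    obtain ⟨w, rfl⟩ := gm_surj U z
    refine ⟨w, gm_mem_uVal.1 hz, ?_⟩
    rw [Pl.ev_of_mem _ hz]
    rfl
  · rintro ⟨w, hw, rfl⟩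
    exact ev_mem_ulRes (ulP_mem hw)

theorem FG.refl' {Ω : Type*} [Field Ω] {B : Subfield Ω} [PerfectField B] : FG B B :=
  ⟨∅, by rw [Finset.coe_empty, Subfield.closure_empty, sup_bot_eq, pf_eq]⟩

theorem isAlgClosed_equiv {A B : Type*} [Field A] [Field B] (e : A ≃+* B) (h : IsAlgClosed A) :
    IsAlgClosed B := by
  apply IsAlgClosed.of_exists_root
  intro p hp hirr
  obtain ⟨c, hc⟩ := IsAlgClosed.exists_root (p.map (e.symm : B →+* A)) (by
    rw [degree_map]
    exact (degree_pos_of_irreducible hirr).ne')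
  refine ⟨e c, ?_⟩
  have h1 : e.symm (p.eval (e c)) = 0 := by
    rw [IsRoot.def, eval_map] at hc
    rw [← hc]
    have h2 := hom_eval₂ p (RingHom.id _) (e.symm : B →+* A) (e c)
    rw [RingHom.comp_id] at h2
    simpa using h2
  rwa [map_eq_zero] at h1

theorem isAlgClosed_map {K Ω : Type*} [Field K] [Field Ω] (j : K →+* Ω) {l : Subfield K}
    (hl : IsAlgClosed l) : IsAlgClosed (l.map j) := by
  let e : l →+* l.map j := (j.comp l.subtype).codRestrict (l.map j) fun x => ⟨x, x.2, rfl⟩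
  refine isAlgClosed_equiv (RingEquiv.ofBijective e ⟨e.injective, ?_⟩) hl
  rintro ⟨_, ⟨x, hx, rfl⟩⟩
  exact ⟨⟨x, hx⟩, rfl⟩

/-- Step A, the main case: infinitely many classes die in almost all residue fields of bounded
degree. -/
theorem Ulu.special (hu : Ulu U O) {ℓ : ℕ} [Fact ℓ.Prime] [NeZero (ℓ : L)] (hl : IsAlgClosed l)
    (hfg : FG l (⊤ : Subfield L)) (hO : ∀ i, TrivOn (O i) l) {y1 y2 : L}
    (h1 : ¬ IsAlgebraic l y1) (h2 : ¬ IsAlgebraic (adj l y1) y2)
    (halg : ∀ z : L, IsAlgebraic (adj (adj l y1) y2) z) {d : ℕ}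
    (hd : ∀ᶠ i in U, rs (O i) y1 ∉ bar (hO i) → Module.Finite (adj (bar (hO i)) (rs (O i) y1))
      (IsLocalRing.ResidueField (O i)) ∧
      Module.finrank (adj (bar (hO i)) (rs (O i) y1)) (IsLocalRing.ResidueField (O i)) ≤ d)
    {d' : ℕ} (hrel : ∀ᶠ i in U, BRel (bar (hO i)) d' (rs (O i) y1) (rs (O i) y2))
    {X : Set L} (hX : ∀ x ∈ X, x ≠ 0 ∧ ∀ᶠ i in U, cl ℓ x ∈ U1 ℓ (O i))
    (hinf : ∀ n : ℕ, ∃ x : Fin n → L, (∀ i, x i ∈ X) ∧ ∀ i j, i ≠ j → cl ℓ (x i) ≠ cl ℓ (x j)) :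
    ∃ h : L, h ∉ l ∧ ∃ c : I → L, (∀ i, c i ∈ l) ∧ ∀ᶠ i in U, (O i).valuation (h - c i) < 1 := by
  classical
  have hℓ : 0 < ℓ := (Fact.out : ℓ.Prime).pos
  haveI : PerfectField l := perfect_of_RAC (RAC_of_isAlgClosed l hl)
  have hlO : ∀ x ∈ uSub U (fun _ => l), x ∈ (ulP U O).O :=
    ulP_triv (Eventually.of_forall hO)
  by_cases hy : hu.j y1 ∈ (ulP U O).im (uSub U (fun _ => l)) hlO
  · obtain ⟨c, hc, hc'⟩ := (hu.j_mem_iff hO hlO).1 hy
    exact ⟨y1, fun h => h1 (isAlgebraic_of_mem h), c, hc, hc'⟩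
  have hd' := ((hu.notMem_bar hO hlO hy).and hd).mono fun i hi => hi.2 hi.1
  have h3 := hu.alg_of_brel hl hO hlO hy hrel
  have hdeg := fun (w : I → L) (hw : ∀ᶠ i in U, w i ∈ O i) =>
    hu.deg_le hl hO hlO hy hd' hw
  set P := ulP U O with hP
  set Ω := AlgebraicClosure (IsLocalRing.ResidueField (uVal U O)) with hΩ
  set j : L →+* Ω := hu.j with hj
  haveI : NeZero (ℓ : Ω) := ⟨by
    rw [← map_natCast j, Ne, map_eq_zero]
    exact NeZero.ne (ℓ : L)⟩
  set Bs := P.im (uSub U (fun _ => l)) hlO with hBs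
  have hBsac : IsAlgClosed Bs := P.isAlgClosed_im hlO (isAlgClosed_uSub fun _ => hl)
  have hBsR : RAC Bs := RAC_of_isAlgClosed Bs hBsac
  haveI : PerfectField Bs := perfect_of_RAC hBsR
  set M := adj Bs (j y1) with hM
  haveI : PerfectField (IsLocalRing.ResidueField (uVal U O)) :=
    rs_perfect (W := uVal U O) (E := uSub U (fun _ => l)) hlO
  haveI : PerfectField (ulRes U O) := perfect_fieldRange _
  have hBR : Bs ≤ ulRes U O := by
    intro x hx
    obtain ⟨z, hz, rfl⟩ := P.mem_im.1 hx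
    exact ev_mem_ulRes (hlO z hz)
  have hjR : ∀ x, j x ∈ ulRes U O := fun x => ev_mem_ulRes (hu.gc_mem x)
  set κ := ulRes U O ⊓ rac M with hκ
  have hMκ : M ≤ κ := le_inf (adj_le hBR (hjR y1)) (le_rac _)
  have hκalg : ∀ r ∈ κ, IsAlgebraic M r := fun r hr => mem_rac.1 (Subfield.mem_inf.1 hr).2
  obtain ⟨γ, hγ, hγκ⟩ := bd_prim hMκ hκalg (d := d) (by
    intro r hr
    obtain ⟨w, hw, rfl⟩ := mem_ulRes.1 (Subfield.mem_inf.1 hr).1
    exact hdeg w hw (hκalg _ hr))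
  have hκeq : κ = adj M γ := le_antisymm (hγκ.trans (adj0_le_adj _ _)) (adj_le hMκ hγ)
  have hfgκ : FG Bs κ := by
    rw [hκeq]
    exact (FG.refl'.adj_right _).adj_right _
  have hlB : l.map j ≤ Bs := by
    rintro _ ⟨x, hx, rfl⟩
    exact P.ev_mem_im hlO (gc_mem_uSub hx)
  have hLM : ∀ x, IsAlgebraic M (j x) := by
    intro x
    have h5 : adj (adj (l.map j) (j y1)) (j y2) ≤ rac M := by
      haveI : PerfectField (rac M) := perfect_rac M
      exact adj_le ((adj_mono hlB _).trans (le_rac _)) (mem_rac.2 h3)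
    have h6 : IsAlgebraic (adj (adj (l.map j) (j y1)) (j y2)) (j x) :=
      isAlgebraic_mono ((map_adj_le j _ _).trans (adj_mono (map_adj_le j _ _) _))
        (isAlgebraic_map j (halg x))
    exact isAlgebraic_rac (isAlgebraic_mono h5 h6)
  have hLκ : (⊤ : Subfield L).map j ≤ κ := by
    rintro _ ⟨x, -, rfl⟩
    exact Subfield.mem_inf.2 ⟨hjR x, mem_rac.2 (hLM x)⟩
  obtain ⟨_, ⟨h, -, rfl⟩, hhB, hhl⟩ := ft_sub ℓ (l := l.map j) (L := (⊤ : Subfield L).map j)
    (Bs := Bs) (κ := κ) (y1 := j y1) (y2 := j y2) (isAlgClosed_map j hl) (fg_map j hfg) hlB hBsac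
    ⟨y1, Subfield.mem_top _, rfl⟩ ⟨y2, Subfield.mem_top _, rfl⟩ (by
      rintro _ ⟨x, -, rfl⟩
      exact isAlgebraic_mono ((map_adj_le j _ _).trans (adj_mono (map_adj_le j _ _) _))
        (isAlgebraic_map j (halg x)))
    (fun h => hy (hBsR _ h))
    (fun h => h2 (isAlgebraic_of_map j (isAlgebraic_mono (adj_map_le j l y1) h)))
    h3 hfgκ hLκ (j '' X) (by
      rintro _ ⟨x, hx, rfl⟩
      exact ⟨⟨x, Subfield.mem_top x, rfl⟩, by rw [Ne, map_eq_zero]; exact (hX x hx).1⟩) (by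
      intro n
      obtain ⟨x, hxX, hx⟩ := hinf n
      refine ⟨fun i => j (x i), fun i => ⟨x i, hxX i, rfl⟩, ?_⟩
      rintro a b hab ⟨_, ⟨w, -, rfl⟩, hw⟩
      refine hx a b hab ?_
      rw [← map_pow, ← map_mul] at hw
      have hw' := j.injective hw
      have hw0 : w ≠ 0 := by
        rintro rfl
        rw [zero_pow hℓ.ne', mul_zero] at hw'
        exact (hX _ (hxX a)).1 hw'
      rw [cl_eq_iff ℓ (hX _ (hxX a)).1 (hX _ (hxX b)).1]
      exact ⟨w, hw0, hw'⟩) (by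
      rintro _ ⟨x, hx, rfl⟩
      obtain ⟨w, hw, hwr⟩ := exists_root_of_U1 (U := U) (O := O) (hX x hx).1 (hu x (hX x hx).1)
        (hX x hx).2
      refine ⟨P.ev (gm U w), Subfield.mem_inf.2 ⟨ev_mem_ulRes (ulP_mem hw), ?_⟩, hwr⟩
      rw [mem_rac]
      refine IsAlgebraic.of_pow hℓ ?_
      have h5 : P.ev (gm U w) ^ ℓ = j x := hwr
      rw [h5]
      exact hLM x)
  refine ⟨h, fun hh => hhl ⟨h, hh, rfl⟩, ?_⟩
  exact (hu.j_mem_iff hO hlO).1 hhB

end Vale.Agent.P019P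
end

section

/-!
# The limit theorem
-/

namespace Vale.Agent.P019P

open Vale.Agent.P019

set_option linter.style.haveILetI false
set_option linter.unusedSectionVars false

open Polynomial Filter

section e4tr

variable {G : Type*} [Field G] {κ : Subfield G}

theorem e4_map_comap {E : Subfield G} (h : E ≤ κ) :
    (E.comap κ.subtype).map κ.subtype = E := by
  ext x
  constructor
  · rintro ⟨y, hy, rfl⟩
    exact hy
  · intro hx
    exact ⟨⟨x, h hx⟩, hx, rfl⟩

theorem e4_isAlgClosed {E : Subfield G} (h : E ≤ κ) (hE : IsAlgClosed E) :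
    IsAlgClosed (E.comap κ.subtype) := by
  let e : E →+* E.comap κ.subtype :=
    (Subfield.inclusion h).codRestrict (E.comap κ.subtype) fun x => x.2
  refine isAlgClosed_equiv (RingEquiv.ofBijective e ⟨e.injective, ?_⟩) hE
  rintro ⟨⟨x, hx⟩, hxE⟩
  exact ⟨⟨x, hxE⟩, rfl⟩

theorem e4_map_gsp {K' : Type*} [Field K'] [PerfectField K'] [DecidableEq G]
    (j : K' →+* G) (E : Subfield K') (B : Finset K') :
    (gsp E B).map j = gsp (E.map j) (B.image j) := by
  have key : (E ⊔ Subfield.closure (B : Set K')).map j =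
      E.map j ⊔ Subfield.closure ((B.image j : Finset G) : Set G) := by
    rw [Subfield.map_sup, RingHom.map_field_closure, Finset.coe_image]
  apply le_antisymm
  · refine (map_pf_le j _).trans ?_
    rw [key]
    exact le_rfl
  · haveI := gsp_perfect E B
    haveI : PerfectField ((gsp E B).map j) := perfect_map j _
    refine pf_le ?_
    rw [← key]
    exact sub_map_mono j (le_pf _)

theorem e4_indp_map {K' : Type*} [Field K'] [PerfectField K'] [DecidableEq G]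
    (j : K' →+* G) {E : Subfield K'} {B : Finset K'} :
    Indp (E.map j) (B.image j) ↔ Indp E B := by
  constructor
  · intro h T hT v hv hvT halg
    refine h (T.image j) (Finset.image_subset_image hT) (j v) (Finset.mem_image_of_mem j hv) ?_ ?_
    · intro h1
      obtain ⟨y, hy, hyv⟩ := Finset.mem_image.1 h1
      rw [j.injective hyv] at hy
      exact hvT hy
    · rw [← e4_map_gsp]
      exact isAlgebraic_map j halg
  · intro h T hT v hv hvT halg
    obtain ⟨v, hvB, rfl⟩ := Finset.mem_image.1 hv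
    have hT0 : T = (B.filter fun x => j x ∈ T).image j := by
      ext x
      rw [Finset.mem_image]
      constructor
      · intro hx
        obtain ⟨y, hy, rfl⟩ := Finset.mem_image.1 (hT hx)
        exact ⟨y, Finset.mem_filter.2 ⟨hy, hx⟩, rfl⟩
      · rintro ⟨y, hy, rfl⟩
        exact (Finset.mem_filter.1 hy).2
    rw [hT0, ← e4_map_gsp] at halg
    exact h _ (Finset.filter_subset _ _) v hvB
      (fun h1 => hvT (Finset.mem_filter.1 h1).2) (isAlgebraic_of_map j halg)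

theorem e4_lift [DecidableEq G] {S : Finset G} (hS : ∀ x ∈ S, x ∈ κ) :
    ∃ S' : Finset κ, S'.image κ.subtype = S ∧ S'.card = S.card := by
  have hinj : Function.Injective fun x : {x // x ∈ S} => (⟨x.1, hS x.1 x.2⟩ : κ) := by
    intro x y h
    exact Subtype.ext (congrArg (fun z : κ => (z : G)) h)
  refine ⟨S.attach.map ⟨fun x : {x // x ∈ S} => (⟨x.1, hS x.1 x.2⟩ : κ), hinj⟩, ?_, ?_⟩
  · ext x
    rw [Finset.mem_image]
    constructor
    · rintro ⟨y, hy, rfl⟩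
      obtain ⟨z, -, rfl⟩ := Finset.mem_map.1 hy
      exact z.2
    · intro hx
      exact ⟨⟨x, hS x hx⟩, Finset.mem_map.2 ⟨⟨x, hx⟩, Finset.mem_attach _ _, rfl⟩, rfl⟩
  · rw [Finset.card_map, Finset.card_attach]

theorem e4_mem_gsp [DecidableEq G] [PerfectField κ] {E : Subfield G} (h : E ≤ κ)
    {S' : Finset κ} {z : κ} :
    z ∈ gsp (E.comap κ.subtype) S' ↔ (z : G) ∈ gsp E (S'.image κ.subtype) := by
  have h1 := e4_map_gsp κ.subtype (E.comap κ.subtype) S'
  rw [e4_map_comap h] at h1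
  rw [← h1]
  constructor
  · intro hz
    exact ⟨z, hz, rfl⟩
  · rintro ⟨y, hy, hyz⟩
    rw [← Subtype.ext (show (y : G) = z from hyz)]
    exact hy

theorem e4_alg_gsp [DecidableEq G] [PerfectField κ] {E : Subfield G} (h : E ≤ κ)
    {S' : Finset κ} {z : κ} :
    IsAlgebraic (gsp (E.comap κ.subtype) S') z ↔
      IsAlgebraic (gsp E (S'.image κ.subtype)) (z : G) := by
  have h1 := e4_map_gsp κ.subtype (E.comap κ.subtype) S'
  rw [e4_map_comap h] at h1
  rw [← h1]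
  exact ⟨fun hz => isAlgebraic_map κ.subtype hz, fun hz => isAlgebraic_of_map κ.subtype hz⟩

theorem e4_fg [PerfectField κ] {E : Subfield G} (h : FG E κ) (hE : E ≤ κ) :
    FG (E.comap κ.subtype) (⊤ : Subfield κ) := by
  classical
  obtain ⟨S, hS⟩ := h
  have hSκ : ∀ x ∈ S, x ∈ κ := by
    intro x hx
    rw [hS]
    exact mem_gsp (k := E) hx
  obtain ⟨S', hS', -⟩ := e4_lift hSκ
  refine ⟨S', le_antisymm ?_ le_top⟩
  intro z _
  change z ∈ gsp (E.comap κ.subtype) S'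
  rw [e4_mem_gsp hE, hS']
  change (z : G) ∈ pf (E ⊔ Subfield.closure (S : Set G))
  rw [← hS]
  exact z.2

end e4tr

/-- `f` is a twist of `v` by powers of Frobenius. -/
def Twi {Ω I : Type*} [Field Ω] (f : I → Ω) (v : Ω) : Prop :=
  ∀ i, ∃ a b : ℕ, (f i) ^ (ringExpChar Ω) ^ a = v ^ (ringExpChar Ω) ^ b

section e4a

variable {Ω : Type*} [Field Ω]

theorem e4_rcl_pow {k : Subfield Ω} {x y : Ω} {a b : ℕ}
    (h : x ^ ringExpChar Ω ^ a = y ^ ringExpChar Ω ^ b) : rcl k {x} ≤ rcl k {y} := by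
  refine rcl_le (rcl_RAC _ _) (le_rcl _ _) ?_
  intro c hc
  rw [Finset.mem_singleton] at hc
  subst hc
  apply rcl_RAC
  refine IsAlgebraic.of_pow (n := ringExpChar Ω ^ a) (pow_pos (expChar_pos Ω _) a) ?_
  rw [h]
  exact isAlgebraic_of_mem (pow_mem (mem_rcl (Finset.mem_singleton_self y)) _)

theorem e4_rcl_twi {I : Type*} {k : Subfield Ω} {f : I → Ω} {v : Ω} (h : Twi f v) (i : I) :
    rcl k {f i} = rcl k {v} := by
  obtain ⟨a, b, hab⟩ := h i
  exact le_antisymm (e4_rcl_pow hab) (e4_rcl_pow hab.symm)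

theorem e4_gsp_twi {I : Type*} [PerfectField Ω] {k : Subfield Ω} {B : Finset Ω} {f : I → Ω}
    {v : Ω} (hv : v ∈ B) (h : Twi f v) (i : I) : f i ∈ gsp k B := by
  haveI := gsp_perfect k B
  obtain ⟨a, b, hab⟩ := h i
  refine mem_of_pow_q (n := a) ?_
  rw [hab]
  exact pow_mem (mem_gsp hv) _

theorem e4_gsp_le_rcl (k : Subfield Ω) (B : Finset Ω) : gsp k B ≤ rcl k B := by
  unfold gsp rcl
  exact pf_le_rac _

theorem e4_bd_rcl {k : Subfield Ω} {B : Finset Ω} {c : Ω} {d : ℕ}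
    (h : ∃ p : (gsp k B)[X], p.Monic ∧ p.natDegree ≤ d ∧ aeval c p = 0) : c ∈ rcl k B := by
  obtain ⟨p, hp, -, hpc⟩ := h
  exact rcl_RAC k B c (isAlgebraic_mono (e4_gsp_le_rcl k B) ⟨p, hp.ne_zero, hpc⟩)

theorem e4_twist {ℓ : ℕ} [Fact ℓ.Prime] [NeZero (ℓ : Ω)] {R : Subfield Ω} {x w z h : Ω}
    {a b e : ℕ} (hw : w ∈ R) (hz : z ∈ R) (hh : h ∈ R) (hz0 : z ≠ 0) (hh0 : h ≠ 0)
    (hwx : w ^ ringExpChar Ω ^ a = x ^ ringExpChar Ω ^ b) (hx : x = z ^ e * h ^ ℓ) :
    ∃ e' ∈ Set.Iio ℓ, ∃ h' : Ω, h' ∈ R ∧ h' ≠ 0 ∧ w = z ^ e' * h' ^ ℓ := by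
  have hℓ : 1 < ℓ := (Fact.out : ℓ.Prime).one_lt
  have hq := q_pow_ne_zero ℓ Ω a
  obtain ⟨u, m, hum⟩ : ∃ u m : ℕ, ringExpChar Ω ^ a * u = 1 + ℓ * m := by
    refine ⟨(((ringExpChar Ω ^ a : ℕ) : ZMod ℓ)⁻¹).val,
      ringExpChar Ω ^ a * (((ringExpChar Ω ^ a : ℕ) : ZMod ℓ)⁻¹).val / ℓ, ?_⟩
    have h1 : ((ringExpChar Ω ^ a * (((ringExpChar Ω ^ a : ℕ) : ZMod ℓ)⁻¹).val : ℕ) : ZMod ℓ) =
        ((1 : ℕ) : ZMod ℓ) := by
      rw [Nat.cast_mul, ZMod.natCast_zmod_val, mul_inv_cancel₀ hq, Nat.cast_one]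
    rw [ZMod.natCast_eq_natCast_iff'] at h1
    rw [Nat.mod_eq_of_lt hℓ] at h1
    have h2 := Nat.mod_add_div
      (ringExpChar Ω ^ a * (((ringExpChar Ω ^ a : ℕ) : ZMod ℓ)⁻¹).val) ℓ
    rw [h1] at h2
    exact h2.symm
  have hx0 : x ≠ 0 := by
    rw [hx]
    exact mul_ne_zero (pow_ne_zero _ hz0) (pow_ne_zero _ hh0)
  have hw0 : w ≠ 0 := by
    rintro rfl
    rw [zero_pow (pow_pos (expChar_pos Ω _) a).ne'] at hwx
    exact pow_ne_zero _ hx0 hwx.symm
  set n := e * (ringExpChar Ω ^ b * u) with hn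
  refine ⟨n % ℓ, Nat.mod_lt _ (by omega), z ^ (n / ℓ) * h ^ (ringExpChar Ω ^ b * u) / w ^ m,
    R.div_mem (R.mul_mem (R.pow_mem hz _) (R.pow_mem hh _)) (R.pow_mem hw _),
    div_ne_zero (mul_ne_zero (pow_ne_zero _ hz0) (pow_ne_zero _ hh0)) (pow_ne_zero _ hw0), ?_⟩
  have h3 : w * (w ^ m) ^ ℓ = z ^ n * (h ^ (ringExpChar Ω ^ b * u)) ^ ℓ := by
    calc w * (w ^ m) ^ ℓ = w ^ (1 + ℓ * m) := by
          rw [pow_add, pow_one, ← pow_mul, mul_comm m ℓ]
      _ = (x ^ ringExpChar Ω ^ b) ^ u := by rw [← hum, pow_mul, hwx]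
      _ = z ^ n * (h ^ (ringExpChar Ω ^ b * u)) ^ ℓ := by
          rw [hx, ← pow_mul, mul_pow, ← pow_mul, ← pow_mul, ← pow_mul, mul_comm ℓ]
  have h4 : z ^ n = z ^ (n % ℓ) * (z ^ (n / ℓ)) ^ ℓ := by
    rw [← pow_mul, ← pow_add, mul_comm (n / ℓ) ℓ, Nat.mod_add_div]
  rw [div_pow, mul_pow, eq_comm, ← mul_div_assoc, div_eq_iff (pow_ne_zero _ (pow_ne_zero _ hw0)),
    h3, h4, mul_assoc]

end e4a

section e4b

variable {Ω : Type*} [Field Ω] {I : Type*} {U : Ultrafilter I}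

theorem e4_ultra {ℓ : ℕ} [Fact ℓ.Prime] [NeZero (ℓ : Ω)] {R : I → Subfield Ω} {v c : Ω}
    {f c' : I → Ω} (hf : ∀ i, ∃ a b : ℕ, f i ^ ringExpChar Ω ^ a = v ^ ringExpChar Ω ^ b ∧
      c' i ^ ringExpChar Ω ^ a = c ^ ringExpChar Ω ^ b) (hfR : ∀ i, f i - c' i ∈ R i)
    {z h : Gm U Ω} (hz : z ∈ uSub U R) (hz0 : z ≠ 0) (hh : h ∈ uSub U R) (hh0 : h ≠ 0) {e : ℕ}
    (hvc : gm U (fun _ => v - c) = z ^ e * h ^ ℓ) :
    ∃ e' : ℕ, ∃ h' ∈ uSub U R, h' ≠ 0 ∧ gm U f - gm U c' = z ^ e' * h' ^ ℓ := by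
  obtain ⟨zf, rfl, hzR⟩ := hz
  obtain ⟨hf', rfl, hhR⟩ := hh
  rw [← gm_pow, ← gm_pow, ← gm_mul, gm_eq] at hvc
  have hz1 : ∀ᶠ i in U, zf i ≠ 0 := by
    rw [Ultrafilter.eventually_not, ← gm_eq_zero]
    exact hz0
  have hh1 : ∀ᶠ i in U, hf' i ≠ 0 := by
    rw [Ultrafilter.eventually_not, ← gm_eq_zero]
    exact hh0
  have h1 : ∀ᶠ i in U, ∃ e' ∈ Set.Iio ℓ, ∃ h' : Ω, h' ∈ R i ∧ h' ≠ 0 ∧
      f i - c' i = zf i ^ e' * h' ^ ℓ := by
    filter_upwards [hvc, hz1, hh1] with i h2 h3 h4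
    obtain ⟨a, b, ha, hb⟩ := hf i
    refine e4_twist (a := a) (b := b) (hfR i) (hzR i) (hhR i) h3 h4 ?_ h2
    rw [sub_pow_expChar_pow, sub_pow_expChar_pow, ha, hb]
  rw [Ultrafilter.eventually_exists_mem_iff (Set.finite_Iio ℓ)] at h1
  obtain ⟨e', -, h2⟩ := h1
  obtain ⟨h', hh'⟩ := h2.choice
  refine ⟨e', gm U h', gm_mem_uSub.2 (hh'.mono fun i hi => hi.1), ?_, ?_⟩
  · rw [Ne, gm_eq_zero, ← Ultrafilter.eventually_not]
    exact hh'.mono fun i hi => hi.2.1
  · rw [← gm_sub, ← gm_pow, ← gm_pow, ← gm_mul, gm_eq]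
    exact hh'.mono fun i hi => hi.2.2

theorem e4_perfect_uSub {R : I → Subfield Ω} (hR : ∀ i, PerfectField (R i)) :
    PerfectField (uSub U R) := by
  refine perfect_of_root ?_
  rintro _ ⟨f, rfl, hf⟩
  have h : ∀ i, ∃ y ∈ R i, y ^ ringExpChar Ω = f i := by
    intro i
    haveI := hR i
    obtain ⟨y, hy, hyz⟩ := exists_root_q (R i) (hf i) 1
    exact ⟨y, hy, by rwa [pow_one] at hyz⟩
  choose y hy hyf using h
  refine ⟨gm U y, ⟨y, rfl, hy⟩, ?_⟩
  rw [ringExpChar_gm, ← gm_pow]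
  exact congrArg _ (funext hyf)

/-- Steps 1 and 2: the choice of the twists. -/
theorem e4_choose [IsAlgClosed Ω] [DecidableEq Ω] {k : Subfield Ω} (hk : IsAlgClosed k)
    {B : Finset Ω} (hB : Indp k B) {R : I → Subfield Ω} {d : ℕ}
    (hd : ∀ i, ∀ c ∈ R i, ∃ p : (gsp k B)[X], p.Monic ∧ p.natDegree ≤ d ∧ aeval c p = 0)
    {L : Type*} [Field L] (A : L →+* Gm U Ω) (hAR : ∀ z, A z ∈ uSub U R)
    (hdep : ∀ v ∈ B, ∀ x y : L, A x ∈ uSub U (fun _ => rcl k (B.erase v)) ∨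
      IsAlgebraic (adj (uSub U (fun _ => rcl k (B.erase v))) (A x)) (A y))
    (htw : ∀ v ∈ B, ∀ x : L, A x ∉ uSub U (fun _ => rcl k (B.erase v)) →
      ∃ f : I → Ω, Twi f v ∧
        IsAlgebraic (adj (uSub U (fun _ => rcl k (B.erase v))) (gm U f)) (A x)) :
    ∃ F : Ω → I → Ω, (∀ v ∈ B, Twi (F v) v) ∧ ∀ y : L, ∃ T : Finset (Gm U Ω),
      (∀ t ∈ T, ∃ v ∈ B, t = gm U (F v)) ∧
        IsAlgebraic (gsp (uSub U (fun _ => k)) T) (A y) := by
  have h1 : ∀ v : Ω, ∃ f : I → Ω, v ∈ B → Twi f v ∧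
      ∀ y : L, IsAlgebraic (adj (uSub U (fun _ => rcl k (B.erase v))) (gm U f)) (A y) := by
    intro v
    by_cases hv : v ∈ B
    · by_cases hall : ∀ x : L, A x ∈ uSub U (fun _ => rcl k (B.erase v))
      · exact ⟨fun _ => v, fun _ => ⟨fun _ => ⟨0, 0, rfl⟩,
          fun y => isAlgebraic_of_mem (le_adj _ _ (hall y))⟩⟩
      · push Not at hall
        obtain ⟨x0, hx0⟩ := hall
        obtain ⟨f, hf, hfx⟩ := htw v hv x0 hx0
        refine ⟨f, fun _ => ⟨hf, fun y => ?_⟩⟩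
        have h2 := (hdep v hv x0 y).resolve_left hx0
        have h3 : adj (uSub U (fun _ => rcl k (B.erase v))) (A x0) ≤
            rac (adj (uSub U (fun _ => rcl k (B.erase v))) (gm U f)) :=
          adj_le ((le_adj _ _).trans (le_rac _)) (mem_rac.2 hfx)
        exact isAlgebraic_rac (isAlgebraic_mono h3 h2)
    · exact ⟨fun _ => v, fun h => absurd h hv⟩
  choose F hF using h1
  refine ⟨F, fun v hv => (hF v hv).1, fun y => ?_⟩
  refine geo hk hB (σ := fun v => gm U (F v))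
    (fun v hv => ⟨F v, rfl, fun i => e4_rcl_twi (hF v hv).1 i⟩) ?_ (fun v hv => (hF v hv).2 y)
  obtain ⟨g, hg, hgR⟩ := hAR y
  exact ⟨g, hg, fun i => e4_bd_rcl (hd i _ (hgR i))⟩

end e4b

/-- the limit theorem: a function field `L` of transcendence degree `m + 1` over `l` inside a
limit of function fields of transcendence degree `m` over `k`. -/
theorem lim_main {Ω : Type*} [Field Ω] [IsAlgClosed Ω] (ℓ : ℕ) [Fact ℓ.Prime] [NeZero (ℓ : Ω)]
    [DecidableEq Ω] {I : Type*} {U : Ultrafilter I} {k : Subfield Ω} (hk : IsAlgClosed k)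
    {B : Finset Ω} (hB : Indp k B) {R : I → Subfield Ω} (hR : ∀ i, gsp k B ≤ R i)
    (hRp : ∀ i, PerfectField (R i)) {d : ℕ}
    (hd : ∀ i, ∀ c ∈ R i, ∃ p : (gsp k B)[X], p.Monic ∧ p.natDegree ≤ d ∧ aeval c p = 0)
    {L : Type*} [Field L] [PerfectField L] {l : Subfield L} (hl : IsAlgClosed l)
    (hfg : FG l (⊤ : Subfield L)) (htd : Td l (B.card + 1)) (A : L →+* Gm U Ω)
    (hAR : ∀ z, A z ∈ uSub U R) (hAl : ∀ c ∈ l, A c ∈ uSub U (fun _ => k))
    (hdep : ∀ v ∈ B, ∀ x y : L, A x ∈ uSub U (fun _ => rcl k (B.erase v)) ∨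
      IsAlgebraic (adj (uSub U (fun _ => rcl k (B.erase v))) (A x)) (A y))
    (htw : ∀ v ∈ B, ∀ x : L, A x ∉ uSub U (fun _ => rcl k (B.erase v)) →
      ∃ f : I → Ω, Twi f v ∧
        IsAlgebraic (adj (uSub U (fun _ => rcl k (B.erase v))) (gm U f)) (A x))
    (hdie : ∀ N : ℕ, ∃ x : Fin N → L, (∀ i, x i ≠ 0 ∧ ∃ h ∈ uSub U R, h ^ ℓ = A (x i)) ∧
      ∀ i j, i ≠ j → ¬ ∃ w : L, x i = x j * w ^ ℓ)
    (hram : ∀ v ∈ B, {c : Ω | c ∈ k ∧ ∃ z : L, z ≠ 0 ∧ ∃ e : ℕ, ∃ h ∈ uSub U R, h ≠ 0 ∧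
      gm U (fun _ => v - c) = A z ^ e * h ^ ℓ}.Infinite) :
    ∃ e : L, e ∉ l ∧ A e ∈ uSub U (fun _ => k) := by
  classical
  haveI : PerfectField k := by
    haveI := hk
    infer_instance
  have hℓ : 0 < ℓ := (Fact.out : ℓ.Prime).pos
  obtain ⟨F, hFB, hFalg⟩ := e4_choose hk hB hd A hAR hdep htw
  have hσ : ∀ v ∈ B, ∃ f : I → Ω, gm U f = gm U (F v) ∧
      ∀ i, ∃ a b : ℕ, (f i) ^ (ringExpChar Ω) ^ a = v ^ (ringExpChar Ω) ^ b :=
    fun v hv => ⟨F v, rfl, hFB v hv⟩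
  obtain ⟨S, hS, hScard, hSind⟩ := gm_indp (U := U) hB (σ := fun v => gm U (F v)) hσ
  have hfin := gm_fin (U := U) hB (σ := fun v => gm U (F v)) hσ hS hR hRp hd
  set Λ : Subfield (Gm U Ω) := uSub U (fun _ => k) with hΛdef
  have hΛac : IsAlgClosed Λ := isAlgClosed_uSub fun _ => hk
  set P := gsp Λ S with hP
  set κ : Subfield (Gm U Ω) := uSub U R ⊓ rac P with hκ
  haveI : PerfectField (uSub U R) := e4_perfect_uSub hRp
  haveI hκp : PerfectField κ := perfect_inf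
  have hkR : ∀ i, k ≤ R i := fun i => (le_gsp k B).trans (hR i)
  have hΛR : Λ ≤ uSub U R := by
    rintro _ ⟨f, rfl, hf⟩
    exact ⟨f, rfl, fun i => hkR i (hf i)⟩
  have hΛκ : Λ ≤ κ := le_inf hΛR ((le_gsp Λ S).trans (le_rac _))
  have hAκ : ∀ z : L, A z ∈ κ := by
    intro z
    refine Subfield.mem_inf.2 ⟨hAR z, mem_rac.2 ?_⟩
    obtain ⟨T, hT, hTz⟩ := hFalg z
    exact isAlgebraic_mono (gsp_mono Λ fun t ht => (hS t).2 (hT t ht)) hTz
  have hFR : ∀ v ∈ B, ∀ i, F v i ∈ R i := fun v hv i => hR i (e4_gsp_twi hv (hFB v hv) i)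
  have hSκ : ∀ y ∈ S, y ∈ κ := by
    intro y hy
    refine Subfield.mem_inf.2 ⟨?_, le_rac _ (mem_gsp hy)⟩
    obtain ⟨v, hv, rfl⟩ := (hS y).1 hy
    exact ⟨F v, rfl, hFR v hv⟩
  obtain ⟨S', hS', hS'card⟩ := e4_lift hSκ
  have hpow : ∀ h ∈ uSub U R, h ^ ℓ ∈ κ → h ∈ κ := fun h hh hhκ =>
    Subfield.mem_inf.2 ⟨hh, mem_rac.2 (isAlgebraic_rac
      (IsAlgebraic.of_pow hℓ (isAlgebraic_of_mem (Subfield.mem_inf.1 hhκ).2)))⟩
  let A' : L →+* κ := A.codRestrict κ hAκ
  have hA' : ∀ z, ((A' z : κ) : Gm U Ω) = A z := fun z => rfl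
  haveI : NeZero (ℓ : κ) := ⟨by
    intro h
    have h1 : gc U ((ℓ : ℕ) : Ω) = 0 := by
      rw [map_natCast, ← map_natCast κ.subtype, h, map_zero]
    rw [map_eq_zero] at h1
    exact NeZero.ne _ h1⟩
  set Λκ : Subfield κ := Λ.comap κ.subtype with hΛκdef
  set Lκ : Subfield κ := (⊤ : Subfield L).map A' with hLκ
  have hΛκac : IsAlgClosed Λκ := e4_isAlgClosed hΛκ hΛac
  have hfgκ : FG Λκ (⊤ : Subfield κ) := e4_fg hfin hΛκ
  -- the generators are algebraic over `Λ L`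
  have hS'alg : ∀ y ∈ S', IsAlgebraic (Λκ ⊔ Lκ : Subfield κ) y := by
    intro y hy
    have hyS : (y : Gm U Ω) ∈ S := by
      rw [← hS']
      exact Finset.mem_image_of_mem κ.subtype hy
    obtain ⟨v, hv, hyv⟩ := (hS _).1 hyS
    refine ram_alg ℓ hΛκac hfgκ le_sup_left ?_
    choose a b hab using hFB v hv
    have hC : ∀ c : Ω, ∃ g : I → Ω, c ∈ k → ∀ i, g i ∈ k ∧
        g i ^ ringExpChar Ω ^ a i = c ^ ringExpChar Ω ^ b i := by
      intro c
      by_cases hc : c ∈ k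
      · choose g hg hg' using fun i => exists_root_q k (pow_mem hc (ringExpChar Ω ^ b i)) (a i)
        exact ⟨g, fun _ i => ⟨hg i, hg' i⟩⟩
      · exact ⟨fun _ => 0, fun h => absurd h hc⟩
    choose C hC using hC
    refine Set.Infinite.of_image (fun z : κ => (z : Gm U Ω)) ?_
    refine ((hram v hv).image (f := fun c => gm U (C c)) ?_).mono ?_
    · rintro c ⟨hc, -⟩ c' ⟨hc', -⟩ hcc
      obtain ⟨i, hi⟩ := (gm_eq.1 hcc).exists
      have h1 := (hC c hc i).2
      rw [hi, (hC c' hc' i).2] at h1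
      exact (pow_q_injective (b i) h1).symm
    · rintro _ ⟨c, ⟨hc, z, hz0, e, h, hh, hh0, heq⟩, rfl⟩
      have hCR : ∀ i, C c i ∈ R i := fun i => hkR i (hC c hc i).1
      have hCΛ : gm U (C c) ∈ Λ := ⟨C c, rfl, fun i => (hC c hc i).1⟩
      have hAz0 : A z ≠ 0 := (map_ne_zero A).2 hz0
      obtain ⟨e', h', hh', hh'0, heq'⟩ := e4_ultra (ℓ := ℓ) (R := R) (v := v) (c := c) (f := F v)
        (c' := C c) (fun i => ⟨a i, b i, hab i, (hC c hc i).2⟩)
        (fun i => (R i).sub_mem (hFR v hv i) (hCR i)) (hAR z) hAz0 hh hh0 heq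
      have hh'κ : h' ∈ κ := by
        refine hpow h' hh' ?_
        have h1 : h' ^ ℓ = ((y : Gm U Ω) - gm U (C c)) / A z ^ e' := by
          rw [hyv, heq', mul_div_cancel_left₀ _ (pow_ne_zero _ hAz0)]
        rw [h1]
        exact κ.div_mem (κ.sub_mem y.2 (hΛκ hCΛ)) (κ.pow_mem (hAκ z) _)
      refine ⟨⟨gm U (C c), hΛκ hCΛ⟩, ⟨hCΛ, A' z ^ e', ?_, ⟨h', hh'κ⟩, ?_, ?_⟩, rfl⟩
      · have hzL : A' z ∈ Lκ := ⟨z, Subfield.mem_top z, rfl⟩
        exact (le_sup_right : Lκ ≤ Λκ ⊔ Lκ) (pow_mem hzL _)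
      · intro h1
        exact hh'0 (congrArg (fun z : κ => (z : Gm U Ω)) h1)
      · apply Subtype.ext
        change (y : Gm U Ω) - gm U (C c) = A z ^ e' * h' ^ ℓ
        rw [hyv, heq']
  have halg : ∀ z : κ, IsAlgebraic (Λκ ⊔ Lκ : Subfield κ) z := by
    intro z
    have h1 : IsAlgebraic (gsp Λκ S') z := by
      rw [hΛκdef, e4_alg_gsp hΛκ, hS']
      exact mem_rac.1 (Subfield.mem_inf.1 z.2).2
    have h2 : gsp Λκ S' ≤ rac (Λκ ⊔ Lκ) :=
      gsp_le (le_sup_left.trans (le_rac _)) fun y hy => mem_rac.2 (hS'alg y hy)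
    exact isAlgebraic_rac (isAlgebraic_mono h2 h1)
  have htd' : Td Λκ B.card := by
    refine ⟨S', hS'card.trans hScard, ?_, fun z => ?_⟩
    · rw [← e4_indp_map κ.subtype, hΛκdef, e4_map_comap hΛκ, hS']
      exact hSind
    · rw [hΛκdef, e4_alg_gsp hΛκ, hS']
      exact mem_rac.1 (Subfield.mem_inf.1 z.2).2
  obtain ⟨BL, hBLc, hBLi, hBLa⟩ := htd
  obtain ⟨e, he, heΛ, hel⟩ := ftn ℓ hΛκac hfgκ (l := l.map A') (L := Lκ) (isAlgClosed_map A' hl)
    (by
      rintro _ ⟨c, hc, rfl⟩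
      exact hAl c hc) (fg_map A' hfg) htd' (B := BL.image A') ((e4_indp_map A').2 hBLi)
    (by rw [Finset.card_image_of_injective _ A'.injective, hBLc])
    (fun x hx => by
      obtain ⟨y, -, rfl⟩ := Finset.mem_image.1 hx
      exact ⟨y, Subfield.mem_top y, rfl⟩)
    (by
      rintro _ ⟨x, -, rfl⟩
      rw [← e4_map_gsp]
      exact isAlgebraic_map A' (hBLa x)) halg
    (by
      intro N
      obtain ⟨x, hx, hne⟩ := hdie N
      refine ⟨fun i => A' (x i), fun i => ⟨⟨x i, Subfield.mem_top _, rfl⟩,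
        (map_ne_zero A').2 (hx i).1, ?_⟩, ?_⟩
      · obtain ⟨h, hh, hhx⟩ := (hx i).2
        exact ⟨⟨h, hpow h hh (by rw [hhx]; exact hAκ _)⟩, Subtype.ext hhx⟩
      · rintro i j hij ⟨_, ⟨w, -, rfl⟩, hw⟩
        refine hne i j hij ⟨w, A'.injective ?_⟩
        rw [map_mul, map_pow]
        exact hw)
  obtain ⟨e0, -, rfl⟩ := he
  exact ⟨e0, fun h => hel ⟨e0, h, rfl⟩, heΛ⟩

end Vale.Agent.P019P
end

section

/-!
# Classes orthogonal to infinitely many points
-/

namespace Vale.Agent.P019P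

open Vale.Agent.P019

set_option linter.style.haveILetI false
set_option linter.unusedSectionVars false

open Polynomial Filter

variable {K : Type*} [Field K] [PerfectField K] {ℓ : ℕ} [Fact ℓ.Prime] [NeZero (ℓ : K)]

/-- the induction for `exists_ratF`. -/
theorem k2_aux {k : Subfield K} {e y : K} (he : ¬ IsAlgebraic k e)
    (hy : ¬ IsAlgebraic (adj k e) y) (T : Finset K) : ∃ (G : Subfield K) (s : K), RatF k G ∧
      ¬ IsAlgebraic G s ∧ ¬ IsAlgebraic (adj G s) e ∧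
      ∀ t ∈ T, IsAlgebraic (adj (adj G s) e) t := by
  classical
  induction T using Finset.induction_on with
  | empty =>
    refine ⟨k, y, RatF.base, fun h => hy (isAlgebraic_mono (le_adj k e) h),
      fun h => hy (exchange he h), ?_⟩
    intro t ht
    exact absurd ht (Finset.notMem_empty t)
  | insert t T _ ih =>
    obtain ⟨G, s, hG, hs, he', hT⟩ := ih
    by_cases ht : IsAlgebraic (adj (adj G s) e) t
    · refine ⟨G, s, hG, hs, he', ?_⟩
      intro t' ht'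
      rcases Finset.mem_insert.1 ht' with h | h
      · rw [h]
        exact ht
      · exact hT t' h
    · refine ⟨adj G s, t, RatF.step hG hs, fun h => ht (isAlgebraic_mono (le_adj _ e) h),
        fun h => ht (exchange he' h), ?_⟩
      intro t' ht'
      rcases Finset.mem_insert.1 ht' with h | h
      · rw [h]
        exact isAlgebraic_of_mem (le_adj _ e (mem_adj _ t))
      · exact isAlgebraic_mono (adj_mono (le_adj _ t) e) (hT t' h)

/-- existence of a frame with rational `G`. -/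
theorem exists_ratF {k : Subfield K} (hk : IsAlgClosed k) (hfg : FG k (⊤ : Subfield K)) {e y : K}
    (he : e ∉ k) (hy : ¬ IsAlgebraic (adj k e) y) : ∃ (G : Subfield K) (s : K), RatF k G ∧
      Frame k G e s := by
  haveI : PerfectField k := by
    haveI := hk
    infer_instance
  obtain ⟨S, hS⟩ := hfg
  have he' : ¬ IsAlgebraic k e := fun h => he (RAC_of_isAlgClosed _ hk e h)
  obtain ⟨G, s, hG, hs, hes, hT⟩ := k2_aux he' hy S
  refine ⟨G, s, hG, hG.le, hG.fg, hes, hs, fun z => ?_⟩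
  have h1 : (⊤ : Subfield K) ≤ rac (adj (adj G s) e) := by
    rw [hS]
    refine pf_le (sup_le ?_ (Subfield.closure_le.2 fun w hw => mem_rac.2 (hT w hw)))
    exact hG.le.trans ((le_adj G s).trans ((le_adj _ e).trans (le_rac _)))
  exact mem_rac.1 (h1 (Subfield.mem_top z))

theorem k2_neg_one {K : Type*} [Field K] {k : Subfield K} (hk : IsAlgClosed k) {ℓ : ℕ}
    (hℓ : 0 < ℓ) : ∃ i : K, i ^ ℓ = -1 := by
  obtain ⟨d, hd⟩ := IsAlgClosed.exists_pow_nat_eq (-1 : k) hℓ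
  exact ⟨d, congrArg Subtype.val hd⟩

/-- K2: a class orthogonal to infinitely many `e - β`. -/
theorem k2 {k : Subfield K} (hk : IsAlgClosed k) (hfg : FG k (⊤ : Subfield K)) {e y : K}
    (he : e ∉ k) (hy : ¬ IsAlgebraic (adj k e) y)
    {v : V ℓ K} (hinf : {β : K | β ∈ k ∧ Orth v (cl ℓ (e - β))}.Infinite) :
    v ∈ VS ℓ (rac (adj k e)) := by
  have hℓ : 0 < ℓ := (Fact.out : ℓ.Prime).pos
  obtain ⟨G, s, hG, hfr⟩ := exists_ratF hk hfg he hy
  have hkF : k ≤ adj G s := hfr.le.trans (le_adj G s)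
  obtain ⟨z, hz0, hz⟩ := cl_surj ℓ v
  obtain ⟨θ, hnice⟩ := hfr.nice hfg
  have hboth := hnice.and (hfr.unit hz0)
  rw [ae_iff] at hboth
  refine k1 hk hfg (RatF.step hG hfr.ss) hfr.tt hfr.alg ?_
  refine (hinf.sdiff hboth).mono ?_
  rintro β ⟨⟨hβ, hor⟩, hbad⟩
  refine ⟨hβ, ?_⟩
  have hgood : (∀ W : ValuationSubring K, Over W (adj G s) e β → Nice W (adj G s) (e - β) θ) ∧
      ∀ W : ValuationSubring K, Over W (adj G s) e β → W.valuation z = 1 := by
    by_contra hcon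
    exact hbad ⟨hkF hβ, hcon⟩
  obtain ⟨W, hW⟩ := exists_over hfr.tt (hkF hβ)
  refine ⟨W, hW, ?_⟩
  have hU := (hgood.1 W hW).unif
  have h1 := tame_orth (k2_neg_one hk hℓ) W (hU.fn ℓ) (fun z hz => hU.fn_unit ℓ z hz) hor
  rw [hU.fn_self ℓ, ← hz, hU.fn_unit ℓ z (hgood.2 W hW), one_smul, zero_smul, sub_zero, hz] at h1
  exact h1

end Vale.Agent.P019P
end

section

/-!
# Elements of `L` are units for almost all transferred valuations
-/

namespace Vale.Agent.P019P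

open Vale.Agent.P019

set_option linter.style.haveILetI false
set_option linter.unusedSectionVars false

open Polynomial Filter

section aeu

variable {L : Type*} [Field L] {Γ : Type*} [LinearOrderedCommGroupWithZero Γ]

/-- for every `p` some element is not algebraic over `l(p)`. -/
theorem aeu_indep {l : Subfield L} (hl : IsAlgClosed l)
    (htrl : ∃ x y : L, x ∉ l ∧ ¬ IsAlgebraic (adj l x) y) (p : L) :
    ∃ g : L, ¬ IsAlgebraic (adj l p) g := by
  obtain ⟨x, y, hx, hy⟩ := htrl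
  by_contra hcon
  push Not at hcon
  exact hy (line_swap (RAC_of_isAlgClosed _ hl) (hcon _) hx (hcon _))

/-- an infinite sequence of nonzero constants on which a valuation is at most one. -/
theorem aeu_seq {l : Subfield L} (hl : IsAlgClosed l) (v : Valuation L Γ) :
    ∃ e : ℕ → L, Function.Injective e ∧ (∀ n, e n ∈ l) ∧ (∀ n, v (e n) ≤ 1) ∧
      ∀ n, e n ≠ 0 := by
  haveI := hl
  haveI : Infinite l := IsAlgClosed.instInfinite
  have hinf : {c : l | v (c : L) ≤ 1 ∧ c ≠ 0}.Infinite := by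
    intro hfin
    have h1 : (Set.univ : Set l) ⊆ {c : l | v (c : L) ≤ 1 ∧ c ≠ 0} ∪
        ((fun c => c⁻¹) '' {c : l | v (c : L) ≤ 1 ∧ c ≠ 0}) ∪ {0} := by
      intro c _
      by_cases hc0 : c = 0
      · exact Or.inr hc0
      · left
        rcases le_or_gt (v (c : L)) 1 with h | h
        · exact Or.inl ⟨h, hc0⟩
        · refine Or.inr ⟨c⁻¹, ⟨?_, inv_ne_zero hc0⟩, inv_inv c⟩
          have e : ((c⁻¹ : l) : L) = (c : L)⁻¹ := rfl
          rw [e, map_inv₀]
          exact (inv_lt_one_of_one_lt₀ h).le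
    exact Set.infinite_univ (((hfin.union (hfin.image _)).union (Set.finite_singleton _)).subset h1)
  let f := hinf.natEmbedding
  refine ⟨fun n => ((f n).1 : L), ?_, fun n => (f n).1.2, fun n => (f n).2.1, fun n h => ?_⟩
  · intro n m h
    exact f.injective (Subtype.ext (Subtype.ext h))
  · exact (f n).2.2 (Subtype.ext h)

/-- elements of the maximal ideal which are generically independent. -/
theorem aeu_small {l : Subfield L} (hl : IsAlgClosed l)
    (htrl : ∃ x y : L, x ∉ l ∧ ¬ IsAlgebraic (adj l x) y) (v : Valuation L Γ) {z : L}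
    (hz0 : z ≠ 0) (hv : v z < 1) (p : L) : ∃ q : L, v q < 1 ∧ ¬ IsAlgebraic (adj l p) q := by
  by_cases h : IsAlgebraic (adj l p) z
  · obtain ⟨g, hgp⟩ := aeu_indep hl htrl p
    have hg0 : g ≠ 0 := by
      rintro rfl
      exact hgp (isAlgebraic_of_mem (Subfield.zero_mem _))
    rw [← mem_rac] at h
    rcases le_or_gt (v g) 1 with h1 | h1
    · refine ⟨z * g, ?_, ?_⟩
      · rw [map_mul]
        exact mul_lt_one_of_lt_of_le hv h1
      · intro h2
        apply hgp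
        rw [← mem_rac] at h2 ⊢
        have e : g = (z * g) / z := by field_simp
        rw [e]
        exact Subfield.div_mem _ h2 h
    · refine ⟨z / g, ?_, ?_⟩
      · rw [map_div₀]
        exact (div_lt_one₀ (lt_trans zero_lt_one h1)).2 (lt_trans hv h1)
      · intro h2
        apply hgp
        rw [← mem_rac] at h2 ⊢
        have e : g = z / (z / g) := by field_simp
        rw [e]
        exact Subfield.div_mem _ h h2
  · exact ⟨z, hv, h⟩

variable [PerfectField L] {ℓ : ℕ} [Fact ℓ.Prime] [NeZero (ℓ : L)]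

/-- the main argument: if the classes of the principal units of a valuation lie in an isotropic
subspace then the valuation is trivial. -/
theorem aeu_main {l : Subfield L} (hl : IsAlgClosed l) (hfgl : FG l (⊤ : Subfield L))
    (htrl : ∃ x y : L, x ∉ l ∧ ¬ IsAlgebraic (adj l x) y) (v : Valuation L Γ)
    (hcls : ∀ y y' : L, v y < 1 → v y' < 1 → Orth (cl ℓ (1 + y)) (cl ℓ (1 + y')))
    {z : L} (hz0 : z ≠ 0) : ¬ v z < 1 := by
  classical
  intro hzw
  have hℓ : 0 < ℓ := (Fact.out : ℓ.Prime).pos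
  have hRl := RAC_of_isAlgClosed _ hl
  obtain ⟨q₁, hwq₁, hq₁k⟩ := aeu_small hl htrl v hz0 hzw 0
  have hq₁k' : q₁ ∉ l := fun h => hq₁k (isAlgebraic_of_mem (le_adj _ _ h))
  obtain ⟨q₂, hwq₂, hq₂k⟩ := aeu_small hl htrl v hz0 hzw q₁
  have hfin := bertini hl hfgl hq₁k' hq₂k
  obtain ⟨ε, hεi, hεk, hεv, hεne⟩ := aeu_seq hl v
  have hgoodnat : ∀ S : Set L, S.Finite → ∃ n : ℕ, ε n ∉ S ∧
      Good l (q₁ + ε n * q₂) := by
    intro S hS
    have hinf : (Set.range ε).Infinite := Set.infinite_range_of_injective hεi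
    obtain ⟨_, ⟨n, rfl⟩, hn⟩ := hinf.exists_notMem_finite (hfin.union hS)
    simp only [Set.mem_union, Set.mem_ofPred_eq, not_or, not_and, not_not] at hn
    exact ⟨n, hn.2, hn.1 (hεk n)⟩
  obtain ⟨n, -, hxg⟩ := hgoodnat ∅ Set.finite_empty
  obtain ⟨m, hmn, hx'g⟩ := hgoodnat {ε n} (Set.finite_singleton _)
  set x : L := q₁ + ε n * q₂ with hx
  set x' : L := q₁ + ε m * q₂ with hx'
  have hval : ∀ n : ℕ, v (q₁ + ε n * q₂) < 1 := fun n => by
    refine Valuation.map_add_lt _ hwq₁ ?_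
    rw [map_mul]
    exact mul_lt_one_of_nonneg_of_lt_one_right (hεv _) zero_le hwq₂
  have hxx' : ¬ IsAlgebraic (adj l x) x' := by
    intro h1
    rw [← mem_rac] at h1
    have hxr : x ∈ rac (adj l x) := le_rac _ (mem_adj _ _)
    have hmn' : ε m - ε n ≠ 0 := sub_ne_zero.2 (fun h => hmn (by simpa using h))
    have h2 : q₂ ∈ rac (adj l x) := by
      have e : q₂ = (x' - x) / (ε m - ε n) := by
        rw [hx, hx']; field_simp; ring
      rw [e]
      exact Subfield.div_mem _ (Subfield.sub_mem _ h1 hxr)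
        (Subfield.sub_mem _ (le_rac _ (le_adj _ _ (hεk m))) (le_rac _ (le_adj _ _ (hεk n))))
    have h3 : q₁ ∈ rac (adj l x) := by
      have e : q₁ = x - ε n * q₂ := by rw [hx]; ring
      rw [e]
      exact Subfield.sub_mem _ hxr (Subfield.mul_mem _ (le_rac _ (le_adj _ _ (hεk n))) h2)
    exact hq₂k (line_swap hRl (mem_rac.1 h3) hq₁k' (mem_rac.1 h2))
  -- classes
  have hcx : ∀ {w : L}, Good l w → ∀ j : ℕ, cl ℓ (1 + ε j * w) = cl ℓ (w - (-(ε j)⁻¹)) := by
    intro w hw j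
    have hjk' : -(ε j)⁻¹ ∈ l := l.neg_mem (l.inv_mem (hεk j))
    have hxc : w - (-(ε j)⁻¹) ≠ 0 := by
      intro h
      apply hw.1
      rw [sub_eq_zero] at h
      rw [h]
      exact hjk'
    have hj0 := hεne j
    have e : 1 + ε j * w = ε j * (w - (-(ε j)⁻¹)) := by field_simp; ring
    rw [e, cl_mul ℓ hj0 hxc, cl_const hl hℓ (hεk j), zero_add]
  have hinf2 : (Set.range (fun j : ℕ => (-(ε j)⁻¹))).Infinite := by
    refine Set.infinite_range_of_injective ?_
    intro i j hij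
    exact hεi (inv_injective (neg_injective hij))
  have hsm : ∀ (j i : ℕ), v (ε j * (q₁ + ε i * q₂)) < 1 := fun j i => by
    rw [map_mul]
    exact mul_lt_one_of_nonneg_of_lt_one_right (hεv _) zero_le (hval i)
  have hj : ∀ j : ℕ, cl ℓ (1 + ε j * x') ∈ VS ℓ (adj l x) := by
    intro j
    have h1 : {β : L | β ∈ l ∧ Orth (cl ℓ (1 + ε j * x')) (cl ℓ (x - β))}.Infinite := by
      refine hinf2.mono ?_
      rintro _ ⟨i, rfl⟩
      refine ⟨l.neg_mem (l.inv_mem (hεk i)), ?_⟩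
      rw [← hcx hxg i]
      exact hcls _ _ (hsm j m) (hsm i n)
    have h2 := k2 hl hfgl hxg.1 hxx' h1
    exact VS_mono (hxg.2.le le_rfl) h2
  -- finiteness
  have hW := int_top ℓ (E₁ := adj l x) (E₂ := adj l x') hl hfgl (le_adj _ _)
    (le_adj _ _) (mem_adj _ _) hxx' (fun z hz => isAlgebraic_of_mem hz)
  have hfin2 : (⋃ u ∈ ((VS ℓ (adj l x) ⊓ VS ℓ (adj l x') : Submodule (ZMod ℓ) (V ℓ L)) :
      Set (V ℓ L)), {c : L | c ∈ l ∧ cl ℓ (x' - c) = u}).Finite :=
    hW.biUnion (fun v _ => dist_top ℓ hl hfgl hx'g.1 v)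
  refine hinf2 (hfin2.subset ?_)
  rintro _ ⟨j, rfl⟩
  have hjk' : -(ε j)⁻¹ ∈ l := l.neg_mem (l.inv_mem (hεk j))
  simp only [Set.mem_iUnion]
  refine ⟨cl ℓ (x' - (-(ε j)⁻¹)), ⟨?_, ?_⟩, hjk', rfl⟩
  · rw [← hcx hx'g j]; exact hj j
  · exact cl_mem_VS (Subfield.sub_mem _ (mem_adj _ _) (le_adj _ _ hjk'))

end aeu

variable {K L : Type*} [Field K] [Field L] [PerfectField K] [PerfectField L] {ℓ : ℕ}
  [Fact ℓ.Prime] [NeZero (ℓ : K)] [NeZero (ℓ : L)] {Θ : V ℓ K ≃ₗ[ZMod ℓ] V ℓ L}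

theorem ae_unit {k : Subfield K} (hk : IsAlgClosed k) (hfgk : FG k (⊤ : Subfield K))
    {l : Subfield L} (hl : IsAlgClosed l) (hfgl : FG l (⊤ : Subfield L)) (hΘ : Compatible Θ)
    (htrl : ∃ x y : L, x ∉ l ∧ ¬ IsAlgebraic (adj l x) y)
    {F : Subfield K} (hF : RatF k F) {t : K} (ht : Good k t) (htF : ¬ IsAlgebraic F t)
    (halg : ∀ z : K, IsAlgebraic (adj F t) z) {z : L} (hz : z ≠ 0) :
    ∀ᶠ b in ae k, ∀ W : ValuationSubring K, Over W F t b →
      ∀ O : ValuationSubring L, Tr Θ W (t - b) O → O.valuation z = 1 := by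
  classical
  rw [ae_iff]
  by_contra hcon
  have hcon' : {b : K | b ∈ k ∧ ¬ ∀ W : ValuationSubring K, Over W F t b →
      ∀ O : ValuationSubring L, Tr Θ W (t - b) O → O.valuation z = 1}.Infinite := hcon
  set I : Set K := {b : K | b ∈ k ∧ ¬ ∀ W : ValuationSubring K, Over W F t b →
      ∀ O : ValuationSubring L, Tr Θ W (t - b) O → O.valuation z = 1} with hI
  have hne : ∀ i : I, ∃ (W : ValuationSubring K) (O : ValuationSubring L), Over W F t i ∧
      Tr Θ W (t - i) O ∧ O.valuation z ≠ 1 := by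
    rintro ⟨b, hbk, hb⟩
    push Not at hb
    obtain ⟨W, hW, O, hO, hz⟩ := hb
    exact ⟨W, O, hW, hO, hz⟩
  choose W O hW hO hOz using hne
  haveI : Infinite I := Set.infinite_coe_iff.2 hcon'
  let U : Ultrafilter I := hyperfilter I
  let v := (uVal U O).valuation.comap (gc U : L →+* Gm U L)
  have hv : ∀ w : L, v w = (uVal U O).valuation (gm U fun _ => w) := fun w => rfl
  have hv1 : v z ≠ 1 := by
    intro h
    rw [hv, uVal_eq_one] at h
    obtain ⟨i, hi⟩ := h.exists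
    exact hOz i hi
  have hcls : ∀ y : L, v y < 1 → Θ.symm (cl ℓ (1 + y)) ∈ VS ℓ (adj k t) := by
    intro y hy
    rw [hv, uVal_lt_one] at hy
    have h1 : {i : I | (O i).valuation y < 1}.Infinite := by
      intro hfin
      exact Filter.notMem_hyperfilter_of_finite hfin hy
    have h2 : {β : K | β ∈ k ∧ ∃ W : ValuationSubring K, Over W F t β ∧
        Θ.symm (cl ℓ (1 + y)) ∈ U1 ℓ W}.Infinite := by
      refine (h1.image (f := fun i : I => (i : K)) Subtype.val_injective.injOn).mono ?_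
      rintro _ ⟨i, hi, rfl⟩
      refine ⟨i.2.1, W i, hW i, ?_⟩
      rw [← (hO i).iff, LinearEquiv.apply_symm_apply]
      exact cl_mem_U1 hi
    exact VS_mono (ht.2.le le_rfl) (k1 hk hfgk hF htF halg h2)
  have horth : ∀ y y' : L, v y < 1 → v y' < 1 → Orth (cl ℓ (1 + y)) (cl ℓ (1 + y')) := by
    intro y y' hy hy'
    have h3 := adj_isotropic (ℓ := ℓ) hk ht.1 _ (hcls y hy) _ (hcls y' hy')
    have h4 := hΘ.orth h3
    rwa [LinearEquiv.apply_symm_apply, LinearEquiv.apply_symm_apply] at h4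
  rcases lt_or_gt_of_ne hv1 with h | h
  · exact aeu_main hl hfgl htrl v horth hz h
  · refine aeu_main hl hfgl htrl v horth (inv_ne_zero hz) ?_
    rw [map_inv₀]
    exact inv_lt_one_of_one_lt₀ h

end Vale.Agent.P019P
end

section

/-!
# Step A: the data, and the case of a special element
-/

namespace Vale.Agent.P019P

open Vale.Agent.P019

set_option linter.style.haveILetI false
set_option linter.unusedSectionVars false

open Polynomial Filter

variable {K L : Type*} [Field K] [Field L] [PerfectField K] [PerfectField L] {ℓ : ℕ}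
  [Fact ℓ.Prime] [NeZero (ℓ : K)] [NeZero (ℓ : L)]

/-- infinitely many points of `t`, valuations over them and corresponding valuations. -/
structure Dat (k F : Subfield K) (t : K) (Θ : V ℓ K ≃ₗ[ZMod ℓ] V ℓ L) where
  S : Set K
  inf : Infinite S
  le : ∀ b ∈ S, b ∈ k
  W : S → ValuationSubring K
  O : S → ValuationSubring L
  ov : ∀ i, Over (W i) F t i
  tr : ∀ i, Tr Θ (W i) (t - i) (O i)
  unif : ∀ i, IsUnif (W i) (t - i)

attribute [instance] Dat.inf

variable {Θ : V ℓ K ≃ₗ[ZMod ℓ] V ℓ L} {k F : Subfield K} {t : K} {l : Subfield L}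

/-- the ultrafilter. -/
noncomputable abbrev Dat.U (D : Dat k F t Θ) : Ultrafilter D.S := hyperfilter D.S

theorem Dat.ev (D : Dat k F t Θ) {p : K → Prop} (h : ∀ᶠ a in ae k, p a) :
    ∀ᶠ i : D.S in D.U, p i.1 := hyper_of_ae D.le h

theorem Dat.mem_of_ev (D : Dat k F t Θ) (hk : IsAlgClosed k) (hfg : FG k (⊤ : Subfield K))
    (hF : RatF k F) (ht : Good k t) (htF : ¬ IsAlgebraic F t)
    (halg : ∀ z : K, IsAlgebraic (adj F t) z) {v : V ℓ K}
    (h : ∀ᶠ i in D.U, Θ v ∈ U1 ℓ (D.O i)) : v ∈ VS ℓ (adj k t) := by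
  have h1 : {i : D.S | Θ v ∈ U1 ℓ (D.O i)}.Infinite := by
    intro hfin
    exact Filter.notMem_hyperfilter_of_finite hfin h
  have h2 : {β : K | β ∈ k ∧ ∃ W : ValuationSubring K, Over W F t β ∧ v ∈ U1 ℓ W}.Infinite := by
    refine (h1.image (f := fun i : D.S => (i : K)) Subtype.val_injective.injOn).mono ?_
    rintro _ ⟨i, hi, rfl⟩
    exact ⟨D.le _ i.2, D.W i, D.ov i, ((D.tr i).iff v).1 hi⟩
  exact VS_mono (ht.2.le le_rfl) (k1 hk hfg hF htF halg h2)

theorem Dat.ev_of_mem (D : Dat k F t Θ) (hk : IsAlgClosed k) (hkF : k ≤ F)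
    (ht : t ∉ k) {v : V ℓ K} (hv : v ∈ VS ℓ (adj k t)) :
    ∀ᶠ i in D.U, Θ v ∈ U1 ℓ (D.O i) := by
  classical
  have hℓ : 0 < ℓ := (Fact.out : ℓ.Prime).pos
  obtain ⟨s, n, hs, hv⟩ := adj_factor hk ht hv
  have h1 : ∀ᶠ i : D.S in D.U, (i : K) ∉ s := by
    refine D.ev (p := fun a => a ∉ s) ?_
    rw [ae_iff]
    refine s.finite_toSet.subset ?_
    rintro a ⟨-, ha⟩
    rw [not_not] at ha
    exact ha
  refine h1.mono fun i hi => ?_
  rw [(D.tr i).iff, hv]
  refine Submodule.sum_mem _ fun c hc => Submodule.smul_mem _ _ ?_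
  have hic : (i : K) - c ∈ k := k.sub_mem (D.le _ i.2) (hs c hc)
  have hic0 : (i : K) - c ≠ 0 := by
    intro h0
    rw [sub_eq_zero] at h0
    exact hi (h0 ▸ hc)
  have h2 : (D.W i).valuation ((i : K) - c) = 1 :=
    (D.ov i).triv.eq_one (hkF hic) hic0
  have h3 := cl_sub_cl_mem_U1 (ℓ := ℓ) (x := t - c) h2
    (by rw [show t - c - ((i : K) - c) = t - i by ring]; exact (D.ov i).lt)
  rwa [cl_const hk hℓ hic, sub_zero] at h3

theorem Dat.ulu (D : Dat k F t Θ) (hk : IsAlgClosed k) (hfgk : FG k (⊤ : Subfield K))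
    (hl : IsAlgClosed l) (hfgl : FG l (⊤ : Subfield L)) (hΘ : Compatible Θ)
    (htrl : ∃ x y : L, x ∉ l ∧ ¬ IsAlgebraic (adj l x) y) (hF : RatF k F) (ht : Good k t)
    (htF : ¬ IsAlgebraic F t) (halg : ∀ z : K, IsAlgebraic (adj F t) z) : Ulu D.U D.O :=
  fun _ hx => (D.ev (ae_unit hk hfgk hl hfgl hΘ htrl hF ht htF halg hx)).mono
    fun i h => h (D.W i) (D.ov i) (D.O i) (D.tr i)

/-- an element `h` which is constant modulo almost all `O i`. -/
theorem Dat.case_one (D : Dat k F t Θ) (hk : IsAlgClosed k) (hfgk : FG k (⊤ : Subfield K))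
    (hl : IsAlgClosed l) (hfgl : FG l (⊤ : Subfield L)) (hΘ : Compatible Θ)
    (htrl : ∃ x y : L, x ∉ l ∧ ¬ IsAlgebraic (adj l x) y) (hF : RatF k F) (ht : Good k t)
    (htF : ¬ IsAlgebraic F t) (halg : ∀ z : K, IsAlgebraic (adj F t) z)
    (hO : ∀ i, TrivOn (D.O i) l) {h : L} (hh : h ∉ l) {c : D.S → L} (hc : ∀ i, c i ∈ l)
    (hhc : ∀ᶠ i in D.U, (D.O i).valuation (h - c i) < 1) :
    ∃ E : Subfield L, Crv l E ∧ ∀ v, Θ v ∈ VS ℓ E ↔ v ∈ VS ℓ (adj k t) := by
  classical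
  have hℓ : 0 < ℓ := (Fact.out : ℓ.Prime).pos
  have hkF : k ≤ F := hF.le
  have hu : Ulu D.U D.O := D.ulu hk hfgk hl hfgl hΘ htrl hF ht htF halg
  have hlO : ∀ x ∈ uSub D.U (fun _ => l), x ∈ (ulP D.U D.O).O :=
    ulP_triv (Eventually.of_forall hO)
  set P := ulP D.U D.O with hP
  set j := hu.j with hj
  set Bs := P.im (uSub D.U (fun _ => l)) hlO with hBs
  have hBsac : IsAlgClosed Bs := P.isAlgClosed_im hlO (isAlgClosed_uSub fun _ => hl)
  have hBsR : RAC Bs := RAC_of_isAlgClosed Bs hBsac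
  haveI : PerfectField Bs := perfect_of_RAC hBsR
  have hlB : l.map j ≤ Bs := by
    rintro _ ⟨x, hx, rfl⟩
    exact P.ev_mem_im hlO (gc_mem_uSub hx)
  have hval : ∀ x : L, ∀ᶠ i in D.U, x ∈ D.O i := by
    intro x
    by_cases hx : x = 0
    · rw [hx]; exact Eventually.of_forall fun i => (D.O i).zero_mem
    · exact (hu x hx).mono fun i hi => ((D.O i).valuation_le_one_iff x).1 hi.le
  have hhB : j h ∈ Bs := by
    have h2 : P.ev (gm D.U (fun _ => h)) = P.ev (gm D.U c) := by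
      rw [ulP_ev_eq (hval h) (Eventually.of_forall fun i => hO i _ (hc i))]
      exact hhc
    have h3 : j h = P.ev (gm D.U c) := h2
    rw [h3]
    exact P.ev_mem_im hlO ⟨_, rfl, hc⟩
  have hE : ∀ e ∈ rac (adj l h), j e ∈ Bs := by
    intro e he
    apply hBsR
    refine isAlgebraic_mono ?_ (isAlgebraic_map j (mem_rac.1 he))
    exact (map_adj_le j _ _).trans (adj_le hlB hhB)
  have hVE : ∀ v ∈ VS ℓ (rac (adj l h)), Θ.symm v ∈ VS ℓ (adj k t) := by
    rintro _ ⟨e, he, he0, rfl⟩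
    refine D.mem_of_ev hk hfgk hF ht htF halg ?_
    rw [LinearEquiv.apply_symm_apply]
    obtain ⟨y, ⟨f, rfl, hf⟩, hy⟩ := P.mem_im.1 (hE e he)
    have h2 : P.ev (gm D.U (fun _ => e)) = P.ev (gm D.U f) := hy.symm
    rw [ulP_ev_eq (hval e) (Eventually.of_forall fun i => hO i _ (hf i))] at h2
    filter_upwards [h2, hu e he0] with i hi1 hi2
    have h4 : (D.O i).valuation (f i) = 1 := by
      have h5 : f i = e + -(e - f i) := by ring
      have h6 : (D.O i).valuation (-(e - f i)) < (D.O i).valuation e := by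
        rw [Valuation.map_neg, hi2]
        exact hi1
      rw [h5, Valuation.map_add_eq_of_lt_left _ h6, hi2]
    have h3 := cl_sub_cl_mem_U1 (ℓ := ℓ) h4 hi1
    rwa [cl_const hl hℓ (hf i), sub_zero] at h3
  obtain ⟨y, hy⟩ := aeu_indep hl htrl h
  refine ⟨rac (adj l h), ⟨(le_adj _ _).trans (le_rac _), RAC_rac _, h,
    le_rac _ (mem_adj _ _), hh, fun z hz => mem_rac.1 hz⟩, fun v => ⟨fun hv => ?_, fun hv => ?_⟩⟩
  · have h1 := hVE _ hv
    rwa [LinearEquiv.symm_apply_apply] at h1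
  · refine k2 hl hfgl hh hy ?_
    refine (infinite_of_isAlgClosed hl).mono fun β hβ => ⟨hβ, ?_⟩
    have h1 : cl ℓ (h - β) ∈ VS ℓ (rac (adj l h)) :=
      cl_mem_VS (Subfield.sub_mem _ (le_rac _ (mem_adj _ _))
        (le_rac _ (le_adj _ _ hβ)))
    have h2 := adj_isotropic (ℓ := ℓ) hk ht.1 _ hv _ (hVE _ h1)
    have h3 := hΘ.orth h2
    rwa [LinearEquiv.apply_symm_apply] at h3

end Vale.Agent.P019P
end

section

/-!
# Step A for surfaces over closures of finite fields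
-/

namespace Vale.Agent.P019P

open Vale.Agent.P019

set_option linter.style.haveILetI false
set_option linter.unusedSectionVars false

open Polynomial Filter

variable {K L : Type*} [Field K] [Field L] [PerfectField K] [PerfectField L] {ℓ : ℕ}
  [Fact ℓ.Prime] [NeZero (ℓ : K)] [NeZero (ℓ : L)] {Θ : V ℓ K ≃ₗ[ZMod ℓ] V ℓ L}

theorem exists_dat {k : Subfield K} (hk : IsAlgClosed k) (hfgk : FG k (⊤ : Subfield K))
    {l : Subfield L} (hl : IsAlgClosed l) (hΘ : Compatible Θ) {G : Subfield K} {t s : K}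
    (hfr : Frame k G t s) : Nonempty (Dat k (adj G s) t Θ) := by
  classical
  have hkF : k ≤ adj G s := hfr.le.trans (le_adj G s)
  have hsk : s ∉ k := fun h => hfr.ss (isAlgebraic_of_mem (hfr.le h))
  obtain ⟨θ, hθ⟩ := hfr.nice hfgk
  set S : Set K := {b | b ∈ k ∧ ∃ (W : ValuationSubring K) (O : ValuationSubring L),
    Over W (adj G s) t b ∧ Tr Θ W (t - b) O ∧ IsUnif W (t - b)} with hS
  have hinf : S.Infinite := by
    rw [ae_iff] at hθ
    refine ((infinite_of_isAlgClosed hk).sdiff hθ).mono ?_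
    rintro b ⟨hb, hbad⟩
    refine ⟨hb, ?_⟩
    have hgood : ∀ W : ValuationSubring K, Over W (adj G s) t b →
        Nice W (adj G s) (t - b) θ := by
      by_contra hcon
      exact hbad ⟨hkF hb, hcon⟩
    obtain ⟨W, hW⟩ := exists_over hfr.tt (hkF hb)
    have hN := hgood W hW
    obtain ⟨O, hO⟩ := exists_tr0 hk hfgk hl hΘ hkF (hfr.fg.adj_right s) hN hsk
      (hN.triv.mono (adj_mono hfr.le s))
    exact ⟨W, O, hW, hO, hN.unif⟩
  choose W O hW hO hu using fun i : S => i.2.2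
  exact ⟨⟨S, hinf.to_subtype, fun b hb => hb.1, W, O, hW, hO, hu⟩⟩

theorem sa_inf {k : Subfield K} (hk : IsAlgClosed k) {t : K} (ht : Good k t) (n : ℕ) :
    ∃ x : Fin n → L, (∀ i, x i ∈ {z : L | z ≠ 0 ∧ Θ.symm (cl ℓ z) ∈ VS ℓ (adj k t)}) ∧
      ∀ i j, i ≠ j → cl ℓ (x i) ≠ cl ℓ (x j) := by
  classical
  haveI : Infinite (k : Set K) := (infinite_of_isAlgClosed hk).to_subtype
  let c : ℕ ↪ (k : Set K) := Infinite.natEmbedding _
  choose x hx0 hx using fun i : Fin n => cl_surj ℓ (Θ (cl ℓ (t - (c i : K))))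
  refine ⟨x, fun i => ⟨hx0 i, ?_⟩, fun i j hij h => ?_⟩
  · rw [hx, LinearEquiv.symm_apply_apply]
    exact cl_mem_VS (Subfield.sub_mem _ (mem_adj k t) (le_adj k t (c i).2))
  · rw [hx, hx] at h
    have h1 := Θ.injective h
    have hne : (c i : K) ≠ c j := by
      intro h2
      exact hij (Fin.ext (c.injective (Subtype.ext h2)))
    have h2 := good_independent (ℓ := ℓ) hk ht {(c i : K), (c j : K)} (by
      intro a ha
      rw [Finset.mem_insert, Finset.mem_singleton] at ha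
      rcases ha with rfl | rfl
      · exact (c i).2
      · exact (c j).2) (fun a => if a = c i then (1 : ZMod ℓ) else -1) (by
      rw [Finset.sum_pair hne, if_pos rfl, if_neg hne.symm, one_smul, neg_smul, one_smul, h1,
        add_neg_cancel]) (c i) (by simp)
    rw [if_pos rfl] at h2
    exact one_ne_zero h2

theorem stepA2 {k : Subfield K} (hk : IsAlgClosed k) (hfgk : FG k (⊤ : Subfield K))
    (hfk : Fin' k) {l : Subfield L} (hl : IsAlgClosed l) (hfgl : FG l (⊤ : Subfield L))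
    (hfl : Fin' l) (hΘ : Compatible Θ) {t₀ s₀ : K} (hK : Srf k t₀ s₀) {x y : L} (hL : Srf l x y)
    {t : K} (ht : Good k t) : ∃ E : Subfield L, Crv l E ∧
      ∀ v, Θ v ∈ VS ℓ E ↔ v ∈ VS ℓ (adj k t) := by
  classical
  have htk : ¬ IsAlgebraic k t := fun h => ht.1 (RAC_of_isAlgClosed k hk t h)
  obtain ⟨s, hs, hs'⟩ := rsb_exch hK htk
  have hfr0 : Frame k k s t := ⟨le_rfl, hK.fg, hs, htk, hs'⟩
  have hfr : Frame k k t s := hfr0.swap
  have hF : RatF k (adj k s) := RatF.base.step hfr.ss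
  have htrl : ∃ x y : L, x ∉ l ∧ ¬ IsAlgebraic (adj l x) y :=
    ⟨y, x, fun h => hL.ss (isAlgebraic_of_mem h), hL.tt⟩
  obtain ⟨D⟩ := exists_dat (Θ := Θ) hk hfgk hl hΘ hfr
  have hu : Ulu D.U D.O := D.ulu hk hfgk hl hfgl hΘ htrl hF ht hfr.tt hfr.alg
  have hO : ∀ i, TrivOn (D.O i) l := fun i => hfl.triv (D.O i)
  by_cases hcase : ∃ h : L, h ∉ l ∧ ∃ c : D.S → L, (∀ i, c i ∈ l) ∧
      ∀ᶠ i in D.U, (D.O i).valuation (h - c i) < 1
  · obtain ⟨h, hh, c, hc, hhc⟩ := hcase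
    exact D.case_one hk hfgk hl hfgl hΘ htrl hF ht hfr.tt hfr.alg hO hh hc hhc
  exfalso
  apply hcase
  have hlO : ∀ x ∈ uSub D.U (fun _ => l), x ∈ (ulP D.U D.O).O :=
    ulP_triv (Eventually.of_forall hO)
  have hnot : ∀ g : L, g ∉ l → ∀ᶠ i in D.U, rs (D.O i) g ∉ bar (hO i) := by
    intro g hg
    refine hu.notMem_bar hO hlO fun h => hcase ?_
    obtain ⟨c, hc, hc'⟩ := (hu.j_mem_iff hO hlO).1 h
    exact ⟨g, hg, c, hc, hc'⟩
  have hdeg : ∀ g : L, g ∉ l → ∃ d : ℕ, ∀ᶠ i in D.U, rs (D.O i) g ∉ bar (hO i) ∧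
      Module.Finite (adj (bar (hO i)) (rs (D.O i) g)) (IsLocalRing.ResidueField (D.O i)) ∧
      Module.finrank (adj (bar (hO i)) (rs (D.O i) g)) (IsLocalRing.ResidueField (D.O i)) ≤ d := by
    intro g hg
    obtain ⟨d, hd⟩ := deg_bound hk hfgk hfk hl hfgl hfl hΘ hfr hL hg
    have hg0 : g ≠ 0 := fun h => hg (h ▸ l.zero_mem)
    refine ⟨d, ?_⟩
    filter_upwards [D.ev hd, hnot g hg, hu g hg0] with i h1 h2 h3
    haveI : PerfectField (IsLocalRing.ResidueField (D.O i)) := rs_perfect (hO i)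
    have hCv := (Srf.val hl hfgl hL (hO i) (dbd_ne_top (D.tr i) (D.unif i)) ⟨_, h2⟩).2.1
    exact ⟨h2, hCv.finite h2, h1 (D.W i) (D.ov i) (D.O i) (D.tr i) h3 h2⟩
  -- the transcendence basis
  have hyl : y ∉ l := fun h => hL.ss (isAlgebraic_of_mem h)
  have hxy' : ∀ z, IsAlgebraic (adj l y) (y + z) → IsAlgebraic (adj l y) z := by
    intro z hz
    have h1 : IsAlgebraic (adj l y) (y + z - y) :=
      hz.sub (isAlgebraic_of_mem (mem_adj l y))
    rwa [add_sub_cancel_left] at h1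
  have hxl : ¬ IsAlgebraic l x := fun h => hL.tt (isAlgebraic_mono (le_adj l y) h)
  have hyx : ¬ IsAlgebraic (adj l x) y := fun h => hL.tt (exchange hL.ss h)
  have hsl : y + x ∉ l := fun h => hL.tt (hxy' x (isAlgebraic_of_mem (le_adj l y h)))
  have hxl' : x ∉ l := fun h => hxl (isAlgebraic_of_mem h)
  obtain ⟨d1, hd1⟩ := hdeg y hyl
  obtain ⟨d2, hd2⟩ := hdeg x hxl'
  obtain ⟨d3, hd3⟩ := hdeg (y + x) hsl
  set d := max d1 (max d2 d3) with hd
  have h1d : d1 ≤ d := le_max_left _ _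
  have h2d : d2 ≤ d := (le_max_left _ _).trans (le_max_right _ _)
  have h3d : d3 ≤ d := (le_max_right _ _).trans (le_max_right _ _)
  have hrel : ∀ᶠ i in D.U, BRel (bar (hO i)) d (rs (D.O i) y) (rs (D.O i) x) ∨
      (BRel (bar (hO i)) d (rs (D.O i) y) (rs (D.O i) (y + x)) ∨
        BRel (bar (hO i)) d (rs (D.O i) x) (rs (D.O i) (y + x))) := by
    filter_upwards [hd1, hd2, hd3, hu.ev_mem y, hu.ev_mem x] with i h1 h2 h3 h4 h5
    haveI : PerfectField (IsLocalRing.ResidueField (D.O i)) := rs_perfect (hO i)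
    have h6 := rs_add h4 h5
    rw [h6] at h3 ⊢
    exact exists_brel (bar_isAlgClosed (hO i) hl) ⟨h1.1, h1.2.1, h1.2.2.trans h1d⟩
      ⟨h2.1, h2.2.1, h2.2.2.trans h2d⟩ ⟨h3.1, h3.2.1, h3.2.2.trans h3d⟩
  -- the classes
  have hX : ∀ z ∈ {z : L | z ≠ 0 ∧ Θ.symm (cl ℓ z) ∈ VS ℓ (adj k t)}, z ≠ 0 ∧
      ∀ᶠ i in D.U, cl ℓ z ∈ U1 ℓ (D.O i) := by
    rintro z ⟨hz0, hz⟩
    refine ⟨hz0, ?_⟩
    have h1 := D.ev_of_mem hk hF.le ht.1 hz
    rwa [LinearEquiv.apply_symm_apply] at h1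
  have hinf := sa_inf (Θ := Θ) hk ht
  have hspec : ∀ (y1 y2 : L) (d0 : ℕ), ¬ IsAlgebraic l y1 → ¬ IsAlgebraic (adj l y1) y2 →
      (∀ z : L, IsAlgebraic (adj (adj l y1) y2) z) →
      (∀ᶠ i in D.U, rs (D.O i) y1 ∉ bar (hO i) ∧
      Module.Finite (adj (bar (hO i)) (rs (D.O i) y1)) (IsLocalRing.ResidueField (D.O i)) ∧
      Module.finrank (adj (bar (hO i)) (rs (D.O i) y1))
        (IsLocalRing.ResidueField (D.O i)) ≤ d0) →
      (∀ᶠ i in D.U, BRel (bar (hO i)) d (rs (D.O i) y1) (rs (D.O i) y2)) →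
      ∃ h : L, h ∉ l ∧ ∃ c : D.S → L, (∀ i, c i ∈ l) ∧
        ∀ᶠ i in D.U, (D.O i).valuation (h - c i) < 1 := fun y1 y2 d0 h1 h2 halg h4 h5 =>
    hu.special hl hfgl hO h1 h2 halg (h4.mono fun i hi _ => hi.2) h5 hX hinf
  have hle1 : adj (adj l y) x ≤ adj (adj l y) (y + x) := by
    refine adj_le (le_adj _ _) ?_
    have h1 := Subfield.sub_mem _ (mem_adj (adj l y) (y + x))
      (le_adj (adj l y) (y + x) (mem_adj l y))
    rwa [add_sub_cancel_left] at h1
  have hle2 : adj (adj l y) x ≤ adj (adj l x) (y + x) := by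
    refine adj_le (adj_le ((le_adj l x).trans (le_adj _ _)) ?_) (le_adj _ _ (mem_adj l x))
    have h1 := Subfield.sub_mem _ (mem_adj (adj l x) (y + x))
      (le_adj (adj l x) (y + x) (mem_adj l x))
    rwa [add_sub_cancel_right] at h1
  rw [Ultrafilter.eventually_or, Ultrafilter.eventually_or] at hrel
  rcases hrel with h | h | h
  · exact hspec y x d1 hL.ss hL.tt hL.alg hd1 h
  · exact hspec y (y + x) d1 hL.ss (fun h' => hL.tt (hxy' x h'))
      (fun z => isAlgebraic_mono hle1 (hL.alg z)) hd1 h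
  · refine hspec x (y + x) d2 hxl (fun h' => hyx ?_)
      (fun z => isAlgebraic_mono hle2 (hL.alg z)) hd2 h
    have h1 : IsAlgebraic (adj l x) (y + x - x) :=
      h'.sub (isAlgebraic_of_mem (mem_adj l x))
    rwa [add_sub_cancel_right] at h1

end Vale.Agent.P019P
end

section

/-!
# Step A in transcendence degree at least three
-/

namespace Vale.Agent.P019P

open Vale.Agent.P019

set_option linter.style.haveILetI false
set_option linter.unusedSectionVars false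

open Polynomial Filter

variable {K L : Type*} [Field K] [Field L] [PerfectField K] [PerfectField L] {ℓ : ℕ}
  [Fact ℓ.Prime] [NeZero (ℓ : K)] [NeZero (ℓ : L)] {Θ : V ℓ K ≃ₗ[ZMod ℓ] V ℓ L}

/-- the residue fields of `W` and `O` correspond: `Θ` induces a multiple of an isomorphism. -/
def ResIso (ℓ : ℕ) {K L : Type*} [Field K] [Field L] (Θ : V ℓ K ≃ₗ[ZMod ℓ] V ℓ L)
    (k : Subfield K) (l : Subfield L) (W : ValuationSubring K) (O : ValuationSubring L) : Prop :=
  ∃ (hW : TrivOn W k) (hO : TrivOn O l) (e : (ZMod ℓ)ˣ)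
    (α : IsLocalRing.ResidueField W ≃+* IsLocalRing.ResidueField O),
    (∀ x, x ∈ bar hW ↔ α x ∈ bar hO) ∧
    ∀ (z : K) (y : L), W.valuation z = 1 → O.valuation y = 1 → Θ (cl ℓ z) = cl ℓ y →
      cl ℓ (rs O y) = (e : ZMod ℓ) • cl ℓ (α (rs W z))

section e5map

variable {K Ω : Type*} [Field K] [Field Ω]

theorem e5_gsp_map [PerfectField K] (j : K →+* Ω) [DecidableEq Ω] (k : Subfield K)
    (S : Finset K) : gsp (k.map j) (S.image j) = (gsp k S).map j := by
  haveI := gsp_perfect k S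
  apply le_antisymm
  · refine gsp_le (sub_map_mono j (le_gsp k S)) fun x hx => ?_
    obtain ⟨y, hy, rfl⟩ := Finset.mem_image.1 hx
    exact ⟨y, mem_gsp hy, rfl⟩
  · refine (map_pf_le j _).trans (pf_mono ?_)
    rw [Subfield.map_sup, RingHom.map_field_closure, Finset.coe_image]

theorem e5_indp [PerfectField K] (j : K →+* Ω) [DecidableEq Ω] {k : Subfield K} {B : Finset K}
    (hB : Indp k B) : Indp (k.map j) (B.image j) := by
  classical
  intro S hS v hv hvS h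
  obtain ⟨v0, hv0, rfl⟩ := Finset.mem_image.1 hv
  have hS' : S = (B.filter (fun x => j x ∈ S)).image j := by
    ext x
    constructor
    · intro hx
      obtain ⟨y, hy, rfl⟩ := Finset.mem_image.1 (hS hx)
      exact Finset.mem_image_of_mem j (Finset.mem_filter.2 ⟨hy, hx⟩)
    · intro hx
      obtain ⟨y, hy, rfl⟩ := Finset.mem_image.1 hx
      exact (Finset.mem_filter.1 hy).2
  rw [hS', e5_gsp_map] at h
  exact hB _ (Finset.filter_subset _ _) v0 hv0 (fun h1 => hvS (Finset.mem_filter.1 h1).2)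
    (isAlgebraic_of_map j h)

theorem e5_notMem_rcl {k : Subfield Ω} {B : Finset Ω} [DecidableEq Ω] (hB : Indp k B) {v : Ω}
    (hv : v ∈ B) : v ∉ rcl k (B.erase v) := fun h =>
  hB _ (Finset.erase_subset _ _) v hv (Finset.notMem_erase _ _)
    (isAlgebraic_mono (le_pf _) (mem_rac.1 h))

theorem e5_rcl_ac [IsAlgClosed Ω] (k : Subfield Ω) (T : Finset Ω) : IsAlgClosed (rcl k T) := by
  haveI : IsAlgClosed (⊤ : Subfield Ω) :=
    IsAlgClosed.of_ringEquiv _ _ (Subfield.topEquiv (K := Ω)).symm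
  exact isAlgClosed_of_RAC (k := ⊤) inferInstance (rcl_RAC _ _) le_top

theorem e5_map_ac (j : K →+* Ω) {k : Subfield K} (hk : IsAlgClosed k) :
    IsAlgClosed (k.map j) := by
  let φ : k →+* k.map j := (j.comp k.subtype).codRestrict (k.map j) fun x => ⟨x, x.2, rfl⟩
  have hφ : Function.Bijective φ := by
    refine ⟨φ.injective, ?_⟩
    rintro ⟨_, x, hx, rfl⟩
    exact ⟨⟨x, hx⟩, rfl⟩
  let e : k ≃+* k.map j := RingEquiv.ofBijective φ hφ
  refine IsAlgClosed.of_exists_root _ fun p _ hirr => ?_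
  obtain ⟨x, hx⟩ := IsAlgClosed.exists_root (p.map (e.symm : k.map j →+* k)) (by
    rw [degree_map]
    exact (degree_pos_of_irreducible hirr).ne')
  refine ⟨e x, ?_⟩
  have h1 : e.symm (eval (e x) p) = 0 := by
    rw [← hx, eval_map, ← RingEquiv.coe_toRingHom, ← eval₂_at_apply, RingEquiv.coe_toRingHom,
      RingEquiv.symm_apply_apply]
  exact (map_eq_zero_iff e.symm e.symm.injective).1 h1

/-- one of the values of a function to a finite type is attained almost everywhere. -/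
theorem e5_const {I α : Type*} [Finite α] (U : Ultrafilter I) (f : I → α) :
    ∃ a, ∀ᶠ i in U, f i = a := by
  by_contra hcon
  push Not at hcon
  have h2 : ∀ᶠ i in U, ∀ a, f i ≠ a := eventually_all.2 hcon
  obtain ⟨i, hi⟩ := h2.exists
  exact hi _ rfl

end e5map

section e5pt

/-- the data at one point. -/
structure E5D (ℓ : ℕ) {K L : Type*} [Field K] [Field L] (k : Subfield K) (l : Subfield L)
    (F : Subfield K) (Θ : V ℓ K ≃ₗ[ZMod ℓ] V ℓ L) (W : ValuationSubring K)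
    (O : ValuationSubring L) (Ω : Type*) [Field Ω] [Algebra K Ω] where
  hF : TrivOn W F
  hW : TrivOn W k
  hO : TrivOn O l
  e : (ZMod ℓ)ˣ
  α : IsLocalRing.ResidueField W ≃+* IsLocalRing.ResidueField O
  hα : ∀ x, x ∈ bar hW ↔ α x ∈ bar hO
  hcl : ∀ (z : K) (y : L), W.valuation z = 1 → O.valuation y = 1 → Θ (cl ℓ z) = cl ℓ y →
    cl ℓ (rs O y) = (e : ZMod ℓ) • cl ℓ (α (rs W z))
  ι : IsLocalRing.ResidueField W →+* Ω
  hι : ∀ z ∈ F, ι (rs W z) = algebraMap K Ω z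

variable {K L : Type*} [Field K] [Field L] {ℓ : ℕ} {Θ : V ℓ K ≃ₗ[ZMod ℓ] V ℓ L}
  {k F : Subfield K} {l : Subfield L} {W : ValuationSubring K} {O : ValuationSubring L}
  {Ω : Type*} [Field Ω] [Algebra K Ω]

theorem e5_exists [IsAlgClosed Ω] {π θ : K} (hN : Nice W F π θ) (h : ResIso ℓ Θ k l W O) :
    Nonempty (E5D ℓ k l F Θ W O Ω) := by
  obtain ⟨hW, hO, e, α, hα, hcl⟩ := h
  obtain ⟨ι, hι⟩ := exists_emb hN.triv hN.alg_bar (Ω := Ω)
  exact ⟨⟨hN.triv, hW, hO, e, α, hα, hcl, ι, hι⟩⟩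

/-- the embedding of the residue field. -/
noncomputable def E5D.ρ (P : E5D ℓ k l F Θ W O Ω) : IsLocalRing.ResidueField O →+* Ω :=
  P.ι.comp (P.α.symm : IsLocalRing.ResidueField O →+* IsLocalRing.ResidueField W)

theorem E5D.ρ_apply (P : E5D ℓ k l F Θ W O Ω) (c : IsLocalRing.ResidueField O) :
    P.ρ c = P.ι (P.α.symm c) := rfl

theorem E5D.ρ_mem (P : E5D ℓ k l F Θ W O Ω) (c : IsLocalRing.ResidueField O) :
    P.ρ c ∈ P.ι.fieldRange := ⟨_, rfl⟩

theorem E5D.map_le (P : E5D ℓ k l F Θ W O Ω) : F.map (algebraMap K Ω) ≤ P.ι.fieldRange := by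
  rintro _ ⟨x, hx, rfl⟩
  exact ⟨rs W x, P.hι x hx⟩

theorem E5D.ρ_l (P : E5D ℓ k l F Θ W O Ω) (hkF : k ≤ F) {c : L} (hc : c ∈ l) :
    P.ρ (rs O c) ∈ k.map (algebraMap K Ω) := by
  have h1 : P.α.symm (rs O c) ∈ bar P.hW := by
    rw [P.hα, RingEquiv.apply_symm_apply]
    exact rs_mem_bar P.hO hc
  obtain ⟨z, hz, hz'⟩ := (mem_bar P.hW).1 h1
  refine ⟨z, hz, ?_⟩
  rw [P.ρ_apply, ← hz']
  exact (P.hι z (hkF hz)).symm

theorem E5D.of_ρ (P : E5D ℓ k l F Θ W O Ω) (hkF : k ≤ F) {c : IsLocalRing.ResidueField O}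
    (h : P.ρ c ∈ k.map (algebraMap K Ω)) : c ∈ bar P.hO := by
  obtain ⟨z, hz, hz'⟩ := h
  have h1 : P.α.symm c = rs W z := by
    apply P.ι.injective
    rw [P.hι z (hkF hz)]
    exact hz'.symm
  have h2 : P.α.symm c ∈ bar P.hW := by
    rw [h1]
    exact rs_mem_bar P.hW hz
  rw [P.hα, RingEquiv.apply_symm_apply] at h2
  exact h2

/-- transport of monic polynomials. -/
theorem E5D.deg (P : E5D ℓ k l F Θ W O Ω) {G : Subfield Ω} (hG : G = F.map (algebraMap K Ω))
    {d : ℕ} (h : ∀ c : IsLocalRing.ResidueField W,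
      ∃ p : (bar P.hF)[X], p.Monic ∧ p.natDegree ≤ d ∧ aeval c p = 0) {c : Ω}
    (hc : c ∈ P.ι.fieldRange) : ∃ p : G[X], p.Monic ∧ p.natDegree ≤ d ∧ aeval c p = 0 := by
  subst hG
  obtain ⟨c, rfl⟩ := hc
  obtain ⟨p, hp, hpd, hpc⟩ := h c
  have hmem : ∀ x : bar P.hF, (P.ι.comp (bar P.hF).subtype) x ∈ F.map (algebraMap K Ω) := by
    rintro ⟨x, hx⟩
    obtain ⟨z, hz, rfl⟩ := (mem_bar P.hF).1 hx
    exact ⟨z, hz, (P.hι z hz).symm⟩
  let φ : bar P.hF →+* (F.map (algebraMap K Ω) : Subfield Ω) :=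
    (P.ι.comp (bar P.hF).subtype).codRestrict _ hmem
  refine ⟨p.map φ, hp.map φ, natDegree_map_le.trans hpd, ?_⟩
  rw [aeval_def, eval₂_map]
  have h1 : (algebraMap (F.map (algebraMap K Ω) : Subfield Ω) Ω).comp φ =
      P.ι.comp (algebraMap (bar P.hF) (IsLocalRing.ResidueField W)) := rfl
  rw [h1, ← hom_eval₂, ← aeval_def, hpc, map_zero]

theorem E5D.root (P : E5D ℓ k l F Θ W O Ω) [Fact ℓ.Prime] {z : L} (hz : O.valuation z = 1)
    (h : cl ℓ z ∈ U1 ℓ O) : ∃ w ∈ P.ι.fieldRange, w ^ ℓ = P.ρ (rs O z) := by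
  have h2 : rs O z ≠ 0 := (rs_ne_zero (mem_of_val hz)).2 hz
  rw [cl_mem_U1_iff hz, cl_eq_zero_iff ℓ h2] at h
  obtain ⟨c, -, hc⟩ := h
  exact ⟨P.ρ c, P.ρ_mem c, by rw [← map_pow, hc]⟩

theorem E5D.cl_eq (P : E5D ℓ k l F Θ W O Ω) [Fact ℓ.Prime] {x : K} (hx : x ∈ F) (hx0 : x ≠ 0)
    {z : L} (hz : O.valuation z = 1) (h : Θ (cl ℓ x) = cl ℓ z) {n : ℕ}
    (hn : (n : ZMod ℓ) * (P.e : ZMod ℓ) = 1) :
    ∃ w ∈ P.ι.fieldRange, w ≠ 0 ∧ algebraMap K Ω x = P.ρ (rs O z) ^ n * w ^ ℓ := by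
  have h1 := P.hcl x z (P.hF.eq_one hx hx0) hz h
  have h2 : rs O z ≠ 0 := (rs_ne_zero (mem_of_val hz)).2 hz
  have h3 : rs W x ≠ 0 := (rs_ne_zero (P.hF _ hx)).2 (P.hF.eq_one hx hx0)
  have h4 : cl ℓ (P.α (rs W x)) = cl ℓ (rs O z ^ n) := by
    rw [cl_pow, h1, ← Nat.cast_smul_eq_nsmul (ZMod ℓ), smul_smul, hn, one_smul]
  obtain ⟨w, hw0, hw⟩ := (cl_eq_iff ℓ ((map_ne_zero P.α).2 h3) (pow_ne_zero n h2)).1 h4
  refine ⟨P.ρ w, P.ρ_mem w, (map_ne_zero P.ρ).2 hw0, ?_⟩
  rw [← map_pow, ← map_pow, ← map_mul, ← hw, P.ρ_apply, RingEquiv.symm_apply_apply, P.hι x hx]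

end e5pt

section e5ul

variable {I : Type*} {U : Ultrafilter I} {Ω : Type*} [Field Ω] [PerfectField Ω] {ℓ : ℕ}
  [Fact ℓ.Prime] [NeZero (ℓ : Ω)] {E : Subfield Ω} {R : I → Subfield Ω} {s : Ω} {θ X Y : I → Ω}
  {m : ℕ}

theorem e5_five_mono {E R : Subfield Ω} {m m' : ℕ} (h : m ≤ m') {s Z : Ω}
    (hZ : Five' ℓ E R m s Z) : Five' ℓ E R m' s Z := by
  obtain ⟨S, hS, h1⟩ := hZ
  refine ⟨S, hS, fun c hc => ?_⟩
  obtain ⟨h2, h3, y, hy, hy0, hyr, h4⟩ := h1 c hc
  exact ⟨h2, h3, y, hy, hy0, hyr.mono le_rfl h, h4⟩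

theorem e5_dep (hE : IsAlgClosed E) (hR : ∀ i, PerfectField (R i)) (hsR : ∀ i, s ∈ R i)
    (hsE : s ∉ E) (hθR : ∀ i, θ i ∈ R i)
    (hθ : ∀ᶠ i in U, BRel E m s (θ i) ∧ R i ≤ adj (adj E s) (θ i))
    (hX : ∀ i, X i ∈ R i) (hY : ∀ i, Y i ∈ R i) (h5X : ∀ᶠ i in U, Five' ℓ E (R i) m s (X i))
    (h5Y : ∀ᶠ i in U, Five' ℓ E (R i) m s (Y i))
    (h5XY : ∀ᶠ i in U, Five' ℓ E (R i) m s (X i + Y i)) :
    gm U X ∈ uSub U (fun _ => E) ∨
      IsAlgebraic (adj (uSub U (fun _ => E)) (gm U X)) (gm U Y) := by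
  by_cases h2 : gm U X ∈ uSub U (fun _ => E)
  · exact Or.inl h2
  right
  have h2' : ∀ᶠ i in U, X i ∉ E := by
    rw [Ultrafilter.eventually_not, ← gm_mem_uSub]
    exact h2
  have h3 : ∀ᶠ i in U, BRel E (28 * m ^ 2 + 1) (X i) (Y i) := by
    filter_upwards [hθ, h5X, h5Y, h5XY, h2'] with i h1 h3 h4 h5 h6
    haveI := hR i
    exact (dirb ℓ hE (hsR i) (hθR i) hsE h1.2 h1.1 (hX i) (hY i) h3 h4 h5).resolve_left h6
  exact brel_alg' (isAlgClosed_uSub fun _ => hE) (brel_lim h3) h2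

theorem e5_tw (hE : IsAlgClosed E) (hR : ∀ i, PerfectField (R i)) (hsR : ∀ i, s ∈ R i)
    (hsE : s ∉ E) (hθR : ∀ i, θ i ∈ R i)
    (hθ : ∀ᶠ i in U, BRel E m s (θ i) ∧ R i ≤ adj (adj E s) (θ i))
    (hX : ∀ i, X i ∈ R i) (h5X : ∀ᶠ i in U, Five' ℓ E (R i) m s (X i))
    (hXE : gm U X ∉ uSub U (fun _ => E)) :
    ∃ f : I → Ω, Twi f s ∧ IsAlgebraic (adj (uSub U (fun _ => E)) (gm U f)) (gm U X) := by
  have h2 : ∀ᶠ i in U, X i ∉ E := by
    rw [Ultrafilter.eventually_not, ← gm_mem_uSub]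
    exact hXE
  have h3 : ∀ᶠ i in U, ∃ σ : Ω, (∃ a b : ℕ, σ ^ ringExpChar Ω ^ a = s ^ ringExpChar Ω ^ b) ∧
      BRel E (28 * m ^ 2 + 1) (X i) σ := by
    filter_upwards [hθ, h5X, h2] with i h1 h3 h4
    haveI := hR i
    obtain ⟨a, b, σ, h5, h6⟩ := dirb_tw ℓ hE (hsR i) (hθR i) hsE h1.2 h1.1 (hX i) h4 h3
    exact ⟨σ, ⟨a, b, h5⟩, h6⟩
  have h4 : ∀ i, ∃ σ : Ω, (∃ a b : ℕ, σ ^ ringExpChar Ω ^ a = s ^ ringExpChar Ω ^ b) ∧
      ((∃ σ : Ω, (∃ a b : ℕ, σ ^ ringExpChar Ω ^ a = s ^ ringExpChar Ω ^ b) ∧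
        BRel E (28 * m ^ 2 + 1) (X i) σ) → BRel E (28 * m ^ 2 + 1) (X i) σ) := by
    intro i
    by_cases h : ∃ σ : Ω, (∃ a b : ℕ, σ ^ ringExpChar Ω ^ a = s ^ ringExpChar Ω ^ b) ∧
        BRel E (28 * m ^ 2 + 1) (X i) σ
    · obtain ⟨σ, h1, h2⟩ := h
      exact ⟨σ, h1, fun _ => h2⟩
    · exact ⟨s, ⟨0, 0, rfl⟩, fun h' => absurd h' h⟩
  choose f hf hf' using h4
  refine ⟨f, hf, ?_⟩
  have h5 : BRel (uSub U (fun _ => E)) (28 * m ^ 2 + 1) (gm U X) (gm U f) :=
    brel_lim (h3.mono fun i hi => hf' i hi)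
  have h6 := brel_alg' (isAlgClosed_uSub fun _ => hE) h5 hXE
  refine exchange ?_ h6
  intro h7
  have h8 := RAC_of_isAlgClosed _ (isAlgClosed_uSub fun _ => hE) _ h7
  rw [gm_mem_uSub] at h8
  obtain ⟨i, hi⟩ := h8.exists
  obtain ⟨a, b, hab⟩ := hf i
  haveI : PerfectField E := inferInstance
  exact hsE (mem_of_pow_q (n := b) (by rw [← hab]; exact E.pow_mem hi _))

end e5ul

section e5fam

variable {K L : Type*} [Field K] [Field L] {ℓ : ℕ} [Fact ℓ.Prime]
  {Θ : V ℓ K ≃ₗ[ZMod ℓ] V ℓ L} {k F : Subfield K} {l : Subfield L} {Ω : Type*} [Field Ω]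
  [Algebra K Ω] {I : Type*} {U : Ultrafilter I} {W : I → ValuationSubring K}
  {O : I → ValuationSubring L}

theorem e5_die (P : ∀ i, E5D ℓ k l F Θ (W i) (O i) Ω) {z : L}
    (hz : ∀ᶠ i in U, (O i).valuation z = 1) (h : ∀ᶠ i in U, cl ℓ z ∈ U1 ℓ (O i)) :
    ∃ h ∈ uSub U (fun i => (P i).ι.fieldRange),
      h ^ ℓ = gm U (fun i => (P i).ρ (rs (O i) z)) := by
  have h1 : ∀ i, ∃ w ∈ (P i).ι.fieldRange, ((O i).valuation z = 1 → cl ℓ z ∈ U1 ℓ (O i) →
      w ^ ℓ = (P i).ρ (rs (O i) z)) := by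
    intro i
    by_cases h : (O i).valuation z = 1 ∧ cl ℓ z ∈ U1 ℓ (O i)
    · obtain ⟨w, hw, hw'⟩ := (P i).root h.1 h.2
      exact ⟨w, hw, fun _ _ => hw'⟩
    · exact ⟨0, Subfield.zero_mem _, fun h1 h2 => absurd ⟨h1, h2⟩ h⟩
  choose w hw hw' using h1
  refine ⟨gm U w, ⟨w, rfl, hw⟩, ?_⟩
  rw [← gm_pow, gm_eq]
  filter_upwards [hz, h] with i h1 h2
  exact hw' i h1 h2

theorem e5_ram (P : ∀ i, E5D ℓ k l F Θ (W i) (O i) Ω) {x : K} (hx : x ∈ F) (hx0 : x ≠ 0)
    {z : L} (hzx : Θ (cl ℓ x) = cl ℓ z) (hz : ∀ᶠ i in U, (O i).valuation z = 1) :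
    ∃ e : ℕ, ∃ h ∈ uSub U (fun i => (P i).ι.fieldRange), h ≠ 0 ∧
      gm U (fun _ => algebraMap K Ω x) = gm U (fun i => (P i).ρ (rs (O i) z)) ^ e * h ^ ℓ := by
  obtain ⟨e0, he0⟩ := e5_const U (fun i => (P i).e)
  have hn : (((((e0⁻¹ : (ZMod ℓ)ˣ) : ZMod ℓ).val : ℕ) : ZMod ℓ)) * (e0 : ZMod ℓ) = 1 := by
    rw [ZMod.natCast_zmod_val, ← Units.val_mul, inv_mul_cancel, Units.val_one]
  set n : ℕ := ((e0⁻¹ : (ZMod ℓ)ˣ) : ZMod ℓ).val
  have h1 : ∀ i, ∃ w ∈ (P i).ι.fieldRange, w ≠ 0 ∧ ((O i).valuation z = 1 → (P i).e = e0 →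
      algebraMap K Ω x = (P i).ρ (rs (O i) z) ^ n * w ^ ℓ) := by
    intro i
    by_cases h : (O i).valuation z = 1 ∧ (P i).e = e0
    · obtain ⟨w, hw, hw0, hw'⟩ := (P i).cl_eq hx hx0 h.1 hzx (n := n) (by rw [h.2]; exact hn)
      exact ⟨w, hw, hw0, fun _ _ => hw'⟩
    · exact ⟨1, Subfield.one_mem _, one_ne_zero, fun h1 h2 => absurd ⟨h1, h2⟩ h⟩
  choose w hw hw0 hw' using h1
  refine ⟨n, gm U w, ⟨w, rfl, hw⟩, ?_, ?_⟩
  · rw [Ne, gm_eq_zero, ← Ultrafilter.eventually_not]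
    exact Eventually.of_forall hw0
  · rw [← gm_pow, ← gm_pow, ← gm_mul, gm_eq]
    filter_upwards [hz, he0] with i h1 h2
    exact hw' i h1 h2

end e5fam

section e5main

variable {K L : Type*} [Field K] [Field L] [PerfectField K] [PerfectField L] {ℓ : ℕ}
  [Fact ℓ.Prime] [NeZero (ℓ : K)] [NeZero (ℓ : L)] {Θ : V ℓ K ≃ₗ[ZMod ℓ] V ℓ L}
  {k : Subfield K} {l : Subfield L} {B : Finset K} {t : K}

/-- the data, with good points only. -/
theorem e5_dat (hk : IsAlgClosed k) {F : Subfield K} {θ : K}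
    {q : ValuationSubring K → ValuationSubring L → Prop}
    (h : ∀ᶠ b in ae k, (∃ W : ValuationSubring K, Over W F t b) ∧
      ∀ W : ValuationSubring K, Over W F t b → Nice W F (t - b) θ)
    (h' : ∀ᶠ b in ae k, ∀ W : ValuationSubring K, Over W F t b →
      ∃ O : ValuationSubring L, Tr Θ W (t - b) O ∧ q W O) :
    ∃ D : Dat k F t Θ, ∀ i, Nice (D.W i) F (t - i) θ ∧ q (D.W i) (D.O i) := by
  set S : Set K := {b | b ∈ k ∧ ∃ (W : ValuationSubring K) (O : ValuationSubring L),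
    Over W F t b ∧ Tr Θ W (t - b) O ∧ Nice W F (t - b) θ ∧ q W O} with hS
  have hinf : S.Infinite := by
    have h2 := h.and h'
    rw [ae_iff] at h2
    refine ((infinite_of_isAlgClosed hk).sdiff h2).mono ?_
    rintro b ⟨hb, hbad⟩
    refine ⟨hb, ?_⟩
    by_contra hcon
    refine hbad ⟨hb, ?_⟩
    rintro ⟨⟨⟨W, hW⟩, hN⟩, hT⟩
    obtain ⟨O, hO, hq⟩ := hT W hW
    exact hcon ⟨W, O, hW, hO, hN W hW, hq⟩
  choose W O hW hO hN hq using fun i : S => i.2.2
  exact ⟨⟨S, hinf.to_subtype, fun b hb => hb.1, W, O, hW, hO, fun i => (hN i).unif⟩,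
    fun i => ⟨hN i, hq i⟩⟩

theorem e5_trl {n : ℕ} (hn : 0 < n) (h : Td l (n + 1)) :
    ∃ x y : L, x ∉ l ∧ ¬ IsAlgebraic (adj l x) y := by
  classical
  obtain ⟨B, hB, hi, -⟩ := h
  obtain ⟨x, hx, y, hy, hxy⟩ := Finset.one_lt_card.1 (by omega : 1 < B.card)
  refine ⟨x, y, fun hxl => ?_, fun h => ?_⟩
  · exact hi ∅ (Finset.empty_subset _) x hx (Finset.notMem_empty _)
      (isAlgebraic_of_mem (le_gsp l ∅ hxl))
  · refine hi {x} (Finset.singleton_subset_iff.2 hx) y hy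
      (by rw [Finset.mem_singleton]; exact fun h => hxy h.symm) ?_
    haveI := gsp_perfect l {x}
    exact isAlgebraic_mono (adj_le (le_gsp l {x}) (mem_gsp (Finset.mem_singleton_self x))) h

variable {Ω : Type*} [Field Ω] [IsAlgClosed Ω] [Algebra K Ω]

/-- the five points condition for almost all members of the family. -/
theorem e5_five [DecidableEq K] [DecidableEq Ω] (hk : IsAlgClosed k)
    (hfgk : FG k (⊤ : Subfield K)) (hl : IsAlgClosed l) (hB : Indp k B)
    (ht : ¬ IsAlgebraic (gsp k B) t) (halg : ∀ z : K, IsAlgebraic (adj (gsp k B) t) z)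
    (D : Dat k (gsp k B) t Θ) (hu : Ulu D.U D.O)
    (P : ∀ i, E5D ℓ k l (gsp k B) Θ (D.W i) (D.O i) Ω) (x : L) :
    ∃ m : ℕ, ∀ᶠ i in D.U, ∀ v ∈ B, Five' ℓ (rcl (k.map (algebraMap K Ω))
      ((B.erase v).image (algebraMap K Ω))) (P i).ι.fieldRange m (algebraMap K Ω v)
      ((P i).ρ (rs (D.O i) x)) := by
  obtain ⟨m, hm⟩ := exists_five hk hfgk hl hB ht halg (Ω := Ω) Θ x
  refine ⟨m, ?_⟩
  have hx : ∀ᶠ i in D.U, (D.O i).valuation x ≤ 1 := by
    by_cases hx : x = 0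
    · refine Eventually.of_forall fun i => ?_
      rw [hx, map_zero]
      exact zero_le_one
    · exact (hu x hx).mono fun i hi => hi.le
  filter_upwards [D.ev hm, hx] with i h1 h2
  exact h1 (D.W i) (D.ov i) (D.O i) h2 (P i).ι (P i).hι (P i).hW (P i).hO (P i).α (P i).e
    (P i).hα (P i).hcl

theorem e5_gen [DecidableEq K] [DecidableEq Ω] (hk : IsAlgClosed k)
    (hfgk : FG k (⊤ : Subfield K)) (hB : Indp k B)
    (ht : ¬ IsAlgebraic (gsp k B) t) (halg : ∀ z : K, IsAlgebraic (adj (gsp k B) t) z)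
    (D : Dat k (gsp k B) t Θ) (P : ∀ i, E5D ℓ k l (gsp k B) Θ (D.W i) (D.O i) Ω) :
    ∃ (m : ℕ) (θ : D.S → Ω), (∀ i, θ i ∈ (P i).ι.fieldRange) ∧ ∀ᶠ i in D.U, ∀ v ∈ B,
      BRel (rcl (k.map (algebraMap K Ω)) ((B.erase v).image (algebraMap K Ω))) m
        (algebraMap K Ω v) (θ i) ∧
      (P i).ι.fieldRange ≤ adj (adj (rcl (k.map (algebraMap K Ω))
        ((B.erase v).image (algebraMap K Ω))) (algebraMap K Ω v)) (θ i) := by
  obtain ⟨m, θ, h⟩ := exists_gen hk hfgk hB ht halg (Ω := Ω)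
  refine ⟨m, fun i => (P i).ι (rs (D.W i) θ), fun i => ⟨_, rfl⟩, ?_⟩
  filter_upwards [D.ev h] with i h1 v hv
  exact h1 (D.W i) (D.ov i) (P i).ι (P i).hι v hv

theorem e5_erase {v : K} (j : K →+* Ω) [DecidableEq K] [DecidableEq Ω] :
    (B.image j).erase (j v) = (B.erase v).image j :=
  (Finset.image_erase j.injective B v).symm

theorem e5_notMem [DecidableEq K] [DecidableEq Ω] (hB : Indp k B) {v : K} (hv : v ∈ B) :
    algebraMap K Ω v ∉
      rcl (k.map (algebraMap K Ω)) ((B.erase v).image (algebraMap K Ω)) := by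
  rw [← e5_erase]
  exact e5_notMem_rcl (e5_indp _ hB) (Finset.mem_image_of_mem _ hv)

end e5main

section e5lim

variable {K L : Type*} [Field K] [Field L] [PerfectField K] [PerfectField L] {ℓ : ℕ}
  [Fact ℓ.Prime] [NeZero (ℓ : K)] [NeZero (ℓ : L)] {Θ : V ℓ K ≃ₗ[ZMod ℓ] V ℓ L}
  {k : Subfield K} {l : Subfield L} {B : Finset K} {t : K}
  {Ω : Type*} [Field Ω] [IsAlgClosed Ω] [Algebra K Ω] [DecidableEq K] [DecidableEq Ω]

theorem e5_hdep [NeZero (ℓ : Ω)] (hk : IsAlgClosed k)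
    (hfgk : FG k (⊤ : Subfield K)) (hl : IsAlgClosed l) (hB : Indp k B)
    (ht : ¬ IsAlgebraic (gsp k B) t) (halg : ∀ z : K, IsAlgebraic (adj (gsp k B) t) z)
    (D : Dat k (gsp k B) t Θ) (hu : Ulu D.U D.O)
    (P : ∀ i, E5D ℓ k l (gsp k B) Θ (D.W i) (D.O i) Ω) {v : K} (hv : v ∈ B) (x y : L) :
    gm D.U (fun i => (P i).ρ (rs (D.O i) x)) ∈ uSub D.U (fun _ =>
        rcl (k.map (algebraMap K Ω)) ((B.erase v).image (algebraMap K Ω))) ∨
      IsAlgebraic (adj (uSub D.U (fun _ =>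
        rcl (k.map (algebraMap K Ω)) ((B.erase v).image (algebraMap K Ω))))
          (gm D.U (fun i => (P i).ρ (rs (D.O i) x))))
        (gm D.U (fun i => (P i).ρ (rs (D.O i) y))) := by
  obtain ⟨m0, θ, hθR, hθ⟩ := e5_gen hk hfgk hB ht halg D P
  obtain ⟨m1, h1⟩ := e5_five hk hfgk hl hB ht halg D hu P x
  obtain ⟨m2, h2⟩ := e5_five hk hfgk hl hB ht halg D hu P y
  obtain ⟨m3, h3⟩ := e5_five hk hfgk hl hB ht halg D hu P (x + y)
  have e0 : m0 ≤ max (max m0 m1) (max m2 m3) := (le_max_left _ _).trans (le_max_left _ _)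
  have e1 : m1 ≤ max (max m0 m1) (max m2 m3) := (le_max_right _ _).trans (le_max_left _ _)
  have e2 : m2 ≤ max (max m0 m1) (max m2 m3) := (le_max_left _ _).trans (le_max_right _ _)
  have e3 : m3 ≤ max (max m0 m1) (max m2 m3) := (le_max_right _ _).trans (le_max_right _ _)
  refine e5_dep (ℓ := ℓ) (R := fun i => (P i).ι.fieldRange) (s := algebraMap K Ω v) (θ := θ)
    (m := max (max m0 m1) (max m2 m3)) (e5_rcl_ac _ _) (fun i => ?_)
    (fun i => (P i).map_le ⟨v, mem_gsp hv, rfl⟩) (e5_notMem hB hv) hθR ?_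
    (fun i => (P i).ρ_mem _) (fun i => (P i).ρ_mem _) ?_ ?_ ?_
  · haveI := rs_perfect (P i).hW
    exact perfect_fieldRange _
  · filter_upwards [hθ] with i hi
    exact ⟨(hi v hv).1.mono le_rfl e0, (hi v hv).2⟩
  · filter_upwards [h1] with i hi
    exact e5_five_mono e1 (hi v hv)
  · filter_upwards [h2] with i hi
    exact e5_five_mono e2 (hi v hv)
  · filter_upwards [h3, hu.ev_mem x, hu.ev_mem y] with i h4 h5 h6
    rw [← map_add, ← rs_add h5 h6]
    exact e5_five_mono e3 (h4 v hv)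

theorem e5_htw [NeZero (ℓ : Ω)] (hk : IsAlgClosed k)
    (hfgk : FG k (⊤ : Subfield K)) (hl : IsAlgClosed l) (hB : Indp k B)
    (ht : ¬ IsAlgebraic (gsp k B) t) (halg : ∀ z : K, IsAlgebraic (adj (gsp k B) t) z)
    (D : Dat k (gsp k B) t Θ) (hu : Ulu D.U D.O)
    (P : ∀ i, E5D ℓ k l (gsp k B) Θ (D.W i) (D.O i) Ω) {v : K} (hv : v ∈ B) (x : L)
    (hx : gm D.U (fun i => (P i).ρ (rs (D.O i) x)) ∉ uSub D.U (fun _ =>
        rcl (k.map (algebraMap K Ω)) ((B.erase v).image (algebraMap K Ω)))) :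
    ∃ f : D.S → Ω, Twi f (algebraMap K Ω v) ∧
      IsAlgebraic (adj (uSub D.U (fun _ =>
        rcl (k.map (algebraMap K Ω)) ((B.erase v).image (algebraMap K Ω)))) (gm D.U f))
        (gm D.U (fun i => (P i).ρ (rs (D.O i) x))) := by
  obtain ⟨m0, θ, hθR, hθ⟩ := e5_gen hk hfgk hB ht halg D P
  obtain ⟨m1, h1⟩ := e5_five hk hfgk hl hB ht halg D hu P x
  refine e5_tw (ℓ := ℓ) (R := fun i => (P i).ι.fieldRange) (θ := θ)
    (m := max m0 m1) (e5_rcl_ac _ _) (fun i => ?_)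
    (fun i => (P i).map_le ⟨v, mem_gsp hv, rfl⟩) (e5_notMem hB hv) hθR ?_
    (fun i => (P i).ρ_mem _) ?_ hx
  · haveI := rs_perfect (P i).hW
    exact perfect_fieldRange _
  · filter_upwards [hθ] with i hi
    exact ⟨(hi v hv).1.mono le_rfl (le_max_left _ _), (hi v hv).2⟩
  · filter_upwards [h1] with i hi
    exact e5_five_mono (le_max_right _ _) (hi v hv)

/-- classes dying in the residue fields. -/
theorem e5_hdie (hk : IsAlgClosed k) (htg : Good k t) (D : Dat k (gsp k B) t Θ)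
    (hu : Ulu D.U D.O) (P : ∀ i, E5D ℓ k l (gsp k B) Θ (D.W i) (D.O i) Ω) (N : ℕ) :
    ∃ x : Fin N → L, (∀ i, x i ≠ 0 ∧ ∃ h ∈ uSub D.U (fun i => (P i).ι.fieldRange),
      h ^ ℓ = gm D.U (fun j => (P j).ρ (rs (D.O j) (x i)))) ∧
      ∀ i j, i ≠ j → ¬ ∃ w : L, x i = x j * w ^ ℓ := by
  obtain ⟨x, hx, hxx⟩ := sa_inf (Θ := Θ) hk htg N
  refine ⟨x, fun i => ⟨(hx i).1, ?_⟩, ?_⟩
  · refine e5_die P (hu _ (hx i).1) ?_
    have h1 := D.ev_of_mem hk (le_gsp k B) htg.1 (hx i).2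
    rwa [LinearEquiv.apply_symm_apply] at h1
  · rintro i j hij ⟨w, hw⟩
    apply hxx i j hij
    have hw0 : w ≠ 0 := by
      rintro rfl
      rw [zero_pow (Fact.out : ℓ.Prime).ne_zero, mul_zero] at hw
      exact (hx i).1 hw
    exact (cl_eq_iff ℓ (hx i).1 (hx j).1).2 ⟨w, hw0, hw⟩

theorem e5_hram (hk : IsAlgClosed k) (hB : Indp k B) (D : Dat k (gsp k B) t Θ)
    (hu : Ulu D.U D.O) (P : ∀ i, E5D ℓ k l (gsp k B) Θ (D.W i) (D.O i) Ω) {v : K}
    (hv : v ∈ B) :
    {c : Ω | c ∈ k.map (algebraMap K Ω) ∧ ∃ z : L, z ≠ 0 ∧ ∃ e : ℕ,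
      ∃ h ∈ uSub D.U (fun i => (P i).ι.fieldRange), h ≠ 0 ∧
      gm D.U (fun _ => algebraMap K Ω v - c) =
        gm D.U (fun i => (P i).ρ (rs (D.O i) z)) ^ e * h ^ ℓ}.Infinite := by
  refine ((infinite_of_isAlgClosed hk).image (algebraMap K Ω).injective.injOn).mono ?_
  rintro _ ⟨c, hc, rfl⟩
  refine ⟨⟨c, hc, rfl⟩, ?_⟩
  have h0 : v - c ≠ 0 := by
    intro h
    rw [sub_eq_zero] at h
    refine hB ∅ (Finset.empty_subset _) v hv (Finset.notMem_empty _)
      (isAlgebraic_of_mem (le_gsp k ∅ ?_))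
    rw [h]
    exact hc
  obtain ⟨z, hz0, hz⟩ := cl_surj ℓ (Θ (cl ℓ (v - c)))
  obtain ⟨e, h, hh, hh0, h1⟩ := e5_ram P (x := v - c)
    (Subfield.sub_mem _ (mem_gsp hv) (le_gsp k B hc)) h0 hz.symm (hu z hz0)
  refine ⟨z, hz0, e, h, hh, hh0, ?_⟩
  rw [← h1, map_sub]

theorem e5_lim [NeZero (ℓ : Ω)] (hk : IsAlgClosed k) (hfgk : FG k (⊤ : Subfield K))
    (hl : IsAlgClosed l) (hfgl : FG l (⊤ : Subfield L)) (hB : Indp k B) (htg : Good k t)
    (ht : ¬ IsAlgebraic (gsp k B) t) (halg : ∀ z : K, IsAlgebraic (adj (gsp k B) t) z)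
    (hL : Td l (B.card + 1)) (D : Dat k (gsp k B) t Θ) (hu : Ulu D.U D.O)
    (P : ∀ i, E5D ℓ k l (gsp k B) Θ (D.W i) (D.O i) Ω) (A : L →+* Gm D.U Ω)
    (hA : ∀ z, A z = gm D.U (fun i => (P i).ρ (rs (D.O i) z))) :
    ∃ e : L, e ∉ l ∧ A e ∈ uSub D.U (fun _ => k.map (algebraMap K Ω)) := by
  haveI : PerfectField (gsp k B) := gsp_perfect k B
  have hFG : FG (gsp k B) (⊤ : Subfield K) := hfgk.mono (le_gsp k B) le_top
  obtain ⟨d, hd⟩ := res_deg hFG ht halg
  have hcard : (B.image (algebraMap K Ω)).card = B.card :=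
    Finset.card_image_of_injective _ (algebraMap K Ω).injective
  refine lim_main ℓ (k := k.map (algebraMap K Ω)) (B := B.image (algebraMap K Ω))
    (R := fun i => (P i).ι.fieldRange) (d := d) (l := l) (e5_map_ac _ hk) (e5_indp _ hB)
    (fun i => ?_) (fun i => ?_) (fun i c hc => ?_) hl hfgl ?_ A (fun z => ?_) (fun c hc => ?_)
    ?_ ?_ ?_ ?_
  · rw [e5_gsp_map]
    exact (P i).map_le
  · haveI := rs_perfect (P i).hW
    exact perfect_fieldRange _
  · exact (P i).deg (e5_gsp_map _ _ _) (hd (D.W i) (P i).hF i.1 (le_gsp k B (D.le _ i.2))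
      (D.ov i).lt) hc
  · rw [hcard]
    exact hL
  · rw [hA]
    exact ⟨_, rfl, fun i => (P i).ρ_mem _⟩
  · rw [hA]
    exact ⟨_, rfl, fun i => (P i).ρ_l (le_gsp k B) hc⟩
  · intro v hv x y
    obtain ⟨v, hv', rfl⟩ := Finset.mem_image.1 hv
    rw [e5_erase, hA, hA]
    exact e5_hdep hk hfgk hl hB ht halg D hu P hv' x y
  · intro v hv x hx
    obtain ⟨v, hv', rfl⟩ := Finset.mem_image.1 hv
    rw [e5_erase, hA] at hx ⊢
    exact e5_htw hk hfgk hl hB ht halg D hu P hv' x hx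
  · intro N
    simp only [hA]
    exact e5_hdie hk htg D hu P N
  · intro v hv
    obtain ⟨v, hv', rfl⟩ := Finset.mem_image.1 hv
    simp only [hA]
    exact e5_hram hk hB D hu P hv'

end e5lim

/-- Step A, assuming that the theorem holds for the residue fields. -/
theorem stepAn {k : Subfield K} (hk : IsAlgClosed k) (hfgk : FG k (⊤ : Subfield K))
    {l : Subfield L} (hl : IsAlgClosed l) (hfgl : FG l (⊤ : Subfield L)) (hΘ : Compatible Θ)
    {B : Finset K} (hB : Indp k B) (hBne : B.Nonempty) {t : K} (htg : Good k t)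
    (ht : ¬ IsAlgebraic (gsp k B) t) (halg : ∀ z : K, IsAlgebraic (adj (gsp k B) t) z)
    (hL : Td l (B.card + 1))
    (hIH : ∀ᶠ b in ae k, ∀ W : ValuationSubring K, Over W (gsp k B) t b →
      ∃ O : ValuationSubring L, Tr Θ W (t - b) O ∧ ResIso ℓ Θ k l W O) :
    ∃ E : Subfield L, Crv l E ∧ ∀ v, Θ v ∈ VS ℓ E ↔ v ∈ VS ℓ (adj k t) := by
  classical
  haveI : PerfectField k := inferInstance
  have hF : RatF k (gsp k B) := hB.ratF
  have hkF : k ≤ gsp k B := le_gsp k B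
  have htrl := e5_trl (Finset.card_pos.2 hBne) hL
  haveI : NeZero (ℓ : AlgebraicClosure K) := ⟨by
    rw [← map_natCast (algebraMap K (AlgebraicClosure K)), Ne, map_eq_zero]
    exact NeZero.ne (ℓ : K)⟩
  obtain ⟨θ, hθ⟩ := exists_over_nice hk hfgk hB ht halg
  obtain ⟨D, hD⟩ := e5_dat (Θ := Θ) (q := ResIso ℓ Θ k l) hk hθ hIH
  have hP : ∀ i, Nonempty (E5D ℓ k l (gsp k B) Θ (D.W i) (D.O i) (AlgebraicClosure K)) :=
    fun i => e5_exists (hD i).1 (hD i).2
  have hu : Ulu D.U D.O := D.ulu hk hfgk hl hfgl hΘ htrl hF htg ht halg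
  let P := fun i => (hP i).some
  obtain ⟨A, hA⟩ := exists_lim D.U D.O (fun i => (P i).ρ) hu
  obtain ⟨h, hhl, hh⟩ := e5_lim hk hfgk hl hfgl hB htg ht halg hL D hu P A hA
  rw [hA, gm_mem_uSub] at hh
  have h1 : ∀ᶠ i in D.U, ∃ c ∈ l, (D.O i).valuation (h - c) < 1 := by
    filter_upwards [hh, hu.ev_mem h] with i h2 h3
    obtain ⟨c, hc, hc'⟩ := (mem_bar (P i).hO).1 ((P i).of_ρ hkF h2)
    exact ⟨c, hc, (rs_eq h3 ((P i).hO _ hc)).1 hc'.symm⟩
  have h2 : ∀ i, ∃ c ∈ l, (∃ c ∈ l, (D.O i).valuation (h - c) < 1) →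
      (D.O i).valuation (h - c) < 1 := by
    intro i
    by_cases h : ∃ c ∈ l, (D.O i).valuation (h - c) < 1
    · obtain ⟨c, hc, hc'⟩ := h
      exact ⟨c, hc, fun _ => hc'⟩
    · exact ⟨0, l.zero_mem, fun h' => absurd h' h⟩
  choose c hc hc' using h2
  exact D.case_one hk hfgk hl hfgl hΘ htrl hF htg ht halg (fun i => (P i).hO) hhl hc
    (h1.mono fun i hi => hc' i hi)

end Vale.Agent.P019P
end

section

/-!
# The main theorem from Step A in both directions
-/

namespace Vale.Agent.P019P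

open Vale.Agent.P019

set_option linter.style.haveILetI false
set_option linter.unusedSectionVars false

open Polynomial Filter

variable {K L : Type*} [Field K] [Field L] [PerfectField K] [PerfectField L] {ℓ : ℕ}
  [Fact ℓ.Prime] [NeZero (ℓ : K)] [NeZero (ℓ : L)]

/-- infinitely many powers of a constant of small valuation. -/
theorem fin1_const {l : Subfield L} {O : ValuationSubring L} (h : ¬ TrivOn O l) :
    ∃ a ∈ l, a ≠ 0 ∧ O.valuation a < 1 := by
  simp only [TrivOn] at h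
  push Not at h
  obtain ⟨c, hc, hcO⟩ := h
  have h1 : 1 < O.valuation c := by
    rw [← not_le, O.valuation_le_one_iff]
    exact hcO
  have hc0 : c ≠ 0 := by
    rintro rfl
    exact hcO O.zero_mem
  exact ⟨c⁻¹, l.inv_mem hc, inv_ne_zero hc0, by
    rw [map_inv₀]
    exact inv_lt_one_of_one_lt₀ h1⟩

/-- valuations transferred in a weak sense are trivial on the constants, from Step A. -/
theorem fin1_ltr {l : Subfield L} {Θ : V ℓ K ≃ₗ[ZMod ℓ] V ℓ L}
    (hl : IsAlgClosed l) (hfgl : FG l (⊤ : Subfield L))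
    {U : Submodule (ZMod ℓ) (V ℓ K)} {T : Submodule (ZMod ℓ) (V ℓ K)}
    {E : Subfield L} (hE : Crv l E) (hA : ∀ v, Θ v ∈ VS ℓ E ↔ v ∈ T)
    (hfin : ((U ⊓ T : Submodule (ZMod ℓ) (V ℓ K)) : Set (V ℓ K)).Finite)
    {O : ValuationSubring L} (hO : ∀ z, O.valuation z < 1 → Θ.symm (cl ℓ (1 + z)) ∈ U) :
    TrivOn O l := by
  by_contra hcon
  obtain ⟨a, ha, ha0, haO⟩ := fin1_const hcon
  -- an element of the curve
  obtain ⟨e, heE, hel, heO⟩ : ∃ e ∈ E, e ∉ l ∧ O.valuation e ≤ 1 := by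
    obtain ⟨y, hyE, hyl, -⟩ := hE.ex
    by_cases h1 : O.valuation y ≤ 1
    · exact ⟨y, hyE, hyl, h1⟩
    · push Not at h1
      refine ⟨y⁻¹, E.inv_mem hyE, fun h => hyl (by simpa using l.inv_mem h), ?_⟩
      rw [map_inv₀]
      exact (inv_lt_one_of_one_lt₀ h1).le
  have hO0 : O.valuation a ≠ 0 := (_root_.map_ne_zero _).2 ha0
  have key : ∀ j : ℕ, Θ.symm (cl ℓ (e - -((a ^ (j + 1))⁻¹))) ∈
      ((U ⊓ T : Submodule (ZMod ℓ) (V ℓ K)) : Set (V ℓ K)) := by
    intro j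
    have haj : a ^ (j + 1) ≠ 0 := pow_ne_zero _ ha0
    have hajl : a ^ (j + 1) ∈ l := l.pow_mem ha _
    have h1 : O.valuation (a ^ (j + 1) * e) < 1 := by
      rw [map_mul, map_pow]
      exact mul_lt_one_of_lt_of_le (pow_lt_one₀ zero_le haO (Nat.succ_ne_zero j)) heO
    have hne : e - -((a ^ (j + 1))⁻¹) ≠ 0 := by
      intro h
      apply hel
      rw [sub_eq_zero.1 h]
      exact l.neg_mem (l.inv_mem hajl)
    have h2 : cl ℓ (1 + a ^ (j + 1) * e) = cl ℓ (e - -((a ^ (j + 1))⁻¹)) := by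
      have e1 : 1 + a ^ (j + 1) * e = a ^ (j + 1) * (e - -((a ^ (j + 1))⁻¹)) := by
        rw [sub_neg_eq_add, mul_add, mul_inv_cancel₀ haj, add_comm]
      rw [e1, cl_mul ℓ haj hne, line_cl_const hl hajl, zero_add]
    have h3 : Θ.symm (cl ℓ (e - -((a ^ (j + 1))⁻¹))) ∈ U := by
      rw [← h2]
      exact hO _ h1
    refine ⟨h3, ?_⟩
    show Θ.symm (cl ℓ (e - -((a ^ (j + 1))⁻¹))) ∈ T
    rw [← hA, LinearEquiv.apply_symm_apply]
    exact cl_mem_VS (E.sub_mem heE (hE.le (l.neg_mem (l.inv_mem hajl))))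
  -- the constants are pairwise different
  have hinj : Function.Injective (fun j : ℕ => -((a ^ (j + 1))⁻¹)) := by
    intro i j hij
    have h1 : a ^ (i + 1) = a ^ (j + 1) := inv_injective (neg_injective hij)
    have h2 := congrArg O.valuation h1
    rw [map_pow, map_pow] at h2
    have h3 := pow_right_injective₀ (zero_lt_iff.2 hO0) haO.ne h2
    omega
  have hfin' : (Set.range fun j : ℕ => -((a ^ (j + 1))⁻¹)).Finite := by
    have h1 : (Set.range fun j : ℕ => -((a ^ (j + 1))⁻¹)) ⊆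
        ⋃ v ∈ ((U ⊓ T : Submodule (ZMod ℓ) (V ℓ K)) : Set (V ℓ K)),
          {c : L | c ∈ l ∧ cl ℓ (e - c) = Θ v} := by
      rintro _ ⟨j, rfl⟩
      refine Set.mem_biUnion (key j) ⟨l.neg_mem (l.inv_mem (l.pow_mem ha _)), ?_⟩
      rw [LinearEquiv.apply_symm_apply]
    exact (hfin.biUnion fun v _ => dist_top (ℓ := ℓ) hl hfgl hel (Θ v)).subset h1
  exact Set.infinite_range_of_injective hinj hfin'

/-- the main theorem from Step A in both directions. -/
theorem final_of_stepA' {Θ : V ℓ K ≃ₗ[ZMod ℓ] V ℓ L}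
    {k : Subfield K} (hk : IsAlgClosed k) (hfgk : FG k (⊤ : Subfield K))
    {l : Subfield L} (hl : IsAlgClosed l) (hfgl : FG l (⊤ : Subfield L))
    (hΘ : Compatible Θ) (trk : ∃ x y : K, x ∉ k ∧ ¬ IsAlgebraic (adj k x) y)
    (trl : ∃ x y : L, x ∉ l ∧ ¬ IsAlgebraic (adj l x) y)
    (hA : ∀ t, Good k t → ∃ E : Subfield L, Crv l E ∧ ∀ v, Θ v ∈ VS ℓ E ↔ v ∈ VS ℓ (adj k t))
    (hA' : ∀ t, Good l t → ∃ E : Subfield K, Crv k E ∧
      ∀ v, Θ.symm v ∈ VS ℓ E ↔ v ∈ VS ℓ (adj l t)) :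
    ∃ (c : (ZMod ℓ)ˣ) (α : K ≃+* L), (∀ x, x ∈ k ↔ α x ∈ l) ∧
      ∀ x : K, Θ (cl ℓ x) = (c : ZMod ℓ) • cl ℓ (α x) := by
  have H : Hyp ℓ k l Θ := by
    refine ⟨hk, hl, hfgk, hfgl, trk, trl, hΘ, hA, hA', ?_, ?_, ?_, ?_⟩
    · intro U x hx hfin O hO
      obtain ⟨E, hE, h1⟩ := hA x hx
      exact fin1_ltr hl hfgl hE h1 hfin hO
    · intro U x hx hfin O hO
      obtain ⟨E, hE, h1⟩ := hA' x hx
      exact fin1_ltr (Θ := Θ.symm) hk hfgk hE h1 hfin hO
    · intro x y hx hy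
      exact ae_iff.2 (bertini hk hfgk hx hy)
    · intro x y hx hy
      exact ae_iff.2 (bertini hl hfgl hx hy)
  exact H.final

end Vale.Agent.P019P
end

section

/-!
# The main theorem over closures of finite fields
-/

namespace Vale.Agent.P019P

open Vale.Agent.P019

set_option linter.style.haveILetI false
set_option linter.unusedSectionVars false

open Polynomial Filter

universe u v

/-- the residue fields correspond if the theorem holds for them. -/
theorem resIso_of {K L : Type*} [Field K] [Field L] [PerfectField K] [PerfectField L] {ℓ : ℕ}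
    [Fact ℓ.Prime] [NeZero (ℓ : K)] [NeZero (ℓ : L)] {Θ : V ℓ K ≃ₗ[ZMod ℓ] V ℓ L}
    {k : Subfield K} {l : Subfield L} {W : ValuationSubring K} {O : ValuationSubring L}
    (hW : TrivOn W k) (hO : TrivOn O l)
    {Θ' : V ℓ (IsLocalRing.ResidueField W) ≃ₗ[ZMod ℓ] V ℓ (IsLocalRing.ResidueField O)}
    (hΘ' : ResMap ℓ Θ W O Θ')
    (h : ∃ (c : (ZMod ℓ)ˣ) (α : IsLocalRing.ResidueField W ≃+* IsLocalRing.ResidueField O),
      (∀ x, x ∈ bar hW ↔ α x ∈ bar hO) ∧
      ∀ x : IsLocalRing.ResidueField W, Θ' (cl ℓ x) = (c : ZMod ℓ) • cl ℓ (α x)) :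
    ResIso ℓ Θ k l W O := by
  obtain ⟨c, α, h1, h2⟩ := h
  refine ⟨hW, hO, c, α, h1, fun z y hz hy hzy => ?_⟩
  rw [← hΘ' z y hz hy hzy, h2]

/-- two independent elements from a transcendence basis with at least two elements. -/
private theorem e6_two {K : Type*} [Field K] [PerfectField K] {k : Subfield K}
    (hk : IsAlgClosed k) {n : ℕ} (h : Td k (n + 2)) :
    ∃ x y : K, x ∉ k ∧ ¬ IsAlgebraic (adj k x) y := by
  classical
  haveI : PerfectField k := inferInstance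
  obtain ⟨B, hBc, hB, -⟩ := h
  obtain ⟨x, hx, y, hy, hxy⟩ := Finset.one_lt_card.1 (show 1 < B.card by omega)
  refine ⟨x, y, fun hxk => ?_, fun hya => ?_⟩
  · exact hB ∅ (by simp) x hx (by simp) (isAlgebraic_of_mem (le_gsp _ _ hxk))
  · have e1 : gsp k (insert x ∅) = adj k x := by
      rw [gsp_insert, gsp_empty]
    refine hB (insert x ∅) (by simpa using hx) y hy (by simpa using hxy.symm) ?_
    rw [e1]
    exact hya

/-- the main theorem from Step A in both directions. -/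
theorem final_of_stepA {K L : Type*} [Field K] [Field L] [PerfectField K] [PerfectField L]
    {ℓ : ℕ} [Fact ℓ.Prime] [NeZero (ℓ : K)] [NeZero (ℓ : L)] {Θ : V ℓ K ≃ₗ[ZMod ℓ] V ℓ L}
    {k : Subfield K} (hk : IsAlgClosed k) (hfgk : FG k (⊤ : Subfield K)) (hfk : Fin' k)
    {l : Subfield L} (hl : IsAlgClosed l) (hfgl : FG l (⊤ : Subfield L)) (hfl : Fin' l)
    (hΘ : Compatible Θ) {n : ℕ} (hK : Td k (n + 2)) (hL : Td l (n + 2))
    (hA : ∀ t, Good k t → ∃ E : Subfield L, Crv l E ∧ ∀ v, Θ v ∈ VS ℓ E ↔ v ∈ VS ℓ (adj k t))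
    (hA' : ∀ t, Good l t → ∃ E : Subfield K, Crv k E ∧
      ∀ v, Θ.symm v ∈ VS ℓ E ↔ v ∈ VS ℓ (adj l t)) :
    ∃ (c : (ZMod ℓ)ˣ) (α : K ≃+* L), (∀ x, x ∈ k ↔ α x ∈ l) ∧
      ∀ x : K, Θ (cl ℓ x) = (c : ZMod ℓ) • cl ℓ (α x) :=
  final_of_stepA' hk hfgk hl hfgl hΘ (e6_two hk hK) (e6_two hl hL) hA hA'

/-- a surface from a transcendence basis with two elements. -/
private theorem e6_srf {K : Type*} [Field K] [PerfectField K] {k : Subfield K}
    (hk : IsAlgClosed k) (h : Td k 2) : ∃ t s : K, Srf k t s := by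
  classical
  haveI : PerfectField k := inferInstance
  obtain ⟨B, hBc, hB, halg⟩ := h
  obtain ⟨t, s, hts, rfl⟩ := Finset.card_eq_two.1 hBc
  have e1 : gsp k {s} = adj k s := by
    have := gsp_insert k ∅ s
    rw [gsp_empty] at this
    exact this
  have e2 : gsp k {t, s} = adj (adj k s) t := by
    rw [← e1]
    exact gsp_insert k {s} t
  refine ⟨t, s, le_rfl, FG.refl', ?_, ?_, ?_⟩
  · rw [← e1]
    exact hB {s} (by simp) t (by simp) (by simpa using hts)
  · have := hB ∅ (by simp) s (by simp) (by simp)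
    rwa [gsp_empty] at this
  · intro z
    rw [← e2]
    exact halg z

/-- the main theorem in transcendence degree `n + 2`. -/
private def E6Main (ℓ : ℕ) [Fact ℓ.Prime] (n : ℕ) : Prop := ∀ {K : Type u} {L : Type v} [Field K]
    [Field L] [PerfectField K] [PerfectField L] [NeZero (ℓ : K)] [NeZero (ℓ : L)]
    {Θ : V ℓ K ≃ₗ[ZMod ℓ] V ℓ L} {k : Subfield K} (_ : IsAlgClosed k)
    (_ : FG k (⊤ : Subfield K)) (_ : Fin' k) {l : Subfield L} (_ : IsAlgClosed l)
    (_ : FG l (⊤ : Subfield L)) (_ : Fin' l) (_ : Compatible Θ) (_ : Td k (n + 2))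
    (_ : Td l (n + 2)),
    ∃ (c : (ZMod ℓ)ˣ) (α : K ≃+* L), (∀ x, x ∈ k ↔ α x ∈ l) ∧
      ∀ x : K, Θ (cl ℓ x) = (c : ZMod ℓ) • cl ℓ (α x)

private theorem E6Main.symm {ℓ : ℕ} [Fact ℓ.Prime] {n : ℕ} (h : E6Main.{u, v} ℓ n) :
    E6Main.{v, u} ℓ n := by
  intro K L _ _ _ _ _ _ Θ k hk hfgk hfk l hl hfgl hfl hΘ hK hL
  obtain ⟨c, α, h1, h2⟩ := h hl hfgl hfl hk hfgk hfk hΘ.symm hL hK
  refine ⟨c⁻¹, α.symm, fun x => ?_, fun x => ?_⟩
  · rw [h1, RingEquiv.apply_symm_apply]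
  · have h3 := h2 (α.symm x)
    rw [RingEquiv.apply_symm_apply, LinearEquiv.symm_apply_eq, map_smul] at h3
    rw [h3, smul_smul, Units.inv_mul, one_smul]

/-- Step A from the main theorem for the residue fields. -/
private theorem E6Main.stepA {ℓ : ℕ} [Fact ℓ.Prime] {n : ℕ} (ih : E6Main.{u, v} ℓ n)
    {K : Type u} {L : Type v} [Field K] [Field L] [PerfectField K] [PerfectField L]
    [NeZero (ℓ : K)] [NeZero (ℓ : L)] {Θ : V ℓ K ≃ₗ[ZMod ℓ] V ℓ L} {k : Subfield K}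
    (hk : IsAlgClosed k) (hfgk : FG k (⊤ : Subfield K)) (hfk : Fin' k) {l : Subfield L}
    (hl : IsAlgClosed l) (hfgl : FG l (⊤ : Subfield L)) (hfl : Fin' l) (hΘ : Compatible Θ)
    (hK : Td k (n + 3)) (hL : Td l (n + 3)) {t : K} (ht : Good k t) :
    ∃ E : Subfield L, Crv l E ∧ ∀ v, Θ v ∈ VS ℓ E ↔ v ∈ VS ℓ (adj k t) := by
  classical
  haveI : PerfectField k := inferInstance
  obtain ⟨B, hBc, hB, htB, halg, -⟩ := Td.exists_basis hk hfgk (n := n + 2) hK ht.1
  have hBne : B.Nonempty := by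
    rw [← Finset.card_pos, hBc]
    omega
  have hL' : Td l (B.card + 1) := by rw [hBc]; exact hL
  obtain ⟨θ, hθ⟩ := exists_over_nice hk hfgk hB htB halg
  refine stepAn hk hfgk hl hfgl hΘ hB hBne ht htB halg hL' ?_
  filter_upwards [hθ] with b hb W hW
  have hN := hb.2 W hW
  have hWk : TrivOn W k := hN.triv.mono (le_gsp k B)
  obtain ⟨y, hyB⟩ := id hBne
  have hyk : y ∉ k := fun h => hB ∅ (by simp) y hyB (by simp)
    (isAlgebraic_of_mem (le_gsp _ _ h))
  haveI := gsp_perfect k B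
  obtain ⟨O, hT⟩ := exists_tr0 hk hfgk hl hΘ (le_gsp k B) (gsp_fg k B) hN hyk
    (hN.triv.mono (adj_le (le_gsp k B) (mem_gsp hyB)))
  refine ⟨O, hT, ?_⟩
  have hO : TrivOn O l := hfl.triv O
  obtain ⟨-, hTdO, hFGO⟩ := res_td hk hfgk hl hfgl hfl hΘ hB hBne hL' hN hT hO
  obtain ⟨hTdW, hFGW⟩ := hN.td hB hWk
  haveI := rs_perfect hWk
  haveI := rs_neZero (ℓ := ℓ) hWk
  haveI := rs_perfect hO
  haveI := rs_neZero (ℓ := ℓ) hO
  obtain ⟨x, hx⟩ : ∃ x : IsLocalRing.ResidueField W, x ∉ bar hWk := by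
    obtain ⟨B', hBc', hB', -⟩ := id hTdW
    have h0 : B'.Nonempty := by
      rw [← Finset.card_pos, hBc', hBc]
      omega
    obtain ⟨x, hx⟩ := h0
    refine ⟨x, fun h => hB' ∅ (by simp) x hx (by simp) ?_⟩
    exact isAlgebraic_of_mem (le_gsp _ _ h)
  have hNC : NoCtr ℓ (IsLocalRing.ResidueField W) := noCtr (bar_isAlgClosed hWk hk) hFGW hx
  obtain ⟨Θ', hΘ', hres⟩ := Tr.res hΘ (exists_neg hk) (exists_neg hl) hN.unif hT hNC
  rw [hBc] at hTdO hTdW
  exact resIso_of hWk hO hres (ih (bar_isAlgClosed hWk hk) hFGW (dbd_fin hfk hWk)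
    (bar_isAlgClosed hO hl) hFGO (dbd_fin hfl hO) hΘ' hTdW hTdO)

/-- a transcendence basis with at least two elements. -/
private theorem e6_td {K : Type*} [Field K] [PerfectField K] {k : Subfield K}
    (hk : IsAlgClosed k) (hfg : FG k (⊤ : Subfield K))
    (tr : ∃ x y : K, x ∉ k ∧ ¬ IsAlgebraic (adj k x) y) : ∃ n, Td k (n + 2) := by
  classical
  haveI : PerfectField k := inferInstance
  obtain ⟨x, y, hx, hy⟩ := tr
  have h0 : Indp k ∅ := fun S _ v hv => absurd hv (Finset.notMem_empty v)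
  have h1 : Indp k (insert x ∅) := h0.insert (by
    rw [gsp_empty]
    exact fun h => hx (RAC_of_isAlgClosed k hk x h))
  have e1 : gsp k (insert x ∅) = adj k x := by
    rw [gsp_insert, gsp_empty]
  have h2 : Indp k (insert y (insert x ∅)) := h1.insert (by
    rw [e1]
    exact hy)
  have hyx : y ∉ insert x (∅ : Finset K) := by
    rw [Finset.mem_insert]
    rintro (h | h)
    · exact hy (by rw [h]; exact isAlgebraic_of_mem (mem_adj k x))
    · exact Finset.notMem_empty y h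
  obtain ⟨B', hsub, hB', halg⟩ := h2.extend hfg
  have hc := Finset.card_le_card hsub
  rw [Finset.card_insert_of_notMem hyx, Finset.card_insert_of_notMem (Finset.notMem_empty x),
    Finset.card_empty] at hc
  exact ⟨B'.card - 2, B', by omega, hB', halg⟩

/-- the main theorem over closures of finite fields, by induction on the transcendence degree. -/
theorem main_fin' {ℓ : ℕ} [Fact ℓ.Prime] (n : ℕ) : ∀ {K : Type u} {L : Type v} [Field K]
    [Field L] [PerfectField K] [PerfectField L] [NeZero (ℓ : K)] [NeZero (ℓ : L)]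
    {Θ : V ℓ K ≃ₗ[ZMod ℓ] V ℓ L} {k : Subfield K} (_ : IsAlgClosed k)
    (_ : FG k (⊤ : Subfield K)) (_ : Fin' k) {l : Subfield L} (_ : IsAlgClosed l)
    (_ : FG l (⊤ : Subfield L)) (_ : Fin' l) (_ : Compatible Θ) (_ : Td k (n + 2))
    (_ : Td l (n + 2)),
    ∃ (c : (ZMod ℓ)ˣ) (α : K ≃+* L), (∀ x, x ∈ k ↔ α x ∈ l) ∧
      ∀ x : K, Θ (cl ℓ x) = (c : ZMod ℓ) • cl ℓ (α x) := by
  change E6Main.{u, v} ℓ n
  induction n with
  | zero =>
    intro K L _ _ _ _ _ _ Θ k hk hfgk hfk l hl hfgl hfl hΘ hK hL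
    obtain ⟨t, s, hts⟩ := e6_srf hk hK
    obtain ⟨x, y, hxy⟩ := e6_srf hl hL
    exact final_of_stepA hk hfgk hfk hl hfgl hfl hΘ hK hL
      (fun _ h => stepA2 hk hfgk hfk hl hfgl hfl hΘ hts hxy h)
      (fun _ h => stepA2 hl hfgl hfl hk hfgk hfk hΘ.symm hxy hts h)
  | succ n ih =>
    intro K L _ _ _ _ _ _ Θ k hk hfgk hfk l hl hfgl hfl hΘ hK hL
    exact final_of_stepA hk hfgk hfk hl hfgl hfl hΘ hK hL
      (fun _ h => E6Main.stepA ih hk hfgk hfk hl hfgl hfl hΘ hK hL h)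
      (fun _ h => E6Main.stepA ih.symm hl hfgl hfl hk hfgk hfk hΘ.symm hL hK h)

/-- the main theorem over closures of finite fields. -/
theorem main_fin {K L : Type*} [Field K] [Field L] [PerfectField K] [PerfectField L]
    {ℓ : ℕ} [Fact ℓ.Prime] [NeZero (ℓ : K)] [NeZero (ℓ : L)] {Θ : V ℓ K ≃ₗ[ZMod ℓ] V ℓ L}
    {k : Subfield K} (hk : IsAlgClosed k) (hfgk : FG k (⊤ : Subfield K)) (hfk : Fin' k)
    {l : Subfield L} (hl : IsAlgClosed l) (hfgl : FG l (⊤ : Subfield L)) (hfl : Fin' l)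
    (hΘ : Compatible Θ) (trk : ∃ x y : K, x ∉ k ∧ ¬ IsAlgebraic (adj k x) y)
    (trl : ∃ x y : L, x ∉ l ∧ ¬ IsAlgebraic (adj l x) y) :
    ∃ (c : (ZMod ℓ)ˣ) (α : K ≃+* L), (∀ x, x ∈ k ↔ α x ∈ l) ∧
      ∀ x : K, Θ (cl ℓ x) = (c : ZMod ℓ) • cl ℓ (α x) := by
  obtain ⟨n, hn⟩ := e6_td hk hfgk trk
  obtain ⟨m, hm⟩ := e6_td hl hfgl trl
  obtain ⟨B, hBc, hB⟩ := dim_ge (n + 2) hk hfgk hl hfl hΘ hn
  obtain ⟨B', hBc', hB'⟩ := dim_ge (m + 2) hl hfgl hk hfk hΘ.symm hm
  have h1 := hm.le hB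
  have h2 := hn.le hB'
  obtain rfl : n = m := by omega
  exact main_fin' n hk hfgk hfk hl hfgl hfl hΘ hn hm

end Vale.Agent.P019P
end
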